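import Mathlib

set_option linter.all false

section

/-! # Rational curves of degree at most two on contact Fano manifolds: definitions. -/

namespace Vale.Agent.P292.Mo

open MvPolynomial

universe u v w

/-- `y` is not a vertex point: some homogeneous element of positive degree does not vanish. -/
def NV {k : Type u} [Field k] {R : Type v} [CommRing R] [Algebra k R] (𝒜 : ℕ → Submodule k R)
    {E : Type w} [CommRing E] [Algebra k E] (y : R →ₐ[k] E) : Prop :=
  ∃ n : ℕ, 0 < n ∧ ∃ r ∈ 𝒜 n, y r ≠ 0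

/-- The matrix of brackets of a family. -/
def brM {k : Type u} [Field k] {R : Type v} [CommRing R] [Algebra k R] (P : R →ₗ[k] R →ₗ[k] R)
    {N : ℕ} (x : Fin N → R) : Matrix (Fin N) (Fin N) R :=
  Matrix.of fun i j => P (x i) (x j)

/-- `x` is a homogeneous frame with denominator `g`. -/
structure IsFr {k : Type u} [Field k] {R : Type v} [CommRing R] [Algebra k R]
    (𝒜 : ℕ → Submodule k R) {N : ℕ} (x : Fin N → R) (d : Fin N → ℕ) (g : R) : Prop where
  hom : ∀ i, x i ∈ 𝒜 (d i)
  ghom : ∃ l, g ∈ 𝒜 l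
  gen : ∀ r, ∃ c : Fin N → R, g • KaehlerDifferential.D k R r =
    ∑ i, c i • KaehlerDifferential.D k R (x i)

/-- The graded Poisson algebras (of arbitrary characteristic) to which the construction of
rational curves applies. -/
structure IsPM {k : Type u} [Field k] {R : Type v} [CommRing R] [Algebra k R]
    (𝒜 : ℕ → Submodule k R) [GradedAlgebra 𝒜] (P : R →ₗ[k] R →ₗ[k] R) : Prop where
  finiteType : Algebra.FiniteType k R
  connected : ∀ r ∈ 𝒜 0, ∃ c : k, r = algebraMap k R c
  alternating : ∀ a, P a a = 0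
  leibniz : ∀ a b c, P a (b * c) = P a b * c + b * P a c
  degree : ∀ i j n, i + j = n + 1 → ∀ a ∈ 𝒜 i, ∀ b ∈ 𝒜 j, P a b ∈ 𝒜 n
  frame : ∀ y : R →ₐ[k] k, NV 𝒜 y → ∃ (N : ℕ) (x : Fin N → R) (d : Fin N → ℕ) (g : R),
    IsFr 𝒜 x d g ∧ y (g * (brM P x).det) ≠ 0
  smooth : ∀ n : ℕ, 0 < n → ∀ s ∈ 𝒜 n, Algebra.FormallySmooth k (Localization.Away s)
  lineBundle : ∀ y : R →ₐ[k] k, NV 𝒜 y → ∀ d : ℕ, (∀ n, ∀ r ∈ 𝒜 n, y r ≠ 0 → d ∣ n) → d = 1

/-- Graded Noether normalisation: `y` are algebraically independent, homogeneous of the same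
positive degree `e`, at least two of them, and `R` is generated by less than `p` elements as a
module over `k[y]`. -/
structure IsNoe {k : Type u} [Field k] {R : Type v} [CommRing R] [Algebra k R]
    (𝒜 : ℕ → Submodule k R) (p e : ℕ) {n : ℕ} (y : Fin n → R) : Prop where
  e_pos : 0 < e
  two_le : 2 ≤ n
  hom : ∀ i, y i ∈ 𝒜 e
  indep : AlgebraicIndependent k y
  gens : ∃ S : Finset R, S.card < p ∧
    Submodule.span (Algebra.adjoin k (Set.range y)) (S : Set R) = ⊤

/-- A curve of degree one or two passes through `w`. -/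
def Hit {k : Type u} [Field k] {R : Type v} [CommRing R] [Algebra k R]
    (𝒜 : ℕ → Submodule k R) (w : R →ₐ[k] k) : Prop :=
  ∃ e : ℕ, (e = 1 ∨ e = 2) ∧ ∃ ψ : R →ₐ[k] MvPolynomial (Fin 2) k,
    (∀ j, ∀ r ∈ 𝒜 j, (ψ r).IsHomogeneous (e * j)) ∧
    (∀ a : Fin 2 → k, a ≠ 0 → ∃ j > 0, ∃ r ∈ 𝒜 j, MvPolynomial.eval a (ψ r) ≠ 0) ∧
    ∀ r, MvPolynomial.eval ![1, 0] (ψ r) = w r

/-- Conclusion: a nonconstant graded homomorphism of degree two with value `w` at `(1, 0)`
(base points are allowed). -/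
def Concl {k : Type u} [Field k] {R : Type v} [CommRing R] [Algebra k R]
    (𝒜 : ℕ → Submodule k R) (w : R →ₐ[k] k) : Prop :=
  ∃ Θ : R →ₐ[k] MvPolynomial (Fin 2) k,
    (∀ n, ∀ r ∈ 𝒜 n, (Θ r).IsHomogeneous (2 * n)) ∧ (∀ r, eval ![1, 0] (Θ r) = w r) ∧
    ∃ i j, ∃ r ∈ 𝒜 i, ∃ s ∈ 𝒜 j, Θ r ^ j * C (w s ^ i) ≠ Θ s ^ i * C (w r ^ j)

/-! ## Curves, given by two subalgebras of their function field -/

section curve

variable {k : Type u} [Field k]

/-- Two subspaces are commensurable. -/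
def Comm {V : Type w} [AddCommGroup V] [Module k V] (U U' : Submodule k V) : Prop :=
  FiniteDimensional k (↥U ⧸ U'.comap U.subtype) ∧ FiniteDimensional k (↥U' ⧸ U.comap U'.subtype)

/-- The relative index `[U : U']` of commensurable subspaces. -/
noncomputable def relIdx {V : Type w} [AddCommGroup V] [Module k V] (U U' : Submodule k V) : ℤ :=
  (Module.finrank k (↥U ⧸ U'.comap U.subtype) : ℤ) - Module.finrank k (↥U' ⧸ U.comap U'.subtype)

variable {K : Type w} [Field K] [Algebra k K]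

/-- Sections of degree `n` of the line bundle with cocycle `u`, trivialised on the first chart. -/
def Sec (A₀ A₁ : Subalgebra k K) (u : K) (n : ℕ) : Submodule k K :=
  Subalgebra.toSubmodule A₀ ⊓ (Subalgebra.toSubmodule A₁).comap (LinearMap.mulLeft k (u ^ n))

theorem mem_Sec {A₀ A₁ : Subalgebra k K} {u : K} {n : ℕ} {a : K} :
    a ∈ Sec A₀ A₁ u n ↔ a ∈ A₀ ∧ u ^ n * a ∈ A₁ := Iff.rfl

/-- The index `[A₁ : x A₁]`, that is, the order of `x` along the points outside the first
chart. -/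
noncomputable def idx (A₁ : Subalgebra k K) (x : K) : ℤ :=
  relIdx (Subalgebra.toSubmodule A₁) ((Subalgebra.toSubmodule A₁).map (LinearMap.mulLeft k x))

/-- The Euler characteristic of the structure sheaf. -/
noncomputable def chi0 (A₀ A₁ : Subalgebra k K) : ℤ :=
  (Module.finrank k ↥(Subalgebra.toSubmodule A₀ ⊓ Subalgebra.toSubmodule A₁) : ℤ) -
    Module.finrank k (K ⧸ (Subalgebra.toSubmodule A₀ ⊔ Subalgebra.toSubmodule A₁))

/-- The two subalgebras are the functions on an affine open subset and the semilocal ring of its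
complement, for a projective curve with function field `K`. -/
structure IsCD (A₀ A₁ : Subalgebra k K) : Prop where
  fin0 : FiniteDimensional k ↥(Subalgebra.toSubmodule A₀ ⊓ Subalgebra.toSubmodule A₁)
  fin1 : FiniteDimensional k (K ⧸ (Subalgebra.toSubmodule A₀ ⊔ Subalgebra.toSubmodule A₁))
  finQ : ∀ a ∈ A₁, a ≠ 0 → FiniteDimensional k (↥(Subalgebra.toSubmodule A₁) ⧸
    ((Subalgebra.toSubmodule A₁).map (LinearMap.mulLeft k a)).comap
      (Subalgebra.toSubmodule A₁).subtype)
  frac : ∀ x : K, ∃ a ∈ A₁, ∃ b ∈ A₁, b ≠ 0 ∧ x = a / b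

/-- `φ` is a morphism from the curve to the projective variety of the graded algebra, and `u` is
the cocycle of the pull back of the line bundle, trivialised on both charts. -/
structure IsMp {R : Type v} [CommRing R] [Algebra k R] (𝒜 : ℕ → Submodule k R)
    (A₀ A₁ : Subalgebra k K) (u : K) (φ : R →ₐ[k] K) : Prop where
  u_ne : u ≠ 0
  sec : ∀ n, ∀ r ∈ 𝒜 n, φ r ∈ Sec A₀ A₁ u n
  unit0 : ∃ n : ℕ, 0 < n ∧ ∃ r ∈ 𝒜 n, φ r ≠ 0 ∧ (φ r)⁻¹ ∈ A₀
  unit1 : ∃ n : ℕ, 0 < n ∧ ∃ r ∈ 𝒜 n, φ r ≠ 0 ∧ (u ^ n * φ r)⁻¹ ∈ A₁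

/-- A homogeneous frame which is nondegenerate on the first chart. -/
structure IsFr0 {R : Type v} [CommRing R] [Algebra k R] (𝒜 : ℕ → Submodule k R)
    (P : R →ₗ[k] R →ₗ[k] R) (A₀ : Subalgebra k K) (φ : R →ₐ[k] K) {N : ℕ} (x : Fin N → R)
    (d : Fin N → ℕ) (g : R) : Prop where
  fr : IsFr 𝒜 x d g
  g_ne : φ g ≠ 0
  det_ne : φ (brM P x).det ≠ 0
  unit : (φ (brM P x).det)⁻¹ ∈ A₀

/-- A homogeneous frame which is nondegenerate on the second chart. -/
structure IsFr1 {R : Type v} [CommRing R] [Algebra k R] (𝒜 : ℕ → Submodule k R)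
    (P : R →ₗ[k] R →ₗ[k] R) (A₁ : Subalgebra k K) (u : K) (φ : R →ₐ[k] K) {N : ℕ} (x : Fin N → R)
    (d : Fin N → ℕ) (g : R) : Prop where
  fr : IsFr 𝒜 x d g
  g_ne : φ g ≠ 0
  det_ne : φ (brM P x).det ≠ 0
  unit : (u ^ ((2 : ℤ) * (∑ i, (d i : ℤ)) - N) * φ (brM P x).det)⁻¹ ∈ A₁

/-- Everything that is used about the curve `φ` in characteristic `p`. -/
structure IsGC {R : Type v} [CommRing R] [Algebra k R] (𝒜 : ℕ → Submodule k R)
    (P : R →ₗ[k] R →ₗ[k] R) (A₀ A₁ : Subalgebra k K) (u : K) (φ : R →ₐ[k] K) (f : R) : Prop where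
  cd : IsCD A₀ A₁
  mp : IsMp 𝒜 A₀ A₁ u φ
  idx_pos : 0 < idx A₁ u
  P1 : ∀ V : ValuationSubring K, (∀ c : k, algebraMap k K c ∈ V) →
    (∀ a ∈ A₀, a ∈ V) ∨ (∀ a ∈ A₁, a ∈ V)
  P2 : ∀ 𝔭 : Ideal A₀, 𝔭.IsPrime → 𝔭 ≠ ⊥ → Function.Surjective (algebraMap k (A₀ ⧸ 𝔭))
  frames : ∃ N : ℕ, 0 < N ∧ ∃ (x : Fin N → R) (d : Fin N → ℕ) (g : R) (x' : Fin N → R)
    (d' : Fin N → ℕ) (g' : R), IsFr0 𝒜 P A₀ φ x d g ∧ IsFr1 𝒜 P A₁ u φ x' d' g'
  exp : ∀ c : A₀ →ₐ[k] k, ∃ ex : A₀ →ₐ[k] PowerSeries k, Function.Injective ex ∧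
    (∀ a, PowerSeries.constantCoeff (ex a) = c a) ∧
    ∀ (n : ℕ) (s : PowerSeries k), ∃ a, PowerSeries.X ^ n ∣ ex a - s
  inf : {c : A₀ →ₐ[k] k | ∀ h : φ f ∈ A₀, c ⟨φ f, h⟩ ≠ 0}.Infinite
  frac0 : ∀ x : K, ∃ a ∈ A₀, ∃ b ∈ A₀, b ≠ 0 ∧ x = a / b

/-! ### The concrete curve over the line with coordinate `t` -/

/-- `k[t, 1/g(t)]`. -/
noncomputable def B0 (t : K) (g : Polynomial k) : Subalgebra k K :=
  Algebra.adjoin k {t, (Polynomial.aeval t g)⁻¹}

/-- Rational functions of `t`, regular at infinity and at the roots of `g`. -/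
noncomputable def B1 (t : K) (g : Polynomial k) : Subalgebra k K where
  carrier := {x | ∃ a b : Polynomial k, Polynomial.aeval t b ≠ 0 ∧ IsCoprime b g ∧
    a.natDegree ≤ b.natDegree ∧ x = Polynomial.aeval t a / Polynomial.aeval t b}
  mul_mem' := by
    rintro _ _ ⟨a, b, hb, hc, hd, rfl⟩ ⟨a', b', hb', hc', hd', rfl⟩
    have h0 : b ≠ 0 := fun h => hb (by rw [h, map_zero])
    have h0' : b' ≠ 0 := fun h => hb' (by rw [h, map_zero])
    refine ⟨a * a', b * b', by rw [map_mul]; exact mul_ne_zero hb hb', hc.mul_left hc', ?_, ?_⟩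
    · rw [Polynomial.natDegree_mul h0 h0']
      exact (Polynomial.natDegree_mul_le).trans (add_le_add hd hd')
    · rw [map_mul, map_mul, div_mul_div_comm]
  add_mem' := by
    rintro _ _ ⟨a, b, hb, hc, hd, rfl⟩ ⟨a', b', hb', hc', hd', rfl⟩
    have h0 : b ≠ 0 := fun h => hb (by rw [h, map_zero])
    have h0' : b' ≠ 0 := fun h => hb' (by rw [h, map_zero])
    refine ⟨a * b' + b * a', b * b', by rw [map_mul]; exact mul_ne_zero hb hb',
      hc.mul_left hc', ?_, ?_⟩
    · rw [Polynomial.natDegree_mul h0 h0']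
      refine (Polynomial.natDegree_add_le _ _).trans (max_le ?_ ?_)
      · exact (Polynomial.natDegree_mul_le).trans (add_le_add hd le_rfl)
      · exact (Polynomial.natDegree_mul_le).trans (add_le_add le_rfl hd')
    · rw [map_mul, map_add, map_mul, map_mul, div_add_div _ _ hb hb']
  algebraMap_mem' := fun c => ⟨Polynomial.C c, 1, by rw [map_one]; exact one_ne_zero,
    isCoprime_one_left, by rw [Polynomial.natDegree_C]; exact Nat.zero_le _, by
      rw [Polynomial.aeval_C, map_one, div_one]⟩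

/-- Integral closure in `K`, as a `k`-subalgebra. -/
noncomputable def IC (B : Subalgebra k K) : Subalgebra k K :=
  (integralClosure B K).restrictScalars k

/-- The choice of a curve: its function field is finite over `k(t)`. -/
structure IsFF {R : Type v} [CommRing R] [Algebra k R] {n : ℕ} (e : ℕ) (y : Fin n → R)
    (t : K) (φ : R →ₐ[k] K) (a b : Fin n → k) : Prop where
  transc : Transcendental k t
  fin : FiniteDimensional (IntermediateField.adjoin k {t}) K
  val : ∀ i, φ (y i) = algebraMap k K (a i) + algebraMap k K (b i) * t ^ e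
  li : LinearIndependent k ![a, b]

/-- The point `y` has a frame with `N` elements. -/
def HasRk {R : Type v} [CommRing R] [Algebra k R] (𝒜 : ℕ → Submodule k R)
    (P : R →ₗ[k] R →ₗ[k] R) (y : R →ₐ[k] k) (N : ℕ) : Prop :=
  ∃ (x : Fin N → R) (d : Fin N → ℕ) (g : R), IsFr 𝒜 x d g ∧ y (g * (brM P x).det) ≠ 0

end curve

end Vale.Agent.P292.Mo
end

section

/-! # Part II: the tangent space `T0` and the obstruction space `Ob` of a curve with marks -/

namespace Vale.Agent.P292.Mo

universe u v w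

section
variable {k : Type u} [Field k] {R : Type v} [CommRing R] [Algebra k R]
  (𝒜 : ℕ → Submodule k R) {K : Type w} [Field K] [Algebra k K]

/-- `k`-linear derivations `R → K` over `φ`. -/
def DerS (φ : R →ₐ[k] K) : Submodule k (R →ₗ[k] K) where
  carrier := {δ | ∀ r s, δ (r * s) = φ r * δ s + φ s * δ r}
  add_mem' := fun {a b} ha hb r s => by
    simp only [LinearMap.add_apply, ha r s, hb r s]; ring
  zero_mem' := fun r s => by simp
  smul_mem' := fun c a ha r s => by
    simp only [LinearMap.smul_apply, ha r s, smul_add, mul_smul_comm]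

theorem mem_DerS {φ : R →ₐ[k] K} {δ : R →ₗ[k] K} :
    δ ∈ DerS φ ↔ ∀ r s, δ (r * s) = φ r * δ s + φ s * δ r := Iff.rfl

/-- Derivations with values in `I` (the ideal of the marks in the first chart). -/
def Der0 (φ : R →ₐ[k] K) (I : Submodule k K) : Submodule k (R →ₗ[k] K) where
  carrier := {δ | δ ∈ DerS φ ∧ ∀ r, δ r ∈ I}
  add_mem' := fun ha hb => ⟨add_mem ha.1 hb.1, fun r => I.add_mem (ha.2 r) (hb.2 r)⟩
  zero_mem' := ⟨zero_mem _, fun _ => I.zero_mem⟩
  smul_mem' := fun c _ ha => ⟨Submodule.smul_mem _ c ha.1, fun r => I.smul_mem c (ha.2 r)⟩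

theorem mem_Der0 {φ : R →ₐ[k] K} {I : Submodule k K} {δ : R →ₗ[k] K} :
    δ ∈ Der0 φ I ↔ δ ∈ DerS φ ∧ ∀ r, δ r ∈ I := Iff.rfl

/-- Derivations which are regular on the second chart; `u` is the cocycle. -/
def Der1 (φ : R →ₐ[k] K) (A₁ : Subalgebra k K) (u : K) : Submodule k (R →ₗ[k] K) where
  carrier := {δ | δ ∈ DerS φ ∧ ∀ n, ∀ r ∈ 𝒜 n, u ^ n * δ r ∈ A₁}
  add_mem' := fun ha hb => ⟨add_mem ha.1 hb.1, fun n r hr => by
    rw [LinearMap.add_apply, mul_add]; exact add_mem (ha.2 n r hr) (hb.2 n r hr)⟩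
  zero_mem' := ⟨zero_mem _, fun n r _ => by simp⟩
  smul_mem' := fun c _ ha => ⟨Submodule.smul_mem _ c ha.1, fun n r hr => by
    rw [LinearMap.smul_apply, mul_smul_comm]; exact A₁.smul_mem (ha.2 n r hr) c⟩

theorem mem_Der1 {φ : R →ₐ[k] K} {A₁ : Subalgebra k K} {u : K} {δ : R →ₗ[k] K} :
    δ ∈ Der1 𝒜 φ A₁ u ↔ δ ∈ DerS φ ∧ ∀ n, ∀ r ∈ 𝒜 n, u ^ n * δ r ∈ A₁ := Iff.rfl

/-- The tangent space of the deformations with fixed values at the marks. -/
def T0 (φ : R →ₐ[k] K) (I : Submodule k K) (A₁ : Subalgebra k K) (u : K) :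
    Submodule k (R →ₗ[k] K) := Der0 φ I ⊓ Der1 𝒜 φ A₁ u

/-- The obstruction space `DerS / (Der0 + Der1)` of the deformations with fixed values at the
marks, as a subspace of `Hom(R, K) / (Der0 + Der1)`. -/
def ObS (φ : R →ₐ[k] K) (I : Submodule k K) (A₁ : Subalgebra k K) (u : K) :
    Submodule k ((R →ₗ[k] K) ⧸ (Der0 φ I ⊔ Der1 𝒜 φ A₁ u)) :=
  (DerS φ).map (Der0 φ I ⊔ Der1 𝒜 φ A₁ u).mkQ

end

end Vale.Agent.P292.Mo
end

section

/-! # Infinitely many closed points on the first chart (F3g, helper551). -/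

namespace Vale.Agent.P292.Mo

universe u w

variable {k : Type u} [Field k] {K : Type w} [Field K] [Algebra k K]

private lemma iic_form {t : K} {g : Polynomial k} (hgt : Polynomial.aeval t g ≠ 0)
    {x : K} (hx : x ∈ B0 t g) :
    ∃ (f : Polynomial k) (m : ℕ), x * Polynomial.aeval t g ^ m = Polynomial.aeval t f := by
  induction hx using Algebra.adjoin_induction with
  | mem x hx =>
    rcases hx with rfl | rfl
    · exact ⟨Polynomial.X, 0, by rw [pow_zero, mul_one, Polynomial.aeval_X]⟩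
    · exact ⟨1, 1, by rw [pow_one, inv_mul_cancel₀ hgt, map_one]⟩
  | algebraMap c => exact ⟨Polynomial.C c, 0, by rw [pow_zero, mul_one, Polynomial.aeval_C]⟩
  | add x y _ _ h1 h2 =>
    obtain ⟨f1, m1, e1⟩ := h1
    obtain ⟨f2, m2, e2⟩ := h2
    exact ⟨f1 * g ^ m2 + f2 * g ^ m1, m1 + m2, by
      rw [map_add, map_mul, map_mul, map_pow, map_pow, ← e1, ← e2]; ring⟩
  | mul x y _ _ h1 h2 =>
    obtain ⟨f1, m1, e1⟩ := h1
    obtain ⟨f2, m2, e2⟩ := h2
    exact ⟨f1 * f2, m1 + m2, by rw [map_mul, ← e1, ← e2]; ring⟩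

private lemma iic_le {B : Subalgebra k K} {x : K} (hx : x ∈ B) : x ∈ IC B :=
  (integralClosure B K).algebraMap_mem ⟨x, hx⟩

private lemma iic_val {B : Subalgebra k K} (u : IC B) (f : Polynomial k) :
    ((Polynomial.aeval u f : IC B) : K) = Polynomial.aeval (u : K) f :=
  (Polynomial.aeval_algHom_apply (IC B).val u f).symm

private lemma iic_t_mem {t : K} {g : Polynomial k} : t ∈ B0 t g :=
  Algebra.subset_adjoin (Set.mem_insert _ _)

private lemma iic_nonunit {t : K} (ht : Transcendental k t) {g : Polynomial k} (hg : g ≠ 0)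
    {α : k} (hα : g.eval α ≠ 0) (v : IC (B0 t g)) (hv : (v : K) = t - algebraMap k K α) :
    ¬ IsUnit v := by
  intro hu
  have hgt : Polynomial.aeval t g ≠ 0 := fun h => hg ((transcendental_iff.1 ht) g h)
  obtain ⟨w, hw⟩ := hu.exists_right_inv
  have hb : t - algebraMap k K α ∈ B0 t g := sub_mem iic_t_mem (algebraMap_mem _ _)
  have h1 : IsUnit (algebraMap (B0 t g) (integralClosure (B0 t g) K) ⟨_, hb⟩) := by
    refine IsUnit.of_mul_eq_one (⟨(w : K), w.2⟩ : integralClosure (B0 t g) K) ?_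
    apply Subtype.ext
    have h2 : (v : K) * (w : K) = 1 := congrArg Subtype.val hw
    rw [hv] at h2
    exact h2
  have h3 : IsUnit (⟨_, hb⟩ : B0 t g) := by
    have hi : (algebraMap (B0 t g) (integralClosure (B0 t g) K)).IsIntegral :=
      algebraMap_isIntegral_iff.mpr inferInstance
    have hinj : Function.Injective (algebraMap (B0 t g) (integralClosure (B0 t g) K)) := by
      intro a b h
      have h' := congrArg (fun z : integralClosure (B0 t g) K => (z : K)) h
      exact Subtype.ext h'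
    have := hi.isLocalHom hinj
    exact IsUnit.of_map _ _ h1
  obtain ⟨c, hc⟩ := h3.exists_right_inv
  have hc' : (t - algebraMap k K α) * (c : K) = 1 := congrArg Subtype.val hc
  obtain ⟨f, m, hf⟩ := iic_form hgt c.2
  have h4 : Polynomial.aeval t (g ^ m - (Polynomial.X - Polynomial.C α) * f) = 0 := by
    rw [map_sub, map_mul, map_sub, map_pow, Polynomial.aeval_X, Polynomial.aeval_C, ← hf,
      ← mul_assoc, hc', one_mul, sub_self]
  have h5 := (transcendental_iff.1 ht) _ h4
  have h6 := congrArg (Polynomial.eval α) h5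
  rw [Polynomial.eval_sub, Polynomial.eval_mul, Polynomial.eval_sub, Polynomial.eval_X,
    Polynomial.eval_C, sub_self, zero_mul, sub_zero, Polynomial.eval_zero,
    Polynomial.eval_pow] at h6
  exact pow_ne_zero m hα h6

private lemma iic_const {t : K} {g : Polynomial k} (hgt : Polynomial.aeval t g ≠ 0) {α : k}
    (hα : g.eval α ≠ 0) {M : Ideal (IC (B0 t g))} [M.IsMaximal] (u : IC (B0 t g)) (hu : (u : K) = t)
    (huM : u - algebraMap k _ α ∈ M) {x : K} (hx : x ∈ B0 t g) :
    ∀ a : IC (B0 t g), (a : K) = x → ∃ c : k, Ideal.Quotient.mk M a =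
      algebraMap k (IC (B0 t g) ⧸ M) c := by
  have hmu : Ideal.Quotient.mk M u = algebraMap k (IC (B0 t g) ⧸ M) α := by
    have h := Ideal.Quotient.eq.2 huM
    rw [h]
    rfl
  induction hx using Algebra.adjoin_induction with
  | mem x hx =>
    rcases hx with rfl | rfl
    · intro a ha
      obtain rfl : a = u := Subtype.ext (ha.trans hu.symm)
      exact ⟨α, hmu⟩
    · intro a ha
      refine ⟨(g.eval α)⁻¹, ?_⟩
      have h1 : a * Polynomial.aeval u g = 1 := by
        apply Subtype.ext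
        have h2 : ((Polynomial.aeval u g : IC (B0 t g)) : K) = Polynomial.aeval t g := by
          rw [iic_val, hu]
        rw [MulMemClass.coe_mul, ha, h2, inv_mul_cancel₀ hgt]
        rfl
      have h3 : Ideal.Quotient.mk M (Polynomial.aeval u g) =
          algebraMap k (IC (B0 t g) ⧸ M) (g.eval α) := by
        have h4 := (Polynomial.aeval_algHom_apply (Ideal.Quotient.mkₐ k M) u g)
        have h5 : (Ideal.Quotient.mkₐ k M) u = algebraMap k (IC (B0 t g) ⧸ M) α := hmu
        rw [h5, Polynomial.aeval_algebraMap_apply] at h4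
        rw [Polynomial.coe_aeval_eq_eval] at h4
        exact h4.symm
      have h4 := congrArg (Ideal.Quotient.mk M) h1
      rw [map_mul, h3, map_one] at h4
      have h5 : algebraMap k (IC (B0 t g) ⧸ M) (g.eval α) *
          algebraMap k (IC (B0 t g) ⧸ M) (g.eval α)⁻¹ = 1 := by
        rw [← map_mul, mul_inv_cancel₀ hα, map_one]
      calc Ideal.Quotient.mk M a = Ideal.Quotient.mk M a * (algebraMap k (IC (B0 t g) ⧸ M)
            (g.eval α) * algebraMap k (IC (B0 t g) ⧸ M) (g.eval α)⁻¹) := by rw [h5, mul_one]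
        _ = _ := by rw [← mul_assoc, h4, one_mul]
  | algebraMap c =>
    intro a ha
    refine ⟨c, ?_⟩
    obtain rfl : a = algebraMap k _ c := Subtype.ext ha
    rfl
  | add x y hx hy h1 h2 =>
    intro a ha
    obtain ⟨c1, e1⟩ := h1 ⟨x, iic_le hx⟩ rfl
    obtain ⟨c2, e2⟩ := h2 ⟨y, iic_le hy⟩ rfl
    obtain rfl : a = ⟨x, iic_le hx⟩ + ⟨y, iic_le hy⟩ := Subtype.ext ha
    exact ⟨c1 + c2, by rw [map_add, e1, e2, map_add]⟩
  | mul x y hx hy h1 h2 =>
    intro a ha
    obtain ⟨c1, e1⟩ := h1 ⟨x, iic_le hx⟩ rfl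
    obtain ⟨c2, e2⟩ := h2 ⟨y, iic_le hy⟩ rfl
    obtain rfl : a = ⟨x, iic_le hx⟩ * ⟨y, iic_le hy⟩ := Subtype.ext ha
    exact ⟨c1 * c2, by rw [map_mul, e1, e2, map_mul]⟩

private lemma iic_point [IsAlgClosed k] {t : K} (ht : Transcendental k t) {g : Polynomial k}
    (hg : g ≠ 0) {α : k} (hα : g.eval α ≠ 0) (u : IC (B0 t g)) (hu : (u : K) = t) :
    ∃ c : IC (B0 t g) →ₐ[k] k, c u = α := by
  have hgt : Polynomial.aeval t g ≠ 0 := fun h => hg ((transcendental_iff.1 ht) g h)
  have hnu : u - algebraMap k _ α ∈ nonunits (IC (B0 t g)) := by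
    refine iic_nonunit ht hg hα _ ?_
    have h : ((u - algebraMap k (IC (B0 t g)) α : IC (B0 t g)) : K) =
        (u : K) - algebraMap k K α := rfl
    rw [h, hu]
  obtain ⟨M, hM, huM⟩ := exists_max_ideal_of_mem_nonunits hnu
  have hconst := fun {x : K} (hx : x ∈ B0 t g) => iic_const hgt hα (M := M) u hu huM hx
  have hint : Algebra.IsIntegral k (IC (B0 t g) ⧸ M) := by
    refine ⟨fun y => ?_⟩
    obtain ⟨a, rfl⟩ := Ideal.Quotient.mk_surjective y
    obtain ⟨p, hp, hpa⟩ : IsIntegral (B0 t g) (a : K) := a.2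
    let ψ : B0 t g →+* IC (B0 t g) :=
      { toFun := fun b => ⟨(b : K), iic_le b.2⟩
        map_one' := rfl
        map_mul' := fun _ _ => rfl
        map_zero' := rfl
        map_add' := fun _ _ => rfl }
    have h1 : Polynomial.eval₂ ψ a p = 0 := by
      apply Subtype.ext
      have h2 := Polynomial.hom_eval₂ p ψ (IC (B0 t g)).val.toRingHom a
      have h3 : ((IC (B0 t g)).val.toRingHom).comp ψ = algebraMap (B0 t g) K := rfl
      rw [h3] at h2
      exact h2.trans hpa
    have h2 : Polynomial.eval₂ ((Ideal.Quotient.mk M).comp ψ) (Ideal.Quotient.mk M a) p = 0 := by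
      rw [← Polynomial.hom_eval₂, h1, map_zero]
    have h3 : p.map ((Ideal.Quotient.mk M).comp ψ) ∈
        Polynomial.lifts (algebraMap k (IC (B0 t g) ⧸ M)) := by
      rw [Polynomial.lifts_iff_coeff_lifts]
      intro n
      rw [Polynomial.coeff_map]
      obtain ⟨c, hc⟩ := hconst (p.coeff n).2 (ψ (p.coeff n)) rfl
      exact ⟨c, hc.symm⟩
    obtain ⟨q, hq, -, hqm⟩ := Polynomial.lifts_and_natDegree_eq_and_monic h3 (hp.map _)
    refine ⟨q, hqm, ?_⟩
    rw [← Polynomial.eval_map, hq, Polynomial.eval_map]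
    exact h2
  have hbij : Function.Bijective (algebraMap k (IC (B0 t g) ⧸ M)) := by
    have : IsDomain (IC (B0 t g) ⧸ M) := Ideal.Quotient.isDomain M
    exact IsAlgClosed.algebraMap_bijective_of_isIntegral
  let e : k ≃ₐ[k] (IC (B0 t g) ⧸ M) := AlgEquiv.ofBijective (Algebra.ofId k _) hbij
  refine ⟨e.symm.toAlgHom.comp (Ideal.Quotient.mkₐ k M), ?_⟩
  have h5 : Ideal.Quotient.mkₐ k M u = e α := by
    have h := Ideal.Quotient.eq.2 huM
    exact h
  rw [AlgHom.comp_apply, h5]
  exact e.symm_apply_apply α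

private lemma iic_dvd {t : K} [FiniteDimensional (IntermediateField.adjoin k {t}) K]
    {g : Polynomial k} (s : IC (B0 t g)) (hs : s ≠ 0) (u : IC (B0 t g)) (hu : (u : K) = t) :
    ∃ (f : Polynomial k) (a : IC (B0 t g)), f ≠ 0 ∧ Polynomial.aeval u f = s * a := by
  have hsK : (s : K) ≠ 0 := fun h => hs (Subtype.ext h)
  have halg : IsAlgebraic (Algebra.adjoin k {t}) ((s : K)⁻¹) := by
    open scoped IntermediateField.algebraAdjoinAdjoin in
    have h1 : Algebra.IsAlgebraic (Algebra.adjoin k {t}) K :=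
      Algebra.IsAlgebraic.trans (Algebra.adjoin k {t}) (IntermediateField.adjoin k {t}) K
    exact h1.isAlgebraic _
  obtain ⟨y, hy, hyi⟩ := halg.exists_integral_multiple
  have hle : Algebra.adjoin k {t} ≤ B0 t g :=
    Algebra.adjoin_mono (Set.singleton_subset_iff.2 (Set.mem_insert _ _))
  have ha : (y : K) * (s : K)⁻¹ ∈ IC (B0 t g) := by
    obtain ⟨p, hp, hps⟩ := hyi
    refine ⟨p.map (Subalgebra.inclusion hle).toRingHom, hp.map _, ?_⟩
    rw [Polynomial.eval₂_map]
    exact hps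
  obtain ⟨f, hf⟩ : ∃ f : Polynomial k, Polynomial.aeval t f = (y : K) := by
    have h0 : (y : K) ∈ (Polynomial.aeval (R := k) t).range := by
      rw [← Algebra.adjoin_singleton_eq_range_aeval]
      exact y.2
    exact h0
  refine ⟨f, ⟨_, ha⟩, ?_, ?_⟩
  · rintro rfl
    rw [map_zero] at hf
    exact hy (Subtype.ext hf.symm)
  · apply Subtype.ext
    have h2 : ((Polynomial.aeval u f : IC (B0 t g)) : K) = Polynomial.aeval t f := by
      rw [iic_val, hu]
    rw [h2, hf, MulMemClass.coe_mul]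
    show (y : K) = s * (y * (s : K)⁻¹)
    field_simp

/-- F3g: infinitely many closed points outside the zeros of a function. -/
theorem infinite_IC [IsAlgClosed k] {t : K} (ht : Transcendental k t)
    [FiniteDimensional (IntermediateField.adjoin k {t}) K] {g : Polynomial k} (hg : g ≠ 0)
    (s : IC (B0 t g)) (hs : s ≠ 0) : {c : IC (B0 t g) →ₐ[k] k | c s ≠ 0}.Infinite := by
  classical
  obtain ⟨u, hu⟩ : ∃ u : IC (B0 t g), (u : K) = t := ⟨⟨t, iic_le iic_t_mem⟩, rfl⟩
  obtain ⟨f, a, hf, hfa⟩ := iic_dvd s hs u hu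
  intro hfin
  have hfg : f * g ≠ 0 := mul_ne_zero hf hg
  have hinf : {α : k | (f * g).eval α = 0}ᶜ.Infinite := by
    refine Set.Finite.infinite_compl ?_
    refine (f * g).roots.toFinset.finite_toSet.subset fun α hα => ?_
    rw [Finset.mem_coe, Multiset.mem_toFinset, Polynomial.mem_roots hfg]
    exact hα
  refine hinf ((hfin.image fun c => c u).subset fun α hα => ?_)
  have hα' : f.eval α ≠ 0 ∧ g.eval α ≠ 0 := by
    have h : (f * g).eval α ≠ 0 := hα
    rw [Polynomial.eval_mul] at h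
    exact ⟨left_ne_zero_of_mul h, right_ne_zero_of_mul h⟩
  obtain ⟨c, hc⟩ := iic_point ht hg hα'.2 u hu
  refine ⟨c, fun hcs => hα'.1 ?_, hc⟩
  have h1 := congrArg c hfa
  rw [map_mul, hcs, zero_mul, ← Polynomial.aeval_algHom_apply, hc,
    Polynomial.coe_aeval_eq_eval] at h1
  exact h1

end Vale.Agent.P292.Mo
end

section

/-! # P292, block Mo (a1): number of generators of an `𝔪`-primary ideal of a polynomial ring

If `𝔪 ^ N ≤ J ≤ 𝔪` (`𝔪` = polynomials without constant term) and `J ≤ (f) + 𝔪 J`, `f : ι → J`, then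
`card σ ≤ card ι` (Krull's height theorem and Nakayama). -/

open MvPolynomial

namespace Vale.Agent.P292.Mo

variable {k : Type*} [Field k] {σ : Type*}

/-- the prime ideal generated by the variables in `s` -/
private noncomputable def krP (k : Type*) [Field k] {σ : Type*} [DecidableEq σ] (s : Finset σ) :
    Ideal (MvPolynomial σ k) :=
  RingHom.ker (aeval (R := k) fun j => if j ∈ s then (0 : MvPolynomial σ k) else X j)

private lemma krP_prime [DecidableEq σ] (s : Finset σ) : (krP k s).IsPrime :=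
  RingHom.ker_isPrime _

private lemma krP_lt [DecidableEq σ] {s : Finset σ} {a : σ} (ha : a ∉ s) :
    krP k s < krP k (insert a s) := by
  refine lt_of_le_of_ne ?_ ?_
  · intro x hx
    have hx' : aeval (R := k) (fun j => if j ∈ s then (0 : MvPolynomial σ k) else X j) x = 0 := hx
    show aeval (R := k) (fun j => if j ∈ insert a s then (0 : MvPolynomial σ k) else X j) x = 0
    have hc : (aeval (R := k) fun j => if j ∈ insert a s then (0 : MvPolynomial σ k) else X j) =
        (aeval (R := k) fun j => if j = a then (0 : MvPolynomial σ k) else X j).comp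
          (aeval (R := k) fun j => if j ∈ s then (0 : MvPolynomial σ k) else X j) := by
      refine MvPolynomial.algHom_ext fun j => ?_
      by_cases h1 : j = a
      · subst h1
        simp [ha]
      · by_cases h2 : j ∈ s <;> simp [h1, h2]
    rw [hc, AlgHom.comp_apply, hx', map_zero]
  · intro h
    have h1 : (X a : MvPolynomial σ k) ∈ krP k (insert a s) := by
      show aeval (R := k) (fun j => if j ∈ insert a s then (0 : MvPolynomial σ k) else X j) (X a) = 0
      simp
    rw [← h] at h1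
    have h2 : aeval (R := k) (fun j => if j ∈ s then (0 : MvPolynomial σ k) else X j) (X a) = 0 := h1
    simp [ha] at h2

private lemma krP_height [DecidableEq σ] (s : Finset σ) : (s.card : ℕ∞) ≤ (krP k s).height := by
  induction s using Finset.induction_on with
  | empty => simp
  | insert a s ha ih =>
    have := krP_prime (k := k) s
    have := krP_prime (k := k) (insert a s)
    rw [Finset.card_insert_of_notMem ha]
    have h := Ideal.height_add_one_le_of_lt_of_isPrime (krP_lt (k := k) ha)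
    push_cast
    exact (add_le_add_left ih 1).trans h

/-- the height of the ideal of polynomials without constant term -/
theorem krull_card_le_height [Fintype σ] :
    (Fintype.card σ : ℕ∞) ≤ (RingHom.ker (constantCoeff (R := k) (σ := σ))).height := by
  classical
  have h := krP_height (k := k) (Finset.univ : Finset σ)
  have e : krP k (Finset.univ : Finset σ) = RingHom.ker (constantCoeff (R := k) (σ := σ)) := by
    ext x
    show aeval (R := k) (fun j => if j ∈ Finset.univ then (0 : MvPolynomial σ k) else X j) x = 0 ↔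
      constantCoeff x = 0
    have : (fun j : σ => if j ∈ Finset.univ then (0 : MvPolynomial σ k) else X j) = fun _ => 0 := by
      funext j
      simp
    rw [this, aeval_zero']
    simp
  rw [e] at h
  simpa using h

/-- `𝔪`-primary ideals of `k[σ]` need at least `card σ` generators, even modulo `𝔪 J`. -/
theorem card_le_of_span [Fintype σ] {ι : Type*} [Fintype ι] (J : Ideal (MvPolynomial σ k)) {N : ℕ}
    (hN : RingHom.ker (constantCoeff (R := k) (σ := σ)) ^ N ≤ J)
    (hJ : J ≤ RingHom.ker (constantCoeff (R := k) (σ := σ))) (f : ι → MvPolynomial σ k)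
    (hf : ∀ i, f i ∈ J)
    (h : J ≤ Ideal.span (Set.range f) ⊔ RingHom.ker (constantCoeff (R := k) (σ := σ)) * J) :
    Fintype.card σ ≤ Fintype.card ι := by
  classical
  set 𝔪 := RingHom.ker (constantCoeff (R := k) (σ := σ)) with h𝔪
  have hmp : 𝔪.IsPrime := RingHom.ker_isPrime _
  have hfg : J.FG := IsNoetherian.noetherian J
  obtain ⟨r, hr1, hr2⟩ := Submodule.exists_sub_one_mem_and_smul_le_of_fg_of_le_sup
    (I := 𝔪) (N := Ideal.span (Set.range f)) (N' := J) (P := J) hfg le_rfl (by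
      rw [smul_eq_mul]
      exact h)
  have hmin : 𝔪 ∈ (Ideal.span (Set.range f)).minimalPrimes := by
    refine ⟨⟨hmp, Ideal.span_le.2 ?_⟩, ?_⟩
    · rintro _ ⟨i, rfl⟩
      exact hJ (hf i)
    · rintro p ⟨hp, hpI⟩ hpm
      have hrp : r ∉ p := by
        intro hr
        have h1 : (1 : MvPolynomial σ k) ∈ 𝔪 := by
          have := 𝔪.sub_mem (hpm hr) hr1
          simpa using this
        exact hmp.ne_top ((Ideal.eq_top_iff_one _).2 h1)
      have hpow : 𝔪 ^ N ≤ p := by
        intro x hx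
        have hx1 : r * x ∈ Ideal.span (Set.range f) := hr2 ⟨x, hN hx, rfl⟩
        exact (hp.mem_or_mem (hpI hx1)).resolve_left hrp
      exact hp.le_of_pow_le hpow
  have h1 := Ideal.height_le_card_of_mem_minimalPrimes_span (Set.finite_range f) hmin
  have h2 := krull_card_le_height (k := k) (σ := σ)
  have h3 : (Fintype.card σ : ℕ∞) ≤ ((Set.range f).ncard : ℕ∞) := h2.trans h1
  have h4 : Fintype.card σ ≤ (Set.range f).ncard := by exact_mod_cast h3
  refine h4.trans ?_
  have := Set.ncard_image_le (s := Set.univ) (f := f) Set.finite_univ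
  simpa [Set.image_univ, Set.ncard_univ, Nat.card_eq_fintype_card] using this

end Vale.Agent.P292.Mo
end

section

/-! # Part II.a: homogeneous generators -/

namespace Vale.Agent.P292.Mo

theorem exists_homog_gens {k : Type*} [Field k] {R : Type*} [CommRing R] [Algebra k R]
    [Algebra.FiniteType k R] (𝒜 : ℕ → Submodule k R) [GradedAlgebra 𝒜] :
    ∃ (M : ℕ) (x : Fin M → R) (d : Fin M → ℕ), (∀ i, x i ∈ 𝒜 (d i)) ∧
      Function.Surjective (MvPolynomial.aeval (R := k) x) := by
  classical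
  obtain ⟨S, hS⟩ := (inferInstance : Algebra.FiniteType k R).out
  let T : Finset R := S.biUnion fun s =>
    (DirectSum.decompose 𝒜 s).support.image fun i => (DirectSum.decompose 𝒜 s i : R)
  have hT : ∀ t ∈ T, ∃ n, t ∈ 𝒜 n := by
    intro t ht
    obtain ⟨s, -, h⟩ := Finset.mem_biUnion.1 ht
    obtain ⟨i, -, rfl⟩ := Finset.mem_image.1 h
    exact ⟨i, SetLike.coe_mem _⟩
  let x : Fin T.card → R := fun i => (T.equivFin.symm i : R)
  have hx : ∀ i, ∃ n, x i ∈ 𝒜 n := fun i => hT _ (T.equivFin.symm i).2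
  choose d hd using hx
  have hrange : Set.range x = (T : Set R) := by
    ext t
    constructor
    · rintro ⟨i, rfl⟩
      exact (T.equivFin.symm i).2
    · intro ht
      refine ⟨T.equivFin ⟨t, ht⟩, ?_⟩
      change ((T.equivFin.symm (T.equivFin ⟨t, ht⟩)) : R) = t
      rw [Equiv.symm_apply_apply]
  have hadj : Algebra.adjoin k (Set.range x) = ⊤ := by
    rw [hrange, eq_top_iff, ← hS, Algebra.adjoin_le_iff]
    intro s hs
    rw [SetLike.mem_coe, ← DirectSum.sum_support_decompose 𝒜 s]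
    refine sum_mem fun i hi => Algebra.subset_adjoin ?_
    exact Finset.mem_biUnion.2 ⟨s, hs, Finset.mem_image.2 ⟨i, hi, rfl⟩⟩
  refine ⟨T.card, x, d, hd, ?_⟩
  rw [← AlgHom.range_eq_top, ← Algebra.adjoin_range_eq_range_aeval, hadj]

end Vale.Agent.P292.Mo
end
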