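import Mathlib
import Vale.Agent.P292.Bn.N1

set_option linter.all false

section

/-! # One very free conic: closed points, tensor products of domains, generic lifting. -/

namespace Vale.Agent.P292.VF

open Module TensorProduct

universe u v

/-- Maximal ideals of algebras of finite type are kernels of points. -/
theorem exists_point_of_maximal {A : Type u} [CommRing A] [Algebra ℂ A] [Algebra.FiniteType ℂ A]
    (M : Ideal A) [hM : M.IsMaximal] : ∃ p : A →ₐ[ℂ] ℂ, RingHom.ker p = M := by
  let := Ideal.Quotient.field M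
  have h1 : Algebra.FiniteType ℂ (A ⧸ M) :=
    Algebra.FiniteType.of_surjective (Ideal.Quotient.mkₐ ℂ M) (Ideal.Quotient.mkₐ_surjective ℂ M)
  have h2 : Module.Finite ℂ (A ⧸ M) := finite_of_finite_type_of_isJacobsonRing ℂ (A ⧸ M)
  have h3 : Function.Bijective (algebraMap ℂ (A ⧸ M)) :=
    IsAlgClosed.algebraMap_bijective_of_isIntegral
  let e : ℂ ≃ₐ[ℂ] (A ⧸ M) := AlgEquiv.ofBijective (Algebra.ofId ℂ (A ⧸ M)) h3
  refine ⟨(e.symm : (A ⧸ M) →ₐ[ℂ] ℂ).comp (Ideal.Quotient.mkₐ ℂ M), ?_⟩
  ext x
  rw [RingHom.mem_ker]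
  change e.symm (Ideal.Quotient.mk M x) = 0 ↔ _
  rw [map_eq_zero_iff _ e.symm.injective, Ideal.Quotient.eq_zero_iff_mem]

/-- Nonzero elements of a domain of finite type do not vanish at some point. -/
theorem exists_point_ne_zero {A : Type u} [CommRing A] [IsDomain A] [Algebra ℂ A]
    [Algebra.FiniteType ℂ A] {a : A} (ha : a ≠ 0) : ∃ p : A →ₐ[ℂ] ℂ, p a ≠ 0 := by
  have : IsJacobsonRing A := isJacobsonRing_of_finiteType (A := ℂ)
  by_contra hcon
  push Not at hcon
  apply ha
  have h1 : a ∈ (⊥ : Ideal A).jacobson := by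
    rw [Ideal.jacobson, Ideal.mem_sInf]
    rintro M ⟨-, hM⟩
    obtain ⟨p, hp⟩ := exists_point_of_maximal M
    rw [← hp]
    exact hcon p
  rw [this.out (Ideal.isPrime_bot).isRadical] at h1
  exact (Ideal.mem_bot).1 h1

/-- Points with comparable kernels are equal. -/
theorem eq_of_ker_le {A : Type u} [CommRing A] [Algebra ℂ A] (p q : A →ₐ[ℂ] ℂ)
    (h : RingHom.ker p ≤ RingHom.ker q) : p = q := by
  ext a
  have h1 : a - algebraMap ℂ A (p a) ∈ RingHom.ker p := by
    rw [RingHom.mem_ker, map_sub, AlgHom.commutes, Algebra.algebraMap_self, RingHom.id_apply,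
      sub_self]
  have h2 := h h1
  rw [RingHom.mem_ker, map_sub, AlgHom.commutes, Algebra.algebraMap_self, RingHom.id_apply,
    sub_eq_zero] at h2
  exact h2.symm

/-- The value of an element of `A ⊗ B` at a point of the first factor. -/
noncomputable def evLeft {A : Type u} {B : Type v} [CommRing A] [CommRing B] [Algebra ℂ A]
    [Algebra ℂ B] (p : A →ₐ[ℂ] ℂ) : A ⊗[ℂ] B →ₐ[ℂ] B :=
  Algebra.TensorProduct.lift ((Algebra.ofId ℂ B).comp p) (AlgHom.id ℂ B)
    (fun _ _ => Commute.all _ _)

/-- The tensor product of two domains of finite type over `ℂ` is a domain. -/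
theorem isDomain_tensor {A : Type u} {B : Type v} [CommRing A] [IsDomain A] [Algebra ℂ A]
    [Algebra.FiniteType ℂ A] [CommRing B] [IsDomain B] [Algebra ℂ B] : IsDomain (A ⊗[ℂ] B) := by
  classical
  let b := Basis.ofVectorSpace ℂ B
  let bA := Algebra.TensorProduct.basis A b
  have key : ∀ (p : A →ₐ[ℂ] ℂ) (f : A ⊗[ℂ] B), ∀ i,
      b.repr (evLeft p f) i = p (bA.repr f i) := by
    intro p f i
    induction f using TensorProduct.induction_on with
    | zero => simp
    | tmul a x =>
      rw [Algebra.TensorProduct.basis_repr_tmul]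
      simp [evLeft, Algebra.ofId_apply, ← Algebra.smul_def]
    | add x y hx hy => simp [hx, hy]
  have : NoZeroDivisors (A ⊗[ℂ] B) := by
    refine ⟨fun {f g} hfg => ?_⟩
    by_contra hcon
    push Not at hcon
    obtain ⟨hf, hg⟩ := hcon
    have hf' : ∃ i, bA.repr f i ≠ 0 := by
      by_contra h
      push Not at h
      exact hf (bA.repr.injective (Finsupp.ext (by simpa using h)))
    have hg' : ∃ i, bA.repr g i ≠ 0 := by
      by_contra h
      push Not at h
      exact hg (bA.repr.injective (Finsupp.ext (by simpa using h)))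
    obtain ⟨i, hi⟩ := hf'
    obtain ⟨j, hj⟩ := hg'
    obtain ⟨p, hp⟩ := exists_point_ne_zero (mul_ne_zero hi hj)
    rw [map_mul] at hp
    have h1 : evLeft p f * evLeft p g = (0 : B) := by rw [← map_mul, hfg, map_zero]
    rcases mul_eq_zero.1 h1 with h2 | h2
    · have := key p f i
      rw [h2, map_zero, Finsupp.zero_apply] at this
      exact left_ne_zero_of_mul hp this.symm
    · have := key p g j
      rw [h2, map_zero, Finsupp.zero_apply] at this
      exact right_ne_zero_of_mul hp this.symm
  exact NoZeroDivisors.to_isDomain _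

/-- The points of a domain lift generically along injective homomorphisms of finite type. -/
theorem exists_generic_lift {A : Type u} {C : Type v} [CommRing A] [IsDomain A] [Algebra ℂ A]
    [Algebra.FiniteType ℂ A] [CommRing C] [Algebra ℂ C] [Algebra.FiniteType ℂ C]
    (f : A →ₐ[ℂ] C) (hf : Function.Injective f) :
    ∃ G : A, G ≠ 0 ∧ ∀ p : A →ₐ[ℂ] ℂ, p G ≠ 0 → ∃ c : C →ₐ[ℂ] ℂ, c.comp f = p := by
  classical
  have hN : IsNoetherianRing A := Algebra.FiniteType.isNoetherianRing ℂ A
  have hft : (f : A →+* C).FiniteType := by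
    algebraize [(f : A →+* C)]
    have : IsScalarTower ℂ A C := IsScalarTower.of_algebraMap_eq fun x => (f.commutes x).symm
    exact Algebra.FiniteType.of_restrictScalars_finiteType ℂ A C
  have hfp : (f : A →+* C).FinitePresentation :=
    RingHom.FinitePresentation.of_finiteType.1 hft
  have hcons := PrimeSpectrum.isConstructible_range_comap hfp
  obtain ⟨S, hS⟩ := PrimeSpectrum.exists_constructibleSetData_iff.2 hcons
  have hbot : (⟨⊥, Ideal.isPrime_bot⟩ : PrimeSpectrum A) ∈
      Set.range (PrimeSpectrum.comap (f : A →+* C)) := by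
    obtain ⟨p', hp', hp⟩ := Ideal.exists_comap_eq_of_mem_minimalPrimes_of_injective
      (f := (f : A →+* C)) hf (⊥ : Ideal A) (by
        rw [IsDomain.minimalPrimes_eq_singleton_bot]; rfl)
    exact ⟨⟨p', hp'⟩, PrimeSpectrum.ext hp⟩
  rw [← hS] at hbot
  simp only [PrimeSpectrum.ConstructibleSetData.toSet, Set.mem_iUnion] at hbot
  obtain ⟨Q, hQ, hbot⟩ := hbot
  have hbot1 := hbot.1
  have hbot2 := hbot.2
  have hg : ∀ i, Q.g i = 0 := fun i => (Ideal.mem_bot).1 (hbot1 ⟨i, rfl⟩)
  refine ⟨Q.f, fun h0 => hbot2 ?_, fun p hp => ?_⟩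
  · rintro x hx
    rw [Set.mem_singleton_iff.1 hx, h0]
    exact Ideal.zero_mem _
  · have hker : (RingHom.ker p).IsPrime := RingHom.ker_isPrime p
    have h1 : (⟨RingHom.ker p, hker⟩ : PrimeSpectrum A) ∈
        Set.range (PrimeSpectrum.comap (f : A →+* C)) := by
      rw [← hS]
      simp only [PrimeSpectrum.ConstructibleSetData.toSet, Set.mem_iUnion]
      refine ⟨Q, hQ, ?_, ?_⟩
      · rintro _ ⟨i, rfl⟩
        rw [hg i]
        exact Ideal.zero_mem _
      · intro h2
        exact hp (h2 rfl)
    obtain ⟨P', hP'⟩ := h1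
    obtain ⟨M, hM, hPM⟩ := Ideal.exists_le_maximal P'.asIdeal P'.isPrime.ne_top
    obtain ⟨c, hc⟩ := exists_point_of_maximal M
    refine ⟨c, (eq_of_ker_le _ _ fun a ha => ?_).symm⟩
    have h3 : a ∈ (PrimeSpectrum.comap (f : A →+* C) P').asIdeal := by rw [hP']; exact ha
    have h4 : f a ∈ M := hPM h3
    rw [← hc] at h4
    exact h4

end Vale.Agent.P292.VF
end

section

/-! # F1: choice of the function field of the curve. -/

namespace Vale.Agent.P292.Mo

open MvPolynomial

universe u v w

section F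
variable {k : Type u} [Field k]

/-- Linearly independent `a`, `b` with `G(a) ≠ 0`. -/
theorem exists_ff_line [Infinite k] {n : ℕ} (hn : 2 ≤ n) {G : MvPolynomial (Fin n) k}
    (hG : G ≠ 0) :
    ∃ a b : Fin n → k, LinearIndependent k ![a, b] ∧ MvPolynomial.eval a G ≠ 0 := by
  have h0 : G * X (⟨0, by omega⟩ : Fin n) ≠ 0 := mul_ne_zero hG (X_ne_zero _)
  obtain ⟨a, ha⟩ : ∃ a, MvPolynomial.eval a (G * X (⟨0, by omega⟩ : Fin n)) ≠ 0 := by
    by_contra h
    push Not at h
    exact h0 (MvPolynomial.funext fun a => (h a).trans (map_zero _).symm)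
  rw [map_mul, eval_X] at ha
  refine ⟨a, Pi.single ⟨1, by omega⟩ 1, ?_, left_ne_zero_of_mul ha⟩
  rw [LinearIndependent.pair_iff]
  intro s t hst
  have h1 := congrFun hst ⟨0, by omega⟩
  have h2 := congrFun hst ⟨1, by omega⟩
  simp only [Pi.add_apply, Pi.smul_apply, smul_eq_mul, Pi.zero_apply] at h1 h2
  rw [Pi.single_eq_of_ne (by simp), mul_zero, add_zero] at h1
  have hs : s = 0 := (mul_eq_zero.1 h1).resolve_right (right_ne_zero_of_mul ha)
  rw [hs, zero_mul, zero_add, Pi.single_eq_same, mul_one] at h2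
  exact ⟨hs, h2⟩

attribute [local instance] Polynomial.algebra in
/-- Extension of a homomorphism to the polynomial ring. -/
theorem exists_ff_ext {R : Type v} [CommRing R] [Algebra k R] (B : Subalgebra k R)
    [Algebra.IsIntegral B R] (σ : B →ₐ[k] Polynomial k) :
    ∃ (D : Type v) (_ : CommRing D) (_ : IsDomain D) (_ : Algebra k D) (t : D)
      (φ : R →ₐ[k] D), Transcendental k t ∧ (∀ b : B, φ b = Polynomial.aeval t (σ b)) ∧
      ∀ d : D, ∃ g : Polynomial R, d = g.sum fun i r => φ r * t ^ i := by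
  let Ψ : Polynomial B →+* Polynomial k :=
    Polynomial.eval₂RingHom (σ : B →+* Polynomial k) Polynomial.X
  have hprime : (RingHom.ker Ψ).IsPrime := RingHom.ker_isPrime Ψ
  have hinj : Function.Injective (algebraMap (Polynomial B) (Polynomial R)) :=
    Polynomial.map_injective _ Subtype.val_injective
  obtain ⟨P, -, hP, hPc⟩ := Ideal.exists_ideal_over_prime_of_isIntegral
    (RingHom.ker Ψ) (⊥ : Ideal (Polynomial R)) (by
      intro x hx
      have hx' : algebraMap (Polynomial B) (Polynomial R) x = 0 := hx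
      have : x = 0 := hinj (by rw [hx', map_zero])
      rw [this]
      exact Ideal.zero_mem _)
  have hmem : ∀ x : Polynomial B, Ψ x = 0 → x.map (algebraMap B R) ∈ P := by
    intro x hx
    have h1 : x ∈ P.comap (algebraMap (Polynomial B) (Polynomial R)) := by
      rw [hPc]; exact hx
    exact h1
  have hmem' : ∀ x : Polynomial B, x.map (algebraMap B R) ∈ P → Ψ x = 0 := by
    intro x hx
    have h1 : x ∈ P.comap (algebraMap (Polynomial B) (Polynomial R)) := hx
    rw [hPc] at h1
    exact h1
  have hΨ : ∀ g : Polynomial k, Ψ (g.map (algebraMap k B)) = g := by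
    intro g
    show Polynomial.eval₂ (σ : B →+* Polynomial k) Polynomial.X (g.map (algebraMap k B)) = g
    rw [Polynomial.eval₂_map]
    have h1 : (σ : B →+* Polynomial k).comp (algebraMap k B) = Polynomial.C := by
      ext c
      simp
    rw [h1, Polynomial.eval₂_C_X]
  have hmap : ∀ g : Polynomial k, (g.map (algebraMap k B)).map (algebraMap B R) =
      g.map (algebraMap k R) := by
    intro g
    rw [Polynomial.map_map]
    rfl
  let mk : Polynomial R →ₐ[k] (Polynomial R ⧸ P) := Ideal.Quotient.mkₐ k P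
  have haev : ∀ g : Polynomial k, Polynomial.aeval (mk Polynomial.X) g =
      mk (g.map (algebraMap k R)) := by
    intro g
    rw [Polynomial.aeval_algHom_apply, ← Polynomial.aeval_map_algebraMap R,
      Polynomial.aeval_X_left_apply]
  have hz : ∀ x : Polynomial R, mk x = 0 ↔ x ∈ P := fun x => Ideal.Quotient.eq_zero_iff_mem
  refine ⟨Polynomial R ⧸ P, inferInstance, Ideal.Quotient.isDomain P, inferInstance,
    mk Polynomial.X, mk.comp Polynomial.CAlgHom, ?_, ?_, ?_⟩
  · rw [transcendental_iff]
    intro g hg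
    rw [haev, hz, ← hmap] at hg
    have h1 := hmem' _ hg
    rwa [hΨ] at h1
  · intro b
    rw [haev]
    have h1 : Ψ (Polynomial.C b - (σ b).map (algebraMap k B)) = 0 := by
      rw [map_sub, hΨ]
      show Polynomial.eval₂ (σ : B →+* Polynomial k) Polynomial.X (Polynomial.C b) - σ b = 0
      rw [Polynomial.eval₂_C]
      exact sub_self _
    have h2 := hmem _ h1
    rw [Polynomial.map_sub, Polynomial.map_C, hmap] at h2
    have h3 := (hz _).2 h2
    rw [map_sub, sub_eq_zero] at h3
    exact h3
  · intro d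
    obtain ⟨g, hg⟩ := Ideal.Quotient.mk_surjective d
    refine ⟨g, ?_⟩
    have h1 : mk g = d := hg
    rw [← h1]
    conv_lhs => rw [← Polynomial.sum_C_mul_X_pow_eq g]
    rw [Polynomial.sum_def, Polynomial.sum_def, map_sum]
    refine Finset.sum_congr rfl fun i _ => ?_
    rw [map_mul, map_pow]
    rfl

/-- F1: choice of the function field. -/
theorem exists_ff {R : Type v} [CommRing R] [Algebra k R] {𝒜 : ℕ → Submodule k R}
    [GradedAlgebra 𝒜] [IsAlgClosed k] {p e n : ℕ} {y : Fin n → R} (hN : IsNoe 𝒜 p e y) (f : R)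
    (hf : ∃ h : R, ∃ G : MvPolynomial (Fin n) k, G ≠ 0 ∧ f * h = aeval y G) :
    ∃ (K : Type v) (_ : Field K) (_ : Algebra k K) (t : K) (φ : R →ₐ[k] K) (a b : Fin n → k),
      IsFF e y t φ a b ∧ Module.finrank (IntermediateField.adjoin k {t}) K < p ∧ φ f ≠ 0 := by
  classical
  obtain ⟨h, G, hG, hfh⟩ := hf
  have : Infinite k := IsAlgClosed.instInfinite
  obtain ⟨a, b, hab, hGa⟩ := exists_ff_line hN.two_le hG
  obtain ⟨S, hSp, hS⟩ := hN.gens
  -- the subalgebra generated by `y`
  let B : Subalgebra k R := Algebra.adjoin k (Set.range y)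
  have hBfin : Module.Finite B R := ⟨⟨S, hS⟩⟩
  -- the homomorphism to the polynomial ring
  let E : MvPolynomial (Fin n) k ≃ₐ[k] B := hN.indep.aevalEquiv
  have hE : ∀ G, (E G : R) = aeval y G := fun G => hN.indep.algebraMap_aevalEquiv G
  let τ : MvPolynomial (Fin n) k →ₐ[k] Polynomial k :=
    aeval fun i => Polynomial.C (a i) + Polynomial.C (b i) * Polynomial.X ^ e
  let σ : B →ₐ[k] Polynomial k := τ.comp E.symm.toAlgHom
  have hσ : ∀ G, σ (E G) = τ G := fun G => by
    show τ (E.symm (E G)) = τ G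
    rw [AlgEquiv.symm_apply_apply]
  obtain ⟨D, _, _, _, t, φ, ht, hφB, hgen⟩ := exists_ff_ext B σ
  let K := FractionRing D
  let ι : D →ₐ[k] K := Algebra.algHom k D K
  have hι : Function.Injective ι := IsFractionRing.injective D K
  let φ' : R →ₐ[k] K := ι.comp φ
  have ht' : Transcendental k (ι t) := by
    rw [transcendental_iff] at ht ⊢
    intro g hg
    apply ht
    rw [Polynomial.aeval_algHom_apply] at hg
    exact hι (by rw [hg, map_zero])
  have hφB' : ∀ b : B, φ' b = Polynomial.aeval (ι t) (σ b) := by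
    intro b
    show ι (φ b) = _
    rw [hφB, Polynomial.aeval_algHom_apply]
  have hval : ∀ G, φ' (aeval y G) = Polynomial.aeval (ι t) (τ G) := by
    intro G
    rw [← hE, hφB', hσ]
  let F := IntermediateField.adjoin k {ι t}
  have htF : ι t ∈ F := IntermediateField.mem_adjoin_simple_self k _
  have hpF : ∀ g : Polynomial k, Polynomial.aeval (ι t) g ∈ F := by
    intro g
    have h1 : Algebra.adjoin k {ι t} ≤ F.toSubalgebra :=
      Algebra.adjoin_le (Set.singleton_subset_iff.2 htF)
    exact h1 (Polynomial.aeval_mem_adjoin_singleton k (ι t))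
  -- the span of the images of the generators
  let W : Submodule F K := Submodule.span F ((S.image φ' : Finset K) : Set K)
  have hW : ∀ r, φ' r ∈ W := by
    intro r
    have hr : r ∈ Submodule.span B (S : Set R) := by
      rw [show Submodule.span B (S : Set R) = ⊤ from hS]
      trivial
    induction hr using Submodule.span_induction with
    | mem x hx => exact Submodule.subset_span (by
        rw [Finset.coe_image]; exact Set.mem_image_of_mem _ hx)
    | zero => rw [map_zero]; exact W.zero_mem
    | add x y _ _ hx hy => rw [map_add]; exact W.add_mem hx hy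
    | smul c x _ hx =>
      have h1 : φ' (c • x) = (⟨Polynomial.aeval (ι t) (σ c), hpF _⟩ : F) • φ' x := by
        rw [Algebra.smul_def, map_mul]
        show φ' (c : R) * φ' x = _
        rw [hφB']
        rfl
      rw [h1]
      exact W.smul_mem _ hx
  let A : Subalgebra F K := Algebra.adjoin F (Set.range φ')
  have hAW : Subalgebra.toSubmodule A ≤ W := by
    show Subalgebra.toSubmodule (Algebra.adjoin F (Set.range φ')) ≤ W
    rw [Algebra.adjoin_eq_span]
    rw [Submodule.span_le]
    intro x hx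
    have h1 : Submonoid.closure (Set.range φ') ≤ MonoidHom.mrange (φ' : R →* K) := by
      rw [Submonoid.closure_le]
      rintro _ ⟨r, rfl⟩
      exact ⟨r, rfl⟩
    obtain ⟨r, rfl⟩ := h1 hx
    exact hW r
  have hWfin : FiniteDimensional F W := FiniteDimensional.span_finset F _
  have hAfin : FiniteDimensional F (Subalgebra.toSubmodule A) :=
    Submodule.finiteDimensional_of_le hAW
  have hAfin' : FiniteDimensional F A := hAfin
  have hDA : ∀ d : D, ι d ∈ A := by
    intro d
    obtain ⟨g, rfl⟩ := hgen d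
    rw [Polynomial.sum_def, map_sum]
    refine A.sum_mem fun i _ => ?_
    rw [map_mul, map_pow]
    refine A.mul_mem (Algebra.subset_adjoin ⟨_, rfl⟩) (A.pow_mem ?_ _)
    exact A.algebraMap_mem ⟨ι t, htF⟩
  have hinv : ∀ x ∈ A, x⁻¹ ∈ A := by
    intro x hx
    have h1 : IsAlgebraic F (⟨x, hx⟩ : A) := Algebra.IsAlgebraic.isAlgebraic _
    exact A.inv_mem_of_algebraic (x := ⟨x, hx⟩) (h1.algHom A.val)
  have htop : W = ⊤ := by
    rw [eq_top_iff]
    intro x _
    refine hAW ?_
    obtain ⟨d₁, d₂, -, rfl⟩ := IsFractionRing.div_surjective (A := D) x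
    show algebraMap D K d₁ / algebraMap D K d₂ ∈ A
    rw [div_eq_mul_inv]
    exact A.mul_mem (hDA d₁) (hinv _ (hDA d₂))
  refine ⟨K, inferInstance, inferInstance, ι t, φ', a, b, ⟨ht', ?_, ?_, hab⟩, ?_, ?_⟩
  · exact Module.finite_def.2 (by
      rw [← htop]
      exact ⟨S.image φ', rfl⟩)
  · intro i
    have h1 := hval (X i)
    rw [aeval_X] at h1
    rw [h1]
    show Polynomial.aeval (ι t) (aeval _ (X i)) = _
    rw [aeval_X, map_add, map_mul, map_pow, Polynomial.aeval_C, Polynomial.aeval_C,
      Polynomial.aeval_X]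
  · calc Module.finrank F K = Module.finrank F (⊤ : Submodule F K) :=
          (_root_.finrank_top F K).symm
      _ = Module.finrank F W := by rw [htop]
      _ ≤ (S.image φ').card := finrank_span_finset_le_card _
      _ ≤ S.card := Finset.card_image_le
      _ < p := hSp
  · intro h0
    have h1 : φ' (f * h) = 0 := by rw [map_mul, h0, zero_mul]
    rw [hfh, hval] at h1
    rw [transcendental_iff] at ht'
    have h2 := ht' _ h1
    apply hGa
    have h3 : Polynomial.aeval (0 : k) (τ G) = MvPolynomial.eval a G := by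
      show Polynomial.aeval (0 : k) (aeval _ G) = _
      rw [← AlgHom.comp_apply, MvPolynomial.comp_aeval]
      have h4 : (fun i => Polynomial.aeval (0 : k)
          (Polynomial.C (a i) + Polynomial.C (b i) * Polynomial.X ^ e)) = a := by
        funext i
        rw [map_add, map_mul, map_pow, Polynomial.aeval_C, Polynomial.aeval_C,
          Polynomial.aeval_X, zero_pow hN.e_pos.ne', mul_zero, add_zero]
        rfl
      rw [h4, MvPolynomial.aeval_eq_eval]
    rw [← h3, h2, map_zero]

end F

end Vale.Agent.P292.Mo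
end

section

/-! # Homogeneous integral equations over a graded Noether normalisation. -/

namespace Vale.Agent.P292.Mo

open MvPolynomial

universe u v w

variable {k : Type u} [Field k] {K : Type w} [Field K] [Algebra k K]

/-- the homogeneous components of polynomial expressions in elements of the same degree -/
theorem exists_comp {R : Type v} [CommRing R] [Algebra k R] {𝒜 : ℕ → Submodule k R}
    [GradedAlgebra 𝒜] {e n : ℕ} {y : Fin n → R} (hy : ∀ i, y i ∈ 𝒜 e)
    (P : MvPolynomial (Fin n) k) (N : ℕ) :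
    ∃ P' : MvPolynomial (Fin n) k, ((∀ s ∈ P'.support, e * (∑ i ∈ s.support, s i) ≤ N)) ∧
      (DirectSum.decompose 𝒜 (aeval y P) N : R) = aeval y P' := by
  classical
  induction P using MvPolynomial.induction_on' with
  | monomial s c =>
    have hmem : aeval y (monomial s c) ∈ 𝒜 (e * (∑ i ∈ s.support, s i)) := by
      rw [aeval_monomial, ← Algebra.smul_def]
      refine Submodule.smul_mem _ _ ?_
      have h1 : (s.prod fun i k => y i ^ k) ∈ 𝒜 (∑ i ∈ s.support, s i • e) :=
        SetLike.prod_mem_graded _ _ _ fun i _ => SetLike.pow_mem_graded _ (hy i)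
      have h2 : ∑ i ∈ s.support, s i • e = e * (∑ i ∈ s.support, s i) := by
        rw [Finset.mul_sum]
        exact Finset.sum_congr rfl fun i _ => by rw [smul_eq_mul, mul_comm]
      rwa [h2] at h1
    by_cases hN : e * (∑ i ∈ s.support, s i) = N
    · refine ⟨monomial s c, ?_, ?_⟩
      · intro t ht
        have h3 := MvPolynomial.support_monomial_subset ht
        rw [Finset.mem_singleton] at h3
        rw [h3, hN]
      · rw [← hN]
        exact DirectSum.decompose_of_mem_same 𝒜 hmem
    · refine ⟨0, by simp, ?_⟩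
      rw [map_zero]
      exact DirectSum.decompose_of_mem_ne 𝒜 hmem hN
  | add P Q hP hQ =>
    obtain ⟨P', h1, h2⟩ := hP
    obtain ⟨Q', h3, h4⟩ := hQ
    refine ⟨P' + Q', ?_, ?_⟩
    · intro s hs
      rcases Finset.mem_union.1 (MvPolynomial.support_add hs) with h | h
      · exact h1 s h
      · exact h3 s h
    · have h5 := map_add (GradedAlgebra.proj 𝒜 N) (aeval y P) (aeval y Q)
      simp only [GradedAlgebra.proj_apply] at h5
      rw [map_add, map_add (aeval y) P' Q', h5, h2, h4]

/-- degree of the restriction to a curve. -/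
theorem natDegree_comp {n e N : ℕ} (P : MvPolynomial (Fin n) k)
    (hP : ∀ s ∈ P.support, e * (∑ i ∈ s.support, s i) ≤ N) (f : Fin n → Polynomial k)
    (hf : ∀ i, (f i).natDegree ≤ e) : (aeval f P).natDegree ≤ N := by
  classical
  rw [aeval_def, eval₂_eq]
  refine Polynomial.natDegree_sum_le_of_forall_le _ _ fun s hs => ?_
  refine (Polynomial.natDegree_mul_le).trans ?_
  have h1 : (algebraMap k (Polynomial k) (coeff s P)).natDegree = 0 :=
    Polynomial.natDegree_C _
  rw [h1, zero_add]
  refine (Polynomial.natDegree_prod_le _ _).trans ((Finset.sum_le_sum (g := fun i => s i * e)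
    fun i _ => Polynomial.natDegree_pow_le.trans (Nat.mul_le_mul_left _ (hf i))).trans ?_)
  refine le_trans (le_of_eq ?_) (hP s hs)
  rw [Finset.mul_sum]
  exact Finset.sum_congr rfl fun i _ => by rw [mul_comm]

/-- F2: integral equations with control of the degrees in `t`. -/
theorem exists_equation {R : Type v} [CommRing R] [Algebra k R] {𝒜 : ℕ → Submodule k R}
    [GradedAlgebra 𝒜] {p e n : ℕ} {y : Fin n → R} (hN : IsNoe 𝒜 p e y) {t : K}
    {φ : R →ₐ[k] K} {a b : Fin n → k} (h : IsFF e y t φ a b) {j : ℕ} {r : R} (hr : r ∈ 𝒜 j) :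
    ∃ (m : ℕ) (c : ℕ → Polynomial k), (∀ i, (c i).natDegree ≤ j * i) ∧
      φ r ^ m + ∑ i ∈ Finset.range m, Polynomial.aeval t (c (i + 1)) * φ r ^ (m - (i + 1)) = 0 := by
  classical
  -- the integral equation
  obtain ⟨S, -, hS⟩ := hN.gens
  have hfin : Module.Finite (Algebra.adjoin k (Set.range y)) R := ⟨⟨S, hS⟩⟩
  obtain ⟨q, hq, hqr⟩ : IsIntegral (Algebra.adjoin k (Set.range y)) r :=
    Algebra.IsIntegral.isIntegral r
  have hlift : ∀ i, ∃ P : MvPolynomial (Fin n) k, aeval y P = (q.coeff i : R) := by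
    intro i
    have h1 : ∀ x : R, x ∈ Algebra.adjoin k (Set.range y) → ∃ P : MvPolynomial (Fin n) k,
        aeval y P = x := by
      intro x hx
      rw [Algebra.adjoin_range_eq_range_aeval] at hx
      exact hx
    exact h1 _ (q.coeff i).2
  choose P hP using hlift
  set m := q.natDegree with hm
  have heq : r ^ m + ∑ i ∈ Finset.range m, aeval y (P (m - (i + 1))) * r ^ (m - (i + 1)) = 0 := by
    have h1 : Polynomial.eval₂ (algebraMap (Algebra.adjoin k (Set.range y)) R) r q = 0 := hqr
    rw [Polynomial.eval₂_eq_sum_range, Finset.sum_range_succ, ← hm] at h1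
    have h2 : q.coeff m = 1 := hq.coeff_natDegree
    rw [h2, map_one, one_mul, add_comm, ← Finset.sum_range_reflect] at h1
    rw [← h1]
    congr 1
    refine Finset.sum_congr rfl fun i hi => ?_
    have hi' := Finset.mem_range.1 hi
    rw [hP, show m - 1 - i = m - (i + 1) by omega]
    rfl
  -- the homogeneous component of degree `j m`
  choose P' hP' hPc using fun i => exists_comp hN.hom (P (m - i)) (j * i)
  have hr' : ∀ l, r ^ l ∈ 𝒜 (j * l) := by
    intro l
    have := SetLike.pow_mem_graded l hr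
    rwa [smul_eq_mul, mul_comm] at this
  have hhom : r ^ m + ∑ i ∈ Finset.range m, aeval y (P' (i + 1)) * r ^ (m - (i + 1)) = 0 := by
    have h1 := congrArg (GradedAlgebra.proj 𝒜 (j * m)) heq
    rw [map_add, map_sum, map_zero] at h1
    simp only [GradedAlgebra.proj_apply] at h1
    rw [DirectSum.decompose_of_mem_same 𝒜 (hr' m)] at h1
    rw [← h1]
    congr 1
    refine Finset.sum_congr rfl fun i hi => ?_
    have hi' := Finset.mem_range.1 hi
    have h2 : j * m = j * (i + 1) + j * (m - (i + 1)) := by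
      rw [← Nat.mul_add]; congr 1; omega
    rw [h2, DirectSum.coe_decompose_mul_add_of_right_mem 𝒜 (hr' _), hPc]
  -- the curve
  set f : Fin n → Polynomial k := fun i => Polynomial.C (a i) + Polynomial.C (b i) *
    Polynomial.X ^ e with hf
  have hfd : ∀ i, (f i).natDegree ≤ e := by
    intro i
    refine (Polynomial.natDegree_add_le _ _).trans (max_le ?_ ?_)
    · rw [Polynomial.natDegree_C]; exact Nat.zero_le _
    · exact Polynomial.natDegree_C_mul_X_pow_le _ _
  have hφ : ∀ Q : MvPolynomial (Fin n) k, φ (aeval y Q) = Polynomial.aeval t (aeval f Q) := by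
    intro Q
    have h1 : φ.comp (aeval y) = (Polynomial.aeval t).comp (aeval f) := by
      refine MvPolynomial.algHom_ext fun i => ?_
      rw [AlgHom.comp_apply, AlgHom.comp_apply, aeval_X, aeval_X, h.val, hf]
      simp
    exact DFunLike.congr_fun h1 Q
  refine ⟨m, fun i => aeval f (P' i), fun i => natDegree_comp _ (hP' i) f hfd, ?_⟩
  have h1 := congrArg φ hhom
  rw [map_add, map_sum, map_zero, map_pow] at h1
  rw [← h1]
  congr 1
  refine Finset.sum_congr rfl fun i _ => ?_
  rw [map_mul, map_pow, hφ]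

end Vale.Agent.P292.Mo
end

section

/-!
# The rings of functions of a curve over the line (P292, block F3, common base)
-/

namespace Vale.Agent.P292.Mo

open Polynomial

universe u w

section

variable {k : Type u} [Field k] {K : Type w} [Field K] [Algebra k K]

/-- A subring of the rational functions of `s` which contains `k[s]` is a principal ideal ring. -/
theorem crv_pir (s : K) (B : Subalgebra k K) (hs : s ∈ B)
    (hB : ∀ x ∈ B, ∃ a b : k[X], aeval s b ≠ 0 ∧ x = aeval s a / aeval s b) :
    IsPrincipalIdealRing B := by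
  classical
  let ψ : k[X] →ₐ[k] B := aeval ⟨s, hs⟩
  have hψ : ∀ p, ((ψ p : B) : K) = aeval s p := by
    intro p
    have : B.val.comp ψ = aeval s := by ext; simp [ψ]
    exact DFunLike.congr_fun this p
  constructor
  intro I
  obtain ⟨d, hd⟩ := (IsPrincipalIdealRing.principal (I.comap ψ)).principal
  refine ⟨ψ d, le_antisymm ?_ ?_⟩
  · intro x hx
    obtain ⟨a, b, hb, hab⟩ := hB x x.2
    have hb0 : b ≠ 0 := fun h => hb (by rw [h, map_zero])
    set g := EuclideanDomain.gcd a b with hg
    obtain ⟨a', ha'⟩ := EuclideanDomain.gcd_dvd_left a b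
    obtain ⟨b', hb'⟩ := EuclideanDomain.gcd_dvd_right a b
    rw [← hg] at ha' hb'
    have hg0 : g ≠ 0 := by rintro h; rw [h, zero_mul] at hb'; exact hb0 hb'
    have hbez := EuclideanDomain.gcd_eq_gcd_ab a b
    rw [← hg] at hbez
    set p := EuclideanDomain.gcdA a b
    set q := EuclideanDomain.gcdB a b
    have h1 : a' * p + b' * q = 1 := by
      apply mul_left_cancel₀ hg0
      calc g * (a' * p + b' * q) = (g * a') * p + (g * b') * q := by ring
        _ = g * 1 := by rw [← ha', ← hb', ← hbez, mul_one]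
    have hgs : aeval s g ≠ 0 := by
      intro h
      apply hb
      rw [hb', map_mul, h, zero_mul]
    have hb's : aeval s b' ≠ 0 := by
      intro h
      apply hb
      rw [hb', map_mul, h, mul_zero]
    have hx' : (x : K) = aeval s a' / aeval s b' := by
      rw [hab, ha', hb', map_mul, map_mul, mul_div_mul_left _ _ hgs]
    have hinv : (aeval s b')⁻¹ ∈ B := by
      have h2 : (aeval s b')⁻¹ = (x : K) * aeval s p + aeval s q := by
        rw [hx']
        have h3 : aeval s a' * aeval s p + aeval s b' * aeval s q = 1 := by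
          rw [← map_mul, ← map_mul, ← map_add, h1, map_one]
        field_simp
        exact h3.symm
      rw [h2, ← hψ p, ← hψ q]
      exact (x * ψ p + ψ q).2
    have hxb : x * ψ b' = ψ a' := by
      apply Subtype.ext
      show (x : K) * (ψ b' : B) = (ψ a' : B)
      rw [hψ, hψ, hx']
      field_simp
    have ha'I : a' ∈ I.comap ψ := by
      rw [Ideal.mem_comap, ← hxb]
      exact Ideal.mul_mem_right _ _ hx
    rw [hd, Ideal.submodule_span_eq, Ideal.mem_span_singleton] at ha'I
    obtain ⟨c, hc⟩ := ha'I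
    rw [Ideal.submodule_span_eq, Ideal.mem_span_singleton]
    refine ⟨ψ c * ⟨(aeval s b')⁻¹, hinv⟩, ?_⟩
    apply Subtype.ext
    show (x : K) = (ψ d : B) * ((ψ c : B) * (aeval s b')⁻¹)
    rw [hψ, hψ, hx', hc, map_mul]
    field_simp
  · rw [Ideal.submodule_span_eq, Ideal.span_singleton_le_iff_mem]
    have : d ∈ I.comap ψ := by
      rw [hd]
      exact Submodule.mem_span_singleton_self d
    exact this

variable {t : K}

theorem mem_IC_iff (B : Subalgebra k K) (x : K) : x ∈ IC B ↔ IsIntegral B x := Iff.rfl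

/-- The structure of the integral closure of a principal ideal ring of rational functions. -/
theorem crv_basis (B : Subalgebra k K)
    (hBF : ∀ x ∈ B, x ∈ IntermediateField.adjoin k {t})
    (hfr : ∀ x ∈ IntermediateField.adjoin k {t}, ∃ a ∈ B, ∃ b ∈ B, b ≠ 0 ∧ x = a / b)
    (hpir : IsPrincipalIdealRing B)
    [FiniteDimensional (IntermediateField.adjoin k {t}) K]
    [Algebra.IsSeparable (IntermediateField.adjoin k {t}) K] :
    IsDedekindDomain (IC B) ∧
    ∃ ω : Module.Basis (Fin (Module.finrank (IntermediateField.adjoin k {t}) K))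
      (IntermediateField.adjoin k {t}) K,
      (∀ i, ω i ∈ IC B) ∧ ∀ x : K, x ∈ IC B ↔ ∀ i, ((ω.repr x i : K)) ∈ B := by
  classical
  let F := IntermediateField.adjoin k {t}
  let algBF : Algebra B F := (({ toFun := fun x => ⟨x, hBF x x.2⟩
                                 map_one' := rfl
                                 map_mul' := fun _ _ => rfl
                                 map_zero' := rfl
                                 map_add' := fun _ _ => rfl } : B →+* F)).toAlgebra
  have halg : ∀ x : B, ((algebraMap B F x : F) : K) = x := fun _ => rfl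
  have tower : IsScalarTower B F K := IsScalarTower.of_algebraMap_eq fun _ => rfl
  have hinjBF : Function.Injective (algebraMap B F) := fun x y h => by
    apply Subtype.ext
    have := congrArg Subtype.val h
    exact this
  have hfrac : IsFractionRing B F := by
    refine ⟨?_, ?_, ?_⟩
    · rintro ⟨y, hy⟩
      have hy0 : y ≠ 0 := nonZeroDivisors.ne_zero hy
      rw [isUnit_iff_ne_zero]
      intro h
      exact hy0 (hinjBF (h.trans (map_zero _).symm))
    · rintro ⟨x, hx⟩
      obtain ⟨a, ha, b, hb, hb0, hab⟩ := hfr x hx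
      refine ⟨(⟨a, ha⟩, ⟨⟨b, hb⟩, ?_⟩), ?_⟩
      · rw [mem_nonZeroDivisors_iff_ne_zero]
        intro h
        exact hb0 (congrArg Subtype.val h)
      · apply Subtype.ext
        show x * b = a
        rw [hab]
        field_simp
    · intro x y h
      exact ⟨1, by rw [hinjBF h]⟩
  have hdom : IsDomain B := inferInstance
  have hded : IsDedekindDomain B := inferInstance
  have hfaith : FaithfulSMul B F := (faithfulSMul_iff_algebraMap_injective B F).mpr hinjBF
  have htf : Module.IsTorsionFree B K := Module.IsTorsionFree.trans_faithfulSMul B F K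
  have hC : IsDedekindDomain (integralClosure B K) := integralClosure.isDedekindDomain B F K
  have hloc : IsLocalization (Algebra.algebraMapSubmonoid (integralClosure B K)
      (nonZeroDivisors B)) K := IsIntegralClosure.isLocalization B F K (integralClosure B K)
  have hfree : Module.Free B (integralClosure B K) :=
    IsIntegralClosure.module_free B F K (integralClosure B K)
  have hfin : Module.Finite B (integralClosure B K) :=
    IsIntegralClosure.finite B F K (integralClosure B K)
  have hrank : Module.finrank B (integralClosure B K) = Module.finrank F K :=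
    IsIntegralClosure.rank B F K (integralClosure B K)
  refine ⟨hC, ?_⟩
  let b : Module.Basis (Fin (Module.finrank F K)) B (integralClosure B K) :=
    Module.finBasisOfFinrankEq B (integralClosure B K) hrank
  let ω := b.localizationLocalization F (nonZeroDivisors B) K
  have hω : ∀ i, ω i = (b i : K) := fun i =>
    b.localizationLocalization_apply F (nonZeroDivisors B) K i
  have hrep : ∀ (x : integralClosure B K) i, ω.repr (x : K) i = algebraMap B F (b.repr x i) :=
    fun x i => b.localizationLocalization_repr_algebraMap F (nonZeroDivisors B) K x i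
  refine ⟨ω, ?_, ?_⟩
  · intro i
    rw [hω]
    exact (b i).2
  · intro x
    constructor
    · intro hx i
      have := hrep ⟨x, hx⟩ i
      have h1 : ω.repr x i = algebraMap B F (b.repr ⟨x, hx⟩ i) := this
      rw [h1, halg]
      exact (b.repr ⟨x, hx⟩ i).2
    · intro hx
      have h1 : x = ∑ i, ((ω.repr x i : F) : K) * ω i := by
        conv_lhs => rw [← ω.sum_repr x]
        refine Finset.sum_congr rfl fun i _ => ?_
        rw [Algebra.smul_def]
        rfl
      rw [h1]
      refine Subalgebra.sum_mem _ fun i _ => Subalgebra.mul_mem _ ?_ ?_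
      · exact (integralClosure B K).algebraMap_mem ⟨_, hx i⟩
      · rw [hω]
        exact (b i).2

theorem crv_aeval_mem {s : K} {B : Subalgebra k K} (hs : s ∈ B) (p : k[X]) : aeval s p ∈ B := by
  have : B.val.comp (aeval ⟨s, hs⟩) = aeval s := by ext; simp
  rw [← DFunLike.congr_fun this p]
  exact (aeval (⟨s, hs⟩ : B) p).2

theorem crv_t_mem_B0 (t : K) (g : k[X]) : t ∈ B0 t g :=
  Algebra.subset_adjoin (Set.mem_insert _ _)

theorem crv_inv_mem_B0 (t : K) (g : k[X]) : (aeval t g)⁻¹ ∈ B0 t g :=
  Algebra.subset_adjoin (Set.mem_insert_of_mem _ rfl)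

/-- Elements of `k[t, 1/g(t)]`. -/
theorem crv_mem_B0 {g : k[X]} (hg : aeval t g ≠ 0) {x : K} (hx : x ∈ B0 t g) :
    ∃ (a : k[X]) (n : ℕ), x = aeval t a / aeval t g ^ n := by
  induction hx using Algebra.adjoin_induction with
  | mem y hy =>
    rcases hy with rfl | hy
    · exact ⟨X, 0, by simp⟩
    · rw [Set.mem_singleton_iff] at hy
      exact ⟨1, 1, by rw [hy]; simp⟩
  | algebraMap c => exact ⟨C c, 0, by simp⟩
  | add y z _ _ hy hz =>
    obtain ⟨a, n, rfl⟩ := hy
    obtain ⟨b, m, rfl⟩ := hz
    refine ⟨a * g ^ m + b * g ^ n, n + m, ?_⟩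
    rw [map_add, map_mul, map_mul, map_pow, map_pow, pow_add]
    field_simp
  | mul y z _ _ hy hz =>
    obtain ⟨a, n, rfl⟩ := hy
    obtain ⟨b, m, rfl⟩ := hz
    exact ⟨a * b, n + m, by rw [map_mul, pow_add, div_mul_div_comm]⟩

theorem crv_ne {t : K} (ht : Transcendental k t) {g : k[X]} (hg : g ≠ 0) : aeval t g ≠ 0 :=
  fun h => hg ((transcendental_iff_injective.mp ht) (h.trans (map_zero _).symm))

theorem crv_ne_C {t : K} (ht : Transcendental k t) (l : k) : t - algebraMap k K l ≠ 0 := by
  have := crv_ne ht (X_sub_C_ne_zero l)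
  simpa using this

theorem crv_B0_le {g : k[X]} (hg : aeval t g ≠ 0) :
    ∀ x ∈ B0 t g, x ∈ IntermediateField.adjoin k {t} := by
  intro x hx
  obtain ⟨a, n, rfl⟩ := crv_mem_B0 hg hx
  rw [IntermediateField.mem_adjoin_simple_iff]
  exact ⟨a, g ^ n, by rw [map_pow]⟩

theorem crv_B0_frac (t : K) (g : k[X]) :
    ∀ x ∈ IntermediateField.adjoin k {t}, ∃ a ∈ B0 t g, ∃ b ∈ B0 t g, b ≠ 0 ∧ x = a / b := by
  intro x hx
  rw [IntermediateField.mem_adjoin_simple_iff] at hx
  obtain ⟨r, s, rfl⟩ := hx
  by_cases hs : aeval t s = 0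
  · exact ⟨0, Subalgebra.zero_mem _, 1, Subalgebra.one_mem _, one_ne_zero, by rw [hs]; simp⟩
  · exact ⟨_, crv_aeval_mem (crv_t_mem_B0 t g) r, _, crv_aeval_mem (crv_t_mem_B0 t g) s, hs, rfl⟩

theorem crv_B0_pir {g : k[X]} (hg : aeval t g ≠ 0) : IsPrincipalIdealRing (B0 t g) := by
  refine crv_pir t (B0 t g) (crv_t_mem_B0 t g) fun x hx => ?_
  obtain ⟨a, n, rfl⟩ := crv_mem_B0 hg hx
  exact ⟨a, g ^ n, by rw [map_pow]; exact pow_ne_zero _ hg, by rw [map_pow]⟩

/-- Change of coordinate. -/
theorem crv_reflect {l : k} (hl : t - algebraMap k K l ≠ 0) (a : k[X]) (n : ℕ)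
    (hn : a.natDegree ≤ n) :
    ∃ a' : k[X], aeval t a = aeval (t - algebraMap k K l)⁻¹ a' * (t - algebraMap k K l) ^ n := by
  let _ := invertibleOfNonzero hl
  refine ⟨reflect n (a.comp (X + C l)), ?_⟩
  have h := eval₂_reflect_mul_pow (algebraMap k K) (t - algebraMap k K l) n (a.comp (X + C l))
    (by rw [_root_.Polynomial.natDegree_comp, natDegree_X_add_C, mul_one]; exact hn)
  rw [invOf_eq_inv] at h
  rw [aeval_def (t - algebraMap k K l)⁻¹, h, ← aeval_def, aeval_comp]
  congr 1
  simp

theorem crv_s_mem_B1 {t : K} (ht : Transcendental k t) {g : k[X]} {l : k} (hl : g.eval l ≠ 0) :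
    (t - algebraMap k K l)⁻¹ ∈ B1 t g := by
  refine ⟨1, X - C l, crv_ne ht (X_sub_C_ne_zero l), ?_, ?_, ?_⟩
  · rw [← isCoprime_comm]
    rw [isCoprime_comm, (irreducible_X_sub_C l).coprime_iff_not_dvd, dvd_iff_isRoot]
    exact hl
  · simp
  · simp

theorem crv_mem_B1 {t : K} (ht : Transcendental k t) {g : k[X]} (l : k) {x : K}
    (hx : x ∈ B1 t g) : ∃ a b : k[X], aeval (t - algebraMap k K l)⁻¹ b ≠ 0 ∧
      x = aeval (t - algebraMap k K l)⁻¹ a / aeval (t - algebraMap k K l)⁻¹ b := by
  obtain ⟨a, b, hb, -, hd, rfl⟩ := hx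
  obtain ⟨a', ha'⟩ := crv_reflect (crv_ne_C ht l) a b.natDegree hd
  obtain ⟨b', hb'⟩ := crv_reflect (crv_ne_C ht l) b b.natDegree le_rfl
  have h0 := pow_ne_zero b.natDegree (crv_ne_C ht l)
  refine ⟨a', b', ?_, ?_⟩
  · intro h
    rw [h, zero_mul] at hb'
    exact hb hb'
  · rw [ha', hb', mul_div_mul_right _ _ h0]

theorem crv_exists_l [Infinite k] {g : k[X]} (hg : g ≠ 0) : ∃ l : k, g.eval l ≠ 0 := by
  by_contra h
  push Not at h
  exact hg (Polynomial.funext fun r => by rw [h r, eval_zero])

theorem crv_B1_le (t : K) (g : k[X]) : ∀ x ∈ B1 t g, x ∈ IntermediateField.adjoin k {t} := by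
  rintro x ⟨a, b, -, -, -, rfl⟩
  rw [IntermediateField.mem_adjoin_simple_iff]
  exact ⟨a, b, rfl⟩

theorem crv_B1_frac [Infinite k] {t : K} (ht : Transcendental k t) {g : k[X]} (hg : g ≠ 0) :
    ∀ x ∈ IntermediateField.adjoin k {t}, ∃ a ∈ B1 t g, ∃ b ∈ B1 t g, b ≠ 0 ∧ x = a / b := by
  obtain ⟨l, hl⟩ := crv_exists_l hg
  intro x hx
  rw [IntermediateField.mem_adjoin_simple_iff] at hx
  obtain ⟨r, s, rfl⟩ := hx
  by_cases hs : aeval t s = 0
  · exact ⟨0, Subalgebra.zero_mem _, 1, Subalgebra.one_mem _, one_ne_zero, by rw [hs]; simp⟩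
  · obtain ⟨a', ha'⟩ := crv_reflect (crv_ne_C ht l) r (max r.natDegree s.natDegree)
      (le_max_left _ _)
    obtain ⟨b', hb'⟩ := crv_reflect (crv_ne_C ht l) s (max r.natDegree s.natDegree)
      (le_max_right _ _)
    have h0 := pow_ne_zero (max r.natDegree s.natDegree) (crv_ne_C ht l)
    refine ⟨_, crv_aeval_mem (crv_s_mem_B1 ht hl) a', _, crv_aeval_mem (crv_s_mem_B1 ht hl) b',
      ?_, ?_⟩
    · intro h
      rw [h, zero_mul] at hb'
      exact hs hb'
    · rw [ha', hb', mul_div_mul_right _ _ h0]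

theorem crv_B1_pir [Infinite k] {t : K} (ht : Transcendental k t) {g : k[X]} (hg : g ≠ 0) :
    IsPrincipalIdealRing (B1 t g) := by
  obtain ⟨l, hl⟩ := crv_exists_l hg
  exact crv_pir _ (B1 t g) (crv_s_mem_B1 ht hl) fun x hx => crv_mem_B1 ht l hx

/-- The first chart. -/
theorem crv_basis0 {t : K} (ht : Transcendental k t) {g : k[X]} (hg : g ≠ 0)
    [FiniteDimensional (IntermediateField.adjoin k {t}) K]
    [Algebra.IsSeparable (IntermediateField.adjoin k {t}) K] :
    IsDedekindDomain (IC (B0 t g)) ∧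
    ∃ ω : Module.Basis (Fin (Module.finrank (IntermediateField.adjoin k {t}) K))
      (IntermediateField.adjoin k {t}) K,
      (∀ i, ω i ∈ IC (B0 t g)) ∧ ∀ x : K, x ∈ IC (B0 t g) ↔ ∀ i, ((ω.repr x i : K)) ∈ B0 t g :=
  crv_basis (B0 t g) (crv_B0_le (crv_ne ht hg)) (crv_B0_frac t g) (crv_B0_pir (crv_ne ht hg))

/-- The second chart. -/
theorem crv_basis1 [Infinite k] {t : K} (ht : Transcendental k t) {g : k[X]} (hg : g ≠ 0)
    [FiniteDimensional (IntermediateField.adjoin k {t}) K]
    [Algebra.IsSeparable (IntermediateField.adjoin k {t}) K] :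
    IsDedekindDomain (IC (B1 t g)) ∧
    ∃ ω : Module.Basis (Fin (Module.finrank (IntermediateField.adjoin k {t}) K))
      (IntermediateField.adjoin k {t}) K,
      (∀ i, ω i ∈ IC (B1 t g)) ∧ ∀ x : K, x ∈ IC (B1 t g) ↔ ∀ i, ((ω.repr x i : K)) ∈ B1 t g :=
  crv_basis (B1 t g) (crv_B1_le t g) (crv_B1_frac ht hg) (crv_B1_pir ht hg)

end

end Vale.Agent.P292.Mo
end

section

/-! # P292, part II, F3e: closed points of the second chart. -/

namespace Vale.Agent.P292.Mo

open Polynomial

universe u w

namespace ClosedIC1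

variable {k : Type u} [Field k] {K : Type w} [Field K] [Algebra k K]

theorem mem_B1 {t : K} {g : k[X]} {x : K} : x ∈ B1 t g ↔ ∃ a b : k[X],
    aeval t b ≠ 0 ∧ IsCoprime b g ∧ a.natDegree ≤ b.natDegree ∧ x = aeval t a / aeval t b :=
  Iff.rfl

theorem le_IC (B : Subalgebra k K) {x : K} (hx : x ∈ B) : x ∈ IC B :=
  (mem_integralClosure_iff B K).2 (isIntegral_algebraMap (x := (⟨x, hx⟩ : B)))

theorem aeval_ne {t : K} (ht : Transcendental k t) {a : k[X]} (ha : a ≠ 0) : aeval t a ≠ 0 :=
  fun h => ha ((transcendental_iff_injective.1 ht) (by rw [h, map_zero]))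

/-- The coordinate at infinity. -/
noncomputable def sp (t : K) (l : k) : K := (t - algebraMap k K l)⁻¹

theorem tl_ne {t : K} (ht : Transcendental k t) (l : k) : t - algebraMap k K l ≠ 0 := by
  have := aeval_ne ht (X_sub_C_ne_zero l)
  simpa using this

theorem conv {t : K} (ht : Transcendental k t) (l : k) {a : k[X]} {d : ℕ}
    (ha : a.natDegree ≤ d) :
    aeval t a * sp t l ^ d = aeval (sp t l) (reflect d (taylor l a)) := by
  have h0 := tl_ne ht l
  let _ : Invertible (t - algebraMap k K l) := invertibleOfNonzero h0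
  have h1 := eval₂_reflect_mul_pow (algebraMap k K) (t - algebraMap k K l) d (taylor l a)
    (by rw [natDegree_taylor]; exact ha)
  have h2 : eval₂ (algebraMap k K) (t - algebraMap k K l) (taylor l a) = aeval t a := by
    rw [← aeval_def, taylor_apply, aeval_comp]
    congr 2
    simp
  rw [h2] at h1
  have h3 : ⅟(t - algebraMap k K l) = sp t l := by
    rw [invOf_eq_inv]
    rfl
  rw [h3] at h1
  rw [← h1, mul_assoc, ← mul_pow, sp, mul_inv_cancel₀ h0, one_pow, mul_one]
  rfl

theorem cop {g : k[X]} {l : k} (hl : g.eval l ≠ 0) (n : ℕ) : IsCoprime ((X - C l) ^ n) g := by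
  apply IsCoprime.pow_left
  rw [(irreducible_X_sub_C l).coprime_iff_not_dvd, dvd_iff_isRoot]
  exact hl

theorem sp_mem {t : K} (ht : Transcendental k t) {g : k[X]} {l : k} (hl : g.eval l ≠ 0) :
    sp t l ∈ B1 t g := by
  refine ⟨1, X - C l, aeval_ne ht (X_sub_C_ne_zero l), ?_, ?_, ?_⟩
  · simpa using cop hl 1
  · simp
  · simp [sp]

/-- `b(t) s ^ deg b` is a unit of `B1` if `b` is prime to `g`. -/
theorem unit_mem {t : K} (ht : Transcendental k t) {g : k[X]} {l : k} (_hl : g.eval l ≠ 0)
    {b : k[X]} (hb : b ≠ 0) (hbg : IsCoprime b g) :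
    (aeval t b * sp t l ^ b.natDegree)⁻¹ ∈ B1 t g := by
  refine ⟨(X - C l) ^ b.natDegree, b, aeval_ne ht hb, hbg, ?_, ?_⟩
  · rw [natDegree_pow, natDegree_X_sub_C, mul_one]
  · rw [mul_inv, sp, inv_pow, inv_inv, map_pow, div_eq_inv_mul]
    simp

/-- The element of the Jacobson radical. -/
noncomputable def rad (t : K) (g : k[X]) (l : k) : K := aeval t g * sp t l ^ (g.natDegree + 1)

theorem rad_mem {t : K} (ht : Transcendental k t) {g : k[X]} {l : k} (hl : g.eval l ≠ 0) :
    rad t g l ∈ B1 t g := by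
  refine ⟨g, (X - C l) ^ (g.natDegree + 1), aeval_ne ht (pow_ne_zero _ (X_sub_C_ne_zero l)),
    cop hl _, ?_, ?_⟩
  · rw [natDegree_pow, natDegree_X_sub_C, mul_one]
    exact Nat.le_succ _
  · rw [rad, sp, inv_pow, map_pow, div_eq_mul_inv]
    simp

/-- `1 - y u` is a unit of `B1`. -/
theorem one_sub_unit {t : K} (ht : Transcendental k t) {g : k[X]} {l : k} (hl : g.eval l ≠ 0)
    {y : K} (hy : y ∈ B1 t g) : 1 - y * rad t g l ≠ 0 ∧ (1 - y * rad t g l)⁻¹ ∈ B1 t g := by
  obtain ⟨a, b, hb, hbg, hab, rfl⟩ := hy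
  have hb0 : b ≠ 0 := fun h => hb (by rw [h, map_zero])
  set n := g.natDegree with hn
  set D : k[X] := b * (X - C l) ^ (n + 1) with hD
  set A : k[X] := D - a * g with hA
  have hX : aeval t (X - C l) = t - algebraMap k K l := by simp
  have h0 := tl_ne ht l
  have hDd : D.natDegree = b.natDegree + (n + 1) := by
    rw [hD, natDegree_mul hb0 (pow_ne_zero _ (X_sub_C_ne_zero l)), natDegree_pow,
      natDegree_X_sub_C, mul_one]
  have hlt : (a * g).natDegree < D.natDegree := by
    rw [hDd]
    have := natDegree_mul_le (p := a) (q := g)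
    omega
  have hAd : A.natDegree = D.natDegree := natDegree_sub_eq_left_of_natDegree_lt hlt
  have hA0 : A ≠ 0 := by
    intro h
    rw [h, natDegree_zero] at hAd
    omega
  have hDK : aeval t D = aeval t b * (t - algebraMap k K l) ^ (n + 1) := by
    rw [hD, map_mul, map_pow, hX]
  have hDK0 : aeval t D ≠ 0 := by
    rw [hDK]
    exact mul_ne_zero hb (pow_ne_zero _ h0)
  have hAK : aeval t A = aeval t b * (t - algebraMap k K l) ^ (n + 1) -
      aeval t a * aeval t g := by
    rw [hA, map_sub, hDK, map_mul]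
  have hval : 1 - aeval t a / aeval t b * rad t g l = aeval t A / aeval t D := by
    rw [hAK, hDK, rad, sp, ← hn, inv_pow]
    have h1 : (t - algebraMap k K l) ^ (n + 1) ≠ 0 := pow_ne_zero _ h0
    field_simp
  rw [hval]
  refine ⟨div_ne_zero (aeval_ne ht hA0) hDK0, ?_⟩
  rw [inv_div]
  refine ⟨D, A, aeval_ne ht hA0, ?_, by rw [hAd], rfl⟩
  have h1 : IsCoprime D g := hbg.mul_left (cop hl _)
  have h2 : A = D + g * (-a) := by rw [hA]; ring
  rw [h2]
  exact (IsCoprime.add_mul_left_left_iff).2 h1

/-- Every maximal ideal of the integral closure contains the radical element. -/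
theorem rad_mem_max {t : K} (ht : Transcendental k t) {g : k[X]} {l : k} (hl : g.eval l ≠ 0)
    (m : Ideal (IC (B1 t g))) (hm : m.IsMaximal) :
    (⟨rad t g l, le_IC _ (rad_mem ht hl)⟩ : IC (B1 t g)) ∈ m := by
  let S := integralClosure (B1 t g) K
  let m' : Ideal S := m
  have hm' : m'.IsMaximal := hm
  have hn : (m'.comap (algebraMap (B1 t g) S)).IsMaximal :=
    Ideal.isMaximal_comap_of_isIntegral_of_isMaximal (R := B1 t g) (S := S) m'
  set n := m'.comap (algebraMap (B1 t g) S) with hndef
  set u : B1 t g := ⟨rad t g l, rad_mem ht hl⟩ with hu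
  have hun : u ∈ n := by
    by_contra hcon
    obtain ⟨y, i, hi, hyi⟩ := hn.exists_inv hcon
    have h1 := one_sub_unit ht hl y.2
    have h2 : i.1 = 1 - y.1 * rad t g l := by
      have := congrArg Subtype.val hyi
      simp only [Subalgebra.coe_add, Subalgebra.coe_mul, Subalgebra.coe_one, hu] at this
      rw [← this]
      ring
    have h3 : IsUnit i := by
      refine IsUnit.of_mul_eq_one ⟨(1 - y.1 * rad t g l)⁻¹, h1.2⟩ (Subtype.ext ?_)
      show i.1 * (1 - y.1 * rad t g l)⁻¹ = 1
      rw [h2, mul_inv_cancel₀ h1.1]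
    exact hn.ne_top (Ideal.eq_top_of_isUnit_mem _ hi h3)
  exact hun

/-- The coordinate `s` in the integral closure. -/
noncomputable def sg {t : K} (ht : Transcendental k t) {g : k[X]} {l : k} (hl : g.eval l ≠ 0) :
    IC (B1 t g) := ⟨sp t l, le_IC _ (sp_mem ht hl)⟩

/-- The polynomial of the radical element. -/
noncomputable def UU (g : k[X]) (l : k) : k[X] := reflect g.natDegree (taylor l g) * X

theorem rad_eq {t : K} (ht : Transcendental k t) (g : k[X]) (l : k) :
    rad t g l = aeval (sp t l) (UU g l) := by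
  rw [UU, map_mul, aeval_X, ← conv ht l le_rfl, rad, pow_succ, mul_assoc]

theorem UU_ne {t : K} (ht : Transcendental k t) {g : k[X]} (hg : g ≠ 0) (l : k) :
    UU g l ≠ 0 := by
  intro h
  have h1 := rad_eq ht g l
  rw [h, map_zero, rad] at h1
  rcases mul_eq_zero.1 h1 with h2 | h2
  · exact aeval_ne ht hg h2
  · have h3 := pow_eq_zero_iff (Nat.succ_ne_zero _) |>.1 h2
    exact inv_ne_zero (tl_ne ht l) h3

theorem aeval_sg_UU {t : K} (ht : Transcendental k t) {g : k[X]} {l : k} (hl : g.eval l ≠ 0)
    (m : Ideal (IC (B1 t g))) (hm : m.IsMaximal) : aeval (sg ht hl) (UU g l) ∈ m := by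
  have h1 := rad_mem_max ht hl m hm
  have h2 : (⟨rad t g l, le_IC _ (rad_mem ht hl)⟩ : IC (B1 t g)) = aeval (sg ht hl) (UU g l) := by
    apply Subtype.ext
    show rad t g l = _
    rw [rad_eq ht]
    exact (coe_aeval_mk_apply (p := UU g l) _ (le_IC _ (sp_mem ht hl))).symm
  rwa [← h2]

/-- Integral elements over an algebraically closed field are constant. -/
theorem int_const [IsAlgClosed k] {E : Type*} [CommRing E] [IsDomain E] [Algebra k E] {x : E}
    (hx : IsIntegral k x) : ∃ c, algebraMap k E c = x := by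
  obtain ⟨c, hc⟩ := (IsAlgClosed.algebraMap_bijective_of_isIntegral (k := k)
    (K := integralClosure k E)).2 ⟨x, hx⟩
  exact ⟨c, congrArg Subtype.val hc⟩

/-- The residue fields of the integral closure are `k`. -/
theorem residue [IsAlgClosed k] {t : K} (ht : Transcendental k t) {g : k[X]} (hg : g ≠ 0) {l : k}
    (hl : g.eval l ≠ 0) (m : Ideal (IC (B1 t g))) (hm : m.IsMaximal) :
    Function.Surjective (algebraMap k (IC (B1 t g) ⧸ m)) := by
  set E := IC (B1 t g) ⧸ m with hE
  have hnt : Nontrivial E := Ideal.Quotient.nontrivial_iff.2 hm.ne_top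
  have hdom : IsDomain E := (Ideal.Quotient.isDomain_iff_prime m).2 hm.isPrime
  let π : IC (B1 t g) →ₐ[k] E := Ideal.Quotient.mkₐ k m
  have hle : B1 t g ≤ IC (B1 t g) := fun x hx => le_IC _ hx
  let ι : B1 t g →ₐ[k] IC (B1 t g) := Subalgebra.inclusion hle
  -- the coordinate
  have h1 : aeval (π (sg ht hl)) (UU g l) = 0 := by
    rw [aeval_algHom_apply]
    exact Ideal.Quotient.eq_zero_iff_mem.2 (aeval_sg_UU ht hl m hm)
  obtain ⟨μ, hμ⟩ : ∃ μ, algebraMap k E μ = π (sg ht hl) :=
    int_const (IsAlgebraic.isIntegral ⟨UU g l, UU_ne ht hg l, h1⟩)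
  have hev : ∀ P : k[X], π (aeval (sg ht hl) P) = algebraMap k E (P.eval μ) := by
    intro P
    rw [← aeval_algHom_apply, ← hμ, aeval_algebraMap_apply, coe_aeval_eq_eval]
  -- elements of `B1`
  have h2 : ∀ b : B1 t g, ∃ β, algebraMap k E β = π (ι b) := by
    rintro ⟨x, hx⟩
    have hx' := hx
    obtain ⟨a, b, hb, hbg, hab, hxe⟩ := hx'
    have hb0 : b ≠ 0 := fun h => hb (by rw [h, map_zero])
    set d := b.natDegree with hd
    set A := reflect d (taylor l a) with hA
    set B := reflect d (taylor l b) with hB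
    have hAs := conv ht l hab
    have hBs := conv ht l (le_refl b.natDegree)
    have hsd : sp t l ^ d ≠ 0 := pow_ne_zero _ (inv_ne_zero (tl_ne ht l))
    have h3 : (ι ⟨x, hx⟩) * aeval (sg ht hl) B = aeval (sg ht hl) A := by
      apply Subtype.ext
      have e1 : ((aeval (sg ht hl) B : IC (B1 t g)) : K) = aeval (sp t l) B :=
        coe_aeval_mk_apply (p := B) _ (le_IC _ (sp_mem ht hl))
      have e2 : ((aeval (sg ht hl) A : IC (B1 t g)) : K) = aeval (sp t l) A :=
        coe_aeval_mk_apply (p := A) _ (le_IC _ (sp_mem ht hl))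
      show x * ((aeval (sg ht hl) B : IC (B1 t g)) : K) = _
      rw [e1, e2, hA, hB, ← hAs, ← hBs, hxe, ← hd]
      field_simp
    have h4 : IsUnit (aeval (sg ht hl) B) := by
      refine IsUnit.of_mul_eq_one ⟨_, le_IC _ (unit_mem ht hl hb0 hbg)⟩ (Subtype.ext ?_)
      have e1 : ((aeval (sg ht hl) B : IC (B1 t g)) : K) = aeval (sp t l) B :=
        coe_aeval_mk_apply (p := B) _ (le_IC _ (sp_mem ht hl))
      show ((aeval (sg ht hl) B : IC (B1 t g)) : K) * _ = 1
      rw [e1, hB, ← hBs]
      exact mul_inv_cancel₀ (mul_ne_zero hb hsd)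
    have h5 := h4.map π
    rw [hev] at h5
    have h6 : B.eval μ ≠ 0 := by
      intro h
      rw [h, map_zero] at h5
      exact not_isUnit_zero h5
    have h7 := congrArg π h3
    rw [map_mul, hev, hev] at h7
    refine ⟨A.eval μ / B.eval μ, ?_⟩
    have h8 : algebraMap k E (B.eval μ) * algebraMap k E (B.eval μ)⁻¹ = 1 := by
      rw [← map_mul, mul_inv_cancel₀ h6, map_one]
    rw [div_eq_mul_inv, map_mul, ← h7, mul_assoc, h8, mul_one]
  -- integral elements
  intro y
  obtain ⟨x, rfl⟩ := Ideal.Quotient.mk_surjective y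
  apply int_const
  obtain ⟨p, hp, hpx⟩ : IsIntegral (B1 t g) (x : K) := x.2
  let f : B1 t g →+* E := (π.comp ι : B1 t g →ₐ[k] E)
  have h9 : eval₂ f (π x) p = 0 := by
    have h10 : eval₂ (ι : B1 t g →+* IC (B1 t g)) x p = 0 := by
      apply Subtype.ext
      have h11 : ((eval₂ (ι : B1 t g →+* IC (B1 t g)) x p : IC (B1 t g)) : K) =
          eval₂ (algebraMap (B1 t g) K) (x : K) p := by
        have := hom_eval₂ p (ι : B1 t g →+* IC (B1 t g)) ((IC (B1 t g)).val : IC (B1 t g) →+* K) x
        exact this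
      rw [h11, hpx]
      rfl
    have h12 := congrArg π h10
    rw [map_zero] at h12
    rw [← h12]
    exact (hom_eval₂ p (ι : B1 t g →+* IC (B1 t g)) (π : IC (B1 t g) →+* E) x).symm
  have h13 : p.map f ∈ lifts (algebraMap k E) := by
    rw [lifts_iff_coeff_lifts]
    intro n
    rw [coeff_map]
    exact h2 _
  obtain ⟨q, hq, _, hqm⟩ := lifts_and_degree_eq_and_monic h13 (hp.map f)
  refine ⟨q, hqm, ?_⟩
  show eval₂ (algebraMap k E) (π x) q = 0
  rw [← eval_map, hq, eval_map]
  exact h9

theorem hom_of_max [IsAlgClosed k] {t : K} (ht : Transcendental k t) {g : k[X]} (hg : g ≠ 0)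
    {l : k} (hl : g.eval l ≠ 0) (m : Ideal (IC (B1 t g))) (hm : m.IsMaximal) :
    ∃ c : IC (B1 t g) →ₐ[k] k, ∀ a ∈ m, c a = 0 := by
  have hnt : Nontrivial (IC (B1 t g) ⧸ m) := Ideal.Quotient.nontrivial_iff.2 hm.ne_top
  let e : k ≃ₐ[k] (IC (B1 t g) ⧸ m) := AlgEquiv.ofBijective (Algebra.ofId k _)
    ⟨(algebraMap k (IC (B1 t g) ⧸ m)).injective, residue ht hg hl m hm⟩
  refine ⟨e.symm.toAlgHom.comp (Ideal.Quotient.mkₐ k m), fun a ha => ?_⟩
  show e.symm (Ideal.Quotient.mk m a) = 0
  rw [Ideal.Quotient.eq_zero_iff_mem.2 ha, map_zero]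

/-- The value of the coordinate is a root. -/
theorem hom_root {t : K} (ht : Transcendental k t) {g : k[X]} {l : k}
    (hl : g.eval l ≠ 0) (c : IC (B1 t g) →ₐ[k] k) : (UU g l).eval (c (sg ht hl)) = 0 := by
  have hs : Function.Surjective (c : IC (B1 t g) →+* k) := fun x =>
    ⟨algebraMap k _ x, c.commutes x⟩
  have h1 := aeval_sg_UU ht hl (RingHom.ker (c : IC (B1 t g) →+* k))
    (RingHom.ker_isMaximal_of_surjective _ hs)
  have h2 : c (aeval (sg ht hl) (UU g l)) = 0 := h1
  rw [← aeval_algHom_apply, coe_aeval_eq_eval] at h2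
  exact h2

/-- Linear independence over `k[s]` of elements separated by points over `s = μ`. -/
theorem indep {A : Type*} [CommRing A] [IsDomain A] [Algebra k A] {ι : Type} [Fintype ι]
    [DecidableEq ι] {σ : A} {μ : k} (hσ : σ - algebraMap k A μ ≠ 0) (c : ι → A →ₐ[k] k)
    (hc : ∀ i, c i σ = μ) (e : ι → A) (he : ∀ i, c i (e i) ≠ 0)
    (he' : ∀ i j, i ≠ j → c j (e i) = 0) (n : ℕ) :
    ∀ P : ι → k[X], (∀ i, (P i).degree < n) → ∑ i, aeval σ (P i) * e i = 0 → ∀ i, P i = 0 := by
  induction n with
  | zero =>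
    intro P hP _ i
    exact degree_eq_bot.1 (Nat.WithBot.lt_zero_iff.1 (by simpa using hP i))
  | succ n ih =>
    intro P hP hsum
    have h1 : ∀ j, (P j).eval μ = 0 := by
      intro j
      have h2 := congrArg (c j) hsum
      rw [map_sum, map_zero, Finset.sum_eq_single j] at h2
      · rw [map_mul, ← aeval_algHom_apply, hc, coe_aeval_eq_eval] at h2
        exact (mul_eq_zero.1 h2).resolve_right (he j)
      · intro i _ hij
        rw [map_mul, he' i j hij, mul_zero]
      · intro h
        exact absurd (Finset.mem_univ _) h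
    have h3 : ∀ j, ∃ Q, P j = (X - C μ) * Q := fun j => dvd_iff_isRoot.2 (h1 j)
    choose Q hQ using h3
    have hQd : ∀ j, (Q j).degree < n := by
      intro j
      by_cases h0 : Q j = 0
      · rw [h0, degree_zero]
        exact WithBot.bot_lt_coe _
      · have h4 := hP j
        rw [hQ j, degree_mul, degree_X_sub_C, degree_eq_natDegree h0] at h4
        rw [degree_eq_natDegree h0]
        norm_cast at h4 ⊢
        omega
    have hQs : ∑ i, aeval σ (Q i) * e i = 0 := by
      have h5 : (σ - algebraMap k A μ) * ∑ i, aeval σ (Q i) * e i = 0 := by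
        rw [Finset.mul_sum, ← hsum]
        refine Finset.sum_congr rfl fun i _ => ?_
        rw [hQ i, map_mul, map_sub, aeval_X, aeval_C, mul_assoc]
      exact (mul_eq_zero.1 h5).resolve_left hσ
    intro i
    rw [hQ i, ih Q hQd hQs i, mul_zero]

/-- Common denominators. -/
theorem denom {t : K} {ι : Type} [Fintype ι] [DecidableEq ι]
    (x : ι → IntermediateField.adjoin k {t}) : ∃ (Q : k[X]) (P : ι → k[X]), Q ≠ 0 ∧
      ∀ i, aeval t Q * (x i : K) = aeval t (P i) := by
  have h1 : ∀ i, ∃ p q : k[X], q ≠ 0 ∧ aeval t q * (x i : K) = aeval t p := by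
    intro i
    obtain ⟨p, q, hpq⟩ := (IntermediateField.mem_adjoin_simple_iff k (x i : K)).1 (x i).2
    by_cases hq : aeval t q = 0
    · refine ⟨0, 1, one_ne_zero, ?_⟩
      rw [hpq, hq, div_zero, mul_zero, map_zero]
    · refine ⟨p, q, fun h => hq (by rw [h, map_zero]), ?_⟩
      rw [hpq, mul_div_cancel₀ _ hq]
  choose p q hq hpq using h1
  refine ⟨∏ i, q i, fun i => p i * ∏ j ∈ Finset.univ.erase i, q j,
    Finset.prod_ne_zero_iff.2 fun i _ => hq i, fun i => ?_⟩
  rw [← Finset.mul_prod_erase Finset.univ q (Finset.mem_univ i), map_mul, map_mul, ← hpq i]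
  ring

/-- Finitely many points over `s = μ`. -/
theorem finite_fiber {t : K} (ht : Transcendental k t)
    [FiniteDimensional (IntermediateField.adjoin k {t}) K] {g : k[X]} {l : k}
    (hl : g.eval l ≠ 0) (μ : k) :
    Finite {c : IC (B1 t g) →ₐ[k] k // c (sg ht hl) = μ} := by
  classical
  by_contra hinf
  rw [not_finite_iff_infinite] at hinf
  set d := Module.finrank (IntermediateField.adjoin k {t}) K with hd
  let f := Infinite.natEmbedding {c : IC (B1 t g) →ₐ[k] k // c (sg ht hl) = μ}
  let c : Fin (d + 1) → IC (B1 t g) →ₐ[k] k := fun i => (f i.val).1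
  have hc : ∀ i, c i (sg ht hl) = μ := fun i => (f i.val).2
  have hinj : ∀ i j, i ≠ j → ∃ x, c i x ≠ c j x := by
    intro i j hij
    by_contra hcon
    push Not at hcon
    apply hij
    have h1 : c i = c j := AlgHom.ext hcon
    have h2 : f i.val = f j.val := Subtype.ext h1
    exact Fin.ext (f.injective h2)
  choose! x hx using hinj
  let e : Fin (d + 1) → IC (B1 t g) := fun i =>
    ∏ j ∈ Finset.univ.erase i, (x i j - algebraMap k _ (c j (x i j)))
  have he : ∀ i, c i (e i) ≠ 0 := by
    intro i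
    rw [map_prod]
    refine Finset.prod_ne_zero_iff.2 fun j hj => ?_
    rw [map_sub, AlgHom.commutes, sub_ne_zero]
    exact hx i j (Finset.ne_of_mem_erase hj).symm
  have he' : ∀ i j, i ≠ j → c j (e i) = 0 := by
    intro i j hij
    rw [map_prod]
    refine Finset.prod_eq_zero (Finset.mem_erase.2 ⟨hij.symm, Finset.mem_univ j⟩) ?_
    rw [map_sub, AlgHom.commutes]
    exact sub_self _
  have hσ : sg ht hl - algebraMap k (IC (B1 t g)) μ ≠ 0 := by
    intro h
    have h1 := congrArg Subtype.val h
    have h2 : sp t l = algebraMap k K μ := by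
      have : sp t l - algebraMap k K μ = 0 := h1
      exact sub_eq_zero.1 this
    have h3 : t - algebraMap k K l = (algebraMap k K μ)⁻¹ := by
      rw [← h2, sp, inv_inv]
    apply ht
    have h4 : t = algebraMap k K (l + μ⁻¹) := by
      rw [map_add, map_inv₀, ← h3]
      ring
    rw [h4]
    exact isAlgebraic_algebraMap _
  have hdep : ¬ LinearIndependent (IntermediateField.adjoin k {t}) fun i => (e i : K) := by
    intro h
    have := h.fintype_card_le_finrank
    rw [Fintype.card_fin] at this
    omega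
  obtain ⟨b, hb, i0, hi0⟩ := Fintype.not_linearIndependent_iff.1 hdep
  obtain ⟨Q, P, hQ, hP⟩ := denom b
  set M := Finset.univ.sup fun i => (P i).natDegree with hM
  have hPM : ∀ i, (P i).natDegree ≤ M := fun i =>
    Finset.le_sup (f := fun i => (P i).natDegree) (Finset.mem_univ i)
  have key := indep hσ c hc e he he' (M + 1) (fun i => reflect M (taylor l (P i))) (by
    intro i
    rw [degree_lt_iff_coeff_zero]
    intro m hm
    rw [coeff_reflect]
    have h5 : M < m := hm
    rw [revAt_eq_self_of_lt h5]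
    apply coeff_eq_zero_of_natDegree_lt
    rw [natDegree_taylor]
    exact lt_of_le_of_lt (hPM i) h5) (by
    apply Subtype.ext
    have h6 : ∀ i, ((aeval (sg ht hl) (reflect M (taylor l (P i))) : IC (B1 t g)) : K) =
        aeval t (P i) * sp t l ^ M := by
      intro i
      rw [conv ht l (hPM i)]
      exact coe_aeval_mk_apply _ (le_IC _ (sp_mem ht hl))
    rw [AddSubmonoidClass.coe_finsetSum]
    show ∑ i, ((aeval (sg ht hl) (reflect M (taylor l (P i))) : IC (B1 t g)) : K) * (e i : K) = 0
    have h7 : ∀ i, ((aeval (sg ht hl) (reflect M (taylor l (P i))) : IC (B1 t g)) : K) *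
        (e i : K) = (aeval t Q * sp t l ^ M) * (b i • (e i : K)) := by
      intro i
      rw [h6, ← hP i]
      have : b i • (e i : K) = (b i : K) * (e i : K) := rfl
      rw [this]
      ring
    simp_rw [h7]
    rw [← Finset.mul_sum, hb, mul_zero]) i0
  apply hi0
  have h8 := conv ht l (hPM i0)
  rw [key, map_zero] at h8
  have hsM : sp t l ^ M ≠ 0 := pow_ne_zero _ (inv_ne_zero (tl_ne ht l))
  have h9 : aeval t (P i0) = 0 := (mul_eq_zero.1 h8).resolve_right hsM
  rw [← hP i0] at h9
  have h10 : (b i0 : K) = 0 := (mul_eq_zero.1 h9).resolve_left (aeval_ne ht hQ)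
  exact Subtype.ext h10

end ClosedIC1

open ClosedIC1 in
/-- F3e: closed points of the second chart: finitely many. -/
theorem closed_IC1 {k : Type u} [Field k] {K : Type w} [Field K] [Algebra k K]
    [IsAlgClosed k] {t : K} (ht : Transcendental k t)
    [FiniteDimensional (IntermediateField.adjoin k {t}) K]
    [Algebra.IsSeparable (IntermediateField.adjoin k {t}) K] {g : Polynomial k} (hg : g ≠ 0) :
    Finite (IC (B1 t g) →ₐ[k] k) ∧
      ∀ a : IC (B1 t g), (∀ c : IC (B1 t g) →ₐ[k] k, c a ≠ 0) → IsUnit a := by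
  classical
  obtain ⟨l, hl⟩ : ∃ l, g.eval l ≠ 0 := by
    by_contra hcon
    push Not at hcon
    exact hg (Polynomial.funext fun x => by rw [hcon x, eval_zero])
  constructor
  · rw [← Set.finite_univ_iff]
    have h1 : ((UU g l).roots.toFinset : Set k).Finite := Finset.finite_toSet _
    have h2 := h1.preimage' (f := fun c : IC (B1 t g) →ₐ[k] k => c (sg ht hl)) (fun μ _ => by
      have h3 : Finite ((fun c : IC (B1 t g) →ₐ[k] k => c (sg ht hl)) ⁻¹' {μ}) :=
        finite_fiber ht hl μ
      exact Set.toFinite _)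
    refine h2.subset fun c _ => ?_
    rw [Set.mem_preimage, Finset.mem_coe, Multiset.mem_toFinset, mem_roots (UU_ne ht hg l)]
    exact hom_root ht hl c
  · intro a ha
    by_contra hu
    obtain ⟨m, hm, ham⟩ := exists_max_ideal_of_mem_nonunits hu
    obtain ⟨c, hc⟩ := hom_of_max ht hg hl m hm
    exact ha c (hc a ham)

end Vale.Agent.P292.Mo
end

section

/-!
# Power series expansion at a regular closed point of an affine curve (P292, note 9318)
-/

namespace Vale.Agent.P292.Mo

universe u v

section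

variable {k : Type u} [Field k] {O : Type v} [CommRing O] [IsDomain O] [Algebra k O]

/-- Power series expansion along a prime element whose residue ring is the base field; the
prime element goes to the variable. -/
theorem exists_expansion_X (ϖ : O) (h0 : ϖ ≠ 0) (hu : ¬ IsUnit ϖ)
    (hs : ∀ x : O, ∃ c : k, ϖ ∣ x - algebraMap k O c) :
    ∃ E : O →ₐ[k] PowerSeries k, E ϖ = PowerSeries.X := by
  classical
  have hs' : ∀ x : O, ∃ c : k, ∃ y : O, x = algebraMap k O c + ϖ * y := by
    intro x
    obtain ⟨c, y, hy⟩ := hs x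
    exact ⟨c, y, by rw [← hy]; ring⟩
  choose c y hcy using hs'
  have huniq : ∀ (a b : k) (u v : O), algebraMap k O a + ϖ * u = algebraMap k O b + ϖ * v →
      a = b ∧ u = v := by
    intro a b u v h
    have hab : a = b := by
      by_contra hne
      apply hu
      have hd : ϖ ∣ algebraMap k O (a - b) := ⟨v - u, by rw [map_sub]; linear_combination h⟩
      exact isUnit_of_dvd_unit hd ((IsUnit.mk0 _ (sub_ne_zero.mpr hne)).map (algebraMap k O))
    subst hab
    exact ⟨rfl, mul_left_cancel₀ h0 (add_left_cancel h)⟩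
  have hadd : ∀ x x', c (x + x') = c x + c x' ∧ y (x + x') = y x + y x' := by
    intro x x'
    apply huniq
    rw [← hcy (x + x'), map_add]
    conv_lhs => rw [hcy x, hcy x']
    ring
  have hsmul : ∀ (a : k) x, c (algebraMap k O a * x) = a * c x ∧
      y (algebraMap k O a * x) = algebraMap k O a * y x := by
    intro a x
    apply huniq
    rw [← hcy (algebraMap k O a * x), map_mul]
    conv_lhs => rw [hcy x]
    ring
  have hmul : ∀ x x', c (x * x') = c x * c x' ∧
      y (x * x') = algebraMap k O (c x) * y x' + y x * x' := by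
    intro x x'
    apply huniq
    rw [← hcy (x * x'), map_mul]
    have h1 := hcy x
    have h2 := hcy x'
    calc x * x' = (algebraMap k O (c x) + ϖ * y x) * x' := by rw [← h1]
      _ = algebraMap k O (c x) * x' + ϖ * (y x * x') := by ring
      _ = algebraMap k O (c x) * (algebraMap k O (c x') + ϖ * y x') + ϖ * (y x * x') := by
          rw [← h2]
      _ = _ := by ring
  let E : O → PowerSeries k := fun x => PowerSeries.mk (fun n => c (y^[n] x))
  have hE0 : ∀ x, PowerSeries.coeff 0 (E x) = c x := by intro x; simp [E]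
  have hEs : ∀ n x, PowerSeries.coeff (n + 1) (E x) = PowerSeries.coeff n (E (y x)) := by
    intro n x; simp [E]
  have hErec : ∀ x, E x = PowerSeries.C (c x) + PowerSeries.X * E (y x) := by
    intro x
    ext n
    cases n with
    | zero => simp [E]
    | succ n =>
      rw [hEs, map_add, PowerSeries.coeff_succ_X_mul, PowerSeries.coeff_C]
      simp
  have hEadd : ∀ x x', E (x + x') = E x + E x' := by
    have : ∀ n, ∀ x x', PowerSeries.coeff n (E (x + x')) =
        PowerSeries.coeff n (E x) + PowerSeries.coeff n (E x') := by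
      intro n
      induction n with
      | zero => intro x x'; rw [hE0, hE0, hE0, (hadd x x').1]
      | succ n ih => intro x x'; rw [hEs, hEs, hEs, (hadd x x').2, ih]
    intro x x'; ext n; rw [this, map_add]
  have hEsmul : ∀ (a : k) x, E (algebraMap k O a * x) = PowerSeries.C a * E x := by
    have : ∀ n, ∀ (a : k) x, PowerSeries.coeff n (E (algebraMap k O a * x)) =
        a * PowerSeries.coeff n (E x) := by
      intro n
      induction n with
      | zero => intro a x; rw [hE0, hE0, (hsmul a x).1]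
      | succ n ih => intro a x; rw [hEs, hEs, (hsmul a x).2, ih]
    intro a x; ext n; rw [this, PowerSeries.coeff_C_mul]
  have hEmul : ∀ x x', E (x * x') = E x * E x' := by
    have : ∀ n, ∀ x x', PowerSeries.coeff n (E (x * x')) =
        PowerSeries.coeff n (E x * E x') := by
      intro n
      induction n with
      | zero =>
        intro x x'
        have h1 := hE0 x
        have h2 := hE0 x'
        rw [PowerSeries.coeff_zero_eq_constantCoeff_apply] at h1 h2
        rw [hE0, (hmul x x').1, PowerSeries.coeff_zero_eq_constantCoeff_apply, map_mul, h1, h2]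
      | succ n ih =>
        intro x x'
        rw [hEs, (hmul x x').2, hEadd, hEsmul, map_add, ih]
        conv_rhs => rw [hErec x, add_mul, map_add, PowerSeries.coeff_C_mul, hEs, mul_assoc,
          PowerSeries.coeff_succ_X_mul]
        rw [PowerSeries.coeff_C_mul]
    intro x x'; ext n; rw [this]
  have hE00 : E 0 = 0 := by
    have := hEadd 0 0
    rw [add_zero] at this
    simpa using this
  have hE1 : E 1 = 1 := by
    have hc1 := huniq (c 1) 1 (y 1) 0 (by rw [← hcy 1]; simp)
    rw [hErec 1, hc1.1, hc1.2, hE00]; simp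
  have hEC : ∀ a : k, E (algebraMap k O a) = PowerSeries.C a := by
    intro a
    have := hEsmul a 1
    rwa [mul_one, hE1, mul_one] at this
  refine ⟨{ toFun := E
            map_one' := by rw [← map_one (algebraMap k O), hEC, map_one]
            map_mul' := hEmul
            map_zero' := by rw [← map_zero (algebraMap k O), hEC, map_zero]
            map_add' := hEadd
            commutes' := fun a => by rw [hEC]; rfl }, ?_⟩
  have := huniq (c ϖ) 0 (y ϖ) 1 (by rw [← hcy ϖ]; simp)
  show E ϖ = PowerSeries.X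
  rw [hErec ϖ, this.1, this.2, hE1]
  simp

omit [IsDomain O] in
/-- The order of the expansion is the divisibility by the prime element. -/
theorem X_pow_dvd_iff_of_expansion (ϖ : O) (hs : ∀ x : O, ∃ c : k, ϖ ∣ x - algebraMap k O c)
    (E : O →ₐ[k] PowerSeries k) (hE : E ϖ = PowerSeries.X) (n : ℕ) :
    ∀ x : O, PowerSeries.X ^ n ∣ E x ↔ ϖ ^ n ∣ x := by
  induction n with
  | zero => intro x; simp
  | succ n ih =>
    intro x
    constructor
    · intro h
      obtain ⟨c, y, hy⟩ := hs x
      have h1 : PowerSeries.constantCoeff (E x) = 0 := by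
        rw [← PowerSeries.X_dvd_iff]
        exact (dvd_pow_self _ (Nat.succ_ne_zero n)).trans h
      have h2 : E x = PowerSeries.C c + PowerSeries.X * E y := by
        have : x = algebraMap k O c + ϖ * y := by rw [← hy]; ring
        conv_lhs => rw [this]
        rw [map_add, map_mul, hE, AlgHom.commutes]
        rfl
      have hc : c = 0 := by
        rw [h2] at h1
        simpa using h1
      subst hc
      rw [map_zero, sub_zero] at hy
      rw [map_zero, zero_add] at h2
      rw [h2, pow_succ'] at h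
      have h3 := (mul_dvd_mul_iff_left PowerSeries.X_ne_zero).mp h
      rw [hy, pow_succ']
      exact mul_dvd_mul_left _ ((ih y).mp h3)
    · rintro ⟨y, rfl⟩
      rw [map_mul, map_pow, hE]
      exact dvd_mul_right _ _

end

/-- **Expansion at a closed point whose local ring is a discrete valuation ring.** -/
theorem exists_expansion_at {k : Type u} [Field k] {A : Type v} [CommRing A] [IsDomain A]
    [Algebra k A] (c : A →ₐ[k] k) (m : Ideal A) [hmp : m.IsPrime] (hm : ∀ a, a ∈ m ↔ c a = 0)
    [IsDiscreteValuationRing (Localization.AtPrime m)] :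
    ∃ ex : A →ₐ[k] PowerSeries k, Function.Injective ex ∧
      (∀ a, PowerSeries.constantCoeff (ex a) = c a) ∧
      (∀ (n : ℕ) (f : PowerSeries k), ∃ a, PowerSeries.X ^ n ∣ f - ex a) ∧
      (∀ (n : ℕ) (a : A), PowerSeries.X ^ n ∣ ex a ↔ a ∈ m ^ n) := by
  classical
  let O := Localization.AtPrime m
  obtain ⟨ϖ, hϖ⟩ := IsDiscreteValuationRing.exists_irreducible O
  have hmax : IsLocalRing.maximalIdeal O = Ideal.span {ϖ} := hϖ.maximalIdeal_eq
  have hmapm : Ideal.map (algebraMap A O) m = Ideal.span {ϖ} := by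
    rw [Localization.AtPrime.map_eq_maximalIdeal, hmax]
  have hdvd : ∀ a ∈ m, ϖ ∣ algebraMap A O a := by
    intro a ha
    rw [← Ideal.mem_span_singleton, ← hmapm]
    exact Ideal.mem_map_of_mem _ ha
  have halg : ∀ z : k, algebraMap A O (algebraMap k A z) = algebraMap k O z := fun z =>
    (IsScalarTower.algebraMap_apply k A O z).symm
  have hca : ∀ a, a - algebraMap k A (c a) ∈ m := by
    intro a
    rw [hm, map_sub, AlgHom.commutes]
    simp
  -- inverses modulo powers of m
  have hinv : ∀ s : A, s ∉ m → ∀ n : ℕ, ∃ t : A, 1 - s * t ∈ m ^ n := by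
    intro s hs n
    have hcs : c s ≠ 0 := fun h => hs ((hm s).mpr h)
    have h1 : 1 - s * algebraMap k A (c s)⁻¹ ∈ m := by
      rw [hm, map_sub, map_mul, AlgHom.commutes, map_one]
      simp [hcs]
    set q := 1 - s * algebraMap k A (c s)⁻¹ with hq
    refine ⟨algebraMap k A (c s)⁻¹ * ∑ i ∈ Finset.range n, q ^ i, ?_⟩
    have h2 : 1 - s * (algebraMap k A (c s)⁻¹ * ∑ i ∈ Finset.range n, q ^ i) = q ^ n := by
      have h3 : s * algebraMap k A (c s)⁻¹ = 1 - q := by rw [hq]; ring
      rw [← mul_assoc, h3, mul_neg_geom_sum]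
      ring
    rw [h2]
    exact Ideal.pow_mem_pow h1 n
  have hfrac : ∀ x : O, ∃ (a s : A), s ∉ m ∧ x * algebraMap A O s = algebraMap A O a := by
    intro x
    obtain ⟨⟨a, s⟩, h⟩ := IsLocalization.surj m.primeCompl x
    exact ⟨a, s, s.2, h⟩
  have hunit : ∀ s : A, s ∉ m → IsUnit (algebraMap A O s) := fun s hs =>
    IsLocalization.map_units O (⟨s, hs⟩ : m.primeCompl)
  -- approximation
  have happ : ∀ (n : ℕ) (x : O), ∃ a : A, ϖ ^ n ∣ x - algebraMap A O a := by
    intro n x
    obtain ⟨a, s, hs, hx⟩ := hfrac x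
    obtain ⟨t, ht⟩ := hinv s hs n
    refine ⟨a * t, ?_⟩
    have h1 : ϖ ^ n ∣ algebraMap A O (1 - s * t) := by
      have : algebraMap A O (1 - s * t) ∈ Ideal.span {ϖ ^ n} := by
        rw [← Ideal.span_singleton_pow, ← hmapm, ← Ideal.map_pow]
        exact Ideal.mem_map_of_mem _ ht
      rwa [Ideal.mem_span_singleton] at this
    have h2 : (x - algebraMap A O (a * t)) = x * algebraMap A O (1 - s * t) := by
      rw [map_sub, map_mul, map_mul, map_one, mul_sub, mul_one, ← mul_assoc, hx]
    rw [h2]
    exact h1.mul_left _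
  have hs : ∀ x : O, ∃ z : k, ϖ ∣ x - algebraMap k O z := by
    intro x
    obtain ⟨a, ha⟩ := happ 1 x
    rw [pow_one] at ha
    refine ⟨c a, ?_⟩
    have h1 := hdvd _ (hca a)
    rw [map_sub, halg] at h1
    have := dvd_add ha h1
    rwa [sub_add_sub_cancel] at this
  obtain ⟨E, hE⟩ := exists_expansion_X (k := k) ϖ hϖ.ne_zero hϖ.not_isUnit hs
  have hX := X_pow_dvd_iff_of_expansion ϖ hs E hE
  have hmem : ∀ (n : ℕ) (a : A), ϖ ^ n ∣ algebraMap A O a ↔ a ∈ m ^ n := by
    intro n a
    constructor
    · intro h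
      have h1 : algebraMap A O a ∈ Ideal.map (algebraMap A O) (m ^ n) := by
        rw [Ideal.map_pow, hmapm, Ideal.span_singleton_pow, Ideal.mem_span_singleton]
        exact h
      rw [IsLocalization.mem_map_algebraMap_iff m.primeCompl] at h1
      obtain ⟨⟨b, s⟩, hb⟩ := h1
      rw [← map_mul] at hb
      obtain ⟨r, hr⟩ := (IsLocalization.eq_iff_exists m.primeCompl O).mp hb
      have hr0 : (r : A) ≠ 0 := by
        intro h0
        apply r.2
        rw [h0]
        exact m.zero_mem
      have hb' : a * (s : A) = b := mul_left_cancel₀ hr0 hr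
      obtain ⟨t, ht⟩ := hinv s s.2 n
      have h2 : a = a * (1 - (s : A) * t) + t * b := by rw [← hb']; ring
      rw [h2]
      exact Ideal.add_mem _ (Ideal.mul_mem_left _ _ ht) (Ideal.mul_mem_left _ _ b.2)
    · intro h
      rw [← Ideal.mem_span_singleton, ← Ideal.span_singleton_pow, ← hmapm, ← Ideal.map_pow]
      exact Ideal.mem_map_of_mem _ h
  have hinj : Function.Injective (algebraMap A O) :=
    IsLocalization.injective O m.primeCompl_le_nonZeroDivisors
  let ex : A →ₐ[k] PowerSeries k := E.comp (IsScalarTower.toAlgHom k A O)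
  have hex : ∀ a, ex a = E (algebraMap A O a) := fun a => rfl
  refine ⟨ex, ?_, ?_, ?_, ?_⟩
  · rw [injective_iff_map_eq_zero]
    intro a ha
    by_contra ha0
    have h1 : algebraMap A O a ≠ 0 := fun h => ha0 (hinj (h.trans (map_zero _).symm))
    obtain ⟨n, hn⟩ := IsDiscreteValuationRing.associated_pow_irreducible h1 hϖ
    have h2 : ϖ ^ (n + 1) ∣ algebraMap A O a := by
      rw [← hX, ← hex, ha]
      exact dvd_zero _
    have h3 := h2.trans hn.dvd
    have h4 : n + 1 ≤ n := (pow_dvd_pow_iff hϖ.ne_zero hϖ.not_isUnit).mp h3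
    omega
  · intro a
    have h1 : PowerSeries.X ^ 1 ∣ ex (a - algebraMap k A (c a)) := by
      rw [hex, hX, pow_one]
      exact hdvd _ (hca a)
    rw [pow_one, PowerSeries.X_dvd_iff, map_sub, map_sub, AlgHom.commutes, sub_eq_zero] at h1
    rw [h1]
    simp
  · intro n f
    obtain ⟨a, ha⟩ := happ n (∑ i ∈ Finset.range n, algebraMap k O (PowerSeries.coeff i f) * ϖ ^ i)
    refine ⟨a, ?_⟩
    have h1 := (hX n _).mpr ha
    rw [map_sub, ← hex] at h1
    have h2 : E (∑ i ∈ Finset.range n, algebraMap k O (PowerSeries.coeff i f) * ϖ ^ i) =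
        ∑ i ∈ Finset.range n, PowerSeries.C (PowerSeries.coeff i f) * PowerSeries.X ^ i := by
      rw [map_sum]
      refine Finset.sum_congr rfl fun i _ => ?_
      rw [map_mul, map_pow, hE, AlgHom.commutes]
      rfl
    rw [h2] at h1
    have h3 : PowerSeries.X ^ n ∣ f -
        ∑ i ∈ Finset.range n, PowerSeries.C (PowerSeries.coeff i f) * PowerSeries.X ^ i := by
      rw [PowerSeries.X_pow_dvd_iff]
      intro j hj
      rw [map_sub, map_sum, Finset.sum_eq_single j]
      · rw [PowerSeries.coeff_C_mul, PowerSeries.coeff_X_pow, if_pos rfl, mul_one, sub_self]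
      · intro i _ hij
        rw [PowerSeries.coeff_C_mul, PowerSeries.coeff_X_pow, if_neg (Ne.symm hij), mul_zero]
      · intro hj'
        exact absurd (Finset.mem_range.mpr hj) hj'
    have := dvd_add h3 h1
    rwa [sub_add_sub_cancel] at this
  · intro n a
    rw [hex, hX, hmem]

end Vale.Agent.P292.Mo
end
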