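import Mathlib
import Vale.Agent.P292.Bn.N1

set_option linter.all false

section

/-! Roots of polynomials over valuation rings; the generic point of a divisor is met. -/

namespace Vale.Agent.P292

open Polynomial

universe u v

/-- A polynomial with coefficients in a valuation ring of an algebraically closed field, whose
constant coefficient is not a unit and one of whose coefficients is a unit, has a root in the
maximal ideal. -/
theorem exists_root_lt_one {K : Type u} [Field K] [IsAlgClosed K] (O : ValuationSubring K)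
    (p : K[X]) (hp : ∀ i, O.valuation (p.coeff i) ≤ 1) (h0 : O.valuation (p.coeff 0) < 1)
    (h1 : ∃ i, O.valuation (p.coeff i) = 1) : ∃ a : K, O.valuation a < 1 ∧ p.eval a = 0 := by
  classical
  have hp0 : p ≠ 0 := by
    rintro rfl
    obtain ⟨i, hi⟩ := h1
    rw [coeff_zero, map_zero] at hi
    exact zero_ne_one hi
  by_contra hcon
  push Not at hcon
  -- all the roots have valuation at least one
  have hroot : ∀ a ∈ p.roots, 1 ≤ O.valuation a := by
    intro a ha
    by_contra hlt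
    exact hcon a (not_le.1 hlt) (isRoot_of_mem_roots ha)
  -- bound for the coefficients of a product
  have key : ∀ m : Multiset K, (∀ a ∈ m, 1 ≤ O.valuation a) →
      ∀ i, O.valuation ((m.map fun a => X - C a).prod.coeff i) ≤
        O.valuation ((m.map fun a => X - C a).prod.coeff 0) := by
    intro m
    induction m using Multiset.induction_on with
    | empty =>
      intro _ i
      simp only [Multiset.map_zero, Multiset.prod_zero]
      rcases i with _ | i
      · exact le_rfl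
      · rw [coeff_one, if_neg (Nat.succ_ne_zero i).symm.symm, map_zero]
        exact zero_le
    | cons a m ih =>
      intro hm i
      have ih' := ih fun b hb => hm b (Multiset.mem_cons_of_mem hb)
      have ha := hm a (Multiset.mem_cons_self a m)
      rw [Multiset.map_cons, Multiset.prod_cons]
      set q := (m.map fun a => X - C a).prod with hq
      have hc0 : ((X - C a) * q).coeff 0 = -(a * q.coeff 0) := by
        rw [sub_mul, coeff_sub, coeff_C_mul, mul_coeff_zero, coeff_X_zero, zero_mul, zero_sub]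
      rw [hc0, Valuation.map_neg, map_mul]
      have hle : O.valuation (q.coeff 0) ≤ O.valuation a * O.valuation (q.coeff 0) :=
        le_mul_of_one_le_left' ha
      rcases i with _ | i
      · rw [hc0, Valuation.map_neg, map_mul]
      · rw [sub_mul, coeff_sub, coeff_C_mul, coeff_X_mul]
        refine (O.valuation.map_sub _ _).trans (max_le ?_ ?_)
        · exact (ih' i).trans hle
        · rw [map_mul]
          exact mul_le_mul_right (ih' (i + 1)) _
  obtain ⟨i, hi⟩ := h1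
  have hsplit : p = C p.leadingCoeff * (p.roots.map fun a => X - C a).prod :=
    (IsAlgClosed.splits p).eq_prod_roots
  have h2 := key p.roots hroot i
  have h3 : O.valuation (p.coeff i) ≤ O.valuation (p.coeff 0) := by
    rw [hsplit, coeff_C_mul, coeff_C_mul, map_mul, map_mul]
    exact mul_le_mul_right h2 _
  rw [hi] at h3
  exact absurd h0 (not_lt.2 h3)

/-- The prime version: a family of polynomials over a valuation ring whose values at `0` reduce
to the generic point of `P` has a root near `0` in `V(g₀)`, `g₀ ∈ P`, which is not outside of the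
locus `P`. -/
theorem exists_root_family {A : Type v} [CommRing A] {K : Type u} [Field K] [IsAlgClosed K]
    (O : ValuationSubring K) (f : A →+* K[X]) (hf : ∀ r i, O.valuation ((f r).coeff i) ≤ 1)
    {g₀ : A} (hg : O.valuation ((f g₀).coeff 0) < 1)
    (hg' : ∃ i, O.valuation ((f g₀).coeff i) = 1) :
    ∃ a : K, O.valuation a < 1 ∧ (f g₀).eval a = 0 ∧
      ∀ r, (f r).eval a = 0 → O.valuation ((f r).coeff 0) < 1 := by
  obtain ⟨a, ha, ha0⟩ := exists_root_lt_one O (f g₀) (hf g₀) hg hg'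
  refine ⟨a, ha, ha0, fun r hr => ?_⟩
  have h1 : f r = divX (f r) * X + C ((f r).coeff 0) := (divX_mul_X_add (f r)).symm
  have h2 : (f r).coeff 0 = -((divX (f r)).eval a * a) := by
    have h3 : (divX (f r)).eval a * a + (f r).coeff 0 = 0 := by
      have h4 := congrArg (eval a) h1
      rw [hr, eval_add, eval_mul, eval_X, eval_C] at h4
      exact h4.symm
    linear_combination h3
  have h5 : O.valuation ((divX (f r)).eval a) ≤ 1 := by
    rw [eval_eq_sum_range]
    refine O.valuation.map_sum_le fun i _ => ?_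
    rw [map_mul, map_pow, coeff_divX]
    exact mul_le_one' (hf r (i + 1)) (pow_le_one₀ zero_le ha.le)
  rw [h2, Valuation.map_neg, map_mul]
  exact (mul_le_of_le_one_left' h5).trans_lt ha

/-- If moreover `A` is a domain and the prime of the elements whose value at `0` is not a unit
contains no smaller nonzero prime, then all its elements vanish at the root. -/
theorem exists_root_prime {A : Type v} [CommRing A] {K : Type u} [Field K] [IsAlgClosed K]
    (O : ValuationSubring K) (f : A →+* K[X]) (hf : ∀ r i, O.valuation ((f r).coeff i) ≤ 1)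
    (P : Ideal A) (hP : ∀ r, r ∈ P ↔ O.valuation ((f r).coeff 0) < 1)
    (hmin : ∀ Q : Ideal A, Q.IsPrime → Q ≤ P → Q ≠ ⊥ → Q = P)
    {g₀ : A} (hg : g₀ ∈ P) (hg0 : g₀ ≠ 0)
    (hg' : ∃ i, O.valuation ((f g₀).coeff i) = 1) :
    ∃ a : K, O.valuation a < 1 ∧ ∀ r, (f r).eval a = 0 ↔ r ∈ P := by
  obtain ⟨a, ha, ha0, hle⟩ := exists_root_family O f hf ((hP g₀).1 hg) hg'
  refine ⟨a, ha, ?_⟩
  let Q : Ideal A := RingHom.ker ((evalRingHom a).comp f)
  have hQ : ∀ r, r ∈ Q ↔ (f r).eval a = 0 := fun r => RingHom.mem_ker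
  have hQP : Q ≤ P := fun r hr => (hP r).2 (hle r ((hQ r).1 hr))
  have h1 : Q = P := hmin Q (RingHom.ker_isPrime _) hQP (fun hbot => hg0 (by
    have h2 : g₀ ∈ Q := (hQ g₀).2 ha0
    rw [hbot] at h2
    exact h2))
  intro r
  rw [← hQ, h1]

end Vale.Agent.P292
end

section

/-! # P292, Mori step, block II.b: relative dimensions and the index of pairs of subspaces. -/

namespace Vale.Agent.P292.Mo

open Module Submodule

section basics

variable {k V : Type*} [Field k] [AddCommGroup V] [Module k V]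

/-- `L / (L ∩ D)` is finite dimensional. -/
def Fc (D L : Submodule k V) : Prop := Module.Finite k (L.map D.mkQ)

/-- The dimension of `L / (L ∩ D)`. -/
noncomputable def cod (D L : Submodule k V) : ℕ := finrank k (L.map D.mkQ)

theorem Fc.mono_right {D L L' : Submodule k V} (h : Fc D L) (hL : L' ≤ L) : Fc D L' := by
  have : Module.Finite k (L.map D.mkQ) := h
  exact Submodule.finiteDimensional_of_le (Submodule.map_mono hL)

theorem factor_map {D D' : Submodule k V} (hD : D ≤ D') (L : Submodule k V) :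
    (L.map D.mkQ).map (Submodule.factor hD) = L.map D'.mkQ := by
  rw [← Submodule.map_comp]
  congr 1

theorem Fc.mono_left {D D' L : Submodule k V} (h : Fc D L) (hD : D ≤ D') : Fc D' L := by
  have : Module.Finite k (L.map D.mkQ) := h
  rw [Fc, ← factor_map hD L]
  infer_instance

/-- `cod` only depends on `D ∩ L`. -/
theorem cod_eq_of_inf {D D' L : Submodule k V} (hD : D ≤ D') (h : D' ⊓ L ≤ D) :
    cod D L = cod D' L ∧ (Fc D L ↔ Fc D' L) := by
  have hinj : Function.Injective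
      ((Submodule.factor hD).domRestrict (L.map D.mkQ)) := by
    rw [← LinearMap.ker_eq_bot, LinearMap.ker_eq_bot']
    rintro ⟨x, hx⟩ h0
    obtain ⟨l, hl, rfl⟩ := hx
    rw [LinearMap.domRestrict_apply] at h0
    have h1 : D'.mkQ l = 0 := h0
    rw [mkQ_apply, Submodule.Quotient.mk_eq_zero] at h1
    have h2 : l ∈ D := h ⟨h1, hl⟩
    apply Subtype.ext
    change D.mkQ l = 0
    rw [mkQ_apply, Submodule.Quotient.mk_eq_zero]
    exact h2
  let e := LinearEquiv.ofInjective _ hinj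
  have hr : LinearMap.range ((Submodule.factor hD).domRestrict (L.map D.mkQ)) =
      L.map D'.mkQ := by
    rw [← factor_map hD L, LinearMap.range_domRestrict]
  constructor
  · rw [cod, cod, ← hr]
    exact LinearEquiv.finrank_eq e
  · rw [Fc, Fc, ← hr]
    exact ⟨fun _ => Module.Finite.equiv e, fun _ => Module.Finite.equiv e.symm⟩

theorem cod_sup {D L : Submodule k V} : cod D (L ⊔ D) = cod D L ∧ (Fc D (L ⊔ D) ↔ Fc D L) := by
  have h : (L ⊔ D).map D.mkQ = L.map D.mkQ := by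
    rw [Submodule.map_sup]
    have : D.map D.mkQ = ⊥ := by
      rw [Submodule.mkQ_map_self]
    rw [this, sup_bot_eq]
  rw [cod, cod, Fc, Fc, h]
  exact ⟨rfl, Iff.rfl⟩

/-- Additivity of relative dimensions. -/
theorem cod_add {D E L : Submodule k V} (hDE : D ≤ E) (hEL : E ≤ L) (h1 : Fc D E) (h2 : Fc E L) :
    Fc D L ∧ cod D L = cod D E + cod E L := by
  have f1 : Module.Finite k (E.map D.mkQ) := h1
  have f2 : Module.Finite k (L.map E.mkQ) := h2
  let g : ↥(L.map D.mkQ) →ₗ[k] V ⧸ E := (Submodule.factor hDE).domRestrict (L.map D.mkQ)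
  have hr : LinearMap.range g = L.map E.mkQ := by
    rw [← factor_map hDE L, LinearMap.range_domRestrict]
  have hk : (LinearMap.ker g).map (L.map D.mkQ).subtype = E.map D.mkQ := by
    ext x
    constructor
    · rintro ⟨⟨y, hy⟩, h, rfl⟩
      obtain ⟨l, hl, rfl⟩ := hy
      have h3 : E.mkQ l = 0 := h
      rw [mkQ_apply, Submodule.Quotient.mk_eq_zero] at h3
      exact ⟨l, h3, rfl⟩
    · rintro ⟨e, he, rfl⟩
      refine ⟨⟨D.mkQ e, ⟨e, hEL he, rfl⟩⟩, ?_, rfl⟩
      change E.mkQ e = 0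
      rw [mkQ_apply, Submodule.Quotient.mk_eq_zero]
      exact he
  have ek : LinearMap.ker g ≃ₗ[k] ↥(E.map D.mkQ) := by
    rw [← hk]
    exact Submodule.equivMapOfInjective _ (Submodule.injective_subtype _) _
  have f3 : Module.Finite k (LinearMap.ker g) := Module.Finite.equiv ek.symm
  have f4 : Module.Finite k (LinearMap.range g) := by rw [hr]; exact f2
  have f5 : Module.Finite k (L.map D.mkQ) := by
    have : Module.Finite k (↥(L.map D.mkQ) ⧸ LinearMap.ker g) :=
      Module.Finite.equiv g.quotKerEquivRange.symm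
    exact Module.Finite.of_submodule_quotient (LinearMap.ker g)
  refine ⟨f5, ?_⟩
  have h3 := LinearMap.finrank_range_add_finrank_ker g
  rw [cod, cod, cod, ← h3, hr, LinearEquiv.finrank_eq ek, add_comm]

theorem Fc.of_add {D E L : Submodule k V} (hDE : D ≤ E) (hEL : E ≤ L) (h : Fc D L) :
    Fc D E ∧ Fc E L := ⟨h.mono_right hEL, h.mono_left hDE⟩

theorem fc_self (L : Submodule k V) : Fc L L := by
  have : L.map L.mkQ = ⊥ := Submodule.mkQ_map_self L
  rw [Fc, this]
  infer_instance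

theorem Fc.of_le {D L : Submodule k V} (h : L ≤ D) : Fc D L := (fc_self D).mono_right h

theorem cod_of_le {D L : Submodule k V} (h : L ≤ D) : cod D L = 0 := by
  have h1 : L.map D.mkQ = ⊥ := by
    rw [eq_bot_iff, ← Submodule.mkQ_map_self D]
    exact Submodule.map_mono h
  rw [cod, h1, finrank_bot]

theorem cod_bot (L : Submodule k V) : cod ⊥ L = finrank k L ∧ (Fc ⊥ L ↔ Module.Finite k L) := by
  have hinj : Function.Injective ((⊥ : Submodule k V).mkQ) := by
    rw [← LinearMap.ker_eq_bot, Submodule.ker_mkQ]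
  let e := Submodule.equivMapOfInjective _ hinj L
  exact ⟨(LinearEquiv.finrank_eq e).symm,
    ⟨fun h => by
      have : Module.Finite k (L.map (⊥ : Submodule k V).mkQ) := h
      exact Module.Finite.equiv e.symm,
    fun _ => Module.Finite.equiv e⟩⟩

theorem cod_top (D : Submodule k V) : cod D ⊤ = finrank k (V ⧸ D) ∧
    (Fc D ⊤ ↔ Module.Finite k (V ⧸ D)) := by
  have h1 : (⊤ : Submodule k V).map D.mkQ = ⊤ := by
    rw [Submodule.map_top, Submodule.range_mkQ]
  constructor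
  · rw [cod, h1, finrank_top]
  · rw [Fc, h1]
    exact ⟨fun _ => Module.Finite.equiv (Submodule.topEquiv (R := k) (M := V ⧸ D)),
      fun _ => inferInstance⟩

/-- The index of two commensurable subspaces. -/
noncomputable def ind (L L' : Submodule k V) : ℤ := cod L' L - cod L L'

/-- Commensurable subspaces. -/
def Com (L L' : Submodule k V) : Prop := Fc L' L ∧ Fc L L'

theorem Com.symm {L L' : Submodule k V} (h : Com L L') : Com L' L := ⟨h.2, h.1⟩

theorem ind_symm (L L' : Submodule k V) : ind L' L = - ind L L' := by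
  rw [ind, ind]; ring

theorem ind_self (L : Submodule k V) : ind L L = 0 := by rw [ind, sub_self]

theorem fc_inf {D E L : Submodule k V} (h1 : Fc D L) (h2 : Fc E L) : Fc (D ⊓ E) L := by
  have f1 : Module.Finite k (L.map D.mkQ) := h1
  have f2 : Module.Finite k (L.map E.mkQ) := h2
  -- `D ∩ E ∩ L ⊆ D ∩ L ⊆ L`
  have h3 : Fc (D ⊓ L) L := ((cod_eq_of_inf (L := L) (inf_le_left : D ⊓ L ≤ D) le_rfl).2).2 h1
  have h4 : Fc (D ⊓ E ⊓ L) (D ⊓ L) := by
    have h5 : Fc E (D ⊓ L) := h2.mono_right inf_le_right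
    have h6 : D ⊓ E ⊓ L ≤ E := inf_le_left.trans inf_le_right
    refine ((cod_eq_of_inf (L := D ⊓ L) h6 ?_).2).2 h5
    intro x hx
    exact ⟨⟨hx.2.1, hx.1⟩, hx.2.2⟩
  have h7 : D ⊓ E ⊓ L ≤ D ⊓ L := fun x hx => ⟨hx.1.1, hx.2⟩
  exact ((cod_add h7 inf_le_right h4 h3).1).mono_left inf_le_left

/-- The index computed with a common subspace of finite codimension. -/
theorem ind_eq {D L L' : Submodule k V} (h : D ≤ L) (h' : D ≤ L') (f : Fc D L) (f' : Fc D L') :
    ind L L' = cod D L - cod D L' := by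
  have e1 : cod L' L = cod (L ⊓ L') L :=
    ((cod_eq_of_inf (inf_le_right : L ⊓ L' ≤ L') (by rw [inf_comm])).1).symm
  have e2 : cod L L' = cod (L ⊓ L') L' :=
    ((cod_eq_of_inf (inf_le_left : L ⊓ L' ≤ L) le_rfl).1).symm
  have g1 := (cod_add (le_inf h h') (inf_le_left : L ⊓ L' ≤ L)
    (f.mono_right inf_le_left) (f.mono_left (le_inf h h'))).2
  have g2 := (cod_add (le_inf h h') (inf_le_right : L ⊓ L' ≤ L')
    (f'.mono_right inf_le_right) (f'.mono_left (le_inf h h'))).2
  rw [ind, e1, e2, g1, g2]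
  push_cast
  ring

theorem Com.exists_common {L₁ L₂ L₃ : Submodule k V} (h1 : Com L₁ L₂) (h2 : Com L₂ L₃) :
    ∃ D, D ≤ L₁ ∧ D ≤ L₂ ∧ D ≤ L₃ ∧ Fc D L₁ ∧ Fc D L₂ ∧ Fc D L₃ := by
  have f2 : Fc (L₁ ⊓ L₃) L₂ := fc_inf h1.2 h2.1
  have f2' : Fc (L₁ ⊓ L₃ ⊓ L₂) L₂ :=
    ((cod_eq_of_inf (L := L₂) (inf_le_left : L₁ ⊓ L₃ ⊓ L₂ ≤ L₁ ⊓ L₃) le_rfl).2).2 f2
  have key : ∀ L : Submodule k V, Fc L₂ L → L₁ ⊓ L₃ ⊓ L₂ ≤ L → Fc (L₁ ⊓ L₃ ⊓ L₂) L := by
    intro L hL hD
    have g1 : Fc (L ⊓ L₂) L :=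
      ((cod_eq_of_inf (L := L) (inf_le_right : L ⊓ L₂ ≤ L₂) (by rw [inf_comm])).2).2 hL
    exact (cod_add (le_inf hD inf_le_right) inf_le_left (f2'.mono_right inf_le_right) g1).1
  exact ⟨L₁ ⊓ L₃ ⊓ L₂, inf_le_left.trans inf_le_left, inf_le_right, inf_le_left.trans inf_le_right,
    key L₁ h1.1 (inf_le_left.trans inf_le_left), f2', key L₃ h2.2 (inf_le_left.trans inf_le_right)⟩

theorem Com.trans {L₁ L₂ L₃ : Submodule k V} (h1 : Com L₁ L₂) (h2 : Com L₂ L₃) : Com L₁ L₃ := by
  obtain ⟨D, d1, d2, d3, f1, f2, f3⟩ := h1.exists_common h2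
  exact ⟨f1.mono_left d3, f3.mono_left d1⟩

theorem ind_add {L₁ L₂ L₃ : Submodule k V} (h1 : Com L₁ L₂) (h2 : Com L₂ L₃) :
    ind L₁ L₃ = ind L₁ L₂ + ind L₂ L₃ := by
  obtain ⟨D, d1, d2, d3, f1, f2, f3⟩ := h1.exists_common h2
  rw [ind_eq d1 d3 f1 f3, ind_eq d1 d2 f1 f2, ind_eq d2 d3 f2 f3]
  ring

/-! ### Euler characteristics -/

/-- The pair has finite cohomology. -/
def Fred (L M : Submodule k V) : Prop :=
  Module.Finite k ↥(L ⊓ M) ∧ Module.Finite k (V ⧸ (L ⊔ M))

/-- The Euler characteristic of a pair of subspaces. -/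
noncomputable def chi (L M : Submodule k V) : ℤ := finrank k ↥(L ⊓ M) - finrank k (V ⧸ (L ⊔ M))

theorem chi_of_le {L L' M : Submodule k V} (hL : L' ≤ L) (f : Fc L' L) :
    (Fred L M ↔ Fred L' M) ∧ (Fred L' M → chi L M = chi L' M + cod L' L) := by
  have a1 : (cod (L' ⊓ M) (L ⊓ M) : ℤ) = cod L' (L ⊓ M) ∧
      (Fc (L' ⊓ M) (L ⊓ M) ↔ Fc L' (L ⊓ M)) := by
    have := cod_eq_of_inf (L := L ⊓ M) (inf_le_left : L' ⊓ M ≤ L')
      (fun x hx => ⟨hx.1, hx.2.2⟩)
    exact ⟨by exact_mod_cast this.1, this.2⟩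
  have a2 := cod_sup (D := L') (L := L ⊓ M)
  have a3 := cod_sup (D := L' ⊔ M) (L := L)
  have e3 : L ⊔ (L' ⊔ M) = L ⊔ M := by
    rw [← sup_assoc, sup_eq_left.2 hL]
  rw [e3] at a3
  have e4 : (L' ⊔ M) ⊓ L = (L ⊓ M) ⊔ L' := by
    rw [sup_comm (L ⊓ M), inf_comm L M]
    exact sup_inf_assoc_of_le M hL
  have a4 := cod_eq_of_inf (D := (L ⊓ M) ⊔ L') (D' := L' ⊔ M) (L := L)
    (sup_le (inf_le_right.trans le_sup_right) le_sup_left) e4.le
  have f1 : Fc L' ((L ⊓ M) ⊔ L') := f.mono_right (sup_le inf_le_left hL)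
  have f2 : Fc ((L ⊓ M) ⊔ L') L := f.mono_left le_sup_right
  have a5 := cod_add (le_sup_right : L' ≤ (L ⊓ M) ⊔ L') (sup_le inf_le_left hL) f1 f2
  have g1 : Fc (L' ⊓ M) (L ⊓ M) := a1.2.2 (a2.2.1 f1)
  have g2 : Fc (L' ⊔ M) (L ⊔ M) := a3.2.2 (a4.2.1 f2)
  have b1 := cod_bot (L ⊓ M)
  have b1' := cod_bot (L' ⊓ M)
  have b2 := cod_top (L ⊔ M)
  have b2' := cod_top (L' ⊔ M)
  have hF : Fred L M ↔ Fred L' M := by
    constructor
    · rintro ⟨h1, h2⟩
      refine ⟨b1'.2.1 ((b1.2.2 h1).mono_right (inf_le_inf_right M hL)), ?_⟩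
      exact b2'.2.1 (cod_add (sup_le_sup_right hL M) le_top g2 (b2.2.2 h2)).1
    · rintro ⟨h1, h2⟩
      refine ⟨b1.2.1 (cod_add bot_le (inf_le_inf_right M hL) (b1'.2.2 h1) g1).1, ?_⟩
      exact b2.2.1 ((b2'.2.2 h2).mono_left (sup_le_sup_right hL M))
  refine ⟨hF, fun h => ?_⟩
  have h' := hF.2 h
  have c1 := (cod_add bot_le (inf_le_inf_right M hL) (b1'.2.2 h.1) g1).2
  have c2 := (cod_add (sup_le_sup_right hL M) le_top g2 (b2.2.2 h'.2)).2
  rw [b1.1, b1'.1] at c1
  rw [b2.1, b2'.1] at c2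
  have d1 := a1.1
  have d2 := a2.1
  have d3 := a3.1
  have d4 := a4.1
  have d5 := a5.2
  rw [chi, chi]
  omega

theorem chi_eq_ind {L L' M : Submodule k V} (h : Com L L') (hF : Fred L' M) :
    Fred L M ∧ chi L M = chi L' M + ind L L' := by
  have f1 : Fc (L ⊓ L') L := ((cod_eq_of_inf (L := L) (inf_le_right : L ⊓ L' ≤ L')
    (by rw [inf_comm])).2).2 h.1
  have f2 : Fc (L ⊓ L') L' := ((cod_eq_of_inf (L := L') (inf_le_left : L ⊓ L' ≤ L)
    le_rfl).2).2 h.2
  have c1 := chi_of_le (M := M) (inf_le_left : L ⊓ L' ≤ L) f1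
  have c2 := chi_of_le (M := M) (inf_le_right : L ⊓ L' ≤ L') f2
  have g := c2.1.1 hF
  refine ⟨c1.1.2 g, ?_⟩
  have e1 := c1.2 g
  have e2 := c2.2 g
  have e3 := ind_eq (inf_le_left : L ⊓ L' ≤ L) (inf_le_right : L ⊓ L' ≤ L') f1 f2
  omega

theorem chi_comm (L M : Submodule k V) : chi L M = chi M L := by
  rw [chi, chi, inf_comm, sup_comm]

theorem Fred.comm {L M : Submodule k V} (h : Fred L M) : Fred M L := by
  rw [Fred, inf_comm, sup_comm]
  exact h

/-! ### transport -/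

variable {W : Type*} [AddCommGroup W] [Module k W]

theorem cod_map (g : V ≃ₗ[k] W) (D L : Submodule k V) :
    cod (D.map (g : V →ₗ[k] W)) (L.map (g : V →ₗ[k] W)) = cod D L ∧
      (Fc (D.map (g : V →ₗ[k] W)) (L.map (g : V →ₗ[k] W)) ↔ Fc D L) := by
  let e : (V ⧸ D) ≃ₗ[k] (W ⧸ D.map (g : V →ₗ[k] W)) := Submodule.Quotient.equiv D _ g rfl
  have h : (L.map D.mkQ).map (e : (V ⧸ D) →ₗ[k] (W ⧸ D.map (g : V →ₗ[k] W))) =
      (L.map (g : V →ₗ[k] W)).map (D.map (g : V →ₗ[k] W)).mkQ := by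
    rw [← Submodule.map_comp, ← Submodule.map_comp]
    congr 1
  let e' : ↥(L.map D.mkQ) ≃ₗ[k]
      ↥((L.map (g : V →ₗ[k] W)).map (D.map (g : V →ₗ[k] W)).mkQ) := by
    rw [← h]
    exact e.submoduleMap _
  exact ⟨(LinearEquiv.finrank_eq e').symm, ⟨fun h => by
    have : Module.Finite k _ := h
    exact Module.Finite.equiv e'.symm, fun h => by
    have : Module.Finite k _ := h
    exact Module.Finite.equiv e'⟩⟩

theorem ind_map (g : V ≃ₗ[k] W) (L L' : Submodule k V) :
    ind (L.map (g : V →ₗ[k] W)) (L'.map (g : V →ₗ[k] W)) = ind L L' := by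
  rw [ind, ind, (cod_map g _ _).1, (cod_map g _ _).1]

theorem Com.map (g : V ≃ₗ[k] W) {L L' : Submodule k V} (h : Com L L') :
    Com (L.map (g : V →ₗ[k] W)) (L'.map (g : V →ₗ[k] W)) :=
  ⟨(cod_map g _ _).2.2 h.1, (cod_map g _ _).2.2 h.2⟩

theorem chi_map (g : V ≃ₗ[k] W) (L M : Submodule k V) :
    (Fred (L.map (g : V →ₗ[k] W)) (M.map (g : V →ₗ[k] W)) ↔ Fred L M) ∧
    chi (L.map (g : V →ₗ[k] W)) (M.map (g : V →ₗ[k] W)) = chi L M := by
  have h1 : L.map (g : V →ₗ[k] W) ⊓ M.map (g : V →ₗ[k] W) = (L ⊓ M).map (g : V →ₗ[k] W) :=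
    (Submodule.map_inf _ g.injective).symm
  have h2 : L.map (g : V →ₗ[k] W) ⊔ M.map (g : V →ₗ[k] W) = (L ⊔ M).map (g : V →ₗ[k] W) :=
    (Submodule.map_sup _ _ _).symm
  let e1 : ↥(L ⊓ M) ≃ₗ[k] ↥((L ⊓ M).map (g : V →ₗ[k] W)) := g.submoduleMap _
  let e2 : (V ⧸ (L ⊔ M)) ≃ₗ[k] (W ⧸ (L ⊔ M).map (g : V →ₗ[k] W)) :=
    Submodule.Quotient.equiv _ _ g rfl
  constructor
  · rw [Fred, Fred, h1, h2]
    exact ⟨fun ⟨a, b⟩ => ⟨Module.Finite.equiv e1.symm, Module.Finite.equiv e2.symm⟩,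
      fun ⟨a, b⟩ => ⟨Module.Finite.equiv e1, Module.Finite.equiv e2⟩⟩
  · rw [chi, chi, h1, h2, LinearEquiv.finrank_eq e1, LinearEquiv.finrank_eq e2]

end basics

end Vale.Agent.P292.Mo
end

section

/-! # P292, Mori step, block II.b: lattices over a one-dimensional ring and determinants. -/

namespace Vale.Agent.P292.Mo

open Module Submodule

section pi

variable {k : Type*} [Field k] {ι : Type*} [Fintype ι] [DecidableEq ι] {V : Type*}
  [AddCommGroup V] [Module k V]

/-- Products of subspaces. -/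
def pis (L : ι → Submodule k V) : Submodule k (ι → V) := Submodule.pi Set.univ L

omit [Fintype ι] [DecidableEq ι] in
theorem mem_pis {L : ι → Submodule k V} {v : ι → V} : v ∈ pis L ↔ ∀ i, v i ∈ L i := by
  simp [pis, Submodule.mem_pi]

/-- The product of subspaces as a product of spaces. -/
def pisEquiv (L : ι → Submodule k V) : (∀ i, ↥(L i)) ≃ₗ[k] ↥(pis L) where
  toFun f := ⟨fun i => (f i : V), mem_pis.2 fun i => (f i).2⟩
  invFun f i := ⟨f.1 i, mem_pis.1 f.2 i⟩
  map_add' _ _ := rfl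
  map_smul' _ _ := rfl
  left_inv _ := rfl
  right_inv _ := rfl

theorem pis_map_mkQ (D L : ι → Submodule k V) :
    ((pis L).map (pis D).mkQ).map
      ((Submodule.quotientPi D : ((ι → V) ⧸ Submodule.pi Set.univ D) ≃ₗ[k] ∀ i, V ⧸ D i) :
        ((ι → V) ⧸ Submodule.pi Set.univ D) →ₗ[k] ∀ i, V ⧸ D i) =
    Submodule.pi Set.univ fun i => (L i).map (D i).mkQ := by
  ext x
  constructor
  · rintro ⟨_, ⟨v, hv, rfl⟩, rfl⟩
    rw [Submodule.mem_pi]
    intro i _
    exact ⟨v i, mem_pis.1 hv i, rfl⟩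
  · intro hx
    rw [Submodule.mem_pi] at hx
    choose v hv hvx using fun i => hx i (Set.mem_univ i)
    refine ⟨(pis D).mkQ v, ⟨v, mem_pis.2 hv, rfl⟩, ?_⟩
    funext i
    exact hvx i

theorem cod_pis (D L : ι → Submodule k V) (h : ∀ i, Fc (D i) (L i)) :
    Fc (pis D) (pis L) ∧ cod (pis D) (pis L) = ∑ i, cod (D i) (L i) := by
  let e : ((ι → V) ⧸ pis D) ≃ₗ[k] ∀ i, V ⧸ D i := Submodule.quotientPi D
  let e1 : ↥((pis L).map (pis D).mkQ) ≃ₗ[k] ↥(((pis L).map (pis D).mkQ).map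
    (e : ((ι → V) ⧸ pis D) →ₗ[k] ∀ i, V ⧸ D i)) := e.submoduleMap _
  let e2 : (∀ i, ↥((L i).map (D i).mkQ)) ≃ₗ[k]
      ↥(Submodule.pi Set.univ fun i => (L i).map (D i).mkQ) :=
    { toFun := fun f => ⟨fun i => (f i : V ⧸ D i), fun i _ => (f i).2⟩
      invFun := fun f i => ⟨f.1 i, f.2 i (Set.mem_univ i)⟩
      map_add' := fun _ _ => rfl
      map_smul' := fun _ _ => rfl
      left_inv := fun _ => rfl
      right_inv := fun _ => rfl }
  have h1 : ((pis L).map (pis D).mkQ).map (e : ((ι → V) ⧸ pis D) →ₗ[k] ∀ i, V ⧸ D i) =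
    Submodule.pi Set.univ fun i => (L i).map (D i).mkQ := pis_map_mkQ D L
  have hf : ∀ i, Module.Finite k ↥((L i).map (D i).mkQ) := h
  rw [h1] at e1
  have f2 : Module.Finite k ↥((pis L).map (pis D).mkQ) :=
    Module.Finite.equiv (e2.trans e1.symm)
  refine ⟨f2, ?_⟩
  rw [cod, LinearEquiv.finrank_eq (e1.trans e2.symm), finrank_pi_fintype]
  rfl

theorem com_pis {L L' : ι → Submodule k V} (h : ∀ i, Com (L i) (L' i)) :
    Com (pis L) (pis L') ∧ ind (pis L) (pis L') = ∑ i, ind (L i) (L' i) := by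
  have h1 := cod_pis L' L (fun i => (h i).1)
  have h2 := cod_pis L L' (fun i => (h i).2)
  refine ⟨⟨h1.1, h2.1⟩, ?_⟩
  rw [ind, h1.2, h2.2]
  push_cast
  rw [← Finset.sum_sub_distrib]
  rfl

omit [Fintype ι] [DecidableEq ι] in
theorem inf_pis (L M : ι → Submodule k V) : pis L ⊓ pis M = pis fun i => L i ⊓ M i := by
  ext v
  simp only [Submodule.mem_inf, mem_pis]
  exact ⟨fun h i => ⟨h.1 i, h.2 i⟩, fun h => ⟨fun i => (h i).1, fun i => (h i).2⟩⟩

omit [Fintype ι] [DecidableEq ι] in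
theorem sup_pis (L M : ι → Submodule k V) : pis L ⊔ pis M = pis fun i => L i ⊔ M i := by
  ext v
  rw [Submodule.mem_sup, mem_pis]
  constructor
  · rintro ⟨y, hy, z, hz, rfl⟩ i
    exact Submodule.add_mem_sup (mem_pis.1 hy i) (mem_pis.1 hz i)
  · intro h
    choose y hy z hz hyz using fun i => Submodule.mem_sup.1 (h i)
    exact ⟨y, mem_pis.2 hy, z, mem_pis.2 hz, funext hyz⟩

theorem chi_pis {L M : ι → Submodule k V} (h : ∀ i, Fred (L i) (M i)) :
    Fred (pis L) (pis M) ∧ chi (pis L) (pis M) = ∑ i, chi (L i) (M i) := by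
  have f1 : ∀ i, Module.Finite k ↥(L i ⊓ M i) := fun i => (h i).1
  have f2 : ∀ i, Module.Finite k (V ⧸ (L i ⊔ M i)) := fun i => (h i).2
  let e : ((ι → V) ⧸ pis fun i => L i ⊔ M i) ≃ₗ[k] ∀ i, V ⧸ (L i ⊔ M i) :=
    Submodule.quotientPi _
  rw [Fred, chi, inf_pis, sup_pis]
  refine ⟨⟨Module.Finite.equiv (pisEquiv _), Module.Finite.equiv e.symm⟩, ?_⟩
  rw [← LinearEquiv.finrank_eq (pisEquiv _), LinearEquiv.finrank_eq e, finrank_pi_fintype,
    finrank_pi_fintype]
  push_cast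
  rw [← Finset.sum_sub_distrib]
  rfl

end pi

section ring

variable {k K : Type*} [Field k] [Field K] [Algebra k K]

/-- A one-dimensional ring `A` with fraction field `K`: every nonzero principal ideal has finite
codimension. -/
structure OneDim (A : Subalgebra k K) : Prop where
  frac : ∀ x : K, ∃ a ∈ A, a ≠ 0 ∧ a * x ∈ A
  fin : ∀ a ∈ A, a ≠ 0 → Fc ((Subalgebra.toSubmodule A).map (LinearMap.mulLeft k a))
    (Subalgebra.toSubmodule A)

/-- Multiplication by a nonzero element. -/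
noncomputable def mulE (k : Type*) {K : Type*} [Field k] [Field K] [Algebra k K] (c : K)
    (hc : c ≠ 0) : K ≃ₗ[k] K :=
  LinearEquiv.ofLinearMap (LinearMap.mulLeft k c) (LinearMap.mulLeft k c⁻¹)
    (by ext x; simp [hc]) (by ext x; simp [hc])

theorem coe_mulE (c : K) (hc : c ≠ 0) :
    ((mulE k c hc : K ≃ₗ[k] K) : K →ₗ[k] K) = LinearMap.mulLeft k c := rfl

/-- The scaled subspace. -/
def sc (c : K) (L : Submodule k K) : Submodule k K := L.map (LinearMap.mulLeft k c)

theorem mem_sc {c : K} {L : Submodule k K} {x : K} : x ∈ sc c L ↔ ∃ y ∈ L, c * y = x := by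
  simp [sc, Submodule.mem_map]

theorem sc_sc (c d : K) (L : Submodule k K) : sc c (sc d L) = sc (c * d) L := by
  ext x
  simp only [mem_sc]
  constructor
  · rintro ⟨y, ⟨z, hz, rfl⟩, rfl⟩
    exact ⟨z, hz, by ring⟩
  · rintro ⟨z, hz, rfl⟩
    exact ⟨d * z, ⟨z, hz, rfl⟩, by ring⟩

theorem sc_one (L : Submodule k K) : sc 1 L = L := by
  ext x
  simp [mem_sc]

theorem ind_sc (c : K) (hc : c ≠ 0) (L L' : Submodule k K) :
    ind (sc c L) (sc c L') = ind L L' := ind_map (mulE k c hc) L L'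

theorem com_sc {c : K} (hc : c ≠ 0) {L L' : Submodule k K} (h : Com L L') :
    Com (sc c L) (sc c L') := Com.map (mulE k c hc) h

theorem fc_sc {c : K} (hc : c ≠ 0) {L L' : Submodule k K} :
    Fc (sc c L) (sc c L') ↔ Fc L L' := (cod_map (mulE k c hc) L L').2

theorem chi_sc {c : K} (hc : c ≠ 0) (L M : Submodule k K) :
    (Fred (sc c L) (sc c M) ↔ Fred L M) ∧ chi (sc c L) (sc c M) = chi L M :=
  chi_map (mulE k c hc) L M

variable (A : Subalgebra k K)

theorem sc_le {a : K} (ha : a ∈ A) : sc a (Subalgebra.toSubmodule A) ≤ Subalgebra.toSubmodule A := by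
  intro x hx
  obtain ⟨y, hy, rfl⟩ := mem_sc.1 hx
  exact A.mul_mem ha hy

/-- The degree of `c`, i.e. the index of `c A` in `A` (minus the number of zeros of `c`). -/
noncomputable def dg (c : K) : ℤ := ind (sc c (Subalgebra.toSubmodule A)) (Subalgebra.toSubmodule A)

variable {A}

theorem OneDim.com (hA : OneDim A) {c : K} (hc : c ≠ 0) :
    Com (sc c (Subalgebra.toSubmodule A)) (Subalgebra.toSubmodule A) := by
  obtain ⟨b, hb, hb0, hbc⟩ := hA.frac c
  have ha0 : b * c ≠ 0 := mul_ne_zero hb0 hc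
  have h1 : Com (sc (b * c) (Subalgebra.toSubmodule A)) (Subalgebra.toSubmodule A) :=
    ⟨Fc.of_le (sc_le A hbc), hA.fin _ hbc ha0⟩
  have h2 : Com (sc b (Subalgebra.toSubmodule A)) (Subalgebra.toSubmodule A) :=
    ⟨Fc.of_le (sc_le A hb), hA.fin _ hb hb0⟩
  have h3 := com_sc hc h2
  rw [sc_sc, mul_comm c b] at h3
  exact h3.symm.trans h1

theorem OneDim.dg_mul (hA : OneDim A) {c d : K} (hc : c ≠ 0) (hd : d ≠ 0) :
    dg A (c * d) = dg A c + dg A d := by
  have h1 := com_sc hc (hA.com hd)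
  rw [sc_sc] at h1
  have h2 := ind_add h1 (hA.com hc)
  have h3 := ind_sc (k := k) c hc (sc d (Subalgebra.toSubmodule A)) (Subalgebra.toSubmodule A)
  rw [sc_sc] at h3
  rw [dg, h2, h3]
  exact add_comm _ _

theorem dg_one : dg A (1 : K) = 0 := by
  rw [dg, sc_one, ind_self]

theorem OneDim.dg_pow (hA : OneDim A) {c : K} (hc : c ≠ 0) (n : ℕ) :
    dg A (c ^ n) = n * dg A c := by
  induction n with
  | zero => rw [pow_zero, dg_one]; simp
  | succ n ih =>
    rw [pow_succ, hA.dg_mul (pow_ne_zero n hc) hc, ih]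
    push_cast
    ring

theorem OneDim.dg_prod (hA : OneDim A) {ι : Type*} (s : Finset ι) (f : ι → K)
    (hf : ∀ i ∈ s, f i ≠ 0) : dg A (∏ i ∈ s, f i) = ∑ i ∈ s, dg A (f i) := by
  classical
  induction s using Finset.induction_on with
  | empty => simp [dg_one]
  | insert a s ha ih =>
    rw [Finset.prod_insert ha, Finset.sum_insert ha, hA.dg_mul (hf a (Finset.mem_insert_self _ _))
      (Finset.prod_ne_zero_iff.2 fun i hi => hf i (Finset.mem_insert_of_mem hi)),
      ih fun i hi => hf i (Finset.mem_insert_of_mem hi)]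

/-- The number of zeros of `a` in `A` is `- dg A a`. -/
theorem dg_of_mem {a : K} (ha : a ∈ A) :
    dg A a = - cod (sc a (Subalgebra.toSubmodule A)) (Subalgebra.toSubmodule A) := by
  rw [dg, ind, cod_of_le (sc_le A ha)]
  simp

/-- Units of `A` have degree zero. -/
theorem dg_unit {a : K} (ha : a ∈ A) (ha' : a⁻¹ ∈ A) (h0 : a ≠ 0) : dg A a = 0 := by
  have h1 : sc a (Subalgebra.toSubmodule A) = Subalgebra.toSubmodule A := by
    refine le_antisymm (sc_le A ha) fun x hx => mem_sc.2 ⟨a⁻¹ * x, A.mul_mem ha' hx, ?_⟩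
    rw [mul_inv_cancel_left₀ h0]
  rw [dg, h1, ind_self]

end ring

section gl

variable {k K : Type*} [Field k] [Field K] [Algebra k K] {ι : Type*} [Fintype ι] [DecidableEq ι]

/-- The action of a matrix. -/
def act (k : Type*) [Field k] {K : Type*} [Field K] [Algebra k K] {ι : Type*} [Fintype ι]
    (T : Matrix ι ι K) : (ι → K) →ₗ[k] (ι → K) := (Matrix.mulVecLin T).restrictScalars k

omit [DecidableEq ι] in
theorem act_apply (T : Matrix ι ι K) (v : ι → K) : act k T v = T.mulVec v := rfl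

omit [DecidableEq ι] in
theorem act_mul (S T : Matrix ι ι K) : act k (S * T) = act k S ∘ₗ act k T := by
  ext v i
  simp [act_apply, Matrix.mulVec_mulVec]

/-- The action of an invertible matrix. -/
noncomputable def actE (k : Type*) [Field k] {K : Type*} [Field K] [Algebra k K] {ι : Type*}
    [Fintype ι] [DecidableEq ι] (T : Matrix ι ι K) (hT : T.det ≠ 0) : (ι → K) ≃ₗ[k] (ι → K) :=
  LinearEquiv.ofLinearMap (act k T) (act k T⁻¹)
    (LinearMap.ext fun v => by
      rw [← act_mul, Matrix.mul_nonsing_inv T (Ne.isUnit hT), act_apply, Matrix.one_mulVec,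
        LinearMap.id_apply])
    (LinearMap.ext fun v => by
      rw [← act_mul, Matrix.nonsing_inv_mul T (Ne.isUnit hT), act_apply, Matrix.one_mulVec,
        LinearMap.id_apply])

theorem coe_actE (T : Matrix ι ι K) (hT : T.det ≠ 0) :
    ((actE k T hT : (ι → K) ≃ₗ[k] (ι → K)) : (ι → K) →ₗ[k] (ι → K)) = act k T := rfl

variable {A : Subalgebra k K}

/-- The lattice `A ^ ι`. -/
def lat (ι : Type*) (A : Subalgebra k K) : Submodule k (ι → K) :=
  pis fun _ => Subalgebra.toSubmodule A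

theorem act_diagonal (d : ι → K) (L : Submodule k K) :
    (pis fun _ : ι => L).map (act k (Matrix.diagonal d)) = pis fun i => sc (d i) L := by
  ext v
  rw [Submodule.mem_map, mem_pis]
  constructor
  · rintro ⟨w, hw, rfl⟩ i
    exact mem_sc.2 ⟨w i, mem_pis.1 hw i, by rw [act_apply, Matrix.mulVec_diagonal]⟩
  · intro h
    choose w hw hwv using fun i => mem_sc.1 (h i)
    exact ⟨w, mem_pis.2 hw, by
      funext i
      rw [act_apply, Matrix.mulVec_diagonal, hwv]⟩

/-- The index statement for the matrix `T`. -/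
def IndP (ι : Type*) [Fintype ι] [DecidableEq ι] (A : Subalgebra k K) (T : Matrix ι ι K) : Prop :=
  Com ((lat ι A).map (act k T)) (lat ι A) ∧
      ind ((lat ι A).map (act k T)) (lat ι A) = dg A T.det

theorem indP_diagonal (hA : OneDim A) (d : ι → K) (hd : (Matrix.diagonal d).det ≠ 0) :
    IndP ι A (Matrix.diagonal d) := by
  rw [Matrix.det_diagonal] at hd
  have hd' : ∀ i, d i ≠ 0 := fun i => Finset.prod_ne_zero_iff.1 hd i (Finset.mem_univ i)
  have h1 := com_pis (L := fun i => sc (d i) (Subalgebra.toSubmodule A))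
    (L' := fun _ => Subalgebra.toSubmodule A) (fun i => hA.com (hd' i))
  have h2 : (lat ι A).map (act k (Matrix.diagonal d)) =
      pis fun i => sc (d i) (Subalgebra.toSubmodule A) := act_diagonal d _
  have h3 : dg A (Matrix.diagonal d).det = ∑ i, dg A (d i) := by
    rw [Matrix.det_diagonal]
    exact hA.dg_prod _ _ fun i _ => hd' i
  unfold IndP
  rw [h2, h3]
  exact h1

theorem act_transvection {i j : ι} (c : K) (v : ι → K) (l : ι) :
    act k (Matrix.transvection i j c) v l = v l + if l = i then c * v j else 0 := by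
  rw [act_apply, Matrix.transvection, Matrix.add_mulVec, Matrix.one_mulVec, Pi.add_apply,
    Matrix.single_mulVec]
  split_ifs with h
  · subst h
    simp
  · simp [h]

theorem indP_transvection (hA : OneDim A) {i j : ι} (hij : i ≠ j) (c : K) :
    IndP ι A (Matrix.transvection i j c) := by
  unfold IndP
  rw [Matrix.det_transvection_of_ne i j hij, dg_one]
  obtain ⟨b, hb, hb0, hbc⟩ := hA.frac c
  let D : Submodule k (ι → K) :=
    pis (Function.update (fun _ => Subalgebra.toSubmodule A) j (sc b (Subalgebra.toSubmodule A)))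
  have hDj : ∀ v ∈ D, v j ∈ sc b (Subalgebra.toSubmodule A) := fun v hv => by
    have := mem_pis.1 hv j
    rwa [Function.update_self] at this
  have hDl : D ≤ lat ι A := by
    intro v hv
    refine mem_pis.2 fun l => ?_
    by_cases hl : l = j
    · subst hl
      exact sc_le A hb (hDj v hv)
    · have := mem_pis.1 hv l
      rwa [Function.update_of_ne hl] at this
  have hDc : ∀ v, v ∈ D ↔ (v j ∈ sc b (Subalgebra.toSubmodule A) ∧ ∀ l, l ≠ j → v l ∈ A) := by
    intro v
    constructor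
    · intro hv
      exact ⟨hDj v hv, fun l _ => mem_pis.1 (hDl hv) l⟩
    · rintro ⟨h1, h2⟩
      refine mem_pis.2 fun l => ?_
      by_cases hl : l = j
      · subst hl
        rwa [Function.update_self]
      · rw [Function.update_of_ne hl]
        exact h2 l hl
  have hfc : Fc D (lat ι A) := by
    refine (cod_pis _ _ fun l => ?_).1
    by_cases hl : l = j
    · subst hl
      rw [Function.update_self]
      exact hA.fin b hb hb0
    · rw [Function.update_of_ne hl]
      exact fc_self _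
  have hle : ∀ c' : K, b * c' ∈ A → D.map (act k (Matrix.transvection i j c')) ≤ D := by
    rintro c' hc' _ ⟨v, hv, rfl⟩
    rw [hDc]
    have hv' := (hDc v).1 hv
    constructor
    · rw [act_transvection, if_neg (Ne.symm hij), add_zero]
      exact hv'.1
    · intro l hl
      rw [act_transvection]
      refine A.add_mem (hv'.2 l hl) ?_
      split_ifs
      · obtain ⟨y, hy, hyv⟩ := mem_sc.1 hv'.1
        rw [← hyv, show c' * (b * y) = (b * c') * y by ring]
        exact A.mul_mem hc' hy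
      · exact A.zero_mem
  have hinv : ∀ v : ι → K, act k (Matrix.transvection i j c)
      (act k (Matrix.transvection i j (-c)) v) = v := by
    intro v
    have h1 : act k (Matrix.transvection i j c * Matrix.transvection i j (-c)) v = v := by
      rw [Matrix.transvection_mul_transvection_same i j hij, add_neg_cancel,
        Matrix.transvection_zero, act_apply, Matrix.one_mulVec]
    rwa [act_mul] at h1
  have heq : D.map (act k (Matrix.transvection i j c)) = D := by
    refine le_antisymm (hle c hbc) fun v hv => ?_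
    have h1 : act k (Matrix.transvection i j (-c)) v ∈ D :=
      hle (-c) (by rw [mul_neg]; exact A.neg_mem hbc) ⟨v, hv, rfl⟩
    exact ⟨_, h1, hinv v⟩
  have hdet : (Matrix.transvection i j c).det ≠ 0 := by
    rw [Matrix.det_transvection_of_ne i j hij]
    exact one_ne_zero
  have hcm := cod_map (actE k (Matrix.transvection i j c) hdet) D (lat ι A)
  rw [coe_actE, heq] at hcm
  have hD2 : D ≤ (lat ι A).map (act k (Matrix.transvection i j c)) := by
    rw [← heq]
    exact Submodule.map_mono hDl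
  have hf2 : Fc D ((lat ι A).map (act k (Matrix.transvection i j c))) := hcm.2.2 hfc
  refine ⟨⟨hf2.mono_left hDl, hfc.mono_left hD2⟩, ?_⟩
  rw [ind_eq hD2 hDl hf2 hfc, hcm.1, sub_self]

theorem IndP.mul (hA : OneDim A) {S T : Matrix ι ι K} (hS : S.det ≠ 0) (hT : T.det ≠ 0)
    (h1 : IndP ι A S) (h2 : IndP ι A T) : IndP ι A (S * T) := by
  have e1 : (lat ι A).map (act k (S * T)) = ((lat ι A).map (act k T)).map (act k S) := by
    rw [act_mul, Submodule.map_comp]
  have c1 := Com.map (actE k S hS) h2.1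
  rw [coe_actE, ← e1] at c1
  have i1 := ind_map (actE k S hS) ((lat ι A).map (act k T)) (lat ι A)
  rw [coe_actE, ← e1] at i1
  refine ⟨c1.trans h1.1, ?_⟩
  rw [ind_add c1 h1.1, i1, h1.2, h2.2, Matrix.det_mul, hA.dg_mul hS hT, add_comm]

/-- **The index of a lattice is given by the determinant.** -/
theorem ind_lat (hA : OneDim A) (T : Matrix ι ι K) (hT : T.det ≠ 0) : IndP ι A T :=
  Matrix.diagonal_transvection_induction_of_det_ne_zero (IndP ι A) T hT
    (fun d hd => indP_diagonal hA d hd) (fun t => indP_transvection hA t.hij t.c)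
    (fun _ _ hS hT h1 h2 => IndP.mul hA hS hT h1 h2)

end gl

end Vale.Agent.P292.Mo
end

section

/-! # P292, Mori step, block II.b: the Euler characteristic of a symplectic bundle on a curve. -/

namespace Vale.Agent.P292.Mo

open Module Submodule

variable {k K : Type*} [Field k] [Field K] [Algebra k K] {ι : Type*} [Fintype ι] [DecidableEq ι]
  {A O : Subalgebra k K}

/-- The Euler characteristic of a lattice. -/
theorem chi_lat (hA : OneDim A) (hF : Fred (Subalgebra.toSubmodule A) (Subalgebra.toSubmodule O))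
    (T : Matrix ι ι K) (hT : T.det ≠ 0) :
    Fred ((lat ι A).map (act k T)) (lat ι O) ∧
      chi ((lat ι A).map (act k T)) (lat ι O) =
        Fintype.card ι * chi (Subalgebra.toSubmodule A) (Subalgebra.toSubmodule O) +
          dg A T.det := by
  have h1 := chi_pis (ι := ι) (L := fun _ => Subalgebra.toSubmodule A)
    (M := fun _ => Subalgebra.toSubmodule O) (fun _ => hF)
  have h2 := ind_lat hA T hT
  have h3 := chi_eq_ind h2.1 h1.1
  refine ⟨h3.1, ?_⟩
  have h4 : chi (lat ι A) (lat ι O) =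
      Fintype.card ι * chi (Subalgebra.toSubmodule A) (Subalgebra.toSubmodule O) := by
    rw [lat, lat, h1.2, Finset.sum_const, Finset.card_univ, nsmul_eq_mul]
  have h5 := h3.2
  rw [h2.2] at h5
  rw [← h4]
  exact h5

theorem chi_sc_A (hA : OneDim A)
    (hF : Fred (Subalgebra.toSubmodule A) (Subalgebra.toSubmodule O)) {c : K} (hc : c ≠ 0) :
    Fred (sc c (Subalgebra.toSubmodule A)) (Subalgebra.toSubmodule O) ∧
    chi (sc c (Subalgebra.toSubmodule A)) (Subalgebra.toSubmodule O) =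
      chi (Subalgebra.toSubmodule A) (Subalgebra.toSubmodule O) + dg A c :=
  chi_eq_ind (hA.com hc) hF

/-- Elements of `O` have nonnegative degree. -/
theorem dg_nonneg (hA : OneDim A)
    (hF : Fred (Subalgebra.toSubmodule A) (Subalgebra.toSubmodule O)) {b : K} (hb : b ∈ O)
    (hb0 : b ≠ 0) : 0 ≤ dg A b := by
  have h1 := chi_sc_A hA hF hb0
  have h2 := chi_sc (k := k) (inv_ne_zero hb0) (sc b (Subalgebra.toSubmodule A))
    (Subalgebra.toSubmodule O)
  rw [sc_sc, inv_mul_cancel₀ hb0, sc_one] at h2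
  have h3 := h2.1.2 h1.1
  have h4 : Subalgebra.toSubmodule O ≤ sc b⁻¹ (Subalgebra.toSubmodule O) := fun x hx =>
    mem_sc.2 ⟨b * x, O.mul_mem hb hx, by rw [inv_mul_cancel_left₀ hb0]⟩
  have f1 : Module.Finite k
      ↥(Subalgebra.toSubmodule A ⊓ sc b⁻¹ (Subalgebra.toSubmodule O)) := h3.1
  have f2 : Module.Finite k (K ⧸ (Subalgebra.toSubmodule A ⊔ Subalgebra.toSubmodule O)) := hF.2
  have g1 : finrank k ↥(Subalgebra.toSubmodule A ⊓ Subalgebra.toSubmodule O) ≤
      finrank k ↥(Subalgebra.toSubmodule A ⊓ sc b⁻¹ (Subalgebra.toSubmodule O)) :=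
    Submodule.finrank_mono (inf_le_inf_left _ h4)
  have g2 : finrank k (K ⧸ (Subalgebra.toSubmodule A ⊔ sc b⁻¹ (Subalgebra.toSubmodule O))) ≤
      finrank k (K ⧸ (Subalgebra.toSubmodule A ⊔ Subalgebra.toSubmodule O)) := by
    refine LinearMap.finrank_le_finrank_of_surjective
      (f := Submodule.factor (sup_le_sup_left h4 (Subalgebra.toSubmodule A))) ?_
    exact Submodule.factor_surjective _
  have e1 := h1.2
  rw [← h2.2] at e1
  rw [chi, chi] at e1
  omega

/-- Units of `O` have degree zero. -/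
theorem dg_unit_O (hA : OneDim A)
    (hF : Fred (Subalgebra.toSubmodule A) (Subalgebra.toSubmodule O)) {b : K} (hb : b ∈ O)
    (hb' : b⁻¹ ∈ O) (hb0 : b ≠ 0) : dg A b = 0 := by
  have h1 := dg_nonneg hA hF hb hb0
  have h2 := dg_nonneg hA hF hb' (inv_ne_zero hb0)
  have h3 := hA.dg_mul hb0 (inv_ne_zero hb0)
  rw [mul_inv_cancel₀ hb0, dg_one] at h3
  omega

/-- The number of zeros of a section `a = b λ ^ j` of the line bundle of degree `d = - dg A λ`. -/
theorem zeros_le (hA : OneDim A)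
    (hF : Fred (Subalgebra.toSubmodule A) (Subalgebra.toSubmodule O)) {l : K} (hl : l ≠ 0) {a b : K}
    (ha : a ∈ A) (hb : b ∈ O) (ha0 : a ≠ 0) {j : ℕ} (hab : a = b * l ^ j) :
    (cod (sc a (Subalgebra.toSubmodule A)) (Subalgebra.toSubmodule A) : ℤ) ≤ j * (- dg A l) := by
  have hb0 : b ≠ 0 := by
    rintro rfl
    exact ha0 (by rw [hab, zero_mul])
  have h1 := dg_of_mem ha
  have h2 := dg_nonneg hA hF hb hb0
  have h3 : dg A a = dg A b + j * dg A l := by
    rw [hab, hA.dg_mul hb0 (pow_ne_zero _ hl), hA.dg_pow hl]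
  have h4 : (j : ℤ) * (- dg A l) = - (j * dg A l) := by ring
  rw [h4]
  omega

/-- **Block II.b.** The Euler characteristic of a symplectic bundle: `E` has the basis `e` over
`A` and the basis `T e` over `O`, the matrices `MA`, `MO` of the symplectic form with values in
the line bundle `l ^ q` are invertible over `A` resp. `O`. `Λ` is the lattice of the sections
which vanish at the marks. -/
theorem finrank_lt (hA : OneDim A)
    (hF : Fred (Subalgebra.toSubmodule A) (Subalgebra.toSubmodule O)) {l : K} (hl : l ≠ 0) {q : ℕ}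
    {T MA MO : Matrix ι ι K} (hT : T.det ≠ 0) (hMA : MA.det ∈ A) (hMA' : MA.det⁻¹ ∈ A)
    (hMA0 : MA.det ≠ 0) (hMO : MO.det ∈ O) (hMO' : MO.det⁻¹ ∈ O) (hMO0 : MO.det ≠ 0)
    (hrel : l ^ q • MO = T * MA * T.transpose) [Nonempty ι]
    {Λ : Submodule k (ι → K)} (hΛ : Λ ≤ lat ι A) (hΛf : Fc Λ (lat ι A)) {m : ℕ}
    (hm : cod Λ (lat ι A) ≤ m * Fintype.card ι)
    (hlt : 2 * (m : ℤ) < q * (- dg A l) +
      2 * chi (Subalgebra.toSubmodule A) (Subalgebra.toSubmodule O)) :
    Fred Λ ((lat ι O).map (act k T.transpose)) ∧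
    finrank k ((ι → K) ⧸ (Λ ⊔ (lat ι O).map (act k T.transpose))) <
      finrank k ↥(Λ ⊓ (lat ι O).map (act k T.transpose)) := by
  set n := Fintype.card ι with hn
  have hn0 : 0 < (n : ℤ) := by exact_mod_cast Fintype.card_pos
  have hTt : T.transpose.det ≠ 0 := by rwa [Matrix.det_transpose]
  have hTi : (T.transpose)⁻¹.det ≠ 0 := by
    rw [Matrix.det_nonsing_inv, Ring.inverse_eq_inv']
    exact inv_ne_zero hTt
  -- the degree of the determinant
  have d1 : 2 * dg A T.det = n * q * dg A l := by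
    have h1 := congrArg Matrix.det hrel
    rw [Matrix.det_smul, Matrix.det_mul, Matrix.det_mul, Matrix.det_transpose, ← hn] at h1
    have h2 : dg A ((l ^ q) ^ n * MO.det) = n * q * dg A l := by
      rw [hA.dg_mul (pow_ne_zero _ (pow_ne_zero _ hl)) hMO0, dg_unit_O hA hF hMO hMO' hMO0,
        hA.dg_pow (pow_ne_zero _ hl), hA.dg_pow hl]
      ring
    have h3 : dg A (T.det * MA.det * T.det) = 2 * dg A T.det := by
      rw [hA.dg_mul (mul_ne_zero hT hMA0) hT, hA.dg_mul hT hMA0, dg_unit hMA hMA' hMA0]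
      ring
    rw [← h3, ← h1, h2]
  -- the Euler characteristic without marks
  have c1 := chi_lat (ι := ι) hA hF (T.transpose)⁻¹ hTi
  have c2 := chi_map (actE k T.transpose hTt) ((lat ι A).map (act k (T.transpose)⁻¹)) (lat ι O)
  have c3 : ((lat ι A).map (act k (T.transpose)⁻¹)).map
      ((actE k T.transpose hTt : (ι → K) ≃ₗ[k] (ι → K)) : (ι → K) →ₗ[k] (ι → K)) = lat ι A := by
    rw [coe_actE, ← Submodule.map_comp, ← act_mul, Matrix.mul_nonsing_inv _ (Ne.isUnit hTt)]
    have : act k (1 : Matrix ι ι K) = LinearMap.id := LinearMap.ext fun v => by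
      rw [act_apply, Matrix.one_mulVec, LinearMap.id_apply]
    rw [this, Submodule.map_id]
  rw [c3, coe_actE] at c2
  have F1 := c2.1.2 c1.1
  have c4 : chi (lat ι A) ((lat ι O).map (act k T.transpose)) =
      n * chi (Subalgebra.toSubmodule A) (Subalgebra.toSubmodule O) - dg A T.det := by
    rw [c2.2, c1.2]
    have h5 : dg A (T.transpose)⁻¹.det = - dg A T.det := by
      rw [Matrix.det_nonsing_inv, Ring.inverse_eq_inv', Matrix.det_transpose]
      have h6 := hA.dg_mul hT (inv_ne_zero hT)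
      rw [mul_inv_cancel₀ hT, dg_one] at h6
      omega
    rw [h5]
    ring
  -- with marks
  have c5 := chi_of_le (M := (lat ι O).map (act k T.transpose)) hΛ hΛf
  have F2 := c5.1.1 F1
  have c6 := c5.2 F2
  refine ⟨F2, ?_⟩
  have hm' : (cod Λ (lat ι A) : ℤ) ≤ m * n := by exact_mod_cast hm
  rw [c4] at c6
  have c7 : chi Λ ((lat ι O).map (act k T.transpose)) =
      (finrank k ↥(Λ ⊓ (lat ι O).map (act k T.transpose)) : ℤ) -
        finrank k ((ι → K) ⧸ (Λ ⊔ (lat ι O).map (act k T.transpose))) := rfl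
  have key : 0 < 2 * (n * chi (Subalgebra.toSubmodule A) (Subalgebra.toSubmodule O) -
      dg A T.det - m * n) := by
    have : 2 * (n * chi (Subalgebra.toSubmodule A) (Subalgebra.toSubmodule O) -
      dg A T.det - m * n) = n * (q * (- dg A l) +
      2 * chi (Subalgebra.toSubmodule A) (Subalgebra.toSubmodule O) - 2 * m) := by
      linear_combination -d1
    rw [this]
    exact mul_pos hn0 (by linarith)
  have : (finrank k ((ι → K) ⧸ (Λ ⊔ (lat ι O).map (act k T.transpose))) : ℤ) <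
      finrank k ↥(Λ ⊓ (lat ι O).map (act k T.transpose)) := by
    rw [c7] at c6
    linarith
  exact_mod_cast this

end Vale.Agent.P292.Mo
end

section

/-! # P292, Mori step, block II.b: the index of `Mo/Defs.lean` in terms of `Mo/Index.lean`. -/

namespace Vale.Agent.P292.Mo

open Module Submodule

universe u v w

section

variable {k : Type u} [Field k] {V : Type w} [AddCommGroup V] [Module k V]

/-- `L / (L ∩ D)` is the image of `L` in `V / D`. -/
noncomputable def quotEquiv (D L : Submodule k V) :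
    (↥L ⧸ D.comap L.subtype) ≃ₗ[k] ↥(L.map D.mkQ) :=
  (Submodule.quotEquivOfEq _ _ (by
    ext x
    simp [LinearMap.mem_ker])).trans
    (((D.mkQ ∘ₗ L.subtype).quotKerEquivRange).trans
      (LinearEquiv.ofEq _ _ (by rw [LinearMap.range_comp, Submodule.range_subtype])))

theorem finrank_quot (D L : Submodule k V) :
    finrank k (↥L ⧸ D.comap L.subtype) = cod D L := (quotEquiv D L).finrank_eq

theorem finite_quot (D L : Submodule k V) :
    FiniteDimensional k (↥L ⧸ D.comap L.subtype) ↔ Fc D L :=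
  ⟨fun _ => Module.Finite.equiv (quotEquiv D L), fun h => by
    have : Module.Finite k ↥(L.map D.mkQ) := h
    exact Module.Finite.equiv (quotEquiv D L).symm⟩

theorem comm_iff (U U' : Submodule k V) : Comm U U' ↔ Com U U' := by
  rw [Comm, Com, finite_quot, finite_quot]

theorem relIdx_eq (U U' : Submodule k V) : relIdx U U' = ind U U' := by
  rw [relIdx, ind, finrank_quot, finrank_quot]

end

section curve

variable {k : Type u} [Field k] {K : Type w} [Field K] [Algebra k K] {A₀ A₁ : Subalgebra k K}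

theorem idx_eq (x : K) : idx A₁ x = - dg A₁ x := by
  rw [idx, relIdx_eq, dg, ind_symm]
  rfl

theorem chi0_eq : chi0 A₀ A₁ = chi (Subalgebra.toSubmodule A₁) (Subalgebra.toSubmodule A₀) := by
  rw [chi_comm]
  rfl

theorem IsCD.fred (h : IsCD A₀ A₁) :
    Fred (Subalgebra.toSubmodule A₁) (Subalgebra.toSubmodule A₀) :=
  Fred.comm ⟨h.fin0, h.fin1⟩

theorem IsCD.oneDim (h : IsCD A₀ A₁) : OneDim A₁ where
  frac x := by
    obtain ⟨a, ha, b, hb, hb0, rfl⟩ := h.frac x
    exact ⟨b, hb, hb0, by rwa [mul_div_cancel₀ a hb0]⟩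
  fin a ha ha0 := (finite_quot _ _).1 (h.finQ a ha ha0)

theorem IsCD.idx_mul (h : IsCD A₀ A₁) {x y : K} (hx : x ≠ 0) (hy : y ≠ 0) :
    idx A₁ (x * y) = idx A₁ x + idx A₁ y := by
  rw [idx_eq, idx_eq, idx_eq, h.oneDim.dg_mul hx hy]
  ring

theorem IsCD.idx_pow (h : IsCD A₀ A₁) {x : K} (hx : x ≠ 0) (n : ℕ) :
    idx A₁ (x ^ n) = n * idx A₁ x := by
  rw [idx_eq, idx_eq, h.oneDim.dg_pow hx]
  ring

theorem idx_one : idx A₁ (1 : K) = 0 := by rw [idx_eq, dg_one, neg_zero]

theorem IsCD.idx_inv (h : IsCD A₀ A₁) {x : K} (hx : x ≠ 0) : idx A₁ x⁻¹ = - idx A₁ x := by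
  have := h.idx_mul hx (inv_ne_zero hx)
  rw [mul_inv_cancel₀ hx, idx_one] at this
  omega

theorem IsCD.idx_unit1 (_h : IsCD A₀ A₁) {x : K} (hx : x ∈ A₁) (hx' : x⁻¹ ∈ A₁) (h0 : x ≠ 0) :
    idx A₁ x = 0 := by
  rw [idx_eq, dg_unit hx hx' h0, neg_zero]

theorem IsCD.idx_unit0 (h : IsCD A₀ A₁) {x : K} (hx : x ∈ A₀) (hx' : x⁻¹ ∈ A₀) (h0 : x ≠ 0) :
    idx A₁ x = 0 := by
  rw [idx_eq, dg_unit_O h.oneDim h.fred hx hx' h0, neg_zero]

/-- The index of an element of the second chart is the number of its zeros there. -/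
theorem IsCD.idx_of_mem (_h : IsCD A₀ A₁) {x : K} (hx : x ∈ A₁) :
    idx A₁ x = finrank k (↥(Subalgebra.toSubmodule A₁) ⧸
      ((Subalgebra.toSubmodule A₁).map (LinearMap.mulLeft k x)).comap
        (Subalgebra.toSubmodule A₁).subtype) := by
  rw [idx_eq, dg_of_mem hx, finrank_quot, neg_neg]
  rfl

/-- Elements of the first chart have nonpositive index. -/
theorem IsCD.idx_le (h : IsCD A₀ A₁) {x : K} (hx : x ∈ A₀) (h0 : x ≠ 0) : idx A₁ x ≤ 0 := by
  rw [idx_eq]
  have := dg_nonneg h.oneDim h.fred hx h0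
  omega

/-- Riemann-Roch for the powers of the line bundle: `χ (n) = χ (0) + n deg`. -/
theorem IsCD.chi_Sec (h : IsCD A₀ A₁) {u : K} (hu : u ≠ 0) (n : ℕ) :
    FiniteDimensional k ↥(Sec A₀ A₁ u n) ∧
    FiniteDimensional k (K ⧸ (Subalgebra.toSubmodule A₀ ⊔
      (Subalgebra.toSubmodule A₁).comap (LinearMap.mulLeft k (u ^ n)))) ∧
    (finrank k ↥(Sec A₀ A₁ u n) : ℤ) - finrank k (K ⧸ (Subalgebra.toSubmodule A₀ ⊔
      (Subalgebra.toSubmodule A₁).comap (LinearMap.mulLeft k (u ^ n)))) =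
      chi0 A₀ A₁ + n * idx A₁ u := by
  have hun : u ^ n ≠ 0 := pow_ne_zero n hu
  have e1 : (Subalgebra.toSubmodule A₁).comap (LinearMap.mulLeft k (u ^ n)) =
      sc (u ^ n)⁻¹ (Subalgebra.toSubmodule A₁) := by
    ext x
    rw [Submodule.mem_comap, mem_sc]
    constructor
    · intro hx
      exact ⟨_, hx, by rw [LinearMap.mulLeft_apply, inv_mul_cancel_left₀ hun]⟩
    · rintro ⟨y, hy, rfl⟩
      rwa [LinearMap.mulLeft_apply, mul_inv_cancel_left₀ hun]
  have h1 := chi_sc_A h.oneDim h.fred (inv_ne_zero hun)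
  have h2 := Fred.comm h1.1
  have h3 : chi (Subalgebra.toSubmodule A₀) (sc (u ^ n)⁻¹ (Subalgebra.toSubmodule A₁)) =
      chi0 A₀ A₁ + n * idx A₁ u := by
    rw [chi_comm, h1.2, chi0_eq]
    have : dg A₁ (u ^ n)⁻¹ = n * idx A₁ u := by
      have h4 := idx_eq (A₁ := A₁) (u ^ n)⁻¹
      rw [h.idx_inv hun, h.idx_pow hu] at h4
      linarith
    rw [this]
  rw [Sec, e1]
  exact ⟨h2.1, h2.2, h3⟩

end curve

end Vale.Agent.P292.Mo
end

section

/-! Block II.c: scaling of a family of graded homomorphisms with a pole. -/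

namespace Vale.Agent.P292.Mo.Sc

open scoped DirectSum

section twist

variable {k R B : Type*} [CommRing k] [CommRing R] [Algebra k R] (𝒜 : ℕ → Submodule k R)
  [GradedAlgebra 𝒜] [CommRing B] [Algebra k B]

/-- the pieces of the twist -/
noncomputable def twistAux (φ : R →ₐ[k] B) (t : B) (i : ℕ) : 𝒜 i →ₗ[k] B :=
  (LinearMap.mulLeft k (t ^ i)) ∘ₗ φ.toLinearMap ∘ₗ (𝒜 i).subtype

lemma twistAux_one (φ : R →ₐ[k] B) (t : B) :
    twistAux 𝒜 φ t _ (GradedMonoid.GOne.one (A := fun i => 𝒜 i)) = 1 := by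
  change t ^ 0 * φ 1 = 1
  rw [pow_zero, map_one, one_mul]

lemma twistAux_mul (φ : R →ₐ[k] B) (t : B) {i j : ℕ} (a : 𝒜 i) (b : 𝒜 j) :
    twistAux 𝒜 φ t _ (GradedMonoid.GMul.mul (A := fun i => 𝒜 i) a b) =
      twistAux 𝒜 φ t _ a * twistAux 𝒜 φ t _ b := by
  change t ^ (i + j) * φ (a * b) = t ^ i * φ a * (t ^ j * φ b)
  rw [map_mul, pow_add]
  ring

/-- twist of a homomorphism by powers of an element, according to the degree -/
noncomputable def twist (φ : R →ₐ[k] B) (t : B) : R →ₐ[k] B :=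
  (DirectSum.toAlgebra k (fun i => 𝒜 i) (twistAux 𝒜 φ t) (twistAux_one 𝒜 φ t)
    (twistAux_mul 𝒜 φ t)).comp (DirectSum.decomposeAlgEquiv 𝒜).toAlgHom

lemma twist_apply (φ : R →ₐ[k] B) (t : B) {n : ℕ} {r : R} (hr : r ∈ 𝒜 n) :
    twist 𝒜 φ t r = t ^ n * φ r := by
  classical
  have h : (DirectSum.decomposeAlgEquiv 𝒜).toAlgHom r =
      DirectSum.of (fun i => 𝒜 i) n ⟨r, hr⟩ := by
    change DirectSum.decompose 𝒜 r = _
    rw [DirectSum.decompose_of_mem 𝒜 hr]
  rw [twist, AlgHom.comp_apply, h]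
  exact DirectSum.toSemiring_of (fun i => (twistAux 𝒜 φ t i).toAddMonoidHom)
    (twistAux_one 𝒜 φ t) (twistAux_mul 𝒜 φ t) n ⟨r, hr⟩

end twist

section laurent

variable {k B : Type*} [CommRing k] [CommRing B] [Algebra k B]

/-- the embedding of the integers used for `τ ↦ τ ^ e` -/
def mulEmb (e : ℕ) (he : 0 < e) : ℤ ↪o ℤ where
  toFun i := e * i
  inj' a b h := by
    have he' : (e : ℤ) ≠ 0 := by exact_mod_cast he.ne'
    exact mul_left_cancel₀ he' h
  map_rel_iff' {a b} := by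
    have he' : (0 : ℤ) < e := by exact_mod_cast he
    exact mul_le_mul_iff_of_pos_left he'

/-- substitution `τ ↦ τ ^ e` -/
noncomputable def expand (k : Type*) {B : Type*} [CommRing k] [CommRing B] [Algebra k B]
    (e : ℕ) (he : 0 < e) : LaurentSeries B →ₐ[k] LaurentSeries B :=
  { HahnSeries.embDomainRingHom (AddMonoidHom.mulLeft (e : ℤ)) (mulEmb e he).injective
      (fun _ _ => (mulEmb e he).map_rel_iff) with
    commutes' := fun c => by
      rw [HahnSeries.algebraMap_apply', PowerSeries.algebraMap_apply, HahnSeries.ofPowerSeries_C]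
      exact HahnSeries.embDomainRingHom_C }

lemma expand_eq (e : ℕ) (he : 0 < e) (x : LaurentSeries B) :
    expand k e he x = HahnSeries.embDomain (mulEmb e he) x := rfl

lemma expand_coeff_mul (e : ℕ) (he : 0 < e) (x : LaurentSeries B) (i : ℤ) :
    (expand k e he x).coeff (e * i) = x.coeff i := by
  rw [expand_eq]
  exact HahnSeries.embDomain_coeff

lemma expand_coeff_of_not_dvd (e : ℕ) (he : 0 < e) (x : LaurentSeries B) (j : ℤ)
    (h : ¬ (e : ℤ) ∣ j) : (expand k e he x).coeff j = 0 := by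
  rw [expand_eq]
  refine HahnSeries.embDomain_of_notMem_range ?_
  rintro ⟨i, hi⟩
  exact h ⟨i, hi.symm⟩

lemma single_mul_coeff (a : ℤ) (x : LaurentSeries B) (j : ℤ) :
    (HahnSeries.single a (1 : B) * x).coeff j = x.coeff (j - a) := by
  rw [HahnSeries.coeff_single_mul, one_mul]

/-- power series as Laurent series -/
noncomputable def ofPS (k B : Type*) [CommRing k] [CommRing B] [Algebra k B] :
    PowerSeries B →ₐ[k] LaurentSeries B :=
  { HahnSeries.ofPowerSeries ℤ B with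
    commutes' := fun c => (HahnSeries.algebraMap_apply' (Γ := ℤ) (R := B) c).symm }

lemma ofPS_apply (y : PowerSeries B) : ofPS k B y = HahnSeries.ofPowerSeries ℤ B y := rfl

lemma ofPS_coeff_nat (y : PowerSeries B) (n : ℕ) :
    (ofPS k B y).coeff (n : ℤ) = PowerSeries.coeff n y :=
  LaurentSeries.coeff_coe_powerSeries y n

lemma ofPS_coeff_neg (y : PowerSeries B) (i : ℤ) (hi : i < 0) :
    (ofPS k B y).coeff i = 0 := by
  rw [ofPS_apply, HahnSeries.ofPowerSeries_apply]
  refine HahnSeries.embDomain_of_notMem_range ?_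
  rintro ⟨n, hn⟩
  have : (n : ℤ) = i := hn
  omega

lemma ofPS_injective : Function.Injective (ofPS k B) := HahnSeries.ofPowerSeries_injective

lemma mem_range_ofPS {x : LaurentSeries B} :
    x ∈ (ofPS k B).range ↔ ∀ i : ℤ, i < 0 → x.coeff i = 0 := by
  constructor
  · rintro ⟨y, rfl⟩ i hi
    exact ofPS_coeff_neg y i hi
  · intro h
    refine ⟨PowerSeries.mk fun n => x.coeff n, ?_⟩
    ext i
    rcases lt_or_ge i 0 with hi | hi
    · rw [h i hi]
      exact ofPS_coeff_neg _ i hi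
    · obtain ⟨n, rfl⟩ := Int.eq_ofNat_of_zero_le hi
      exact (ofPS_coeff_nat (k := k) _ n).trans (PowerSeries.coeff_mk _ _)

lemma mem_range_ofPowerSeries {x : LaurentSeries B} :
    x ∈ Set.range (HahnSeries.ofPowerSeries ℤ B) ↔ ∀ i : ℤ, i < 0 → x.coeff i = 0 := by
  rw [← mem_range_ofPS (k := B)]
  exact Iff.rfl

end laurent

section scale

variable {k R B : Type*} [CommRing k] [CommRing R] [Algebra k R] (𝒜 : ℕ → Submodule k R)
  [GradedAlgebra 𝒜] [CommRing B] [Algebra k B]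

/-- a homomorphism maps into a subalgebra if the generators do -/
lemma forall_mem_of_adjoin {C : Type*} [CommRing C] [Algebra k C] (φ : R →ₐ[k] C) (s : Set R)
    (hs : Algebra.adjoin k s = ⊤) (Q : Subalgebra k C) (hQ : ∀ r ∈ s, φ r ∈ Q) (r : R) :
    φ r ∈ Q := by
  have hr : r ∈ Algebra.adjoin k s := by rw [hs]; trivial
  have h : Algebra.adjoin k s ≤ Q.comap φ := Algebra.adjoin_le hQ
  exact h hr

/-- a power series lift -/
lemma exists_lift (φ : R →ₐ[k] LaurentSeries B) (h : ∀ r, φ r ∈ (ofPS k B).range) :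
    ∃ φ' : R →ₐ[k] PowerSeries B, ∀ r, ofPS k B (φ' r) = φ r := by
  let e := AlgEquiv.ofInjective (ofPS k B) ofPS_injective
  refine ⟨e.symm.toAlgHom.comp (φ.codRestrict (ofPS k B).range h), fun r => ?_⟩
  have h1 : e (e.symm (φ.codRestrict (ofPS k B).range h r)) = φ.codRestrict _ h r :=
    e.apply_symm_apply _
  exact congrArg Subtype.val h1

/-- General scaling: a homomorphism to Laurent series can be rescaled, according to the degree,
to a homomorphism to power series whose reduction is not the vertex. -/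
theorem exists_scaled (φ : R →ₐ[k] LaurentSeries B) (s : Finset R)
    (hs : Algebra.adjoin k (s : Set R) = ⊤) (hdeg : ∀ x ∈ s, ∃ n, 0 < n ∧ x ∈ 𝒜 n)
    (hne : ∃ x ∈ s, φ x ≠ 0) :
    ∃ (e : ℕ) (he : 0 < e) (a : ℤ) (φ' : R →ₐ[k] PowerSeries B),
      (∀ n, ∀ r ∈ 𝒜 n, ofPS k B (φ' r) = HahnSeries.single (a * n) 1 * expand k e he (φ r)) ∧
      ∃ x ∈ s, ∃ n, 0 < n ∧ x ∈ 𝒜 n ∧ PowerSeries.constantCoeff (φ' x) ≠ 0 := by
  classical
  choose! d hd0 hd using hdeg
  obtain ⟨x, hx, hmax⟩ := (s.filter fun x => φ x ≠ 0).exists_min_image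
    (fun x => ((φ x).order : ℚ) / d x) (by
      obtain ⟨x, hx, hx'⟩ := hne
      exact ⟨x, Finset.mem_filter.mpr ⟨hx, hx'⟩⟩)
  rw [Finset.mem_filter] at hx
  obtain ⟨hxs, hx0⟩ := hx
  have he : 0 < d x := hd0 x hxs
  let t : LaurentSeries B := HahnSeries.single (-(φ x).order) (1 : B)
  let ψ : R →ₐ[k] LaurentSeries B := twist 𝒜 ((expand k (d x) he).comp φ) t
  have hψ : ∀ n, ∀ r ∈ 𝒜 n, ψ r =
      HahnSeries.single (-(φ x).order * n) 1 * expand k (d x) he (φ r) := by
    intro n r hr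
    change twist 𝒜 _ t r = _
    rw [twist_apply 𝒜 _ t hr]
    change t ^ n * _ = _
    congr 1
    change (HahnSeries.single (-(φ x).order) (1 : B)) ^ n = _
    rw [HahnSeries.single_pow, one_pow, nsmul_eq_mul, mul_comm]
  have hreg : ∀ r, ψ r ∈ (ofPS k B).range := by
    refine forall_mem_of_adjoin ψ s hs _ fun y hy => ?_
    rw [mem_range_ofPS]
    intro i hi
    rw [hψ _ y (hd y hy), single_mul_coeff]
    by_cases hdv : ((d x : ℕ) : ℤ) ∣ i - -(φ x).order * (d y : ℤ)
    · obtain ⟨j, hj⟩ := hdv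
      rw [hj, expand_coeff_mul]
      by_cases hy0 : φ y = 0
      · rw [hy0]; rfl
      · apply HahnSeries.coeff_eq_zero_of_lt_order
        have h1 := hmax y (Finset.mem_filter.mpr ⟨hy, hy0⟩)
        have hx' : (0 : ℚ) < d x := by exact_mod_cast he
        have hy' : (0 : ℚ) < d y := by exact_mod_cast hd0 y hy
        rw [div_le_div_iff₀ hx' hy'] at h1
        have h2 : (φ x).order * (d y : ℤ) ≤ (φ y).order * (d x : ℤ) := by exact_mod_cast h1
        by_contra hcon
        push Not at hcon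
        have he' : (0 : ℤ) < d x := by exact_mod_cast he
        nlinarith
    · exact expand_coeff_of_not_dvd _ _ _ _ hdv
  obtain ⟨φ', hφ'⟩ := exists_lift ψ hreg
  refine ⟨d x, he, -(φ x).order, φ', fun n r hr => by rw [hφ', hψ n r hr], x, hxs, d x, he,
    hd x hxs, ?_⟩
  have h1 : (ofPS k B (φ' x)).coeff ((0 : ℕ) : ℤ) = PowerSeries.coeff 0 (φ' x) :=
    ofPS_coeff_nat (φ' x) 0
  rw [← PowerSeries.coeff_zero_eq_constantCoeff_apply, ← h1, hφ', hψ _ x (hd x hxs),
    single_mul_coeff]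
  have h2 : (((0 : ℕ) : ℤ) - -(φ x).order * (d x : ℤ)) = (d x : ℤ) * (φ x).order := by
    push_cast; ring
  rw [h2, expand_coeff_mul]
  exact HahnSeries.coeff_order_eq_zero.not.mpr hx0

omit [GradedAlgebra 𝒜] in
/-- coefficients of the rescaled homomorphism -/
lemma coeff_scaled {φ : R →ₐ[k] LaurentSeries B} {e : ℕ} {he : 0 < e} {a : ℤ}
    {φ' : R →ₐ[k] PowerSeries B}
    (h : ∀ n, ∀ r ∈ 𝒜 n, ofPS k B (φ' r) = HahnSeries.single (a * n) 1 * expand k e he (φ r))
    {n : ℕ} {r : R} (hr : r ∈ 𝒜 n) (j : ℕ) :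
    PowerSeries.coeff j (φ' r) = (expand k e he (φ r)).coeff (j - a * n) := by
  rw [← ofPS_coeff_nat (k := k), h n r hr, single_mul_coeff]

omit [GradedAlgebra 𝒜] in
lemma coeff_scaled_neg {φ : R →ₐ[k] LaurentSeries B} {e : ℕ} {he : 0 < e} {a : ℤ}
    {φ' : R →ₐ[k] PowerSeries B}
    (h : ∀ n, ∀ r ∈ 𝒜 n, ofPS k B (φ' r) = HahnSeries.single (a * n) 1 * expand k e he (φ r))
    {n : ℕ} {r : R} (hr : r ∈ 𝒜 n) (i : ℤ) (hi : e * i + a * n < 0) :
    (φ r).coeff i = 0 := by
  have h1 := ofPS_coeff_neg (k := k) (φ' r) _ hi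
  rw [h n r hr, single_mul_coeff, add_sub_cancel_right, expand_coeff_mul] at h1
  exact h1

/-- (S1) scaling in the presence of a pole -/
theorem exists_scaled_of_pole (φ : R →ₐ[k] LaurentSeries B) (s : Finset R)
    (hs : Algebra.adjoin k (s : Set R) = ⊤) (hdeg : ∀ x ∈ s, ∃ n, 0 < n ∧ x ∈ 𝒜 n)
    (hpole : ∃ r, φ r ∉ Set.range (HahnSeries.ofPowerSeries ℤ B)) :
    ∃ (e : ℕ) (he : 0 < e) (μ : ℕ) (φ' : R →ₐ[k] PowerSeries B), 0 < μ ∧
      (∀ n, ∀ r ∈ 𝒜 n, ofPS k B (φ' r) =
        HahnSeries.single (μ * n : ℤ) 1 * expand k e he (φ r)) ∧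
      ∃ x ∈ s, ∃ n, 0 < n ∧ x ∈ 𝒜 n ∧ PowerSeries.constantCoeff (φ' x) ≠ 0 := by
  have hgen : ∃ x ∈ s, φ x ∉ (ofPS k B).range := by
    by_contra hcon
    push Not at hcon
    obtain ⟨r, hr⟩ := hpole
    exact hr (forall_mem_of_adjoin φ s hs _ hcon r)
  obtain ⟨y, hy, hy'⟩ := hgen
  obtain ⟨e, he, a, φ', h1, h2⟩ := exists_scaled 𝒜 φ s hs hdeg ⟨y, hy, fun h => hy' (by
    rw [h]; exact zero_mem _)⟩
  have ha : 0 < a := by
    by_contra hcon
    push Not at hcon
    apply hy'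
    rw [mem_range_ofPS]
    intro i hi
    obtain ⟨n, hn, hyn⟩ := hdeg y hy
    refine coeff_scaled_neg 𝒜 h1 hyn i ?_
    have h3 : (e : ℤ) * i < 0 := mul_neg_of_pos_of_neg (by exact_mod_cast he) hi
    have h4 : a * (n : ℤ) ≤ 0 := mul_nonpos_of_nonpos_of_nonneg hcon (by positivity)
    linarith
  obtain ⟨μ, rfl⟩ := Int.eq_ofNat_of_zero_le ha.le
  exact ⟨e, he, μ, φ', by exact_mod_cast ha, h1, h2⟩

omit [GradedAlgebra 𝒜] in
/-- (S2) values at a mark -/
theorem mark_scaled {C : Type*} [CommRing C] [Algebra k C] {φ : R →ₐ[k] LaurentSeries B}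
    {e : ℕ} {he : 0 < e} {μ : ℕ} {φ' : R →ₐ[k] PowerSeries B}
    (h : ∀ n, ∀ r ∈ 𝒜 n, ofPS k B (φ' r) =
      HahnSeries.single (μ * n : ℤ) 1 * expand k e he (φ r))
    (c : B →ₐ[k] C) (w : R → C)
    (hmark : ∀ r (i : ℤ), c ((φ r).coeff i) = if i = 0 then w r else 0)
    {n : ℕ} {r : R} (hr : r ∈ 𝒜 n) (j : ℕ) :
    c (PowerSeries.coeff j (φ' r)) = if j = μ * n then w r else 0 := by
  rw [coeff_scaled 𝒜 h hr]
  by_cases hdv : (e : ℤ) ∣ (j - μ * n : ℤ)
  · obtain ⟨i, hi⟩ := hdv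
    rw [hi, expand_coeff_mul, hmark]
    by_cases hi0 : i = 0
    · rw [if_pos hi0, if_pos]
      rw [hi0, mul_zero, sub_eq_zero] at hi
      exact_mod_cast hi
    · rw [if_neg hi0, if_neg]
      intro h3
      rw [h3] at hi
      push_cast at hi
      rw [sub_self] at hi
      rcases mul_eq_zero.mp hi.symm with h4 | h4
      · have : e = 0 := by exact_mod_cast h4
        omega
      · exact hi0 h4
  · rw [expand_coeff_of_not_dvd _ _ _ _ hdv, map_zero, if_neg]
    intro h3
    apply hdv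
    rw [h3]
    push_cast
    rw [sub_self]
    exact dvd_zero _

end scale

section order

variable {k R : Type*} [Field k] [CommRing R] [Algebra k R] (𝒜 : ℕ → Submodule k R)
  [GradedAlgebra 𝒜]

/-- (S3) the order of vanishing of a graded homomorphism at a smooth point is an integer. -/
theorem exists_order (s : Finset R)
    (hs : Algebra.adjoin k (s : Set R) = ⊤) (hdeg : ∀ x ∈ s, ∃ n, 0 < n ∧ x ∈ 𝒜 n)
    (lb : ∀ x : R →ₐ[k] k, (∃ n : ℕ, 0 < n ∧ ∃ r ∈ 𝒜 n, x r ≠ 0) →
      ∀ d : ℕ, (∀ n, ∀ r ∈ 𝒜 n, x r ≠ 0 → d ∣ n) → d = 1)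
    (Ψ : R →ₐ[k] PowerSeries k) (hne : ∃ x ∈ s, Ψ x ≠ 0)
    (h0 : ∀ n, 0 < n → ∀ r ∈ 𝒜 n, PowerSeries.constantCoeff (Ψ r) = 0) :
    ∃ (β : ℕ) (x : R →ₐ[k] k), 0 < β ∧
      (∀ n, ∀ r ∈ 𝒜 n, (PowerSeries.X : PowerSeries k) ^ (β * n) ∣ Ψ r) ∧
      (∀ n, ∀ r ∈ 𝒜 n, x r = PowerSeries.coeff (β * n) (Ψ r)) ∧
      ∃ r ∈ s, ∃ n, 0 < n ∧ r ∈ 𝒜 n ∧ x r ≠ 0 := by
  obtain ⟨e, he, a, φ', h1, y, hys, n, hn, hyn, hy0⟩ := exists_scaled 𝒜
    ((ofPS k k).comp Ψ) s hs hdeg (by
      obtain ⟨x, hx, hx'⟩ := hne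
      exact ⟨x, hx, fun h => hx' (ofPS_injective (k := k) (by rw [map_zero]; exact h))⟩)
  have he' : (0 : ℤ) < e := by exact_mod_cast he
  let x : R →ₐ[k] k :=
    { (PowerSeries.constantCoeff (R := k)).comp φ'.toRingHom with
      commutes' := fun c => by
        change PowerSeries.constantCoeff (φ' (algebraMap k R c)) = _
        rw [AlgHom.commutes, PowerSeries.algebraMap_apply, PowerSeries.constantCoeff_C] }
  have hx : ∀ r, x r = PowerSeries.constantCoeff (φ' r) := fun r => rfl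
  have hdvd : ∀ n, ∀ r ∈ 𝒜 n, x r ≠ 0 → (e : ℤ) ∣ a * n := by
    intro n r hr hr0
    by_contra hcon
    apply hr0
    rw [hx, ← PowerSeries.coeff_zero_eq_constantCoeff_apply, coeff_scaled 𝒜 h1 hr]
    refine expand_coeff_of_not_dvd _ _ _ _ fun h => hcon ?_
    rw [show a * (n : ℤ) = -(((0 : ℕ) : ℤ) - a * n) by push_cast; ring]
    exact (dvd_neg).mpr h
  have hea : (e : ℤ) ∣ a := by
    have hg : Int.gcd e a ≠ 0 := by
      intro h
      rw [Int.gcd_eq_zero_iff] at h
      exact he'.ne' h.1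
    obtain ⟨e', a', hcop, h2, h3⟩ := Int.exists_gcd_one (Nat.pos_of_ne_zero hg)
    have hg' : (0 : ℤ) < (Int.gcd e a : ℤ) := by exact_mod_cast Nat.pos_of_ne_zero hg
    have hd : e'.natAbs = 1 := by
      refine lb x ⟨n, hn, y, hyn, hy0⟩ _ fun m r hr hr0 => ?_
      have h4 := hdvd m r hr hr0
      rw [← Int.natCast_dvd_natCast, Int.natCast_natAbs, abs_dvd]
      have h5 : e' ∣ a' * m := by
        have h6 : e' * (Int.gcd e a : ℤ) ∣ a' * m * (Int.gcd e a : ℤ) := by
          rw [← h2, show a' * (m : ℤ) * (Int.gcd e a : ℤ) = a' * (Int.gcd e a : ℤ) * m by ring,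
            ← h3]
          exact h4
        exact (mul_dvd_mul_iff_right hg'.ne').mp h6
      exact (Int.isCoprime_iff_gcd_eq_one.mpr hcop).dvd_of_dvd_mul_left h5
    have h7 : (e : ℤ) ∣ (Int.gcd e a : ℤ) := by
      have h8 : e' = 1 ∨ e' = -1 := Int.natAbs_eq_iff.mp (by simpa using hd)
      rcases h8 with h8 | h8
      · rw [h8, one_mul] at h2
        exact dvd_of_eq h2
      · rw [h8, neg_one_mul] at h2
        omega
    exact h7.trans (Int.gcd_dvd_right _ _)
  obtain ⟨b, rfl⟩ := hea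
  -- coefficients of `x`
  have hxc : ∀ n, ∀ r ∈ 𝒜 n, x r = (ofPS k k (Ψ r)).coeff (-b * n) := by
    intro n r hr
    rw [hx, ← PowerSeries.coeff_zero_eq_constantCoeff_apply, coeff_scaled 𝒜 h1 hr,
      show (((0 : ℕ) : ℤ) - (e : ℤ) * b * n) = e * (-b * n) by push_cast; ring, expand_coeff_mul]
    rfl
  have hb : b < 0 := by
    by_contra hcon
    push Not at hcon
    apply hy0
    rw [← hx, hxc n y hyn]
    rcases eq_or_lt_of_le hcon with h | h
    · rw [← h, neg_zero, zero_mul]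
      have := ofPS_coeff_nat (k := k) (Ψ y) 0
      rw [Nat.cast_zero] at this
      rw [this, PowerSeries.coeff_zero_eq_constantCoeff_apply, h0 n hn y hyn]
    · refine ofPS_coeff_neg _ _ ?_
      have : (0 : ℤ) < n := by exact_mod_cast hn
      nlinarith
  obtain ⟨β, hβ⟩ := Int.eq_ofNat_of_zero_le (show 0 ≤ -b by linarith)
  have hβ0 : 0 < β := by
    have : (0 : ℤ) < β := by rw [← hβ]; linarith
    exact_mod_cast this
  refine ⟨β, x, hβ0, fun n r hr => ?_, fun n r hr => ?_, y, hys, n, hn, hyn, hy0⟩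
  · rw [PowerSeries.X_pow_dvd_iff]
    intro m hm
    rw [← ofPS_coeff_nat (k := k)]
    refine coeff_scaled_neg 𝒜 h1 hr (m : ℤ) ?_
    have h3 : (m : ℤ) < β * n := by exact_mod_cast hm
    have h4 : b = -(β : ℤ) := by linarith
    rw [h4]
    have : (e : ℤ) * m + e * -(β : ℤ) * n = e * ((m : ℤ) - β * n) := by ring
    rw [this]
    exact mul_neg_of_pos_of_neg he' (by linarith)
  · rw [hxc n r hr, hβ, ← ofPS_coeff_nat (k := k)]
    push_cast
    rfl

end order

end Vale.Agent.P292.Mo.Sc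
end

section

/-! # Base point freeness is an open condition on the parameters.

`D` is the parameter ring, `A₀`, `A₁` are the rings of functions on two affine charts of a
projective curve with function field `K`. -/

namespace Vale.Agent.P292.Mo

open TensorProduct

universe u v w x

section

variable {k : Type u} [Field k] {D : Type w} [CommRing D] [Algebra k D]

/-- Specialisation of the parameters `D` by a point `e`. -/
noncomputable def evT (e : D →ₐ[k] k) (B : Type v) [CommRing B] [Algebra k B] :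
    D ⊗[k] B →ₐ[k] B :=
  Algebra.TensorProduct.lift ((Algebra.ofId k B).comp e) (AlgHom.id k B)
    (fun _ _ => Commute.all _ _)

@[simp] theorem evT_tmul (e : D →ₐ[k] k) (B : Type v) [CommRing B] [Algebra k B] (d : D) (b : B) :
    evT e B (d ⊗ₜ[k] b) = algebraMap k B (e d) * b := by
  simp [evT, Algebra.ofId_apply]

theorem evT_surjective (e : D →ₐ[k] k) (B : Type v) [CommRing B] [Algebra k B] :
    Function.Surjective (evT e B) := fun b => ⟨1 ⊗ₜ[k] b, by simp⟩

/-- Elements of an ideal which generates the unit ideal after specialisation. -/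
theorem exists_evT_eq_one (e : D →ₐ[k] k) (B : Type v) [CommRing B] [Algebra k B]
    (a : Ideal (D ⊗[k] B)) (ha : a.map (evT e B) = ⊤) : ∃ t ∈ a, evT e B t = 1 := by
  have h1 : (1 : B) ∈ a.map (evT e B) := by
    rw [ha]
    exact Submodule.mem_top
  obtain ⟨t, ht, h⟩ := (Ideal.mem_map_iff_of_surjective (evT e B) (evT_surjective e B)).1 h1
  exact ⟨t, ht, h⟩

variable {K : Type v} [Field K] [Algebra k K]

theorem bpf_core {L : Type x} [Field L] [Algebra k L] (O : ValuationSubring L) (e : D →ₐ[k] k)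
    (xD : D →ₐ[k] L) (x1 : K →ₐ[k] L)
    (hDe : ∀ d, e d = 0 → xD d ∈ O.nonunits) (A : Subalgebra k K) (hA : ∀ a ∈ A, x1 a ∈ O)
    (a : Ideal (D ⊗[k] A)) (ha : a.map (evT e A) = ⊤)
    (hx : ∀ t ∈ a, Algebra.TensorProduct.lift xD (x1.comp A.val) (fun _ _ => Commute.all _ _) t =
      0) : False := by
  set y : D ⊗[k] A →ₐ[k] L :=
    Algebra.TensorProduct.lift xD (x1.comp A.val) (fun _ _ => Commute.all _ _) with hy
  have key : ∀ t, y t - x1 (evT e A t : A) ∈ O.nonunits := by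
    intro t
    induction t using TensorProduct.induction_on with
    | zero => simp
    | tmul d b =>
      have h1 : y (d ⊗ₜ[k] b) = xD d * x1 b := by
        simp [hy]
      have h2 : x1 ((evT e A (d ⊗ₜ[k] b) : A) : K) = xD (algebraMap k D (e d)) * x1 b := by
        rw [evT_tmul, MulMemClass.coe_mul, map_mul]
        congr 1
        rw [AlgHom.commutes]
        exact x1.commutes _
      rw [h1, h2, ← sub_mul, ← map_sub, ValuationSubring.mem_nonunits_iff, map_mul]
      have h3 : xD (d - algebraMap k D (e d)) ∈ O.nonunits := by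
        refine hDe _ ?_
        rw [map_sub, AlgHom.commutes]
        simp
      rw [ValuationSubring.mem_nonunits_iff] at h3
      exact mul_lt_one_of_lt_of_le h3 ((O.valuation_le_one_iff _).2 (hA _ b.2))
    | add s t hs ht =>
      have : y (s + t) - x1 (evT e A (s + t) : A) =
          (y s - x1 (evT e A s : A)) + (y t - x1 (evT e A t : A)) := by
        rw [map_add, map_add, AddMemClass.coe_add, map_add]
        ring
      rw [this]
      exact O.nonunits.add_mem hs ht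
  obtain ⟨t, ht, h1⟩ := exists_evT_eq_one e A a ha
  have h2 := key t
  rw [h1, hx t ht, OneMemClass.coe_one, map_one, ValuationSubring.mem_nonunits_iff, zero_sub,
    Valuation.map_neg, map_one] at h2
  exact lt_irrefl _ h2

/-- A field valued point of the locus of base points, whose closure meets the fibre at `e`. -/
theorem exists_field_point {T : Type x} [CommRing T] [Algebra k T] (incl : D →ₐ[k] T)
    (e : D →ₐ[k] k) (a : Ideal T) (hle : a.comap incl ≤ RingHom.ker e) :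
    ∃ (L : Type x) (_ : Field L) (_ : Algebra k L) (y : T →ₐ[k] L),
      (∀ t ∈ a, y t = 0) ∧ ∀ d, y (incl d) = 0 → e d = 0 := by
  have hker : (RingHom.ker e).IsPrime := RingHom.ker_isPrime e
  obtain ⟨q, hq, hqe⟩ := Ideal.exists_minimalPrimes_le hle
  obtain ⟨Q, hQ, haQ, hQq⟩ := Ideal.exists_comap_eq_of_mem_minimalPrimes (incl : D →+* T) q hq
  let y : T →ₐ[k] FractionRing (T ⧸ Q) :=
    (IsScalarTower.toAlgHom k (T ⧸ Q) (FractionRing (T ⧸ Q))).comp (Ideal.Quotient.mkₐ k Q)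
  have hyker : ∀ t, y t = 0 ↔ t ∈ Q := by
    intro t
    change algebraMap (T ⧸ Q) (FractionRing (T ⧸ Q)) (Ideal.Quotient.mk Q t) = 0 ↔ _
    rw [map_eq_zero_iff _ (IsFractionRing.injective (T ⧸ Q) (FractionRing (T ⧸ Q))),
      Ideal.Quotient.eq_zero_iff_mem]
  refine ⟨FractionRing (T ⧸ Q), inferInstance, inferInstance, y, fun t ht => (hyker t).2 (haQ ht),
    fun d hd => ?_⟩
  have h1 : incl d ∈ Q := (hyker _).1 hd
  have h2 : d ∈ q := by
    rw [← hQq]
    exact h1
  exact hqe h2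

/-- A valuation ring dominating the image of `D` at the point `e`. -/
theorem exists_dominating {L : Type x} [Field L] [Algebra k L] (xD : D →ₐ[k] L) (e : D →ₐ[k] k)
    (hxD : ∀ d, xD d = 0 → e d = 0) :
    ∃ O : ValuationSubring L, (∀ d, xD d ∈ O) ∧ ∀ d, e d = 0 → xD d ∈ O.nonunits := by
  obtain ⟨DD, fD, hfD, hval⟩ : ∃ (DD : Subring L) (fD : D →+* DD), Function.Surjective fD ∧
      ∀ d, ((fD d : DD) : L) = xD d :=
    ⟨xD.toRingHom.range, xD.toRingHom.rangeRestrict, xD.toRingHom.rangeRestrict_surjective,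
      fun d => rfl⟩
  have hI : (RingHom.ker e).map fD ≠ ⊤ := by
    intro htop
    have h1 : (1 : DD) ∈ (RingHom.ker e).map fD := by
      rw [htop]
      exact Submodule.mem_top
    obtain ⟨d, hd, hd1⟩ := (Ideal.mem_map_iff_of_surjective fD hfD).1 h1
    have h2 : xD (d - 1) = 0 := by
      rw [map_sub, map_one, sub_eq_zero, ← hval, hd1]
      rfl
    have h3 := hxD _ h2
    rw [map_sub, map_one, RingHom.mem_ker.1 hd] at h3
    simp at h3
  obtain ⟨O, hO, hOI⟩ := Ideal.image_subset_nonunits_valuationSubring _ hI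
  refine ⟨O, fun d => ?_, fun d hd => ?_⟩
  · rw [← hval]
    exact hO (fD d).2
  · rw [← hval]
    exact hOI ⟨fD d, Ideal.mem_map_of_mem fD (RingHom.mem_ker.2 hd), rfl⟩

/-- The case of a nonconstant point of the curve. -/
theorem bpf_generic {L : Type x} [Field L] [Algebra k L] (A₀ A₁ : Subalgebra k K)
    [IsFractionRing A₀ K]
    (P1 : ∀ V : ValuationSubring K, (∀ c : k, algebraMap k K c ∈ V) →
      (∀ a ∈ A₀, a ∈ V) ∨ (∀ a ∈ A₁, a ∈ V))
    (e : D →ₐ[k] k) (a₀ : Ideal (D ⊗[k] A₀)) (a₁ : Ideal (D ⊗[k] A₁))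
    (h01 : a₁.map (Algebra.TensorProduct.map (AlgHom.id k D) A₁.val) ≤
      a₀.map (Algebra.TensorProduct.map (AlgHom.id k D) A₀.val))
    (he0 : a₀.map (evT e A₀) = ⊤) (he1 : a₁.map (evT e A₁) = ⊤)
    (xD : D →ₐ[k] L) (x0 : A₀ →ₐ[k] L) (hinj : Function.Injective x0)
    (hxD : ∀ d, xD d = 0 → e d = 0)
    (hxa : ∀ t ∈ a₀, Algebra.TensorProduct.lift xD x0 (fun _ _ => Commute.all _ _) t = 0) :
    False := by
  obtain ⟨x1, hx1⟩ : ∃ x1 : K →ₐ[k] L, ∀ b : A₀, x1 (b : K) = x0 b :=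
    ⟨IsFractionRing.liftAlgHom (g := x0) hinj, fun b => IsFractionRing.lift_algebraMap hinj b⟩
  obtain ⟨O, hOD, hOe⟩ := exists_dominating xD e hxD
  set X : D ⊗[k] K →ₐ[k] L :=
    Algebra.TensorProduct.lift xD x1 (fun _ _ => Commute.all _ _) with hX
  have hXA : ∀ (A : Subalgebra k K) (t : D ⊗[k] A),
      Algebra.TensorProduct.lift xD (x1.comp A.val) (fun _ _ => Commute.all _ _) t =
        X (Algebra.TensorProduct.map (AlgHom.id k D) A.val t) := by
    intro A t
    have : (Algebra.TensorProduct.lift xD (x1.comp A.val) (fun _ _ => Commute.all _ _) :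
        D ⊗[k] A →ₐ[k] L) = X.comp (Algebra.TensorProduct.map (AlgHom.id k D) A.val) := by
      refine Algebra.TensorProduct.ext' fun d b => ?_
      simp [hX]
    exact DFunLike.congr_fun this t
  have hx01 : x1.comp A₀.val = x0 := AlgHom.ext fun b => hx1 b
  have hkill0 : a₀.map (Algebra.TensorProduct.map (AlgHom.id k D) A₀.val) ≤ RingHom.ker X := by
    rw [Ideal.map_le_iff_le_comap]
    intro t ht
    rw [Ideal.mem_comap, RingHom.mem_ker, ← hXA, hx01]
    exact hxa t ht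
  have hconst : ∀ c : k, algebraMap k K c ∈ O.comap (x1 : K →+* L) := by
    intro c
    rw [ValuationSubring.mem_comap]
    have h1 : (x1 : K →+* L) (algebraMap k K c) = xD (algebraMap k D c) := by
      rw [AlgHom.commutes]
      exact x1.commutes c
    rw [h1]
    exact hOD _
  rcases P1 (O.comap (x1 : K →+* L)) hconst with h | h
  · refine bpf_core O e xD x1 hOe A₀ (fun a ha => ?_) a₀ he0 fun t ht => ?_
    · exact ValuationSubring.mem_comap.1 (h a ha)
    · rw [hXA]
      exact RingHom.mem_ker.1 (hkill0 (Ideal.mem_map_of_mem _ ht))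
  · refine bpf_core O e xD x1 hOe A₁ (fun a ha => ?_) a₁ he1 fun t ht => ?_
    · exact ValuationSubring.mem_comap.1 (h a ha)
    · rw [hXA]
      exact RingHom.mem_ker.1 (hkill0 (h01 (Ideal.mem_map_of_mem _ ht)))

/-- The case of a constant point of the curve. -/
theorem bpf_closed {L : Type x} [Field L] [Algebra k L] {A₀ : Type v} [CommRing A₀] [Algebra k A₀]
    (e : D →ₐ[k] k) (a₀ : Ideal (D ⊗[k] A₀)) (he0 : a₀.map (evT e A₀) = ⊤)
    (xD : D →ₐ[k] L) (x0 : A₀ →ₐ[k] L) (hx0 : ∀ a : A₀, ∃ c : k, x0 a = algebraMap k L c)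
    (hxD : ∀ d, xD d = 0 → e d = 0)
    (hxa : ∀ t ∈ a₀, Algebra.TensorProduct.lift xD x0 (fun _ _ => Commute.all _ _) t = 0) :
    False := by
  choose c hc using hx0
  have hcinj : Function.Injective (algebraMap k L) := (algebraMap k L).injective
  obtain ⟨χ, hχ⟩ : ∃ χ : A₀ →ₐ[k] k, ∀ b, x0 b = algebraMap k L (χ b) := by
    refine ⟨{ toFun := c
              map_one' := hcinj (by rw [← hc, map_one, map_one])
              map_mul' := fun a b => hcinj (by rw [← hc, map_mul, map_mul, hc, hc])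
              map_zero' := hcinj (by rw [← hc, map_zero, map_zero])
              map_add' := fun a b => hcinj (by rw [← hc, map_add, map_add, hc, hc])
              commutes' := fun r => hcinj (by rw [← hc, AlgHom.commutes]; rfl) }, hc⟩
  obtain ⟨η, hη⟩ : ∃ η : D ⊗[k] A₀ →ₐ[k] D, ∀ d b, η (d ⊗ₜ[k] b) = d * algebraMap k D (χ b) := by
    refine ⟨Algebra.TensorProduct.lift (AlgHom.id k D) ((Algebra.ofId k D).comp χ)
      (fun _ _ => Commute.all _ _), fun d b => ?_⟩
    rw [Algebra.TensorProduct.lift_tmul]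
    rfl
  have h1 : (Algebra.TensorProduct.lift xD x0 (fun _ _ => Commute.all _ _) :
      D ⊗[k] A₀ →ₐ[k] L) = xD.comp η := by
    refine Algebra.TensorProduct.ext' fun d b => ?_
    rw [AlgHom.comp_apply, Algebra.TensorProduct.lift_tmul, hη, map_mul, hχ, AlgHom.commutes]
  have h2 : e.comp η = χ.comp (evT e A₀) := by
    refine Algebra.TensorProduct.ext' fun d b => ?_
    rw [AlgHom.comp_apply, AlgHom.comp_apply, hη, evT_tmul, map_mul, map_mul, AlgHom.commutes,
      AlgHom.commutes]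
    rfl
  obtain ⟨t, ht, h3⟩ := exists_evT_eq_one e A₀ a₀ he0
  have h4 : xD (η t) = 0 := by
    have := DFunLike.congr_fun h1 t
    rw [AlgHom.comp_apply] at this
    rw [← this]
    exact hxa t ht
  have h5 := hxD _ h4
  have h6 := DFunLike.congr_fun h2 t
  rw [AlgHom.comp_apply, AlgHom.comp_apply, h3, map_one] at h6
  rw [h6] at h5
  exact one_ne_zero h5

/-- Base point freeness is open: if the ideals `a₀`, `a₁` on the two charts of the family agree
over the generic point of the curve, and become the unit ideals at the parameter `e`, then some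
function `h` of the parameters with `e h ≠ 0` lies in `a₀`. -/
theorem exists_bpf_cert (A₀ A₁ : Subalgebra k K) [IsFractionRing A₀ K]
    (P1 : ∀ V : ValuationSubring K, (∀ c : k, algebraMap k K c ∈ V) →
      (∀ a ∈ A₀, a ∈ V) ∨ (∀ a ∈ A₁, a ∈ V))
    (P2 : ∀ p : Ideal A₀, p.IsPrime → p ≠ ⊥ → ∀ a : A₀, ∃ c : k, a - algebraMap k A₀ c ∈ p)
    (e : D →ₐ[k] k) (a₀ : Ideal (D ⊗[k] A₀)) (a₁ : Ideal (D ⊗[k] A₁))
    (h01 : a₁.map (Algebra.TensorProduct.map (AlgHom.id k D) A₁.val) ≤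
      a₀.map (Algebra.TensorProduct.map (AlgHom.id k D) A₀.val))
    (he0 : a₀.map (evT e A₀) = ⊤) (he1 : a₁.map (evT e A₁) = ⊤) :
    ∃ h : D, e h ≠ 0 ∧ h ⊗ₜ[k] (1 : A₀) ∈ a₀ := by
  by_contra hcon
  push Not at hcon
  have hle : a₀.comap (Algebra.TensorProduct.includeLeft : D →ₐ[k] D ⊗[k] A₀) ≤
      RingHom.ker e := by
    intro h hh
    by_contra hne
    exact hcon h hne hh
  obtain ⟨L, _, _, y, hya, hye⟩ := exists_field_point _ e a₀ hle
  obtain ⟨xD, hxD⟩ : ∃ xD : D →ₐ[k] L, ∀ d, xD d = y (d ⊗ₜ[k] 1) :=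
    ⟨y.comp Algebra.TensorProduct.includeLeft, fun d => rfl⟩
  obtain ⟨x0, hx0⟩ : ∃ x0 : A₀ →ₐ[k] L, ∀ b, x0 b = y (1 ⊗ₜ[k] b) :=
    ⟨y.comp Algebra.TensorProduct.includeRight, fun d => rfl⟩
  have hy : y = Algebra.TensorProduct.lift xD x0 (fun _ _ => Commute.all _ _) := by
    refine Algebra.TensorProduct.ext' fun d b => ?_
    rw [Algebra.TensorProduct.lift_tmul, hxD, hx0, ← map_mul, Algebra.TensorProduct.tmul_mul_tmul,
      mul_one, one_mul]
  have hxDe : ∀ d, xD d = 0 → e d = 0 := fun d hd => hye d (by rw [← hd, hxD]; rfl)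
  have hxa : ∀ t ∈ a₀, Algebra.TensorProduct.lift xD x0 (fun _ _ => Commute.all _ _) t = 0 := by
    intro t ht
    rw [← hy]
    exact hya t ht
  by_cases hinj : Function.Injective x0
  · exact bpf_generic A₀ A₁ P1 e a₀ a₁ h01 he0 he1 xD x0 hinj hxDe hxa
  · have hp : (RingHom.ker x0).IsPrime := RingHom.ker_isPrime x0
    have hp0 : RingHom.ker x0 ≠ ⊥ := by
      intro h
      exact hinj ((RingHom.injective_iff_ker_eq_bot _).2 h)
    refine bpf_closed e a₀ he0 xD x0 (fun a => ?_) hxDe hxa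
    obtain ⟨c, hc⟩ := P2 _ hp hp0 a
    refine ⟨c, ?_⟩
    have h1 := RingHom.mem_ker.1 hc
    rw [map_sub, AlgHom.commutes, sub_eq_zero] at h1
    exact h1

end

end Vale.Agent.P292.Mo
end

section

/-! # Bubble lemma, part 1: graded homomorphisms into power series. -/

namespace Vale.Agent.P292.Mo

open Polynomial

universe u v w

section twist

variable {k : Type u} [CommRing k] {R : Type v} [CommRing R] [Algebra k R] (𝒜 : ℕ → Submodule k R)
  [GradedAlgebra 𝒜]

/-- Twisting a homomorphism from a graded algebra by an element. -/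
theorem bubble_twist {B : Type w} [CommRing B] [Algebra k B] (Φ : R →ₐ[k] B) (t : B) :
    ∃ F : R →ₐ[k] B, ∀ j, ∀ r ∈ 𝒜 j, F r = t ^ j * Φ r := by
  let f : ∀ i, 𝒜 i →ₗ[k] B := fun i => (LinearMap.mulLeft k (t ^ i)) ∘ₗ Φ.toLinearMap ∘ₗ
    (𝒜 i).subtype
  have hf : ∀ i (x : 𝒜 i), f i x = t ^ i * Φ (x : R) := fun i x => rfl
  let G : (DirectSum ℕ fun i => 𝒜 i) →ₐ[k] B := DirectSum.toAlgebra k (fun i => 𝒜 i) f
    (by rw [hf]; simp) (fun {i j} a b => by
      rw [hf, hf, hf, SetLike.coe_gMul, map_mul, pow_add]; ring)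
  refine ⟨G.comp (DirectSum.decomposeAlgEquiv 𝒜 : R →ₐ[k] _), fun j r hr => ?_⟩
  have h1 : (DirectSum.decomposeAlgEquiv 𝒜 : R →ₐ[k] DirectSum ℕ fun i => 𝒜 i) r =
      DirectSum.of (fun i => 𝒜 i) j ⟨r, hr⟩ := DirectSum.decompose_of_mem 𝒜 hr
  rw [AlgHom.comp_apply, h1]
  have h2 : G (DirectSum.of (fun i => 𝒜 i) j ⟨r, hr⟩) = f j ⟨r, hr⟩ := by
    simp only [G, DirectSum.toAlgebra_apply]
    exact DirectSum.toSemiring_of _ _ _ _ _
  rw [h2, hf]

/-- Untwisting a homomorphism to a domain. -/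
theorem exists_untwist {B : Type w} [CommRing B] [IsDomain B] [Algebra k B]
    (Φ : R →ₐ[k] B) (t : B) (ht : t ≠ 0) {ι : Type*} {x : ι → R} {d : ι → ℕ}
    (hx : ∀ i, x i ∈ 𝒜 (d i)) (hgen : Algebra.adjoin k (Set.range x) = ⊤)
    (h : ∀ i, t ^ d i ∣ Φ (x i)) :
    ∃ F : R →ₐ[k] B, ∀ j, ∀ r ∈ 𝒜 j, Φ r = t ^ j * F r := by
  let K := FractionRing B
  let ι₀ : B →ₐ[k] K := IsScalarTower.toAlgHom k B K
  have hι : Function.Injective ι₀ := IsFractionRing.injective B K
  have ht' : ι₀ t ≠ 0 := fun h0 => ht (hι (h0.trans (map_zero _).symm))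
  obtain ⟨F₀, hF₀⟩ := bubble_twist 𝒜 (ι₀.comp Φ) (ι₀ t)⁻¹
  have hrange : ∀ r, F₀ r ∈ ι₀.range := by
    have h1 : Algebra.adjoin k (Set.range x) ≤ ι₀.range.comap F₀ := by
      rw [Algebra.adjoin_le_iff]
      rintro _ ⟨i, rfl⟩
      obtain ⟨c, hc⟩ := h i
      refine ⟨c, ?_⟩
      change ι₀ c = F₀ (x i)
      rw [hF₀ _ _ (hx i), AlgHom.comp_apply, hc,
        map_mul, map_pow, ← mul_assoc, ← mul_pow, inv_mul_cancel₀ ht', one_pow, one_mul]
    intro r
    have h2 : r ∈ Algebra.adjoin k (Set.range x) := by rw [hgen]; trivial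
    exact h1 h2
  let F₁ : R →ₐ[k] ι₀.range := F₀.codRestrict ι₀.range hrange
  let F : R →ₐ[k] B := ((AlgEquiv.ofInjective ι₀ hι).symm : ι₀.range →ₐ[k] B).comp F₁
  have hF : ∀ r, ι₀ (F r) = F₀ r := by
    intro r
    have h1 : (AlgEquiv.ofInjective ι₀ hι) (F r) = F₁ r := by
      simp [F]
    have h2 := congrArg Subtype.val h1
    rw [AlgEquiv.ofInjective_apply] at h2
    exact h2
  refine ⟨F, fun j r hr => hι ?_⟩
  rw [map_mul, map_pow, hF, hF₀ j r hr, AlgHom.comp_apply, ← mul_assoc, ← mul_pow,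
    mul_inv_cancel₀ ht', one_pow, one_mul]

/-- Homogeneous generators. -/
theorem exists_gens [Algebra.FiniteType k R] :
    ∃ (n : ℕ) (x : Fin n → R) (d : Fin n → ℕ), (∀ i, x i ∈ 𝒜 (d i)) ∧
      Algebra.adjoin k (Set.range x) = ⊤ := by
  classical
  obtain ⟨s, hs⟩ := (inferInstance : Algebra.FiniteType k R).out
  let T : Finset (Σ _ : R, ℕ) := s.sigma fun r => (DirectSum.decompose 𝒜 r).support
  let e := T.equivFin
  refine ⟨T.card, fun i => (DirectSum.decompose 𝒜 (e.symm i).1.1 (e.symm i).1.2 : R),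
    fun i => (e.symm i).1.2, fun i => SetLike.coe_mem _, ?_⟩
  rw [eq_top_iff, ← hs, Algebra.adjoin_le_iff]
  intro r hr
  rw [← DirectSum.sum_support_decompose 𝒜 r]
  refine Subalgebra.sum_mem _ fun j hj => Algebra.subset_adjoin ?_
  refine ⟨e ⟨⟨r, j⟩, Finset.mem_sigma.mpr ⟨hr, hj⟩⟩, ?_⟩
  change (fun z : T => (DirectSum.decompose 𝒜 z.1.1 z.1.2 : R)) (e.symm (e _)) = _
  rw [Equiv.symm_apply_apply]

end twist

end Vale.Agent.P292.Mo
end

section

/-! # Bubble lemma, part 2: leading forms. -/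

namespace Vale.Agent.P292.Mo

open Polynomial

universe u v w

/-- The constant coefficient as an algebra homomorphism. -/
noncomputable def ccA (k : Type u) [CommRing k] (S : Type v) [CommRing S] [Algebra k S] :
    PowerSeries S →ₐ[k] S :=
  { PowerSeries.constantCoeff (R := S) with
    commutes' := fun r => by
      change PowerSeries.constantCoeff (algebraMap k (PowerSeries S) r) = _
      rw [PowerSeries.algebraMap_apply, PowerSeries.constantCoeff_C] }

@[simp] theorem ccA_apply {k : Type u} [CommRing k] {S : Type v} [CommRing S] [Algebra k S]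
    (f : PowerSeries S) : ccA k S f = PowerSeries.constantCoeff f := rfl

/-- The condition `(lb)`: `O(1)` is a line bundle. -/
def IsLB {k : Type u} [Field k] {R : Type v} [CommRing R] [Algebra k R]
    (𝒜 : ℕ → Submodule k R) : Prop :=
  ∀ q : R →ₐ[k] k, (∃ j > 0, ∃ r ∈ 𝒜 j, q r ≠ 0) →
    ∀ d : ℕ, (∀ j, ∀ r ∈ 𝒜 j, q r ≠ 0 → d ∣ j) → d = 1

section lead

variable {k : Type u} [Field k] {R : Type v} [CommRing R] [Algebra k R] {𝒜 : ℕ → Submodule k R}
  [GradedAlgebra 𝒜] {n : ℕ} {x : Fin n → R} {d : Fin n → ℕ}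

theorem exists_gen_ne_zero {S : Type w} [CommRing S] [IsDomain S] [Algebra k S]
    (hx : ∀ i, x i ∈ 𝒜 (d i)) (hgen : Algebra.adjoin k (Set.range x) = ⊤)
    (Φ : R →ₐ[k] PowerSeries S) (hΦ : ∃ j > 0, ∃ r ∈ 𝒜 j, Φ r ≠ 0) :
    ∃ i, 0 < d i ∧ Φ (x i) ≠ 0 := by
  by_contra hcon
  push Not at hcon
  obtain ⟨j, hj, r, hr, hne⟩ := hΦ
  apply hne
  ext m
  obtain ⟨F, hF⟩ := exists_untwist 𝒜 Φ (PowerSeries.X ^ (m + 1)) (pow_ne_zero _ PowerSeries.X_ne_zero)
    hx hgen (fun i => by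
      rcases Nat.eq_zero_or_pos (d i) with h0 | h0
      · rw [h0, pow_zero]; exact one_dvd _
      · rw [hcon i h0]; exact dvd_zero _)
  have h1 := hF j r hr
  have h2 : (PowerSeries.X : PowerSeries S) ^ (m + 1) ∣ Φ r := by
    rw [h1]
    refine Dvd.dvd.mul_right ?_ _
    exact dvd_pow_self _ hj.ne'
  rw [PowerSeries.X_pow_dvd_iff] at h2
  rw [h2 m (Nat.lt_succ_self m), map_zero]

/-- Leading coefficients of a homomorphism to power series; the order is integral. -/
theorem lead (hLB : IsLB 𝒜) (hx : ∀ i, x i ∈ 𝒜 (d i))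
    (hgen : Algebra.adjoin k (Set.range x) = ⊤) (Φ : R →ₐ[k] PowerSeries k)
    (hΦ : ∃ j > 0, ∃ r ∈ 𝒜 j, Φ r ≠ 0) :
    ∃ (ν : ℕ) (G : R →ₐ[k] PowerSeries k),
      (∀ j, ∀ r ∈ 𝒜 j, Φ r = PowerSeries.X ^ (ν * j) * G r) ∧
      ∃ j > 0, ∃ r ∈ 𝒜 j, PowerSeries.constantCoeff (G r) ≠ 0 := by
  classical
  obtain ⟨i₁, hi₁, hi₁'⟩ := exists_gen_ne_zero hx hgen Φ hΦ
  set o : Fin n → ℕ := fun i => (Φ (x i)).order.toNat with ho
  have ho1 : ∀ i, PowerSeries.X ^ o i ∣ Φ (x i) := fun i => PowerSeries.X_pow_order_dvd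
  have ho2 : ∀ i, Φ (x i) ≠ 0 → PowerSeries.coeff (o i) (Φ (x i)) ≠ 0 := fun i h =>
    PowerSeries.coeff_order h
  set I : Finset (Fin n) := Finset.univ.filter fun i => 0 < d i ∧ Φ (x i) ≠ 0 with hI
  obtain ⟨i₀, hi₀, hmin⟩ := Finset.exists_min_image I (fun i => (o i : ℚ) / d i)
    ⟨i₁, by rw [hI, Finset.mem_filter]; exact ⟨Finset.mem_univ _, hi₁, hi₁'⟩⟩
  rw [hI, Finset.mem_filter] at hi₀
  obtain ⟨-, hB, hne⟩ := hi₀
  have hle : ∀ i, 0 < d i → Φ (x i) ≠ 0 → o i₀ * d i ≤ d i₀ * o i := by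
    intro i h1 h2
    have h3 := hmin i (by rw [hI, Finset.mem_filter]; exact ⟨Finset.mem_univ _, h1, h2⟩)
    rw [div_le_div_iff₀ (by exact_mod_cast hB) (by exact_mod_cast h1)] at h3
    have h4 : o i₀ * d i ≤ o i * d i₀ := by exact_mod_cast h3
    rwa [mul_comm (d i₀)]
  set E : PowerSeries k →ₐ[k] PowerSeries k := PowerSeries.expand (d i₀) hB.ne' with hE
  have hdvd : ∀ i, ((PowerSeries.X : PowerSeries k) ^ o i₀) ^ d i ∣ (E.comp Φ) (x i) := by
    intro i
    rw [AlgHom.comp_apply]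
    rcases Nat.eq_zero_or_pos (d i) with h0 | h0
    · rw [h0, pow_zero]; exact one_dvd _
    · by_cases h1 : Φ (x i) = 0
      · rw [h1, map_zero]; exact dvd_zero _
      · obtain ⟨g, hg⟩ := ho1 i
        rw [hg, map_mul, map_pow, hE, PowerSeries.expand_X, ← pow_mul, ← pow_mul]
        exact Dvd.dvd.mul_right (pow_dvd_pow _ (hle i h0 h1)) _
  obtain ⟨F, hF⟩ := exists_untwist 𝒜 (E.comp Φ) (PowerSeries.X ^ o i₀)
    (pow_ne_zero _ PowerSeries.X_ne_zero) hx hgen hdvd
  have hcF : ∀ j, ∀ r ∈ 𝒜 j, PowerSeries.constantCoeff (F r) =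
      PowerSeries.coeff (o i₀ * j) (E (Φ r)) := by
    intro j r hr
    have h1 := hF j r hr
    rw [AlgHom.comp_apply] at h1
    rw [h1, ← pow_mul, PowerSeries.coeff_X_pow_mul', if_pos le_rfl, Nat.sub_self,
      PowerSeries.coeff_zero_eq_constantCoeff]
  have hgcd : d i₀ / Nat.gcd (o i₀) (d i₀) = 1 := by
    refine hLB ((ccA k k).comp F) ⟨d i₀, hB, x i₀, hx i₀, ?_⟩ _ ?_
    · rw [AlgHom.comp_apply, ccA_apply, hcF _ _ (hx i₀), mul_comm, hE,
        PowerSeries.coeff_expand_mul]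
      exact ho2 i₀ hne
    · intro j r hr hq
      rw [AlgHom.comp_apply, ccA_apply, hcF _ _ hr] at hq
      have h1 : d i₀ ∣ o i₀ * j := by
        by_contra h2
        exact hq (PowerSeries.coeff_expand_of_not_dvd _ _ _ h2)
      have hg : 0 < Nat.gcd (o i₀) (d i₀) := Nat.gcd_pos_of_pos_right _ hB
      have h3 : d i₀ / Nat.gcd (o i₀) (d i₀) ∣ (o i₀ / Nat.gcd (o i₀) (d i₀)) * j := by
        obtain ⟨a, ha⟩ := Nat.gcd_dvd_left (o i₀) (d i₀)
        obtain ⟨b, hb⟩ := Nat.gcd_dvd_right (o i₀) (d i₀)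
        rw [Nat.div_eq_of_eq_mul_right hg ha, Nat.div_eq_of_eq_mul_right hg hb]
        refine Nat.dvd_of_mul_dvd_mul_left hg ?_
        rw [← hb, ← mul_assoc, ← ha]
        exact h1
      exact Nat.Coprime.dvd_of_dvd_mul_left (Nat.coprime_div_gcd_div_gcd hg).symm h3
  obtain ⟨ν, hν⟩ : d i₀ ∣ o i₀ := by
    have h1 := Nat.div_mul_cancel (Nat.gcd_dvd_right (o i₀) (d i₀))
    rw [hgcd, one_mul] at h1
    conv_lhs => rw [← h1]
    exact Nat.gcd_dvd_left _ _
  obtain ⟨G, hG⟩ := exists_untwist 𝒜 Φ (PowerSeries.X ^ ν)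
    (pow_ne_zero _ PowerSeries.X_ne_zero) hx hgen (fun i => by
      rcases Nat.eq_zero_or_pos (d i) with h0 | h0
      · rw [h0, pow_zero]; exact one_dvd _
      · by_cases h1 : Φ (x i) = 0
        · rw [h1]; exact dvd_zero _
        · refine dvd_trans ?_ (ho1 i)
          rw [← pow_mul]
          refine pow_dvd_pow _ ?_
          have h2 := hle i h0 h1
          rw [hν, mul_assoc] at h2
          exact Nat.le_of_mul_le_mul_left h2 hB)
  refine ⟨ν, G, fun j r hr => by rw [hG j r hr, ← pow_mul], d i₀, hB, x i₀, hx i₀, ?_⟩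
  have h1 := hG _ _ (hx i₀)
  have h2 := ho2 i₀ hne
  rw [h1, ← pow_mul, mul_comm ν, ← hν, PowerSeries.coeff_X_pow_mul', if_pos le_rfl,
    Nat.sub_self, PowerSeries.coeff_zero_eq_constantCoeff] at h2
  exact h2

end lead

end Vale.Agent.P292.Mo
end

section

/-! # Bubble lemma, part 3: removing base points. -/

namespace Vale.Agent.P292.Mo

open Polynomial

universe u v w

section bp

variable {k : Type u} [Field k] {R : Type v} [CommRing R] [Algebra k R] {𝒜 : ℕ → Submodule k R}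
  [GradedAlgebra 𝒜] {n : ℕ} {x : Fin n → R} {d : Fin n → ℕ}

/-- Expansion at `a`. -/
noncomputable def expandAt (a : k) : k[X] →ₐ[k] PowerSeries k :=
  (Polynomial.coeToPowerSeries.algHom k).comp (taylorAlgHom a)

theorem expandAt_apply (a : k) (p : k[X]) : expandAt a p = ((taylor a p : k[X]) : PowerSeries k) := by
  simp [expandAt, Polynomial.coeToPowerSeries.algHom_apply]

theorem coeff_expandAt (a : k) (p : k[X]) (m : ℕ) :
    PowerSeries.coeff m (expandAt a p) = (taylor a p).coeff m := by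
  rw [expandAt_apply, Polynomial.coeff_coe]

theorem constantCoeff_expandAt (a : k) (p : k[X]) :
    PowerSeries.constantCoeff (expandAt a p) = p.eval a := by
  rw [← PowerSeries.coeff_zero_eq_constantCoeff_apply, coeff_expandAt, taylor_coeff_zero]

theorem expandAt_injective (a : k) : Function.Injective (expandAt a) := by
  intro p q h
  rw [expandAt_apply, expandAt_apply, Polynomial.coe_inj] at h
  exact taylor_injective a h

theorem pow_dvd_of_expandAt (a : k) (p : k[X]) (m : ℕ)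
    (h : PowerSeries.X ^ m ∣ expandAt a p) : (X - C a) ^ m ∣ p := by
  rw [Polynomial.X_sub_C_pow_dvd_iff, ← taylor_apply, Polynomial.X_pow_dvd_iff]
  rw [PowerSeries.X_pow_dvd_iff] at h
  intro i hi
  rw [← coeff_expandAt]
  exact h i hi

theorem natDegree_pow_X_sub_C (a : k) (j : ℕ) : ((X - C a) ^ j).natDegree = j := by
  rw [(monic_X_sub_C a).natDegree_pow, natDegree_X_sub_C, mul_one]

/-- Base points can be removed. -/
theorem base_points (hLB : IsLB 𝒜) (hx : ∀ i, x i ∈ 𝒜 (d i))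
    (hgen : Algebra.adjoin k (Set.range x) = ⊤) : ∀ (β : ℕ) (Ψ : R →ₐ[k] k[X]),
    (∀ j, ∀ r ∈ 𝒜 j, (Ψ r).natDegree ≤ β * j) →
    (∃ j > 0, ∃ r ∈ 𝒜 j, (Ψ r).coeff (β * j) ≠ 0) →
    ∃ (b e : ℕ) (h : k[X]) (Ψ' : R →ₐ[k] k[X]), b + e = β ∧ h.Monic ∧ h.natDegree = b ∧
      (∀ j, ∀ r ∈ 𝒜 j, Ψ r = h ^ j * Ψ' r) ∧ (∀ j, ∀ r ∈ 𝒜 j, (Ψ' r).natDegree ≤ e * j) ∧
      (∀ j, ∀ r ∈ 𝒜 j, (Ψ' r).coeff (e * j) = (Ψ r).coeff (β * j)) ∧
      ∀ a : k, ∃ j > 0, ∃ r ∈ 𝒜 j, (Ψ' r).eval a ≠ 0 := by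
  intro β
  induction β with
  | zero =>
    intro Ψ hdeg hne
    refine ⟨0, 0, 1, Ψ, rfl, monic_one, natDegree_one, fun j r _ => by simp, hdeg,
      fun j r _ => rfl, fun a => ?_⟩
    obtain ⟨j, hj, r, hr, h⟩ := hne
    refine ⟨j, hj, r, hr, fun h0 => h ?_⟩
    have h1 : Ψ r = C ((Ψ r).coeff 0) := by
      apply Polynomial.eq_C_of_natDegree_le_zero
      simpa using hdeg j r hr
    rw [h1, eval_C] at h0
    rwa [zero_mul]
  | succ β ih =>
    intro Ψ hdeg hne
    by_cases hbp : ∀ a : k, ∃ j > 0, ∃ r ∈ 𝒜 j, (Ψ r).eval a ≠ 0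
    · exact ⟨0, β + 1, 1, Ψ, by omega, monic_one, natDegree_one, fun j r _ => by simp, hdeg,
        fun j r _ => rfl, hbp⟩
    · push Not at hbp
      obtain ⟨a, ha⟩ := hbp
      obtain ⟨ν, G, hG, j₀, hj₀, r₀, hr₀, hne₀⟩ := lead hLB hx hgen ((expandAt a).comp Ψ) (by
        obtain ⟨j, hj, r, hr, h⟩ := hne
        refine ⟨j, hj, r, hr, fun h0 => h ?_⟩
        rw [AlgHom.comp_apply] at h0
        rw [expandAt_injective a (h0.trans (map_zero _).symm), coeff_zero])
      have hν : 1 ≤ ν := by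
        by_contra h0
        have h1 : ν = 0 := by omega
        apply hne₀
        have h2 := hG j₀ r₀ hr₀
        rw [h1, zero_mul, pow_zero, one_mul] at h2
        rw [← h2, AlgHom.comp_apply, constantCoeff_expandAt]
        exact ha j₀ hj₀ r₀ hr₀
      have hdvd : ∀ j, ∀ r ∈ 𝒜 j, (X - C a) ^ j ∣ Ψ r := by
        intro j r hr
        apply pow_dvd_of_expandAt
        have h1 := hG j r hr
        rw [AlgHom.comp_apply] at h1
        rw [h1]
        exact Dvd.dvd.mul_right (pow_dvd_pow _ (Nat.le_mul_of_pos_left _ hν)) _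
      obtain ⟨Ψ₁, hΨ₁⟩ := exists_untwist 𝒜 Ψ (X - C a) (X_sub_C_ne_zero a) hx hgen
        (fun i => hdvd _ _ (hx i))
      have hdeg₁ : ∀ j, ∀ r ∈ 𝒜 j, (Ψ₁ r).natDegree ≤ β * j := by
        intro j r hr
        by_cases h0 : Ψ₁ r = 0
        · rw [h0, natDegree_zero]; exact Nat.zero_le _
        · have h1 := hdeg j r hr
          rw [hΨ₁ j r hr, natDegree_mul (pow_ne_zero _ (X_sub_C_ne_zero a)) h0,
            natDegree_pow_X_sub_C, add_mul, one_mul] at h1
          omega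
      have hcoeff : ∀ j, ∀ r ∈ 𝒜 j, (Ψ₁ r).coeff (β * j) = (Ψ r).coeff ((β + 1) * j) := by
        intro j r hr
        have h1 : ((X - C a) ^ j).coeff j = 1 := by
          have := (monic_X_sub_C a).pow j
          rw [Monic, leadingCoeff, natDegree_pow_X_sub_C] at this
          exact this
        rw [hΨ₁ j r hr, add_mul, one_mul, add_comm (β * j) j,
          coeff_mul_add_eq_of_natDegree_le (natDegree_pow_X_sub_C a j).le (hdeg₁ j r hr), h1, one_mul]
      obtain ⟨b, e, h, Ψ', hbe, hmon, hdh, h3, h4, h5, h6⟩ := ih Ψ₁ hdeg₁ (by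
        obtain ⟨j, hj, r, hr, h⟩ := hne
        exact ⟨j, hj, r, hr, by rwa [hcoeff j r hr]⟩)
      refine ⟨b + 1, e, (X - C a) * h, Ψ', by omega, (monic_X_sub_C a).mul hmon, ?_, ?_, h4, ?_,
        h6⟩
      · rw [(monic_X_sub_C a).natDegree_mul hmon, natDegree_X_sub_C, hdh, add_comm]
      · intro j r hr
        rw [hΨ₁ j r hr, h3 j r hr, mul_pow, mul_assoc]
      · intro j r hr
        rw [h5 j r hr, hcoeff j r hr]

end bp

theorem eval_homogenize_infty {k : Type u} [Field k] (p : k[X]) (n : ℕ) (a : Fin 2 → k)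
    (ha : a 1 = 0) : MvPolynomial.eval a (p.homogenize n) = p.coeff n * a 0 ^ n := by
  classical
  rw [homogenize, map_sum, Finset.sum_eq_single (n, 0)]
  · rw [MvPolynomial.eval_monomial, Finsupp.update_eq_add_single, Finsupp.prod_add_index',
      Finsupp.prod_single_index, Finsupp.prod_single_index]
    all_goals simp_all [pow_add]
  · rintro ⟨i, j⟩ hij hne
    have hj : j ≠ 0 := by
      rintro rfl
      apply hne
      have h1 := Finset.HasAntidiagonal.mem_antidiagonal.mp hij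
      simp only [add_zero] at h1
      rw [h1]
    rw [MvPolynomial.eval_monomial, Finsupp.update_eq_add_single, Finsupp.prod_add_index',
      Finsupp.prod_single_index, Finsupp.prod_single_index]
    all_goals simp_all [pow_add]
  · intro h
    exact absurd (Finset.HasAntidiagonal.mem_antidiagonal.mpr (add_zero n)) h

/-- The curve given by a base point free `Ψ`. -/
theorem curve_of_bpf {k : Type u} [Field k] {R : Type v} [CommRing R] [Algebra k R]
    {𝒜 : ℕ → Submodule k R} [GradedAlgebra 𝒜] {e : ℕ} {Ψ : R →ₐ[k] k[X]}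
    (hdeg : ∀ j, ∀ r ∈ 𝒜 j, (Ψ r).natDegree ≤ e * j)
    (hinf : ∃ j > 0, ∃ r ∈ 𝒜 j, (Ψ r).coeff (e * j) ≠ 0)
    (hbpf : ∀ a : k, ∃ j > 0, ∃ r ∈ 𝒜 j, (Ψ r).eval a ≠ 0) :
    ∃ ψ : R →ₐ[k] MvPolynomial (Fin 2) k, (∀ j, ∀ r ∈ 𝒜 j, (ψ r).IsHomogeneous (e * j)) ∧
      (∀ a : Fin 2 → k, a ≠ 0 → ∃ j > 0, ∃ r ∈ 𝒜 j, MvPolynomial.eval a (ψ r) ≠ 0) ∧
      (∀ j, ∀ r ∈ 𝒜 j, MvPolynomial.eval ![1, 0] (ψ r) = (Ψ r).coeff (e * j)) ∧
      (∀ j, ∀ r ∈ 𝒜 j, MvPolynomial.eval ![0, 1] (ψ r) = (Ψ r).eval 0) := by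
  let f : ∀ i, 𝒜 i →ₗ[k] MvPolynomial (Fin 2) k := fun i =>
    (homogenizeLM (e * i)) ∘ₗ Ψ.toLinearMap ∘ₗ (𝒜 i).subtype
  have hf : ∀ i (y : 𝒜 i), f i y = (Ψ (y : R)).homogenize (e * i) := fun i y => rfl
  let G : (DirectSum ℕ fun i => 𝒜 i) →ₐ[k] MvPolynomial (Fin 2) k :=
    DirectSum.toAlgebra k (fun i => 𝒜 i) f
    (by rw [hf]; simp) (fun {i j} a b => by
      rw [hf, hf, hf, SetLike.coe_gMul, map_mul, mul_add,
        homogenize_mul _ _ (hdeg _ _ a.2) (hdeg _ _ b.2)])
  have hG : ∀ j, ∀ r ∈ 𝒜 j, (G.comp (DirectSum.decomposeAlgEquiv 𝒜 : R →ₐ[k] _)) r =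
      (Ψ r).homogenize (e * j) := by
    intro j r hr
    have h1 : (DirectSum.decomposeAlgEquiv 𝒜 : R →ₐ[k] DirectSum ℕ fun i => 𝒜 i) r =
        DirectSum.of (fun i => 𝒜 i) j ⟨r, hr⟩ := DirectSum.decompose_of_mem 𝒜 hr
    rw [AlgHom.comp_apply, h1]
    have h2 : G (DirectSum.of (fun i => 𝒜 i) j ⟨r, hr⟩) = f j ⟨r, hr⟩ := by
      simp only [G, DirectSum.toAlgebra_apply]
      exact DirectSum.toSemiring_of _ _ _ _ _
    rw [h2, hf]
  refine ⟨G.comp (DirectSum.decomposeAlgEquiv 𝒜 : R →ₐ[k] _), ?_, ?_, ?_, ?_⟩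
  · intro j r hr
    rw [hG j r hr]
    exact isHomogeneous_homogenize _
  · intro a ha
    by_cases h1 : a 1 = 0
    · have h0 : a 0 ≠ 0 := by
        intro h0
        apply ha
        funext i
        fin_cases i
        · exact h0
        · exact h1
      obtain ⟨j, hj, r, hr, h⟩ := hinf
      refine ⟨j, hj, r, hr, ?_⟩
      rw [hG j r hr, eval_homogenize_infty _ _ _ h1]
      exact mul_ne_zero h (pow_ne_zero _ h0)
    · obtain ⟨j, hj, r, hr, h⟩ := hbpf (a 0 / a 1)
      refine ⟨j, hj, r, hr, ?_⟩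
      rw [hG j r hr, eval_homogenize (hdeg j r hr) _ h1]
      exact mul_ne_zero h (pow_ne_zero _ h1)
  · intro j r hr
    rw [hG j r hr, eval_homogenize_infty _ _ _ (by simp)]
    simp
  · intro j r hr
    rw [hG j r hr, eval_homogenize (hdeg j r hr) _ (by simp)]
    simp

end Vale.Agent.P292.Mo
end

section

/-! # Bubble lemma, part 4: the substitution `z = Z T ^ β`, `τ = T ^ α`. -/

namespace Vale.Agent.P292.Mo

open Polynomial

universe u v w

section theta

variable {k : Type u} [Field k]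

/-- The coefficient of `z ^ n`, a power series in `τ`. -/
noncomputable def col (n : ℕ) (f : PowerSeries (PowerSeries k)) : PowerSeries k :=
  PowerSeries.mk fun l => PowerSeries.coeff n (PowerSeries.coeff l f)

@[simp] theorem coeff_col (n l : ℕ) (f : PowerSeries (PowerSeries k)) :
    PowerSeries.coeff l (col n f) = PowerSeries.coeff n (PowerSeries.coeff l f) := by
  rw [col, PowerSeries.coeff_mk]

theorem col_add (n : ℕ) (f g : PowerSeries (PowerSeries k)) :
    col n (f + g) = col n f + col n g := by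
  ext l
  simp

theorem col_mul (n : ℕ) (f g : PowerSeries (PowerSeries k)) :
    col n (f * g) = ∑ p ∈ Finset.HasAntidiagonal.antidiagonal n, col p.1 f * col p.2 g := by
  ext l
  rw [coeff_col, PowerSeries.coeff_mul, map_sum, map_sum]
  simp only [PowerSeries.coeff_mul, coeff_col]
  exact Finset.sum_comm

theorem col_C (n : ℕ) (c : PowerSeries k) :
    col n (PowerSeries.C c) = PowerSeries.C (PowerSeries.coeff n c) := by
  ext l
  rw [coeff_col, PowerSeries.coeff_C, PowerSeries.coeff_C]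
  split_ifs <;> simp

/-- `z ^ n` coefficient after the substitution. -/
noncomputable def scol (α β : ℕ) (hα : α ≠ 0) (n : ℕ) (f : PowerSeries (PowerSeries k)) :
    PowerSeries k := PowerSeries.X ^ (β * n) * PowerSeries.expand α hα (col n f)

theorem scol_add (α β : ℕ) (hα : α ≠ 0) (n : ℕ) (f g : PowerSeries (PowerSeries k)) :
    scol α β hα n (f + g) = scol α β hα n f + scol α β hα n g := by
  rw [scol, scol, scol, col_add, map_add, mul_add]

theorem scol_mul (α β : ℕ) (hα : α ≠ 0) (n : ℕ) (f g : PowerSeries (PowerSeries k)) :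
    scol α β hα n (f * g) =
      ∑ p ∈ Finset.HasAntidiagonal.antidiagonal n, scol α β hα p.1 f * scol α β hα p.2 g := by
  rw [scol, col_mul, map_sum, Finset.mul_sum]
  refine Finset.sum_congr rfl fun p hp => ?_
  rw [Finset.HasAntidiagonal.mem_antidiagonal] at hp
  rw [scol, scol, map_mul, ← hp, mul_add, pow_add]
  ring

theorem coeff_scol_of_lt (α β : ℕ) (hα : α ≠ 0) (n : ℕ) (f : PowerSeries (PowerSeries k)) (m : ℕ)
    (h : m < β * n) : PowerSeries.coeff m (scol α β hα n f) = 0 := by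
  rw [scol, PowerSeries.coeff_X_pow_mul', if_neg (by omega)]

theorem coeff_scol (α β : ℕ) (hα : α ≠ 0) (n l : ℕ) (f : PowerSeries (PowerSeries k)) :
    PowerSeries.coeff (α * l + β * n) (scol α β hα n f) =
      PowerSeries.coeff n (PowerSeries.coeff l f) := by
  rw [scol, PowerSeries.coeff_X_pow_mul', if_pos (by omega), Nat.add_sub_cancel,
    PowerSeries.coeff_expand_mul, coeff_col]

theorem coeff_scol_of_not_dvd (α β : ℕ) (hα : α ≠ 0) (n m : ℕ) (f : PowerSeries (PowerSeries k))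
    (h : ¬ α ∣ m - β * n) : PowerSeries.coeff m (scol α β hα n f) = 0 := by
  rw [scol, PowerSeries.coeff_X_pow_mul']
  split_ifs
  · exact PowerSeries.coeff_expand_of_not_dvd _ _ _ h
  · rfl

/-- The substitution as a function. -/
noncomputable def thetaFun (α β : ℕ) (hα : α ≠ 0) (f : PowerSeries (PowerSeries k)) :
    PowerSeries k[X] :=
  PowerSeries.mk fun m => ∑ n ∈ Finset.range (m + 1),
    monomial n (PowerSeries.coeff m (scol α β hα n f))

theorem coeff_thetaFun (α β : ℕ) (hα : α ≠ 0) (hβ : 0 < β) (f : PowerSeries (PowerSeries k))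
    (m n : ℕ) : (PowerSeries.coeff m (thetaFun α β hα f)).coeff n =
      PowerSeries.coeff m (scol α β hα n f) := by
  rw [thetaFun, PowerSeries.coeff_mk, finset_sum_coeff]
  simp only [coeff_monomial, Finset.sum_ite_eq', Finset.mem_range]
  split_ifs with h
  · rfl
  · rw [coeff_scol_of_lt]
    have : n ≤ β * n := Nat.le_mul_of_pos_left n hβ
    omega

/-- The substitution `z = Z T ^ β`, `τ = T ^ α`. -/
noncomputable def theta (α β : ℕ) (hα : α ≠ 0) (hβ : 0 < β) :
    PowerSeries (PowerSeries k) →ₐ[k] PowerSeries k[X] where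
  toFun := thetaFun α β hα
  map_one' := by
    ext m n
    rw [coeff_thetaFun α β hα hβ, scol, ← map_one (PowerSeries.C (R := PowerSeries k)), col_C,
      PowerSeries.expand_C, PowerSeries.coeff_one, PowerSeries.coeff_one]
    rcases Nat.eq_zero_or_pos n with h | h
    · subst h
      rw [if_pos rfl, mul_zero, pow_zero, one_mul, PowerSeries.coeff_C]
      split_ifs <;> simp
    · rw [if_neg h.ne', map_zero, mul_zero, map_zero]
      split_ifs
      · rw [coeff_one, if_neg h.ne']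
      · rw [coeff_zero]
  map_mul' f g := by
    ext m n
    rw [coeff_thetaFun α β hα hβ, scol_mul, map_sum, PowerSeries.coeff_mul, finset_sum_coeff]
    simp only [PowerSeries.coeff_mul, Polynomial.coeff_mul, coeff_thetaFun α β hα hβ]
    exact Finset.sum_comm
  map_zero' := by
    ext m n
    rw [coeff_thetaFun α β hα hβ, scol]
    have : col n (0 : PowerSeries (PowerSeries k)) = 0 := by ext l; simp
    rw [this]
    simp
  map_add' f g := by
    ext m n
    rw [coeff_thetaFun α β hα hβ, scol_add, map_add, map_add, coeff_add,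
      coeff_thetaFun α β hα hβ, coeff_thetaFun α β hα hβ]
  commutes' c := by
    ext m n
    rw [coeff_thetaFun α β hα hβ, scol, PowerSeries.algebraMap_apply, PowerSeries.algebraMap_apply,
      PowerSeries.algebraMap_apply, col_C, PowerSeries.expand_C, PowerSeries.coeff_C,
      PowerSeries.coeff_C]
    rcases Nat.eq_zero_or_pos n with h | h
    · subst h
      rw [if_pos rfl, mul_zero, pow_zero, one_mul, PowerSeries.coeff_C]
      split_ifs <;> simp
    · rw [if_neg h.ne', map_zero, mul_zero, map_zero]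
      split_ifs
      · rw [Polynomial.algebraMap_apply, coeff_C, if_neg h.ne']
      · rw [coeff_zero]

theorem coeff_theta (α β : ℕ) (hα : α ≠ 0) (hβ : 0 < β) (f : PowerSeries (PowerSeries k))
    (m n : ℕ) : (PowerSeries.coeff m (theta α β hα hβ f)).coeff n =
      PowerSeries.coeff m (scol α β hα n f) := coeff_thetaFun α β hα hβ f m n

end theta

end Vale.Agent.P292.Mo
end

section

/-! # Bubble lemma, part 5: the first edge of the Newton polygon. -/

namespace Vale.Agent.P292.Mo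

open Polynomial

universe u v w

section step

variable {k : Type u} [Field k] {R : Type v} [CommRing R] [Algebra k R] {𝒜 : ℕ → Submodule k R}
  [GradedAlgebra 𝒜] {n : ℕ} {x : Fin n → R} {d : Fin n → ℕ}

theorem scol_ne_zero {α β : ℕ} {hα : α ≠ 0} {m n : ℕ} {f : PowerSeries (PowerSeries k)}
    (h : PowerSeries.coeff m (scol α β hα n f) ≠ 0) :
    ∃ l, m = α * l + β * n ∧ PowerSeries.coeff n (PowerSeries.coeff l f) ≠ 0 := by
  have h1 : β * n ≤ m := by
    by_contra h1
    exact h (coeff_scol_of_lt α β hα n f m (by omega))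
  have h2 : α ∣ m - β * n := by
    by_contra h2
    exact h (coeff_scol_of_not_dvd α β hα n m f h2)
  obtain ⟨l, hl⟩ := h2
  have h3 : m = α * l + β * n := by omega
  refine ⟨l, h3, ?_⟩
  rw [h3, coeff_scol] at h
  exact h

/-- The order of `φ` modulo `τ` is `β`, with leading coefficient `ξ`. -/
structure IsOrd (𝒜 : ℕ → Submodule k R) (φ : R →ₐ[k] PowerSeries (PowerSeries k)) (β : ℕ)
    (ξ : R →ₐ[k] k) : Prop where
  dvd : ∀ j, ∀ r ∈ 𝒜 j, PowerSeries.X ^ (β * j) ∣ PowerSeries.constantCoeff (φ r)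
  lead : ∀ j, ∀ r ∈ 𝒜 j, PowerSeries.coeff (β * j) (PowerSeries.constantCoeff (φ r)) = ξ r

/-- The result of blowing up the first edge. -/
structure IsStep (𝒜 : ℕ → Submodule k R) (φ : R →ₐ[k] PowerSeries (PowerSeries k)) (β : ℕ)
    (ξ : R →ₐ[k] k) (α' β' : ℕ) (hα : α' ≠ 0) (hβ : 0 < β') (F : R →ₐ[k] PowerSeries k[X]) :
    Prop where
  coprime : Nat.Coprime α' β'
  eq : ∀ j, ∀ r ∈ 𝒜 j, theta α' β' hα hβ (φ r) = PowerSeries.X ^ (β' * β * j) * F r
  deg : ∀ j, ∀ r ∈ 𝒜 j, (PowerSeries.constantCoeff (F r)).natDegree ≤ β * j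
  lead : ∀ j, ∀ r ∈ 𝒜 j, (PowerSeries.constantCoeff (F r)).coeff (β * j) = ξ r
  low : ∃ j, ∃ r ∈ 𝒜 j, ∃ m < β * j, (PowerSeries.constantCoeff (F r)).coeff m ≠ 0
  dvd : ∀ j, ∀ r ∈ 𝒜 j, ∀ m ≤ β * j, (PowerSeries.constantCoeff (F r)).coeff m ≠ 0 →
    α' ∣ β' * (β * j - m)

/-- The first edge. -/
theorem exists_step (hx : ∀ i, x i ∈ 𝒜 (d i)) (hgen : Algebra.adjoin k (Set.range x) = ⊤)
    {φ : R →ₐ[k] PowerSeries (PowerSeries k)} {β : ℕ} (hβ0 : 0 < β) {ξ : R →ₐ[k] k}
    (hord : IsOrd 𝒜 φ β ξ)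
    (h0 : ∃ j > 0, ∃ r ∈ 𝒜 j, PowerSeries.map PowerSeries.constantCoeff (φ r) ≠ 0) :
    ∃ (α' β' : ℕ) (hα : α' ≠ 0) (hβ : 0 < β') (F : R →ₐ[k] PowerSeries k[X]),
      IsStep 𝒜 φ β ξ α' β' hα hβ F := by
  classical
  -- a generator with a pure power of `τ`
  obtain ⟨i₁, hi₁, hi₁'⟩ := exists_gen_ne_zero (S := k) hx hgen
    ((PowerSeries.mapAlgHom (ccA k k)).comp φ) (by
      obtain ⟨j, hj, r, hr, h⟩ := h0
      exact ⟨j, hj, r, hr, h⟩)
  have hcol : ∀ f : PowerSeries (PowerSeries k),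
      PowerSeries.mapAlgHom (ccA k k) f = col 0 f := by
    intro f
    ext l
    rw [coeff_col]
    change PowerSeries.coeff l (PowerSeries.map _ f) = _
    rw [PowerSeries.coeff_map]
    simp
  rw [AlgHom.comp_apply, hcol] at hi₁'
  -- the finite set of columns
  set I : Finset (Σ _ : Fin n, ℕ) :=
    (Finset.univ.sigma fun i => Finset.range (β * d i)).filter
      fun p => col p.2 (φ (x p.1)) ≠ 0 with hI
  have hmem : ∀ i m, (⟨i, m⟩ : Σ _ : Fin n, ℕ) ∈ I ↔ m < β * d i ∧ col m (φ (x i)) ≠ 0 := by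
    intro i m
    rw [hI, Finset.mem_filter, Finset.mem_sigma, Finset.mem_range]
    simp
  obtain ⟨⟨i₀, n₀⟩, hp, hmin⟩ := Finset.exists_min_image I
    (fun p => ((col p.2 (φ (x p.1))).order.toNat : ℚ) / ((β * d p.1 - p.2 : ℕ) : ℚ))
    ⟨⟨i₁, 0⟩, (hmem _ _).mpr ⟨Nat.mul_pos hβ0 hi₁, hi₁'⟩⟩
  obtain ⟨hn₀, hne₀⟩ := (hmem _ _).mp hp
  set l₀ := (col n₀ (φ (x i₀))).order.toNat with hl₀
  set m₀ := β * d i₀ - n₀ with hm₀
  have hm₀pos : 0 < m₀ := by omega
  have hcl₀ : PowerSeries.coeff n₀ (PowerSeries.coeff l₀ (φ (x i₀))) ≠ 0 := by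
    rw [← coeff_col]
    exact PowerSeries.coeff_order hne₀
  have hl₀pos : 0 < l₀ := by
    rcases Nat.eq_zero_or_pos l₀ with h | h
    · exfalso
      apply hcl₀
      rw [h, PowerSeries.coeff_zero_eq_constantCoeff]
      exact (PowerSeries.X_pow_dvd_iff.mp (hord.dvd _ _ (hx i₀))) _ hn₀
    · exact h
  have hmin' : ∀ i m l, m < β * d i → PowerSeries.coeff m (PowerSeries.coeff l (φ (x i))) ≠ 0 →
      l₀ * (β * d i - m) ≤ m₀ * l := by
    intro i m l h1 h2
    have h3 : col m (φ (x i)) ≠ 0 := by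
      intro h3
      apply h2
      rw [← coeff_col, h3, map_zero]
    have h4 := hmin ⟨i, m⟩ ((hmem _ _).mpr ⟨h1, h3⟩)
    have h5 : (col m (φ (x i))).order.toNat ≤ l := by
      by_contra h5
      apply h2
      rw [← coeff_col]
      exact PowerSeries.coeff_of_lt_order_toNat _ (by omega)
    have h6 : 0 < β * d i - m := by omega
    simp only at h4
    rw [div_le_div_iff₀ (by exact_mod_cast hm₀pos) (by exact_mod_cast h6)] at h4
    have h7 : l₀ * (β * d i - m) ≤ (col m (φ (x i))).order.toNat * m₀ := by exact_mod_cast h4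
    calc l₀ * (β * d i - m) ≤ (col m (φ (x i))).order.toNat * m₀ := h7
      _ ≤ l * m₀ := Nat.mul_le_mul_right _ h5
      _ = m₀ * l := mul_comm _ _
  set g := Nat.gcd m₀ l₀ with hg
  have hgpos : 0 < g := Nat.gcd_pos_of_pos_left _ hm₀pos
  obtain ⟨α', hα'⟩ : g ∣ m₀ := Nat.gcd_dvd_left _ _
  obtain ⟨β', hβ'⟩ : g ∣ l₀ := Nat.gcd_dvd_right _ _
  have hα'0 : α' ≠ 0 := by
    rintro rfl
    omega
  have hβ'0 : 0 < β' := by
    rcases Nat.eq_zero_or_pos β' with h | h
    · rw [h] at hβ'; omega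
    · exact h
  have hcop : Nat.Coprime α' β' := by
    have := Nat.coprime_div_gcd_div_gcd (m := m₀) (n := l₀) hgpos
    rwa [Nat.div_eq_of_eq_mul_right hgpos hα', Nat.div_eq_of_eq_mul_right hgpos hβ'] at this
  have hw : ∀ i m l, PowerSeries.coeff m (PowerSeries.coeff l (φ (x i))) ≠ 0 →
      β' * β * d i ≤ α' * l + β' * m := by
    intro i m l h1
    by_cases h2 : m < β * d i
    · have h3 := hmin' i m l h2 h1
      rw [hβ', hα', mul_assoc, mul_assoc] at h3
      have h4 := Nat.le_of_mul_le_mul_left h3 hgpos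
      have h5 : β' * (β * d i - m) + β' * m = β' * β * d i := by
        rw [← mul_add, mul_assoc]
        congr 1
        omega
      omega
    · have h3 : β' * (β * d i) ≤ β' * m := Nat.mul_le_mul_left _ (by omega)
      rw [mul_assoc]
      omega
  obtain ⟨F, hF⟩ := exists_untwist 𝒜 ((theta α' β' hα'0 hβ'0).comp φ)
    (PowerSeries.X ^ (β' * β)) (pow_ne_zero _ PowerSeries.X_ne_zero) hx hgen (fun i => by
      rw [← pow_mul, PowerSeries.X_pow_dvd_iff]
      intro m hm
      ext q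
      rw [AlgHom.comp_apply, coeff_theta, coeff_zero]
      by_contra hcon
      obtain ⟨l, hl, hl'⟩ := scol_ne_zero hcon
      have := hw i q l hl'
      omega)
  have heq : ∀ j, ∀ r ∈ 𝒜 j, theta α' β' hα'0 hβ'0 (φ r) =
      PowerSeries.X ^ (β' * β * j) * F r := by
    intro j r hr
    have := hF j r hr
    rwa [AlgHom.comp_apply, ← pow_mul] at this
  have hcoef : ∀ j, ∀ r ∈ 𝒜 j, ∀ m, (PowerSeries.constantCoeff (F r)).coeff m =
      PowerSeries.coeff (β' * β * j) (scol α' β' hα'0 m (φ r)) := by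
    intro j r hr m
    rw [← coeff_theta α' β' hα'0 hβ'0, heq j r hr, PowerSeries.coeff_X_pow_mul', if_pos le_rfl,
      Nat.sub_self, PowerSeries.coeff_zero_eq_constantCoeff]
  refine ⟨α', β', hα'0, hβ'0, F, hcop, heq, ?_, ?_, ⟨d i₀, x i₀, hx i₀, n₀, hn₀, ?_⟩, ?_⟩
  · intro j r hr
    rw [natDegree_le_iff_coeff_eq_zero]
    intro m hm
    rw [hcoef j r hr, coeff_scol_of_lt]
    rw [mul_assoc]
    exact Nat.mul_lt_mul_of_pos_left hm hβ'0
  · intro j r hr
    have h1 := coeff_scol α' β' hα'0 (β * j) 0 (φ r)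
    rw [mul_zero, zero_add, ← mul_assoc] at h1
    rw [hcoef j r hr, h1, PowerSeries.coeff_zero_eq_constantCoeff, hord.lead j r hr]
  · have h1 : β' * β * d i₀ = α' * l₀ + β' * n₀ := by
      have h2 : β' * m₀ = α' * l₀ := by
        rw [hα', hβ']; ring
      have h3 : β' * m₀ + β' * n₀ = β' * β * d i₀ := by
        rw [← mul_add, mul_assoc]
        congr 1
        omega
      omega
    rw [hcoef _ _ (hx i₀), h1, coeff_scol]
    exact hcl₀
  · intro j r hr m hm h
    rw [hcoef j r hr] at h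
    obtain ⟨l, hl, -⟩ := scol_ne_zero h
    refine ⟨l, ?_⟩
    have h3 : β' * (β * j - m) + β' * m = β' * β * j := by
      rw [← mul_add, mul_assoc]
      congr 1
      omega
    omega

end step

end Vale.Agent.P292.Mo
end
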