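import Mathlib
import Vale.Agent.P292.Bn.N1

set_option linter.all false

section

/-! # Homogeneous polynomials with degrees in `ℤ` (negative degree: zero). -/

namespace Vale.Agent.P292

open MvPolynomial

universe v

variable {κ : Type v} [Field κ]

/-- `p` is homogeneous of the (possibly negative) degree `n`. -/
structure ZHom (p : MvPolynomial (Fin 2) κ) (n : ℤ) : Prop where
  nat : ∀ m : ℕ, (m : ℤ) = n → p.IsHomogeneous m
  neg : n < 0 → p = 0

theorem ZHom.zero (n : ℤ) : ZHom (0 : MvPolynomial (Fin 2) κ) n :=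
  ⟨fun m _ => isHomogeneous_zero _ _ m, fun _ => rfl⟩

theorem ZHom.one : ZHom (1 : MvPolynomial (Fin 2) κ) 0 :=
  ⟨fun m hm => by
    obtain rfl : m = 0 := by exact_mod_cast hm
    exact isHomogeneous_one _ _, fun h => absurd h (lt_irrefl _)⟩

theorem ZHom.of_nat {p : MvPolynomial (Fin 2) κ} {m : ℕ} (h : p.IsHomogeneous m) :
    ZHom p (m : ℤ) :=
  ⟨fun m' hm' => by
    obtain rfl : m' = m := by exact_mod_cast hm'
    exact h, fun h => absurd h (by omega)⟩

theorem ZHom.nonneg {p : MvPolynomial (Fin 2) κ} {n : ℤ} (h : ZHom p n) (hp : p ≠ 0) : 0 ≤ n := by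
  by_contra hn
  exact hp (h.neg (by omega))

theorem ZHom.mul {p q : MvPolynomial (Fin 2) κ} {n n' : ℤ} (hp : ZHom p n) (hq : ZHom q n') :
    ZHom (p * q) (n + n') := by
  rcases lt_or_ge n 0 with h | h
  · rw [hp.neg h, zero_mul]; exact ZHom.zero _
  rcases lt_or_ge n' 0 with h' | h'
  · rw [hq.neg h', mul_zero]; exact ZHom.zero _
  lift n to ℕ using h
  lift n' to ℕ using h'
  have := ZHom.of_nat ((hp.nat n rfl).mul (hq.nat n' rfl))
  simpa using this

theorem ZHom.add {p q : MvPolynomial (Fin 2) κ} {n : ℤ} (hp : ZHom p n) (hq : ZHom q n) :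
    ZHom (p + q) n :=
  ⟨fun m hm => (hp.nat m hm).add (hq.nat m hm), fun h => by rw [hp.neg h, hq.neg h, add_zero]⟩

theorem ZHom.neg' {p : MvPolynomial (Fin 2) κ} {n : ℤ} (hp : ZHom p n) : ZHom (-p) n :=
  ⟨fun m hm => (hp.nat m hm).neg, fun h => by rw [hp.neg h, neg_zero]⟩

theorem ZHom.sum {ι : Type*} (s : Finset ι) {p : ι → MvPolynomial (Fin 2) κ} {n : ℤ}
    (hp : ∀ i ∈ s, ZHom (p i) n) : ZHom (∑ i ∈ s, p i) n := by
  classical
  induction s using Finset.induction_on with
  | empty => simpa using ZHom.zero n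
  | insert a s ha ih =>
    rw [Finset.sum_insert ha]
    exact (hp a (Finset.mem_insert_self _ _)).add
      (ih fun i hi => hp i (Finset.mem_insert_of_mem hi))

theorem ZHom.prod {ι : Type*} (s : Finset ι) {p : ι → MvPolynomial (Fin 2) κ} {n : ι → ℤ}
    (hp : ∀ i ∈ s, ZHom (p i) (n i)) : ZHom (∏ i ∈ s, p i) (∑ i ∈ s, n i) := by
  classical
  induction s using Finset.induction_on with
  | empty => simpa using ZHom.one
  | insert a s ha ih =>
    rw [Finset.prod_insert ha, Finset.sum_insert ha]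
    exact (hp a (Finset.mem_insert_self _ _)).mul
      (ih fun i hi => hp i (Finset.mem_insert_of_mem hi))

theorem ZHom.congr {p : MvPolynomial (Fin 2) κ} {n n' : ℤ} (hp : ZHom p n) (h : n = n') :
    ZHom p n' := h ▸ hp

/-- The determinant of a matrix whose entries are homogeneous of degrees `ρ i + c j`. -/
theorem ZHom.det {N : ℕ} {M : Matrix (Fin N) (Fin N) (MvPolynomial (Fin 2) κ)} (ρ c : Fin N → ℤ)
    (hM : ∀ i j, ZHom (M i j) (ρ i + c j)) : ZHom M.det (∑ i, ρ i + ∑ i, c i) := by
  rw [Matrix.det_apply]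
  refine ZHom.sum _ fun σ _ => ?_
  have h : ZHom (∏ i, M (σ i) i) (∑ i, ρ i + ∑ i, c i) := by
    refine (ZHom.prod Finset.univ (n := fun i => ρ (σ i) + c i) fun i _ => hM (σ i) i).congr ?_
    rw [Finset.sum_add_distrib, Equiv.sum_comp σ ρ]
  rcases Int.units_eq_one_or (Equiv.Perm.sign σ) with hs | hs
  · rw [hs, one_smul]; exact h
  · rw [hs, Units.neg_smul, one_smul]; exact h.neg'

/-- The adjugate of a matrix whose entries are homogeneous of degrees `ρ i + c j`. -/
theorem ZHom.adjugate {N : ℕ} {M : Matrix (Fin N) (Fin N) (MvPolynomial (Fin 2) κ)}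
    (ρ c : Fin N → ℤ) (hM : ∀ i j, ZHom (M i j) (ρ i + c j)) (i j : Fin N) :
    ZHom (M.adjugate i j) (∑ i, ρ i + ∑ i, c i - ρ j - c i) := by
  classical
  rw [Matrix.adjugate_apply]
  refine (ZHom.det (Function.update ρ j (-c i)) c fun l m => ?_).congr ?_
  · rw [Matrix.updateRow_apply]
    by_cases hl : l = j
    · rw [if_pos hl, hl, Function.update_self]
      by_cases hm : m = i
      · rw [hm, Pi.single_eq_same]
        exact ZHom.one.congr (by ring)
      · rw [Pi.single_eq_of_ne hm]
        exact ZHom.zero _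
    · rw [if_neg hl, Function.update_of_ne hl]
      exact hM l m
  · rw [Finset.sum_update_of_mem (Finset.mem_univ j)]
    have := Finset.add_sum_erase Finset.univ ρ (Finset.mem_univ j)
    rw [← Finset.sdiff_singleton_eq_erase] at this
    linarith

theorem ZHom.of_mul_left {p q : MvPolynomial (Fin 2) κ} {n n' : ℤ} (hp : ZHom p n) (h0 : p ≠ 0)
    (h : ZHom (p * q) (n + n')) : ZHom q n' := by
  by_cases hq : q = 0
  · rw [hq]; exact ZHom.zero _
  have hpq : p * q ≠ 0 := mul_ne_zero h0 hq
  have hn := hp.nonneg h0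
  have hn2 := h.nonneg hpq
  lift n to ℕ using hn
  obtain ⟨N, hN⟩ := Int.eq_ofNat_of_zero_le hn2
  have hpn := hp.nat n rfl
  have hN' := h.nat N hN.symm
  -- every homogeneous component of `q` in a wrong degree vanishes
  have key : ∀ i : ℕ, n + i ≠ N → homogeneousComponent i q = 0 := by
    intro i hi
    have h1 : homogeneousComponent (n + i) (p * q) = p * homogeneousComponent i q := by
      conv_lhs => rw [← sum_homogeneousComponent q, Finset.mul_sum, map_sum]
      have h2 : ∀ m ∈ Finset.range (q.totalDegree + 1),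
          homogeneousComponent (n + i) (p * homogeneousComponent m q) =
            if i = m then p * homogeneousComponent i q else 0 := by
        intro m _
        rw [homogeneousComponent_of_mem (hpn.mul (homogeneousComponent_isHomogeneous m q))]
        by_cases him : i = m
        · rw [if_pos (by omega), if_pos him, him]
        · rw [if_neg (by omega), if_neg him]
      rw [Finset.sum_congr rfl h2, Finset.sum_ite_eq]
      split_ifs with h3
      · rfl
      · rw [homogeneousComponent_eq_zero, mul_zero]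
        simpa using h3
    rw [homogeneousComponent_of_mem hN', if_neg hi] at h1
    exact (mul_eq_zero.1 h1.symm).resolve_left h0
  have key2 : ∀ i : ℕ, n + i = N → q.IsHomogeneous i := by
    intro i hi
    have : q = homogeneousComponent i q := by
      conv_lhs => rw [← sum_homogeneousComponent q]
      rw [Finset.sum_eq_single i]
      · intro m _ hm
        exact key m (by omega)
      · intro hm
        rw [homogeneousComponent_eq_zero]
        simpa using hm
    rw [this]
    exact homogeneousComponent_isHomogeneous i q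
  refine ⟨fun m hm => key2 m (by omega), fun hneg => ?_⟩
  exfalso
  apply hq
  rw [← sum_homogeneousComponent q]
  exact Finset.sum_eq_zero fun m _ => key m (by omega)

end Vale.Agent.P292
end

section

/-! # Two binary forms with vanishing Wronskian have a common zero. -/

namespace Vale.Agent.P292

open MvPolynomial

universe v

section

variable {K : Type v} [Field K]

theorem ni7_eval_smul {m : ℕ} {p : MvPolynomial (Fin 2) K} (hp : p.IsHomogeneous m) (c : K)
    (a : Fin 2 → K) : eval (fun i => c * a i) p = c ^ m * eval a p := by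
  conv_lhs => rw [p.as_sum]
  conv_rhs => rw [p.as_sum]
  rw [map_sum, map_sum, Finset.mul_sum]
  refine Finset.sum_congr rfl fun s hs => ?_
  rw [eval_monomial, eval_monomial, Finsupp.prod_fintype _ _ (fun _ => pow_zero _),
    Finsupp.prod_fintype _ _ (fun _ => pow_zero _), Fin.prod_univ_two, Fin.prod_univ_two]
  have h1 := hp (mem_support_iff.1 hs)
  rw [Finsupp.weight_apply, Finsupp.sum_fintype _ _ (by simp)] at h1
  simp only [Pi.one_apply, smul_eq_mul, mul_one, Fin.sum_univ_two] at h1
  rw [← h1, mul_pow, mul_pow, pow_add]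
  ring

/-- Restriction to the line with first coordinate `s`. -/
noncomputable def ni7D (s : K) : MvPolynomial (Fin 2) K →ₐ[K] Polynomial K :=
  aeval ![Polynomial.C s, Polynomial.X]

theorem ni7D_eval (s t : K) (p : MvPolynomial (Fin 2) K) :
    (ni7D s p).eval t = eval ![s, t] p := by
  have h : (Polynomial.aeval t : Polynomial K →ₐ[K] K).comp (ni7D s) = aeval ![s, t] := by
    apply MvPolynomial.algHom_ext
    intro i
    rw [AlgHom.comp_apply, ni7D, aeval_X, aeval_X]
    fin_cases i <;> simp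
  have h1 := DFunLike.congr_fun h p
  rw [AlgHom.comp_apply] at h1
  rw [← aeval_eq_eval, ← h1, Polynomial.coe_aeval_eq_eval]

theorem ni7D_derivative (s : K) (p : MvPolynomial (Fin 2) K) :
    Polynomial.derivative (ni7D s p) = ni7D s (pderiv 1 p) := by
  induction p using MvPolynomial.induction_on with
  | C a =>
    rw [pderiv_C, map_zero]
    have : ni7D s (C a) = Polynomial.C a := (ni7D s).commutes a
    rw [this, Polynomial.derivative_C]
  | add p q hp hq => rw [map_add, map_add, hp, hq, map_add, map_add]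
  | mul_X p i hp =>
    rw [map_mul, Polynomial.derivative_mul, hp, pderiv_mul, map_add, map_mul, map_mul]
    congr 2
    have hX : ∀ j, ni7D s (X j) = ![Polynomial.C s, Polynomial.X] j := fun j => aeval_X _ j
    rw [hX, pderiv_X]
    fin_cases i <;> simp

/-- Two polynomials with vanishing Wronskian: the roots of one are roots of the other. -/
theorem ni7_root [CharZero K] {g h : Polynomial K} (h0 : h ≠ 0)
    (hW : Polynomial.derivative g * h = g * Polynomial.derivative h) {t : K} (ht : h.IsRoot t) :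
    g.IsRoot t := by
  by_contra hg
  have hm : 0 < h.rootMultiplicity t := (Polynomial.rootMultiplicity_pos h0).2 ht
  have hd0 : Polynomial.derivative h ≠ 0 := by
    intro hd
    obtain ⟨c, rfl⟩ : ∃ c, h = Polynomial.C c :=
      ⟨_, Polynomial.eq_C_of_natDegree_eq_zero (Polynomial.derivative_eq_zero.1 hd)⟩
    rw [Polynomial.IsRoot, Polynomial.eval_C] at ht
    rw [ht, map_zero] at h0
    exact h0 rfl
  have h1 := Polynomial.derivative_rootMultiplicity_of_root ht
  have h2 : (Polynomial.X - Polynomial.C t) ^ h.rootMultiplicity t ∣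
      g * Polynomial.derivative h := by
    rw [← hW]
    exact (Polynomial.pow_rootMultiplicity_dvd h t).mul_left _
  have hirr : Prime (Polynomial.X - Polynomial.C t) := Polynomial.prime_X_sub_C t
  have h3 : (Polynomial.X - Polynomial.C t) ^ h.rootMultiplicity t ∣ Polynomial.derivative h := by
    refine hirr.pow_dvd_of_dvd_mul_left _ ?_ h2
    rw [Polynomial.dvd_iff_isRoot]
    exact hg
  have h4 := (Polynomial.le_rootMultiplicity_iff hd0).2 h3
  rw [h1] at h4
  omega

theorem ni7D_ne [Infinite K] {m : ℕ} {H : MvPolynomial (Fin 2) K} (hH : H.IsHomogeneous m)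
    (hH0 : H ≠ 0) {s : K} (hs : s ≠ 0) : ni7D s H ≠ 0 := by
  intro h
  apply hH0
  have h1 : (X 0 : MvPolynomial (Fin 2) K) * H = 0 := by
    apply MvPolynomial.funext
    intro a
    rw [map_mul, map_zero, eval_X]
    by_cases ha : a 0 = 0
    · rw [ha, zero_mul]
    · have h2 : eval ![s, s * (a 0)⁻¹ * a 1] H = 0 := by
        rw [← ni7D_eval, h, Polynomial.eval_zero]
      have h3 : (![s, s * (a 0)⁻¹ * a 1] : Fin 2 → K) = fun i => (s * (a 0)⁻¹) * a i := by
        funext i
        fin_cases i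
        · simp [ha]
        · simp
      rw [h3, ni7_eval_smul hH] at h2
      rw [(mul_eq_zero.1 h2).resolve_left (pow_ne_zero _ (mul_ne_zero hs (inv_ne_zero ha))),
        mul_zero]
  exact (mul_eq_zero.1 h1).resolve_left (X_ne_zero 0)

/-- A binary form of positive degree over an algebraically closed field has a zero. -/
theorem ni7_exists_zero [IsAlgClosed K] {F : MvPolynomial (Fin 2) K} {m : ℕ} (hm : 0 < m)
    (hF : F.IsHomogeneous m) : ∃ a : Fin 2 → K, a ≠ 0 ∧ eval a F = 0 := by
  have : Infinite K := IsAlgClosed.instInfinite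
  by_cases h0 : ∃ t, (ni7D 1 F).eval t = 0
  · obtain ⟨t, ht⟩ := h0
    exact ⟨![1, t], fun h => one_ne_zero (α := K) (by simpa using congrFun h 0),
      by rw [← ni7D_eval, ht]⟩
  · push Not at h0
    have hdeg : (ni7D 1 F).degree = 0 := by
      by_contra hne
      obtain ⟨t, ht⟩ := IsAlgClosed.exists_root _ hne
      exact h0 t ht
    obtain ⟨c, hc⟩ : ∃ c, ni7D 1 F = Polynomial.C c := ⟨_, Polynomial.eq_C_of_degree_eq_zero hdeg⟩
    refine ⟨![0, 1], fun h => one_ne_zero (α := K) (by simpa using congrFun h 1), ?_⟩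
    have hFc : F = C c * X 0 ^ m := by
      have h1 : (X 0 : MvPolynomial (Fin 2) K) * F = X 0 * (C c * X 0 ^ m) := by
        apply MvPolynomial.funext
        intro a
        rw [map_mul, map_mul, map_mul, map_pow, eval_X, eval_C]
        by_cases ha : a 0 = 0
        · rw [ha, zero_mul, zero_mul]
        · congr 1
          have h3 : a = fun i => (a 0) * (![1, (a 0)⁻¹ * a 1] : Fin 2 → K) i := by
            funext i
            fin_cases i
            · simp
            · simp [ha]
          conv_lhs => rw [h3]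
          rw [ni7_eval_smul hF, ← ni7D_eval, hc, Polynomial.eval_C, mul_comm]
      exact mul_left_cancel₀ (X_ne_zero 0) h1
    rw [hFc, map_mul, map_pow, eval_X]
    simp [hm.ne']

/-- I-7a vanishing Wronskian: common zero -/
theorem ni_common_zero [IsAlgClosed K] [CharZero K] {k : ℕ} (hk : 0 < k)
    {G H : MvPolynomial (Fin 2) K} (hG : G.IsHomogeneous k) (hH : H.IsHomogeneous k)
    (hG0 : G ≠ 0) (hH0 : H ≠ 0)
    (hW : pderiv 1 G * H = G * pderiv 1 H) : ∃ u : Fin 2 → K, u ≠ 0 ∧ eval u G = 0 ∧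
      eval u H = 0 := by
  have : Infinite K := IsAlgClosed.instInfinite
  have key : ∀ {G H : MvPolynomial (Fin 2) K}, H.IsHomogeneous k → H ≠ 0 →
      pderiv 1 G * H = G * pderiv 1 H → ∀ u : Fin 2 → K, u 0 ≠ 0 → eval u H = 0 →
      eval u G = 0 := by
    intro G H hH hH0 hW u hu0 hu
    have hu' : (![u 0, u 1] : Fin 2 → K) = u := by
      funext i
      fin_cases i <;> rfl
    have h1 := ni7_root (g := ni7D (u 0) G) (h := ni7D (u 0) H) (ni7D_ne hH hH0 hu0) (by
      rw [ni7D_derivative, ni7D_derivative, ← map_mul, ← map_mul, hW]) (t := u 1)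
      (by rw [Polynomial.IsRoot, ni7D_eval, hu', hu])
    rwa [Polynomial.IsRoot, ni7D_eval, hu'] at h1
  obtain ⟨a, ha, haG⟩ := ni7_exists_zero hk hG
  obtain ⟨b, hb, hbH⟩ := ni7_exists_zero hk hH
  by_cases ha0 : a 0 = 0
  · by_cases hb0 : b 0 = 0
    · have ha1 : a 1 ≠ 0 := fun h1 => ha (by ext i; fin_cases i <;> simp [ha0, h1])
      have hb1 : b 1 ≠ 0 := fun h1 => hb (by ext i; fin_cases i <;> simp [hb0, h1])
      refine ⟨b, hb, ?_, hbH⟩
      have h1 : b = fun i => (b 1 * (a 1)⁻¹) * a i := by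
        funext i
        fin_cases i
        · simp [ha0, hb0]
        · simp [ha1]
      rw [h1, ni7_eval_smul hG, haG, mul_zero]
    · exact ⟨b, hb, key hH hH0 hW b hb0 hbH, hbH⟩
  · exact ⟨a, ha, haG, key hG hG0 (by rw [mul_comm, ← hW, mul_comm]) a ha0 haG⟩

end

end Vale.Agent.P292
end

section

/-! # Frobenius twist of the structure of a vector space: definitions. -/

namespace Vale.Agent.P292.Mo

universe u w

variable {k : Type u} [Field k]

/-- The field `K` with the `k`-structure twisted by the `j`-th power of Frobenius. -/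
def Tw (p j : ℕ) (K : Type w) : Type w := K

instance (p j : ℕ) (K : Type w) [Field K] : Field (Tw p j K) := inferInstanceAs (Field K)

/-- The twisted `k`-structure. -/
noncomputable instance (p j : ℕ) [Fact p.Prime] [CharP k p] (K : Type w) [Field K] [Algebra k K] :
    Algebra k (Tw p j K) :=
  ((algebraMap k K).comp (iterateFrobenius k p j)).toAlgebra

end Vale.Agent.P292.Mo
end

section

/-! # Part II.a, tools: subspaces after extension of scalars over a field -/

namespace Vale.Agent.P292.Mo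

open TensorProduct

universe u v w

section
variable {k : Type*} [Field k] {K : Type*} [AddCommGroup K] [Module k K]
  (B : Type*) [CommRing B] [Algebra k B]

/-- the functional `l`, extended to `B ⊗ K → B` -/
noncomputable def lamB (l : K →ₗ[k] k) : B ⊗[k] K →ₗ[B] B :=
  (TensorProduct.AlgebraTensorModule.rid k B B).toLinearMap ∘ₗ l.baseChange B

@[simp] theorem lamB_tmul (l : K →ₗ[k] k) (b : B) (x : K) : lamB B l (b ⊗ₜ x) = l x • b := by
  simp [lamB]

theorem lamB_add (l l' : K →ₗ[k] k) (x : B ⊗[k] K) :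
    lamB B (l + l') x = lamB B l x + lamB B l' x := by
  induction x using TensorProduct.induction_on with
  | zero => simp
  | tmul b a => simp [add_smul]
  | add x y hx hy => rw [map_add, map_add, map_add, hx, hy]; abel

theorem lamB_sub (l l' : K →ₗ[k] k) (x : B ⊗[k] K) :
    lamB B (l - l') x = lamB B l x - lamB B l' x := by
  induction x using TensorProduct.induction_on with
  | zero => simp
  | tmul b a => simp [sub_smul]
  | add x y hx hy => rw [map_add, map_add, map_add, hx, hy]; abel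

theorem lamB_comp {K' : Type*} [AddCommGroup K'] [Module k K'] (l : K' →ₗ[k] k) (f : K →ₗ[k] K')
    (x : B ⊗[k] K) : lamB B l (f.baseChange B x) = lamB B (l ∘ₗ f) x := by
  induction x using TensorProduct.induction_on with
  | zero => simp
  | tmul b a => simp
  | add x y hx hy => rw [map_add, map_add, map_add, hx, hy]

/-- the functionals separate the points of `B ⊗ K` -/
theorem eq_zero_of_lamB {x : B ⊗[k] K} (h : ∀ l : K →ₗ[k] k, lamB B l x = 0) : x = 0 := by
  let b := Module.Basis.ofVectorSpace k K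
  let bB := Algebra.TensorProduct.basis B b
  have hc : ∀ (x : B ⊗[k] K) i, bB.repr x i = lamB B (b.coord i) x := by
    intro x i
    induction x using TensorProduct.induction_on with
    | zero => simp
    | tmul c a =>
      rw [lamB_tmul, Algebra.TensorProduct.basis_repr_tmul]
      simp [Algebra.smul_def, mul_comm]
    | add x y hx hy => rw [map_add, map_add, Finsupp.add_apply, hx, hy]
  refine bB.repr.injective ?_
  ext i
  rw [hc, h, map_zero, Finsupp.zero_apply]

/-- elements of `B ⊗ K` with coefficients in the subspace `V` -/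
noncomputable def InB (V : Submodule k K) : Submodule B (B ⊗[k] K) where
  carrier := {x | ∀ l : K →ₗ[k] k, (∀ v ∈ V, l v = 0) → lamB B l x = 0}
  add_mem' := fun ha hb l hl => by rw [map_add, ha l hl, hb l hl, add_zero]
  zero_mem' := fun l _ => map_zero _
  smul_mem' := fun c x hx l hl => by rw [map_smul, hx l hl, smul_zero]

theorem mem_InB {V : Submodule k K} {x : B ⊗[k] K} :
    x ∈ InB B V ↔ ∀ l : K →ₗ[k] k, (∀ v ∈ V, l v = 0) → lamB B l x = 0 := Iff.rfl

theorem tmul_mem_InB {V : Submodule k K} (b : B) {v : K} (hv : v ∈ V) :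
    b ⊗ₜ[k] v ∈ InB B V := fun l hl => by rw [lamB_tmul, hl v hv, zero_smul]

theorem InB_mono {U V : Submodule k K} (h : U ≤ V) : InB B U ≤ InB B V :=
  fun _ hx l hl => hx l fun v hv => hl v (h hv)

theorem mem_InB_inf {U V : Submodule k K} {x : B ⊗[k] K} (hU : x ∈ InB B U) (hV : x ∈ InB B V) :
    x ∈ InB B (U ⊓ V) := by
  intro l hl
  have h1 : l ∈ (U ⊓ V).dualAnnihilator := by
    rw [Submodule.mem_dualAnnihilator]
    exact hl
  rw [Subspace.dualAnnihilator_inf_eq, Submodule.mem_sup] at h1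
  obtain ⟨l₁, hl₁, l₂, hl₂, rfl⟩ := h1
  rw [Submodule.mem_dualAnnihilator] at hl₁ hl₂
  rw [lamB_add, hU l₁ hl₁, hV l₂ hl₂, add_zero]

theorem mem_InB_iff_range {V : Submodule k K} {x : B ⊗[k] K} :
    x ∈ InB B V ↔ x ∈ LinearMap.range (V.subtype.baseChange B) := by
  constructor
  · intro hx
    obtain ⟨p, hp⟩ := V.subtype.exists_leftInverse_of_injective (by simp)
    refine ⟨p.baseChange B x, ?_⟩
    rw [← LinearMap.comp_apply, ← LinearMap.baseChange_comp, ← sub_eq_zero]
    refine eq_zero_of_lamB B fun l => ?_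
    rw [map_sub, lamB_comp, ← lamB_sub]
    have h1 : ∀ v ∈ V, (l - l ∘ₗ (V.subtype ∘ₗ p)) v = 0 := by
      intro v hv
      have h2 : p v = ⟨v, hv⟩ := LinearMap.congr_fun hp ⟨v, hv⟩
      simp [h2]
    have h3 := hx _ h1
    rw [lamB_sub] at h3 ⊢
    rw [← neg_sub, h3, neg_zero]
  · rintro ⟨y, rfl⟩ l hl
    rw [lamB_comp]
    have h1 : l ∘ₗ V.subtype = 0 := by
      ext v
      exact hl v v.2
    rw [h1]
    induction y using TensorProduct.induction_on with
    | zero => simp
    | tmul b a => simp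
    | add x y hx hy => rw [map_add, hx, hy, add_zero]

/-- induction for elements of `InB B V` -/
theorem InB_induction {V : Submodule k K} {p : B ⊗[k] K → Prop}
    (h0 : p 0) (ht : ∀ b, ∀ v ∈ V, p (b ⊗ₜ v)) (ha : ∀ x y, p x → p y → p (x + y))
    {x : B ⊗[k] K} (hx : x ∈ InB B V) : p x := by
  rw [mem_InB_iff_range] at hx
  obtain ⟨y, rfl⟩ := hx
  induction y using TensorProduct.induction_on with
  | zero => rw [map_zero]; exact h0
  | tmul b a => exact ht b a a.2
  | add x y hx hy => rw [map_add]; exact ha _ _ hx hy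

/-- coordinates with respect to a basis of `V` -/
theorem exists_coord {ι : Type*} [Fintype ι] {V : Submodule k K} (b : Module.Basis ι k V)
    {x : B ⊗[k] K} (hx : x ∈ InB B V) : ∃ t : ι → B, x = ∑ i, t i ⊗ₜ (b i : K) := by
  refine InB_induction B (p := fun x => ∃ t : ι → B, x = ∑ i, t i ⊗ₜ (b i : K))
    ⟨0, by simp⟩ ?_ ?_ hx
  · intro c v hv
    refine ⟨fun i => b.repr ⟨v, hv⟩ i • c, ?_⟩
    have h1 : v = ∑ i, b.repr ⟨v, hv⟩ i • (b i : K) := by
      have h2 := congrArg V.subtype (b.sum_repr ⟨v, hv⟩)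
      rw [map_sum] at h2
      simpa using h2.symm
    conv_lhs => rw [h1]
    rw [TensorProduct.tmul_sum]
    refine Finset.sum_congr rfl fun i _ => ?_
    rw [TensorProduct.tmul_smul, TensorProduct.smul_tmul']
  · rintro x y ⟨t, rfl⟩ ⟨t', rfl⟩
    refine ⟨t + t', ?_⟩
    rw [← Finset.sum_add_distrib]
    refine Finset.sum_congr rfl fun i _ => ?_
    rw [Pi.add_apply, TensorProduct.add_tmul]

end

section functorial
variable {k : Type*} [Field k] {K : Type*} [CommRing K] [Algebra k K]
  {B B' : Type*} [CommRing B] [Algebra k B] [CommRing B'] [Algebra k B']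

/-- change of scalars `B ⊗ K → B' ⊗ K` -/
noncomputable def chg (K : Type*) [CommRing K] [Algebra k K] (f : B →ₐ[k] B') :
    B ⊗[k] K →ₐ[k] B' ⊗[k] K := Algebra.TensorProduct.map f (AlgHom.id k K)

@[simp] theorem chg_tmul (f : B →ₐ[k] B') (b : B) (x : K) : chg K f (b ⊗ₜ x) = f b ⊗ₜ x := by
  simp [chg]

theorem lamB_chg (f : B →ₐ[k] B') (l : K →ₗ[k] k) (x : B ⊗[k] K) :
    lamB B' l (chg K f x) = f (lamB B l x) := by
  induction x using TensorProduct.induction_on with
  | zero => simp
  | tmul b a => simp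
  | add x y hx hy => rw [map_add, map_add, map_add, map_add, hx, hy]

theorem chg_mem_InB (f : B →ₐ[k] B') {V : Submodule k K} {x : B ⊗[k] K} (hx : x ∈ InB B V) :
    chg K f x ∈ InB B' V := fun l hl => by rw [lamB_chg, hx l hl, map_zero]

theorem chg_comp {B'' : Type*} [CommRing B''] [Algebra k B''] (g : B' →ₐ[k] B'') (f : B →ₐ[k] B')
    (x : B ⊗[k] K) : chg K g (chg K f x) = chg K (g.comp f) x := by
  induction x using TensorProduct.induction_on with
  | zero => simp
  | tmul b a => simp
  | add x y hx hy => rw [map_add, map_add, map_add, hx, hy]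

theorem mul_mem_InB {U V W : Submodule k K} (h : ∀ a ∈ U, ∀ b ∈ V, a * b ∈ W) {x y : B ⊗[k] K}
    (hx : x ∈ InB B U) (hy : y ∈ InB B V) : x * y ∈ InB B W := by
  refine InB_induction B (p := fun x => x * y ∈ InB B W) ?_ ?_ ?_ hx
  · rw [zero_mul]; exact zero_mem _
  · intro b v hv
    refine InB_induction B (p := fun y => (b ⊗ₜ v) * y ∈ InB B W) ?_ ?_ ?_ hy
    · rw [mul_zero]; exact zero_mem _
    · intro b' v' hv'
      rw [Algebra.TensorProduct.tmul_mul_tmul]
      exact tmul_mem_InB B _ (h v hv v' hv')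
    · intro x y hx hy
      rw [mul_add]; exact add_mem hx hy
  · intro x y hx hy
    rw [add_mul]; exact add_mem hx hy

/-- the subalgebra of elements of `B ⊗ K` with coefficients in the subalgebra `S` -/
noncomputable def subB (B : Type*) [CommRing B] [Algebra k B] (S : Subalgebra k K) :
    Subalgebra k (B ⊗[k] K) where
  carrier := {x | x ∈ InB B (Subalgebra.toSubmodule S)}
  mul_mem' := fun ha hb => mul_mem_InB (fun a ha b hb => S.mul_mem ha hb) ha hb
  add_mem' := fun ha hb => (InB B (Subalgebra.toSubmodule S)).add_mem ha hb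
  algebraMap_mem' := fun r => by
    change algebraMap k (B ⊗[k] K) r ∈ InB B (Subalgebra.toSubmodule S)
    rw [Algebra.TensorProduct.algebraMap_apply]
    exact tmul_mem_InB B _ S.one_mem

theorem mem_subB {S : Subalgebra k K} {x : B ⊗[k] K} :
    x ∈ subB B S ↔ x ∈ InB B (Subalgebra.toSubmodule S) := by
  rw [subB]
  exact Iff.rfl

/-- the map `B ⊗ S → B ⊗ K` -/
noncomputable def incB (B : Type*) [CommRing B] [Algebra k B] (S : Subalgebra k K) :
    B ⊗[k] S →ₐ[k] B ⊗[k] K := Algebra.TensorProduct.map (AlgHom.id k B) S.val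

@[simp] theorem incB_tmul (S : Subalgebra k K) (b : B) (x : S) :
    incB B S (b ⊗ₜ x) = b ⊗ₜ (x : K) := by
  simp [incB]

theorem incB_injective (S : Subalgebra k K) : Function.Injective (incB B S) := by
  have h := Module.Flat.lTensor_preserves_injective_linearMap (M := B) S.val.toLinearMap
    Subtype.val_injective
  exact h

theorem mem_subB_iff {S : Subalgebra k K} {x : B ⊗[k] K} :
    x ∈ subB B S ↔ ∃ y, incB B S y = x := by
  rw [mem_subB, mem_InB_iff_range]
  constructor
  · rintro ⟨y, rfl⟩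
    refine ⟨y, ?_⟩
    induction y using TensorProduct.induction_on with
    | zero => simp
    | tmul b a => simp [incB]
    | add x y hx hy => rw [map_add, map_add, hx, hy]
  · rintro ⟨y, rfl⟩
    refine ⟨y, ?_⟩
    induction y using TensorProduct.induction_on with
    | zero => simp
    | tmul b a => simp [incB]
    | add x y hx hy => rw [map_add, map_add, hx, hy]

/-- a homomorphism with values in `subB B S` factors over `B ⊗ S` -/
theorem exists_factor {R : Type*} [CommRing R] [Algebra k R] {S : Subalgebra k K}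
    (f : R →ₐ[k] B ⊗[k] K) (hf : ∀ r, f r ∈ subB B S) :
    ∃ g : R →ₐ[k] B ⊗[k] S, ∀ r, incB B S (g r) = f r := by
  have hr : ∀ r, f r ∈ (incB B S).range := fun r => by
    obtain ⟨y, hy⟩ := mem_subB_iff.1 (hf r)
    exact ⟨y, hy⟩
  let e := AlgEquiv.ofInjective (incB B S) (incB_injective S)
  refine ⟨e.symm.toAlgHom.comp (f.codRestrict _ hr), fun r => ?_⟩
  have h1 := e.apply_symm_apply ((f.codRestrict (incB B S).range hr) r)
  exact congrArg Subtype.val h1

end functorial

end Vale.Agent.P292.Mo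
end

section

/-! # Part II.a, tools: twists, lifting, the universal family -/

namespace Vale.Agent.P292.Mo

open TensorProduct

universe u v w

section twist
variable {k : Type*} [Field k] {R : Type*} [CommRing R] [Algebra k R]
  (𝒜 : ℕ → Submodule k R) [GradedAlgebra 𝒜]

theorem linearMap_eq_of_homog {M : Type*} [AddCommGroup M] [Module k M] (f g : R →ₗ[k] M)
    (h : ∀ n, ∀ r ∈ 𝒜 n, f r = g r) (r : R) : f r = g r := by
  classical
  rw [← DirectSum.sum_support_decompose 𝒜 r, map_sum, map_sum]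
  exact Finset.sum_congr rfl (fun i _ => h i _ (SetLike.coe_mem _))

variable {C : Type*} [CommRing C] [Algebra k C]

/-- `r ↦ c ^ n * ψ r` for `r` of degree `n` -/
noncomputable def tw (c : C) (ψ : R →ₐ[k] C) : R →ₐ[k] C :=
  (DirectSum.toAlgebra k (fun n => 𝒜 n)
    (fun n => (LinearMap.mulLeft k (c ^ n)) ∘ₗ ψ.toLinearMap ∘ₗ (𝒜 n).subtype)
    (by
      change c ^ 0 * ψ ((1 : 𝒜 0) : R) = 1
      rw [pow_zero, one_mul]
      exact map_one ψ)
    (fun {i j} ai aj => by
      change c ^ (i + j) * ψ ((ai : R) * (aj : R)) = (c ^ i * ψ ai) * (c ^ j * ψ aj)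
      rw [map_mul, pow_add]
      ring)).comp (DirectSum.decomposeAlgEquiv 𝒜).toAlgHom

theorem tw_apply (c : C) (ψ : R →ₐ[k] C) {n : ℕ} {r : R} (hr : r ∈ 𝒜 n) :
    tw 𝒜 c ψ r = c ^ n * ψ r := by
  classical
  change DirectSum.toModule k ℕ C
    (fun n => (LinearMap.mulLeft k (c ^ n)) ∘ₗ ψ.toLinearMap ∘ₗ (𝒜 n).subtype)
    (DirectSum.decompose 𝒜 r) = _
  rw [DirectSum.decompose_of_mem 𝒜 hr]
  change DirectSum.toModule k ℕ C _ (DirectSum.lof k ℕ (fun n => 𝒜 n) n ⟨r, hr⟩) = _
  rw [DirectSum.toModule_lof]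
  rfl

end twist

section lift
variable {k : Type*} [Field k] {R : Type*} [CommRing R] [Algebra k R]

/-- lifting along nilpotent extensions over the smooth locus -/
theorem exists_lift_of_smooth {s : R} (hs : Algebra.FormallySmooth k (Localization.Away s))
    {C' C : Type*} [CommRing C'] [CommRing C] [Algebra k C'] [Algebra k C] (π : C' →ₐ[k] C)
    (hπ : Function.Surjective π) (hn' : IsNilpotent (RingHom.ker π))
    (ψ : R →ₐ[k] C) (hu : IsUnit (ψ s)) : ∃ ψ' : R →ₐ[k] C', ∀ r, π (ψ' r) = ψ r := by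
  have hn : IsNilpotent (RingHom.ker (π : C' →+* C)) := hn'
  have hu' : ∀ y : Submonoid.powers s, IsUnit ((ψ : R →+* C) y) := by
    rintro ⟨y, n, rfl⟩
    change IsUnit (ψ (s ^ n))
    rw [map_pow]
    exact hu.pow n
  let ψ₁ : Localization.Away s →ₐ[k] C :=
    IsLocalization.liftAlgHom (M := Submonoid.powers s) (f := ψ) hu'
  let ψ₂ := Algebra.FormallySmooth.liftOfSurjective ψ₁ π hπ hn
  refine ⟨ψ₂.comp (Algebra.algHom k R (Localization.Away s)), fun r => ?_⟩
  have h1 := Algebra.FormallySmooth.liftOfSurjective_apply ψ₁ π hπ hn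
    (algebraMap R (Localization.Away s) r)
  refine h1.trans ?_
  exact IsLocalization.lift_eq _ r

end lift

section taylor
variable {k : Type*} [Field k] {σ : Type*} {O : Type*} [CommRing O] [Algebra k O]

theorem taylor_aux (τ₀ : MvPolynomial σ k →ₐ[k] O) (ε : O)
    (hε : ∀ s, ε * τ₀ (MvPolynomial.X s) = 0) (f : MvPolynomial σ k) :
    ε * τ₀ f = MvPolynomial.constantCoeff f • ε := by
  induction f using MvPolynomial.induction_on with
  | C a =>
    rw [MvPolynomial.constantCoeff_C, ← MvPolynomial.algebraMap_eq, AlgHom.commutes,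
      Algebra.smul_def, mul_comm]
  | add p q hp hq => rw [map_add, map_add, mul_add, hp, hq, add_smul]
  | mul_X p s hp => rw [map_mul, map_mul, mul_left_comm, hε, mul_zero,
      MvPolynomial.constantCoeff_X, mul_zero, zero_smul]

/-- first order Taylor expansion -/
theorem taylor [Fintype σ] (τ τ₀ : MvPolynomial σ k →ₐ[k] O) (ε : O) (c : σ → k)
    (hε : ∀ s, ε * τ₀ (MvPolynomial.X s) = 0) (hεε : ε * ε = 0)
    (h : ∀ s, τ (MvPolynomial.X s) = τ₀ (MvPolynomial.X s) + c s • ε) (f : MvPolynomial σ k) :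
    τ f = τ₀ f + (∑ s, c s * MvPolynomial.coeff (Finsupp.single s 1) f) • ε := by
  classical
  induction f using MvPolynomial.induction_on with
  | C a =>
    have h1 : ∀ s : σ, MvPolynomial.coeff (Finsupp.single s 1) (MvPolynomial.C a : MvPolynomial σ k)
        = 0 := by
      intro s
      rw [MvPolynomial.coeff_C, if_neg]
      intro h0
      have := DFunLike.congr_fun h0 s
      simp at this
    simp only [h1, mul_zero, Finset.sum_const_zero, zero_smul, add_zero]
    rw [← MvPolynomial.algebraMap_eq, AlgHom.commutes, AlgHom.commutes]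
  | add p q hp hq =>
    simp only [map_add, MvPolynomial.coeff_add, mul_add, Finset.sum_add_distrib, add_smul]
    rw [hp, hq]
    ring
  | mul_X p s hp =>
    have h1 : ∀ s', MvPolynomial.coeff (Finsupp.single s' 1) (p * MvPolynomial.X s) =
        if s' = s then MvPolynomial.constantCoeff p else 0 := by
      intro s'
      rw [MvPolynomial.coeff_mul_X']
      by_cases hss : s' = s
      · subst hss
        simp [MvPolynomial.constantCoeff_eq]
      · rw [if_neg hss, if_neg]
        rw [Finsupp.mem_support_iff, Finsupp.single_apply, if_neg hss]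
        simp
    simp only [h1, mul_ite, mul_zero]
    rw [Finset.sum_ite_eq' Finset.univ s, if_pos (Finset.mem_univ s), map_mul, map_mul, hp, h s]
    have h2 := taylor_aux τ₀ ε hε p
    have h3 : ∀ (a b : k), (a • ε) * (b • ε) = 0 := by
      intro a b
      rw [smul_mul_smul_comm, hεε, smul_zero]
    rw [add_mul, mul_add, mul_add, h3, add_zero, mul_smul_comm, mul_comm (τ₀ p) ε, h2, smul_mul_assoc,
      hε, smul_zero, add_zero, smul_smul]

end taylor

section family
variable {k : Type*} [Field k] {R : Type*} [CommRing R] [Algebra k R]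
  {K : Type*} [CommRing K] [Algebra k K] {M : ℕ} (x : Fin M → R)
  (hgen : Function.Surjective (MvPolynomial.aeval (R := k) x))
  (V : Fin M → Submodule k K) [∀ i, Module.Finite k (V i)] (φ : R →ₐ[k] K)

/-- the coordinates of the family -/
abbrev Idx (V : Fin M → Submodule k K) : Type := Σ i : Fin M, Fin (Module.finrank k (V i))

/-- the universal values of the generators -/
noncomputable def pre : MvPolynomial (Fin M) k →ₐ[k] MvPolynomial (Idx V) k ⊗[k] K :=
  MvPolynomial.aeval fun i => (1 : MvPolynomial (Idx V) k) ⊗ₜ[k] φ (x i) +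
    ∑ j, (MvPolynomial.X ⟨i, j⟩ : MvPolynomial (Idx V) k) ⊗ₜ[k] (Module.finBasis k (V i) j : K)

/-- the equations of the family -/
noncomputable def eqs : Ideal (MvPolynomial (Idx V) k) :=
  Ideal.span {a | ∃ f : MvPolynomial (Fin M) k, MvPolynomial.aeval x f = 0 ∧
    ∃ l : K →ₗ[k] k, lamB _ l (pre x V φ f) = a}

variable {B : Type*} [CommRing B] [Algebra k B]

theorem eqs_le_iff (τ : MvPolynomial (Idx V) k →ₐ[k] B) : eqs x V φ ≤ RingHom.ker τ ↔
    ∀ f : MvPolynomial (Fin M) k, MvPolynomial.aeval x f = 0 → chg K τ (pre x V φ f) = 0 := by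
  constructor
  · intro h f hf
    refine eq_zero_of_lamB B fun l => ?_
    rw [lamB_chg]
    exact h (Ideal.subset_span ⟨f, hf, l, rfl⟩)
  · intro h
    rw [eqs, Ideal.span_le]
    rintro _ ⟨f, hf, l, rfl⟩
    change τ _ = 0
    rw [← lamB_chg, h f hf, map_zero]

theorem chg_pre_X (τ : MvPolynomial (Idx V) k →ₐ[k] B) (i : Fin M) :
    chg K τ (pre x V φ (MvPolynomial.X i)) = 1 ⊗ₜ[k] φ (x i) +
      ∑ j, τ (MvPolynomial.X ⟨i, j⟩) ⊗ₜ[k] (Module.finBasis k (V i) j : K) := by
  rw [pre, MvPolynomial.aeval_X, map_add, map_sum, chg_tmul, map_one]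
  simp only [chg_tmul]

include hgen in
/-- a point of the parameter space gives a homomorphism -/
theorem exists_hom_of_point (τ : MvPolynomial (Idx V) k →ₐ[k] B) (h : eqs x V φ ≤ RingHom.ker τ) :
    ∃ ψ : R →ₐ[k] B ⊗[k] K, ∀ f : MvPolynomial (Fin M) k,
      ψ (MvPolynomial.aeval x f) = chg K τ (pre x V φ f) := by
  rw [eqs_le_iff] at h
  let π : MvPolynomial (Fin M) k →ₐ[k] R := MvPolynomial.aeval x
  let e := Ideal.quotientKerAlgEquivOfSurjective (f := π) hgen
  let g : (MvPolynomial (Fin M) k ⧸ RingHom.ker π) →ₐ[k] B ⊗[k] K :=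
    Ideal.Quotient.liftₐ (RingHom.ker π) ((chg K τ).comp (pre x V φ)) (fun f hf => h f hf)
  refine ⟨g.comp e.symm.toAlgHom, fun f => ?_⟩
  have h1 : e.symm (π f) = Ideal.Quotient.mk _ f := by
    rw [AlgEquiv.symm_apply_eq]
    rfl
  change g (e.symm (π f)) = _
  rw [h1]
  rfl

/-- a homomorphism gives a point of the parameter space -/
theorem exists_point_of_hom (ψ : R →ₐ[k] B ⊗[k] K)
    (h : ∀ i, ψ (x i) - 1 ⊗ₜ φ (x i) ∈ InB B (V i)) :
    ∃ τ : MvPolynomial (Idx V) k →ₐ[k] B, eqs x V φ ≤ RingHom.ker τ ∧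
      ∀ i, ψ (x i) = 1 ⊗ₜ[k] φ (x i) +
        ∑ j, τ (MvPolynomial.X ⟨i, j⟩) ⊗ₜ[k] (Module.finBasis k (V i) j : K) := by
  choose t ht using fun i => exists_coord B (Module.finBasis k (V i)) (h i)
  let τ : MvPolynomial (Idx V) k →ₐ[k] B := MvPolynomial.aeval fun s => t s.1 s.2
  have hτ : ∀ i, ψ (x i) = 1 ⊗ₜ[k] φ (x i) +
      ∑ j, τ (MvPolynomial.X ⟨i, j⟩) ⊗ₜ[k] (Module.finBasis k (V i) j : K) := by
    intro i
    rw [← sub_eq_iff_eq_add', ht i]
    refine Finset.sum_congr rfl fun j _ => ?_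
    simp [τ]
  refine ⟨τ, ?_, hτ⟩
  rw [eqs_le_iff]
  have h1 : (chg K τ).comp (pre x V φ) = ψ.comp (MvPolynomial.aeval x) := by
    refine MvPolynomial.algHom_ext fun i => ?_
    rw [AlgHom.comp_apply, AlgHom.comp_apply, chg_pre_X, MvPolynomial.aeval_X, hτ i]
  intro f hf
  have h2 := DFunLike.congr_fun h1 f
  rw [AlgHom.comp_apply, AlgHom.comp_apply, hf, map_zero] at h2
  exact h2

omit [∀ i, Module.Finite k (V i)] in
/-- coordinates are unique -/
theorem coord_unique {ι : Type*} [Fintype ι] {W : Submodule k K} (b : Module.Basis ι k W)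
    {t t' : ι → B} (h : ∑ j, t j ⊗ₜ[k] (b j : K) = ∑ j, t' j ⊗ₜ[k] (b j : K)) : t = t' := by
  classical
  obtain ⟨p, hp⟩ := W.subtype.exists_leftInverse_of_injective (by simp)
  funext i
  have h1 := congrArg (lamB B (b.coord i ∘ₗ p)) h
  rw [map_sum, map_sum] at h1
  have h2 : ∀ j, (b.coord i ∘ₗ p) (b j : K) = if j = i then 1 else 0 := by
    intro j
    have h3 : p (b j : K) = b j := LinearMap.congr_fun hp (b j)
    rw [LinearMap.comp_apply, h3, Module.Basis.coord_apply, Module.Basis.repr_self,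
      Finsupp.single_apply]
  simpa [h2] using h1

end family

end Vale.Agent.P292.Mo
end

section

/-! Block II.c: Euler characteristics of pairs of subspaces, and the number of zeros of a
section. -/

namespace Vale.Agent.P292.Mo.Ct

open Module

section chi

variable {k W : Type*} [Field k] [AddCommGroup W] [Module k W]

/-- both the intersection and the cokernel are finite dimensional -/
def Fin2 (U V : Submodule k W) : Prop :=
  FiniteDimensional k ↥(U ⊓ V) ∧ FiniteDimensional k (W ⧸ (U ⊔ V))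

/-- Euler characteristic -/
noncomputable def chi (U V : Submodule k W) : ℤ :=
  (finrank k ↥(U ⊓ V) : ℤ) - finrank k (W ⧸ (U ⊔ V))

/-- the quotient `V / X` for `X ≤ V` -/
abbrev Quo (X V : Submodule k W) : Type _ := ↥V ⧸ X.comap V.subtype

/-- the connecting map `V / X → W / (U + X)` -/
noncomputable def conn (U X V : Submodule k W) : Quo X V →ₗ[k] W ⧸ (U ⊔ X) :=
  (X.comap V.subtype).mapQ (U ⊔ X) V.subtype (Submodule.comap_mono le_sup_right)

/-- the map `U ∩ V → V / X` -/
noncomputable def restr (U X V : Submodule k W) : ↥(U ⊓ V) →ₗ[k] Quo X V :=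
  (X.comap V.subtype).mkQ ∘ₗ Submodule.inclusion inf_le_right

lemma range_restr (U X V : Submodule k W) (h : X ≤ V) :
    LinearMap.range (restr U X V) = LinearMap.ker (conn U X V) := by
  apply le_antisymm
  · rintro _ ⟨x, rfl⟩
    rw [LinearMap.mem_ker]
    change (U ⊔ X).mkQ (x : W) = 0
    rw [Submodule.mkQ_apply, Submodule.Quotient.mk_eq_zero]
    exact Submodule.mem_sup_left x.2.1
  · intro y hy
    obtain ⟨y, rfl⟩ := Submodule.mkQ_surjective _ y
    rw [LinearMap.mem_ker] at hy
    change (U ⊔ X).mkQ (y : W) = 0 at hy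
    rw [Submodule.mkQ_apply, Submodule.Quotient.mk_eq_zero, Submodule.mem_sup] at hy
    obtain ⟨a, ha, b, hb, hab⟩ := hy
    have haV : a ∈ V := by
      have : a = y - b := by rw [← hab]; abel
      rw [this]
      exact sub_mem y.2 (h hb)
    refine ⟨⟨a, ha, haV⟩, ?_⟩
    change (X.comap V.subtype).mkQ ⟨a, haV⟩ = _
    rw [Submodule.mkQ_apply, Submodule.mkQ_apply, Submodule.Quotient.eq]
    change a - (y : W) ∈ X
    rw [← hab]
    have : a - (a + b) = - b := by abel
    rw [this]
    exact neg_mem hb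

lemma map_ker_restr (U X V : Submodule k W) (h : X ≤ V) :
    (LinearMap.ker (restr U X V)).map (U ⊓ V).subtype = U ⊓ X := by
  ext x
  constructor
  · rintro ⟨y, hy, rfl⟩
    refine ⟨y.2.1, ?_⟩
    rw [SetLike.mem_coe, LinearMap.mem_ker] at hy
    change (X.comap V.subtype).mkQ _ = 0 at hy
    rw [Submodule.mkQ_apply, Submodule.Quotient.mk_eq_zero] at hy
    exact hy
  · rintro ⟨hx, hx'⟩
    refine ⟨⟨x, hx, h hx'⟩, ?_, rfl⟩
    rw [SetLike.mem_coe, LinearMap.mem_ker]
    change (X.comap V.subtype).mkQ _ = 0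
    rw [Submodule.mkQ_apply, Submodule.Quotient.mk_eq_zero]
    exact hx'

/-- the kernel of the restriction is the intersection -/
noncomputable def kerEquiv (U X V : Submodule k W) (h : X ≤ V) :
    ↥(LinearMap.ker (restr U X V)) ≃ₗ[k] ↥(U ⊓ X) :=
  (Submodule.equivMapOfInjective (U ⊓ V).subtype (Submodule.injective_subtype _) _).trans
    (LinearEquiv.ofEq _ _ (map_ker_restr U X V h))

/-- the cokernel of the connecting map -/
noncomputable def cokEquiv (U X V : Submodule k W) (h : X ≤ V) :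
    ((W ⧸ (U ⊔ X)) ⧸ LinearMap.range (conn U X V)) ≃ₗ[k] W ⧸ (U ⊔ V) := by
  refine (Submodule.quotEquivOfEq _ _ ?_).trans
    (Submodule.quotientQuotientEquivQuotient (U ⊔ X) (U ⊔ V) (sup_le_sup_left h U))
  rw [conn, Submodule.range_mapQ, Submodule.range_subtype, Submodule.map_sup]
  have h1 : U.map (U ⊔ X).mkQ = ⊥ := by
    rw [Submodule.eq_bot_iff]
    rintro _ ⟨x, hx, rfl⟩
    rw [Submodule.mkQ_apply, Submodule.Quotient.mk_eq_zero]
    exact Submodule.mem_sup_left hx
  rw [h1, bot_sup_eq]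

lemma fin2_of_fin2_left {U X V : Submodule k W} (h : X ≤ V) [FiniteDimensional k (Quo X V)]
    (hF : Fin2 U X) : Fin2 U V := by
  obtain ⟨h1, h2⟩ := hF
  constructor
  · have h3 : FiniteDimensional k ↥(LinearMap.ker (restr U X V)) :=
      (kerEquiv U X V h).symm.finiteDimensional
    have h4 : FiniteDimensional k (↥(U ⊓ V) ⧸ LinearMap.ker (restr U X V)) :=
      (restr U X V).quotKerEquivRange.symm.finiteDimensional
    exact Module.Finite.of_submodule_quotient (LinearMap.ker (restr U X V))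
  · exact (cokEquiv U X V h).finiteDimensional

lemma fin2_of_fin2_right {U X V : Submodule k W} (h : X ≤ V) [FiniteDimensional k (Quo X V)]
    (hF : Fin2 U V) : Fin2 U X := by
  obtain ⟨h1, h2⟩ := hF
  constructor
  · exact (kerEquiv U X V h).finiteDimensional
  · have h3 : FiniteDimensional k ((W ⧸ (U ⊔ X)) ⧸ LinearMap.range (conn U X V)) :=
      (cokEquiv U X V h).symm.finiteDimensional
    exact Module.Finite.of_submodule_quotient (LinearMap.range (conn U X V))

lemma finite_quo {U X V : Submodule k W} (h : X ≤ V) (h1 : FiniteDimensional k ↥(U ⊓ V))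
    (h2 : FiniteDimensional k (W ⧸ (U ⊔ X))) : FiniteDimensional k (Quo X V) := by
  have h3 : FiniteDimensional k ↥(LinearMap.ker (conn U X V)) := by
    rw [← range_restr U X V h]
    infer_instance
  have h4 : FiniteDimensional k (Quo X V ⧸ LinearMap.ker (conn U X V)) :=
    (conn U X V).quotKerEquivRange.symm.finiteDimensional
  exact Module.Finite.of_submodule_quotient (LinearMap.ker (conn U X V))

lemma chi_eq {U X V : Submodule k W} (h : X ≤ V) [FiniteDimensional k (Quo X V)]
    (hF : Fin2 U X) : chi U V = chi U X + finrank k (Quo X V) := by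
  have hF' := fin2_of_fin2_left h hF
  obtain ⟨h1, h2⟩ := hF
  obtain ⟨h1', h2'⟩ := hF'
  have e1 := (LinearMap.ker (restr U X V)).finrank_quotient_add_finrank
  have e2 := (restr U X V).quotKerEquivRange.finrank_eq
  have e3 := (kerEquiv U X V h).finrank_eq
  have e4 := (LinearMap.ker (conn U X V)).finrank_quotient_add_finrank
  have e5 := (conn U X V).quotKerEquivRange.finrank_eq
  have e6 := (LinearMap.range (conn U X V)).finrank_quotient_add_finrank
  have e7 := (cokEquiv U X V h).finrank_eq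
  have e8 : finrank k ↥(LinearMap.range (restr U X V)) =
      finrank k ↥(LinearMap.ker (conn U X V)) := by rw [range_restr U X V h]
  rw [chi, chi]
  omega

lemma chi_comm (U V : Submodule k W) : chi U V = chi V U := by
  rw [chi, chi, inf_comm, sup_comm]

lemma fin2_comm {U V : Submodule k W} (h : Fin2 U V) : Fin2 V U := by
  rw [Fin2, inf_comm, sup_comm]
  exact h

/-! ### Relative index -/

lemma comm_relIdx {U V V' : Submodule k W} (hF : Fin2 U V) (hc : Comm V V') :
    Fin2 U V' ∧ chi U V = chi U V' + relIdx V V' := by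
  obtain ⟨h1, h2⟩ := hc
  have e1 : V'.comap V.subtype = (V ⊓ V').comap V.subtype := by
    ext x; simp
  have e2 : V.comap V'.subtype = (V ⊓ V').comap V'.subtype := by
    ext x; simp
  have g1 : FiniteDimensional k (Quo (V ⊓ V') V) := by
    rw [e1] at h1; exact h1
  have g2 : FiniteDimensional k (Quo (V ⊓ V') V') := by
    rw [e2] at h2; exact h2
  have f1 := fin2_of_fin2_right (U := U) (inf_le_left : V ⊓ V' ≤ V) hF
  have f2 := fin2_of_fin2_left (U := U) (inf_le_right : V ⊓ V' ≤ V') f1
  have c1 := chi_eq (U := U) (inf_le_left : V ⊓ V' ≤ V) f1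
  have c2 := chi_eq (U := U) (inf_le_right : V ⊓ V' ≤ V') f1
  refine ⟨f2, ?_⟩
  rw [relIdx, e1, e2, c1, c2]
  ring

lemma comm_of_le {X V V' : Submodule k W} (h : X ≤ V) (h' : X ≤ V')
    [FiniteDimensional k (Quo X V)] [FiniteDimensional k (Quo X V')] : Comm V V' := by
  constructor
  · exact Module.Finite.of_surjective
      (Submodule.factor (Submodule.comap_mono h' : X.comap V.subtype ≤ V'.comap V.subtype))
      (Submodule.factor_surjective _)
  · exact Module.Finite.of_surjective
      (Submodule.factor (Submodule.comap_mono h : X.comap V'.subtype ≤ V.comap V'.subtype))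
      (Submodule.factor_surjective _)

/-! ### Transport by linear equivalences -/

lemma fin2_map (e : W ≃ₗ[k] W) {U V : Submodule k W} (h : Fin2 U V) :
    Fin2 (U.map (e : W →ₗ[k] W)) (V.map (e : W →ₗ[k] W)) := by
  obtain ⟨h1, h2⟩ := h
  constructor
  · rw [← Submodule.map_inf (e : W →ₗ[k] W) e.injective]
    exact (e.submoduleMap (U ⊓ V)).finiteDimensional
  · rw [← Submodule.map_sup]
    exact (Submodule.Quotient.equiv (U ⊔ V) _ e rfl).finiteDimensional

lemma chi_map (e : W ≃ₗ[k] W) (U V : Submodule k W) :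
    chi (U.map (e : W →ₗ[k] W)) (V.map (e : W →ₗ[k] W)) = chi U V := by
  rw [chi, chi, ← Submodule.map_inf (e : W →ₗ[k] W) e.injective, ← Submodule.map_sup,
    (e.submoduleMap (U ⊓ V)).finrank_eq, (Submodule.Quotient.equiv (U ⊔ V) _ e rfl).finrank_eq]

/-- transport of quotients -/
noncomputable def quoMap (e : W ≃ₗ[k] W) (X V : Submodule k W) :
    Quo X V ≃ₗ[k] Quo (X.map (e : W →ₗ[k] W)) (V.map (e : W →ₗ[k] W)) :=
  Submodule.Quotient.equiv _ _ (e.submoduleMap V) (by
    ext x
    constructor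
    · rintro ⟨y, hy, rfl⟩
      exact ⟨y, hy, rfl⟩
    · rintro ⟨y, hy, hyx⟩
      obtain ⟨z, hz, hzx⟩ := x.2
      have : y = z := e.injective (hyx.trans hzx.symm)
      refine ⟨⟨z, hz⟩, ?_, Subtype.ext hzx⟩
      rw [this] at hy
      exact hy)

lemma comm_map (e : W ≃ₗ[k] W) {X V : Submodule k W} (h : Comm X V) :
    Comm (X.map (e : W →ₗ[k] W)) (V.map (e : W →ₗ[k] W)) := by
  obtain ⟨h1, h2⟩ := h
  exact ⟨(quoMap e V X).finiteDimensional, (quoMap e X V).finiteDimensional⟩

lemma relIdx_map (e : W ≃ₗ[k] W) (X V : Submodule k W) :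
    relIdx (X.map (e : W →ₗ[k] W)) (V.map (e : W →ₗ[k] W)) = relIdx X V := by
  rw [relIdx, relIdx]
  have e1 := (quoMap e V X).finrank_eq
  have e2 := (quoMap e X V).finrank_eq
  rw [e1, e2]

end chi

section curve

variable {k K : Type*} [Field k] [Field K] [Algebra k K]

/-- multiplication by a nonzero element -/
noncomputable def mulE (k : Type*) {K : Type*} [Field k] [Field K] [Algebra k K] (x : K)
    (hx : x ≠ 0) : K ≃ₗ[k] K :=
  { LinearMap.mulLeft k x with
    invFun := fun y => x⁻¹ * y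
    left_inv := fun y => by simp [hx]
    right_inv := fun y => by simp [hx] }

lemma mulE_coe (x : K) (hx : x ≠ 0) : ((mulE k x hx : K ≃ₗ[k] K) : K →ₗ[k] K) =
    LinearMap.mulLeft k x := rfl

lemma map_mul_mul (x y : K) (U : Submodule k K) :
    (U.map (LinearMap.mulLeft k y)).map (LinearMap.mulLeft k x) =
      U.map (LinearMap.mulLeft k (x * y)) := by
  rw [← Submodule.map_comp, ← LinearMap.mulLeft_mul]

lemma map_one_mul (U : Submodule k K) : U.map (LinearMap.mulLeft k (1 : K)) = U := by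
  rw [LinearMap.mulLeft_one, Submodule.map_id]

variable {A₀ A₁ : Subalgebra k K}

lemma comm_mul (hC : IsCD A₀ A₁) (u : K) (hu : u ≠ 0) :
    Comm (Subalgebra.toSubmodule A₁) ((Subalgebra.toSubmodule A₁).map (LinearMap.mulLeft k u)) := by
  obtain ⟨a, ha, b, hb, hb0, hab⟩ := hC.frac u
  have ha0 : a ≠ 0 := by
    rintro rfl
    apply hu
    rw [hab, zero_div]
  have h1 : (Subalgebra.toSubmodule A₁).map (LinearMap.mulLeft k a) ≤
      Subalgebra.toSubmodule A₁ := by
    rintro _ ⟨x, hx, rfl⟩
    exact A₁.mul_mem ha hx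
  have h2 : (Subalgebra.toSubmodule A₁).map (LinearMap.mulLeft k b) ≤
      Subalgebra.toSubmodule A₁ := by
    rintro _ ⟨x, hx, rfl⟩
    exact A₁.mul_mem hb hx
  have hab' : a = u * b := by rw [hab]; field_simp
  have h3 : (Subalgebra.toSubmodule A₁).map (LinearMap.mulLeft k a) ≤
      (Subalgebra.toSubmodule A₁).map (LinearMap.mulLeft k u) := by
    rw [hab', ← map_mul_mul]
    exact Submodule.map_mono h2
  have f1 : FiniteDimensional k (Quo ((Subalgebra.toSubmodule A₁).map (LinearMap.mulLeft k a))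
      (Subalgebra.toSubmodule A₁)) := hC.finQ a ha ha0
  have f2 : FiniteDimensional k (Quo ((Subalgebra.toSubmodule A₁).map (LinearMap.mulLeft k b))
      (Subalgebra.toSubmodule A₁)) := hC.finQ b hb hb0
  have f3 := (quoMap (mulE k u hu) ((Subalgebra.toSubmodule A₁).map (LinearMap.mulLeft k b))
      (Subalgebra.toSubmodule A₁)).finiteDimensional
  rw [mulE_coe, map_mul_mul, ← hab'] at f3
  exact comm_of_le h1 h3

/-- the Euler characteristic of the powers of the line bundle -/
lemma chi_pow (hC : IsCD A₀ A₁) (u : K) (hu : u ≠ 0) (n : ℕ) :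
    Fin2 (Subalgebra.toSubmodule A₀)
      ((Subalgebra.toSubmodule A₁).map (LinearMap.mulLeft k (u⁻¹ ^ n))) ∧
    chi (Subalgebra.toSubmodule A₀)
      ((Subalgebra.toSubmodule A₁).map (LinearMap.mulLeft k (u⁻¹ ^ n))) =
      chi (Subalgebra.toSubmodule A₀) (Subalgebra.toSubmodule A₁) + n * idx A₁ u := by
  induction n with
  | zero =>
    rw [pow_zero, map_one_mul]
    refine ⟨⟨hC.fin0, hC.fin1⟩, ?_⟩
    simp
  | succ n ih =>
    obtain ⟨ih1, ih2⟩ := ih
    have hu' : u⁻¹ ^ (n + 1) ≠ 0 := pow_ne_zero _ (inv_ne_zero hu)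
    have h1 := comm_map (mulE k _ hu') (comm_mul hC u hu)
    have h2 := relIdx_map (mulE k _ hu') (Subalgebra.toSubmodule A₁)
      ((Subalgebra.toSubmodule A₁).map (LinearMap.mulLeft k u))
    rw [mulE_coe, map_mul_mul] at h1 h2
    have e : u⁻¹ ^ (n + 1) * u = u⁻¹ ^ n := by
      rw [pow_succ, mul_assoc, inv_mul_cancel₀ hu, mul_one]
    rw [e] at h1 h2
    have h3 := comm_relIdx ih1 h1.symm
    have h4 := comm_relIdx h3.1 h1
    refine ⟨h3.1, ?_⟩
    rw [h4.2, h2, ih2]
    change _ + idx A₁ u = _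
    push_cast
    ring

/-- zeros of a section -/
theorem zero_bound (hC : IsCD A₀ A₁) {u : K} (hu : u ≠ 0) {n : ℕ} {a : K}
    (ha : a ∈ Sec A₀ A₁ u n) (ha0 : a ≠ 0) :
    FiniteDimensional k (Quo ((Subalgebra.toSubmodule A₀).map (LinearMap.mulLeft k a))
      (Subalgebra.toSubmodule A₀)) ∧
    (finrank k (Quo ((Subalgebra.toSubmodule A₀).map (LinearMap.mulLeft k a))
      (Subalgebra.toSubmodule A₀)) : ℤ) ≤ n * idx A₁ u := by
  obtain ⟨haA, hua⟩ := mem_Sec.mp ha
  obtain ⟨f1, c1⟩ := chi_pow hC u hu n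
  have f2 := fin2_map (mulE k a ha0) (U := Subalgebra.toSubmodule A₀)
    (V := Subalgebra.toSubmodule A₁) ⟨hC.fin0, hC.fin1⟩
  have c2 := chi_map (mulE k a ha0) (Subalgebra.toSubmodule A₀) (Subalgebra.toSubmodule A₁)
  rw [mulE_coe] at f2 c2
  have l0 : (Subalgebra.toSubmodule A₀).map (LinearMap.mulLeft k a) ≤
      Subalgebra.toSubmodule A₀ := by
    rintro _ ⟨x, hx, rfl⟩
    exact A₀.mul_mem haA hx
  have l1 : (Subalgebra.toSubmodule A₁).map (LinearMap.mulLeft k a) ≤
      (Subalgebra.toSubmodule A₁).map (LinearMap.mulLeft k (u⁻¹ ^ n)) := by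
    rintro _ ⟨x, hx, rfl⟩
    refine ⟨u ^ n * a * x, A₁.mul_mem hua hx, ?_⟩
    simp only [LinearMap.mulLeft_apply]
    rw [inv_pow, mul_assoc, inv_mul_cancel_left₀ (pow_ne_zero _ hu)]
  -- finiteness of the quotients
  have q1 : FiniteDimensional k (Quo ((Subalgebra.toSubmodule A₁).map (LinearMap.mulLeft k a))
      ((Subalgebra.toSubmodule A₁).map (LinearMap.mulLeft k (u⁻¹ ^ n)))) := by
    have hua0 : u ^ n * a ≠ 0 := mul_ne_zero (pow_ne_zero _ hu) ha0
    have hu' : u⁻¹ ^ n ≠ 0 := pow_ne_zero _ (inv_ne_zero hu)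
    have f4 : FiniteDimensional k (Quo ((Subalgebra.toSubmodule A₁).map
      (LinearMap.mulLeft k (u ^ n * a))) (Subalgebra.toSubmodule A₁)) :=
      hC.finQ _ hua hua0
    have f5 := (quoMap (mulE k _ hu') ((Subalgebra.toSubmodule A₁).map
      (LinearMap.mulLeft k (u ^ n * a))) (Subalgebra.toSubmodule A₁)).finiteDimensional
    rw [mulE_coe, map_mul_mul] at f5
    have e : u⁻¹ ^ n * (u ^ n * a) = a := by
      rw [inv_pow, inv_mul_cancel_left₀ (pow_ne_zero _ hu)]
    rwa [e] at f5
  have f3 := fin2_of_fin2_right l1 f1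
  have q0 : FiniteDimensional k (Quo ((Subalgebra.toSubmodule A₀).map (LinearMap.mulLeft k a))
      (Subalgebra.toSubmodule A₀)) :=
    finite_quo (U := (Subalgebra.toSubmodule A₁).map (LinearMap.mulLeft k a)) l0
      (fin2_comm f3).1 (fin2_comm f2).2
  have c3 := chi_eq l1 f3
  have c4 := chi_eq l0 (fin2_comm f2)
  rw [chi_comm, chi_comm _ (Submodule.map _ (Subalgebra.toSubmodule A₀)), c2] at c4
  refine ⟨q0, ?_⟩
  have h5 : (0 : ℤ) ≤ (finrank k (Quo ((Subalgebra.toSubmodule A₁).map (LinearMap.mulLeft k a))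
      ((Subalgebra.toSubmodule A₁).map (LinearMap.mulLeft k (u⁻¹ ^ n)))) : ℤ) := by positivity
  linarith

/-! ### Marks -/

/-- simultaneous jets at distinct points -/
theorem exists_jets {ι : Type*} [Fintype ι] {A : Type*} [CommRing A] [Algebra k A]
    (c : ι → (A →ₐ[k] k)) (hinj : Function.Injective c)
    (ex : ι → (A →ₐ[k] PowerSeries k))
    (hc : ∀ l x, PowerSeries.constantCoeff (ex l x) = c l x)
    (hsurj : ∀ l (n : ℕ) (f : PowerSeries k), ∃ x, (PowerSeries.X : PowerSeries k) ^ n ∣ ex l x - f)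
    (b : ι → ℕ) (f : ι → PowerSeries k) :
    ∃ x, ∀ l, (PowerSeries.X : PowerSeries k) ^ b l ∣ ex l x - f l := by
  classical
  let J : ι → Ideal A := fun l =>
    (Ideal.span {(PowerSeries.X : PowerSeries k) ^ b l}).comap (ex l)
  have hJ : ∀ l x, x ∈ J l ↔ (PowerSeries.X : PowerSeries k) ^ b l ∣ ex l x := by
    intro l x
    rw [Ideal.mem_comap, Ideal.mem_span_singleton]
  have hpow : ∀ l x, c l x = 0 → x ^ b l ∈ J l := by
    intro l x hx
    rw [hJ, map_pow]
    refine pow_dvd_pow_of_dvd ?_ _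
    rw [PowerSeries.X_dvd_iff, hc, hx]
  have hcop : Pairwise fun i j => IsCoprime (J i) (J j) := by
    intro i j hij
    have h1 : c i ≠ c j := fun h => hij (hinj h)
    obtain ⟨x, hx⟩ := DFunLike.ne_iff.mp h1
    have hne : c j x - c i x ≠ 0 := sub_ne_zero.mpr (Ne.symm hx)
    let y : A := algebraMap k A (c j x - c i x)⁻¹ * (x - algebraMap k A (c i x))
    have hy : c i y = 0 := by simp [y]
    have hy' : c j (1 - y) = 0 := by
      simp only [y, map_sub, map_one, map_mul, AlgHom.commutes, Algebra.algebraMap_self,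
        RingHom.id_apply]
      rw [inv_mul_cancel₀ hne, sub_self]
    have h2 : IsCoprime (y ^ b i) ((1 - y) ^ b j) := by
      refine IsCoprime.pow ?_
      exact ⟨1, 1, by ring⟩
    rw [Ideal.isCoprime_iff_exists]
    obtain ⟨u, v, huv⟩ := h2
    exact ⟨u * y ^ b i, (J i).mul_mem_left _ (hpow i y hy), v * (1 - y) ^ b j,
      (J j).mul_mem_left _ (hpow j _ hy'), huv⟩
  choose g hg using fun l => hsurj l (b l) (f l)
  obtain ⟨x, hx⟩ := Ideal.exists_forall_sub_mem_ideal hcop g
  refine ⟨x, fun l => ?_⟩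
  have h3 := (hJ l _).mp (hx l)
  have h4 : ex l x - f l = ex l (x - g l) + (ex l (g l) - f l) := by
    rw [map_sub]; ring
  rw [h4]
  exact dvd_add h3 (hg l)

/-- The number of zeros of a section at the marks, with multiplicities. -/
theorem sum_order_le (hC : IsCD A₀ A₁) {u : K} (hu : u ≠ 0) {n : ℕ} {a : K}
    (ha : a ∈ Sec A₀ A₁ u n) (ha0 : a ≠ 0) {ι : Type*} [Fintype ι]
    (c : ι → (A₀ →ₐ[k] k)) (hinj : Function.Injective c)
    (ex : ι → (A₀ →ₐ[k] PowerSeries k))
    (hc : ∀ l x, PowerSeries.constantCoeff (ex l x) = c l x)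
    (hsurj : ∀ l (n : ℕ) (f : PowerSeries k), ∃ x, (PowerSeries.X : PowerSeries k) ^ n ∣ ex l x - f)
    (b : ι → ℕ) (hb : ∀ l, (PowerSeries.X : PowerSeries k) ^ b l ∣ ex l ⟨a, ha.1⟩) :
    ((∑ l, b l : ℕ) : ℤ) ≤ n * idx A₁ u := by
  classical
  obtain ⟨h1, h2⟩ := zero_bound hC hu ha ha0
  refine le_trans ?_ h2
  let T : ↥A₀ →ₗ[k] (∀ l : ι, Fin (b l) → k) :=
    LinearMap.pi fun l => LinearMap.pi fun j =>
      (PowerSeries.coeff (j : ℕ)) ∘ₗ (ex l).toLinearMap
  have hT : ∀ x l (j : Fin (b l)), T x l j = PowerSeries.coeff (j : ℕ) (ex l x) :=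
    fun x l j => rfl
  have hker : ((Subalgebra.toSubmodule A₀).map (LinearMap.mulLeft k a)).comap
      (Subalgebra.toSubmodule A₀).subtype ≤ LinearMap.ker T := by
    rintro x ⟨y, hy, hxy⟩
    rw [LinearMap.mem_ker]
    funext l j
    rw [hT]
    have h3 : x = (⟨a, ha.1⟩ : A₀) * ⟨y, hy⟩ := Subtype.ext hxy.symm
    have h4 : (PowerSeries.X : PowerSeries k) ^ b l ∣ ex l x := by
      rw [h3, map_mul]
      exact Dvd.dvd.mul_right (hb l) _
    exact PowerSeries.X_pow_dvd_iff.mp h4 _ j.2
  have hTs : Function.Surjective T := by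
    intro y
    obtain ⟨x, hx⟩ := exists_jets c hinj ex hc hsurj b
      (fun l => PowerSeries.mk fun j => if h : j < b l then y l ⟨j, h⟩ else 0)
    refine ⟨x, ?_⟩
    funext l j
    rw [hT]
    have h5 := PowerSeries.X_pow_dvd_iff.mp (hx l) j j.2
    rw [map_sub, PowerSeries.coeff_mk, dif_pos j.2, sub_eq_zero] at h5
    exact h5
  let T' : Quo ((Subalgebra.toSubmodule A₀).map (LinearMap.mulLeft k a))
      (Subalgebra.toSubmodule A₀) →ₗ[k] (∀ l : ι, Fin (b l) → k) :=
    Submodule.liftQ _ T hker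
  have hT's : Function.Surjective T' := by
    intro y
    obtain ⟨x, hx⟩ := hTs y
    exact ⟨Submodule.Quotient.mk x, hx⟩
  have h6 := LinearMap.finrank_le_finrank_of_surjective hT's
  have h7 : finrank k (∀ l : ι, Fin (b l) → k) = ∑ l, b l := by
    rw [Module.finrank_pi_fintype]
    exact Finset.sum_congr rfl fun l _ => Module.finrank_fin_fun k
  rw [h7] at h6
  exact_mod_cast h6

end curve

end Vale.Agent.P292.Mo.Ct
end

section

/-! # P292, block Mo: partial fractions and the semilocal ring `B1` (for F3a, F3e) -/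

open Polynomial

namespace Vale.Agent.P292.Mo

variable {k K : Type*} [Field k] [Field K] [Algebra k K] {t : K}

lemma pf_ne (ht : Transcendental k t) {p : k[X]} (hp : p ≠ 0) : aeval t p ≠ 0 := fun h =>
  hp ((transcendental_iff.1 ht) p h)

lemma pf_inj (ht : Transcendental k t) : Function.Injective (aeval t : k[X] →ₐ[k] K) := by
  intro p q h
  have h1 : aeval t (p - q) = 0 := by rw [map_sub, h, sub_self]
  by_contra h2
  exact pf_ne ht (sub_ne_zero.2 h2) h1

/-- splitting a polynomial with respect to `g` -/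
lemma pf_split (g : k[X]) (q : k[X]) (hq : q ≠ 0) :
    ∃ q1 q2 : k[X], ∃ N : ℕ, q = q1 * q2 ∧ q1 ∣ g ^ N ∧ IsCoprime q2 g := by
  classical
  induction hn : q.natDegree using Nat.strong_induction_on generalizing q with
  | _ n ih =>
    by_cases hc : IsCoprime q g
    · exact ⟨1, q, 0, (one_mul q).symm, one_dvd _, hc⟩
    · set h := EuclideanDomain.gcd q g with hh
      have h1 : ¬ IsUnit h := fun hu => hc (EuclideanDomain.gcd_isUnit_iff.1 hu)
      obtain ⟨q', hq'⟩ := EuclideanDomain.gcd_dvd_left q g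
      rw [← hh] at hq'
      have hq'0 : q' ≠ 0 := fun h0 => hq (by rw [hq', h0, mul_zero])
      have hh0 : h ≠ 0 := fun h0 => hq (by rw [hq', h0, zero_mul])
      have hdeg : q'.natDegree < n := by
        have h2 : q.natDegree = h.natDegree + q'.natDegree := by
          conv_lhs => rw [hq']
          exact natDegree_mul hh0 hq'0
        have h3 : 0 < h.natDegree := by
          rw [Nat.pos_iff_ne_zero]
          intro h0
          exact h1 (isUnit_iff_degree_eq_zero.2 (by rw [degree_eq_natDegree hh0, h0]; rfl))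
        omega
      obtain ⟨q1, q2, N, e1, e2, e3⟩ := ih _ hdeg q' hq'0 rfl
      refine ⟨h * q1, q2, N + 1, ?_, ?_, e3⟩
      · rw [mul_assoc, ← e1, ← hq']
      · rw [pow_succ']
        exact mul_dvd_mul (EuclideanDomain.gcd_dvd_right q g) e2

lemma pf_B0_aeval (g p : k[X]) : aeval t p ∈ B0 t g := by
  have h1 : (aeval t : k[X] →ₐ[k] K) p ∈ Algebra.adjoin k ({t} : Set K) :=
    aeval_mem_adjoin_singleton k t
  have h2 : ({t} : Set K) ⊆ {t, (aeval t g)⁻¹} := by
    intro x hx
    rw [Set.mem_singleton_iff] at hx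
    exact Or.inl hx
  exact Algebra.adjoin_mono h2 h1

/-- `1 / q1 ∈ B0` if `q1` divides a power of `g` -/
lemma pf_B0_inv (ht : Transcendental k t) {g q1 : k[X]} (hg : g ≠ 0) {N : ℕ} (h : q1 ∣ g ^ N) :
    (aeval t q1)⁻¹ ∈ B0 t g := by
  obtain ⟨r, hr⟩ := h
  have h0 : aeval t (g ^ N) ≠ 0 := pf_ne ht (pow_ne_zero N hg)
  have h1 : (aeval t q1)⁻¹ = aeval t r * ((aeval t g)⁻¹) ^ N := by
    have h2 : aeval t q1 ≠ 0 := by
      intro h3
      apply h0
      rw [hr, map_mul, h3, zero_mul]
    have h4 : aeval t g ^ N = aeval t q1 * aeval t r := by rw [← map_pow, hr, map_mul]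
    have h5 : aeval t g ^ N ≠ 0 := by rwa [← map_pow]
    rw [inv_pow, eq_mul_inv_iff_mul_eq₀ h5, h4]
    field_simp
  have h6 : (aeval t g)⁻¹ ∈ B0 t g :=
    Algebra.subset_adjoin (Set.mem_insert_of_mem _ (Set.mem_singleton _))
  rw [h1]
  exact mul_mem (pf_B0_aeval g r) (pow_mem h6 N)

/-- elements of `B0` -/
lemma pf_B0_elim (ht : Transcendental k t) {g : k[X]} (hg : g ≠ 0) {x : K} (hx : x ∈ B0 t g) :
    ∃ (a : k[X]) (n : ℕ), x * aeval t g ^ n = aeval t a := by
  have hg0 := pf_ne ht hg
  induction hx using Algebra.adjoin_induction with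
  | mem x hx =>
    rcases hx with rfl | hx
    · exact ⟨X, 0, by simp⟩
    · rw [Set.mem_singleton_iff] at hx
      exact ⟨1, 1, by rw [hx, pow_one, inv_mul_cancel₀ hg0, map_one]⟩
  | algebraMap c => exact ⟨C c, 0, by simp⟩
  | add x y _ _ hx hy =>
    obtain ⟨a, n, ha⟩ := hx
    obtain ⟨b, m, hb⟩ := hy
    refine ⟨a * g ^ m + b * g ^ n, n + m, ?_⟩
    rw [map_add, map_mul, map_mul, map_pow, map_pow, ← ha, ← hb]
    ring
  | mul x y _ _ hx hy =>
    obtain ⟨a, n, ha⟩ := hx
    obtain ⟨b, m, hb⟩ := hy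
    refine ⟨a * b, n + m, ?_⟩
    rw [map_mul, ← ha, ← hb]
    ring

/-- rational functions -/
lemma pf_adjoin_elim {x : K} (hx : x ∈ IntermediateField.adjoin k {t}) :
    ∃ p q : k[X], q ≠ 0 ∧ x = aeval t p / aeval t q := by
  obtain ⟨p, q, h⟩ := IntermediateField.mem_adjoin_simple_iff k x |>.1 hx
  by_cases hq : q = 0
  · exact ⟨0, 1, one_ne_zero, by rw [h, hq]; simp⟩
  · exact ⟨p, q, hq, h⟩

/-- **partial fractions**: `k(t) = B0 + B1` -/
theorem b0_add_b1 (ht : Transcendental k t) {g : k[X]} (hg : g ≠ 0) {x : K}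
    (hx : x ∈ IntermediateField.adjoin k {t}) : ∃ a ∈ B0 t g, ∃ b ∈ B1 t g, x = a + b := by
  obtain ⟨p, q, hq, rfl⟩ := pf_adjoin_elim hx
  obtain ⟨q1, q2, N, rfl, h1, h2⟩ := pf_split g q hq
  have hq1 : q1 ≠ 0 := left_ne_zero_of_mul hq
  have hq2 : q2 ≠ 0 := right_ne_zero_of_mul hq
  have hc : IsCoprime q1 q2 := (IsCoprime.of_isCoprime_of_dvd_left (h2.pow_right (n := N)).symm h1)
  obtain ⟨u, v, huv⟩ := hc
  refine ⟨aeval t ((p * u) / q2) + aeval t (p * v) * (aeval t q1)⁻¹, ?_,
    aeval t ((p * u) % q2) / aeval t q2, ?_, ?_⟩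
  · exact Subalgebra.add_mem _ (pf_B0_aeval _ _)
      (Subalgebra.mul_mem _ (pf_B0_aeval _ _) (pf_B0_inv ht hg h1))
  · refine ⟨(p * u) % q2, q2, pf_ne ht hq2, h2, ?_, rfl⟩
    exact natDegree_le_natDegree (degree_mod_lt _ hq2).le
  · have e1 : aeval t q1 ≠ 0 := pf_ne ht hq1
    have e2 : aeval t q2 ≠ 0 := pf_ne ht hq2
    have e3 : aeval t (p * u) = aeval t q2 * aeval t ((p * u) / q2) + aeval t ((p * u) % q2) := by
      rw [← map_mul, ← map_add, EuclideanDomain.div_add_mod]
    have e4 : aeval t u * aeval t q1 + aeval t v * aeval t q2 = 1 := by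
      rw [← map_mul, ← map_mul, ← map_add, huv, map_one]
    rw [map_mul, map_mul]
    rw [map_mul] at e3
    field_simp
    linear_combination (aeval t p) * (-e4) + aeval t q1 * e3

/-- the regular functions on the whole line are constant -/
theorem b0_inf_b1 (ht : Transcendental k t) {g : k[X]} (hg : g ≠ 0) {x : K} (h0 : x ∈ B0 t g)
    (h1 : x ∈ B1 t g) : ∃ c : k, x = algebraMap k K c := by
  obtain ⟨a, n, ha⟩ := pf_B0_elim ht hg h0
  obtain ⟨c, b, hb, hbg, hdeg, rfl⟩ := h1
  have hb0 : b ≠ 0 := fun h => hb (by rw [h, map_zero])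
  have e1 : c * g ^ n = a * b := by
    apply pf_inj ht
    rw [map_mul, map_mul, map_pow, ← ha]
    field_simp
  have e2 : b ∣ c * g ^ n := ⟨a, by rw [e1, mul_comm]⟩
  obtain ⟨e, rfl⟩ := (hbg.pow_right (n := n)).dvd_of_dvd_mul_right e2
  have e3 : aeval t (b * e) / aeval t b = aeval t e := by
    rw [map_mul]
    field_simp
  rw [e3]
  have e4 : e.natDegree = 0 := by
    by_cases he : e = 0
    · rw [he, natDegree_zero]
    · rw [natDegree_mul hb0 he] at hdeg
      omega
  rw [eq_C_of_natDegree_eq_zero e4, aeval_C]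
  exact ⟨_, rfl⟩

/-- nonzero elements of `B1` have finite dimensional quotients -/
theorem b1_quot [Infinite k] (ht : Transcendental k t) {g : k[X]} (hg : g ≠ 0) {d : K}
    (hd : d ∈ B1 t g) (hd0 : d ≠ 0) : ∃ S : Submodule k K, FiniteDimensional k S ∧
      ∀ x ∈ B1 t g, ∃ s ∈ S, ∃ c ∈ B1 t g, x = s + d * c := by
  obtain ⟨l, hl⟩ : ∃ l, g.eval l ≠ 0 := by
    by_contra h
    push Not at h
    exact hg (Polynomial.funext (fun r => by rw [h r, eval_zero]))
  obtain ⟨c, b, hb, hbg, hdeg, rfl⟩ := hd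
  have hb0 : b ≠ 0 := fun h => hb (by rw [h, map_zero])
  have hc0 : c ≠ 0 := fun h => hd0 (by rw [h, map_zero, zero_div])
  obtain ⟨c1, c2, N, rfl, h1, h2⟩ := pf_split g c hc0
  have hc1 : c1 ≠ 0 := left_ne_zero_of_mul hc0
  have hc2 : c2 ≠ 0 := right_ne_zero_of_mul hc0
  set m := (b.natDegree - (c1 * c2).natDegree) + c1.natDegree with hm
  have hXl : (X - C l) ≠ (0 : k[X]) := X_sub_C_ne_zero l
  have hlg : IsCoprime (X - C l) g := by
    rw [(irreducible_X_sub_C l).coprime_iff_not_dvd, dvd_iff_isRoot]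
    exact hl
  set D : k[X] := (X - C l) ^ m with hD
  have hD0 : D ≠ 0 := pow_ne_zero _ hXl
  have hDg : IsCoprime D g := hlg.pow_left
  have hDd : D.natDegree = m := by rw [hD, natDegree_pow, natDegree_X_sub_C, mul_one]
  refine ⟨(degreeLT k (m + 1)).map ((LinearMap.mulLeft k (aeval t D)⁻¹).comp
    (aeval t).toLinearMap), inferInstance, ?_⟩
  rintro x ⟨p, q, hq, hqg, hpq, rfl⟩
  have hq0 : q ≠ 0 := fun h => hq (by rw [h, map_zero])
  have hqc : IsCoprime c1 q :=
    IsCoprime.of_isCoprime_of_dvd_left (hqg.pow_right (n := N)).symm h1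
  obtain ⟨u, v, huv⟩ := hqc
  set Q0 := (p * D) / q
  set R0 := (p * D) % q
  have hQR : q * Q0 + R0 = p * D := EuclideanDomain.div_add_mod _ _
  have hR0 : R0.degree < q.degree := degree_mod_lt _ hq0
  set κ := (R0 * v) % c1
  have hκ : κ.degree < c1.degree := degree_mod_lt _ hc1
  have hκ2 : c1 * ((R0 * v) / c1) + κ = R0 * v := EuclideanDomain.div_add_mod _ _
  have hQd : Q0.natDegree ≤ m := by
    by_cases hQ : Q0 = 0
    · rw [hQ, natDegree_zero]; exact Nat.zero_le _
    · have e1 : q * Q0 = p * D - R0 := by rw [← hQR]; ring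
      have e2 : (q * Q0).natDegree ≤ q.natDegree + m := by
        rw [e1]
        refine (natDegree_sub_le _ _).trans (max_le ?_ ?_)
        · refine natDegree_mul_le.trans ?_
          rw [hDd]
          exact add_le_add hpq le_rfl
        · exact (natDegree_le_natDegree hR0.le).trans (Nat.le_add_right _ _)
      rw [natDegree_mul hq0 hQ] at e2
      omega
  have hκd : κ.natDegree ≤ c1.natDegree := natDegree_le_natDegree hκ.le
  -- the numerator
  have hnum : R0 - q * κ = c1 * (R0 * u + q * ((R0 * v) / c1)) := by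
    linear_combination (-q) * hκ2 - R0 * huv
  set W := R0 * u + q * ((R0 * v) / c1)
  have hWd : W.natDegree ≤ q.natDegree := by
    by_cases hW : W = 0
    · rw [hW, natDegree_zero]; exact Nat.zero_le _
    · have e1 : (c1 * W).natDegree ≤ q.natDegree + c1.natDegree := by
        rw [← hnum]
        refine (natDegree_sub_le _ _).trans (max_le ?_ ?_)
        · exact (natDegree_le_natDegree hR0.le).trans (Nat.le_add_right _ _)
        · exact natDegree_mul_le.trans (add_le_add le_rfl hκd)
      rw [natDegree_mul hc1 hW] at e1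
      omega
  have a1 : aeval t c1 ≠ 0 := pf_ne ht hc1
  have a2 : aeval t c2 ≠ 0 := pf_ne ht hc2
  have a3 : aeval t D ≠ 0 := pf_ne ht hD0
  refine ⟨(aeval t D)⁻¹ * aeval t (Q0 + κ), ⟨Q0 + κ, ?_, rfl⟩,
    aeval t (W * b) / aeval t (q * D * c2), ?_, ?_⟩
  · rw [SetLike.mem_coe, mem_degreeLT]
    refine lt_of_le_of_lt degree_le_natDegree ?_
    have : (Q0 + κ).natDegree < m + 1 := by
      refine Nat.lt_succ_of_le ((natDegree_add_le _ _).trans (max_le hQd (hκd.trans ?_)))
      omega
    exact_mod_cast this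
  · refine ⟨W * b, q * D * c2, pf_ne ht (mul_ne_zero (mul_ne_zero hq0 hD0) hc2),
      (hqg.mul_left hDg).mul_left h2, ?_, rfl⟩
    rw [natDegree_mul (mul_ne_zero hq0 hD0) hc2, natDegree_mul hq0 hD0, hDd]
    refine natDegree_mul_le.trans ?_
    rw [natDegree_mul hc1 hc2] at hdeg hm
    omega
  · have e1 := congrArg (aeval t) hQR
    have e2 := congrArg (aeval t) hnum
    rw [map_add, map_mul, map_mul] at e1
    rw [map_sub, map_mul, map_mul] at e2
    rw [map_mul, map_mul, map_mul, map_mul, map_add]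
    field_simp
    linear_combination e2 - e1
end Vale.Agent.P292.Mo
end

section

/-! # Homomorphisms of finitely generated rings to fields of large characteristic. -/

namespace Vale.Agent.P292.Mo

universe u v w

theorem largechar_jacobson_int : IsJacobsonRing ℤ := by
  rw [isJacobsonRing_iff_prime_eq]
  intro P hP
  by_cases h : P = ⊥
  · subst h
    rw [eq_bot_iff]
    intro x hx
    rw [Ideal.mem_jacobson_bot] at hx
    have h1 := hx x
    rw [Int.isUnit_iff] at h1
    rw [Ideal.mem_bot]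
    have h2 : 0 ≤ x * x := mul_self_nonneg x
    have h3 : x * x = 0 := by
      rcases h1 with h1 | h1
      · omega
      · omega
    exact mul_self_eq_zero.mp h3
  · have : P.IsMaximal := hP.isMaximal h
    exact Ideal.jacobson_eq_self_of_isMaximal

/-- MAXI: homomorphisms of finitely generated rings to fields of large characteristic. -/
theorem exists_hom_large_char (B : Type) [CommRing B] [Algebra.FiniteType ℤ B] (C : Type w)
    [CommRing C] [Nontrivial C] [Algebra ℂ C] (f : B →+* C) (N₀ : ℕ) :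
    ∃ (k : Type) (_ : Field k) (_ : IsAlgClosed k) (p : ℕ), N₀ < p ∧ p.Prime ∧ CharP k p ∧
      Nonempty (B →+* k) := by
  classical
  have hJ := largechar_jacobson_int
  let c : B := ((N₀.factorial : ℕ) : B)
  let B' := Localization.Away c
  have h4 : Algebra.FiniteType B B' := by
    have : Algebra.FinitePresentation B B' := IsLocalization.Away.finitePresentation c
    infer_instance
  have h5 := Algebra.FiniteType.trans ‹Algebra.FiniteType ℤ B› h4
  have hfc : IsUnit (f c) := by
    have h1 : f c = algebraMap ℂ C ((N₀.factorial : ℕ) : ℂ) := by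
      rw [map_natCast, map_natCast]
    rw [h1]
    refine IsUnit.map _ (isUnit_iff_ne_zero.mpr ?_)
    exact_mod_cast N₀.factorial_ne_zero
  let θ : B' →+* C := IsLocalization.Away.lift c hfc
  have : Nontrivial B' := θ.domain_nontrivial
  obtain ⟨𝔪, h𝔪⟩ := Ideal.exists_maximal B'
  let κ := B' ⧸ 𝔪
  let _ : Field κ := Ideal.Quotient.field 𝔪
  obtain ⟨n, φ, hφ⟩ := Algebra.FiniteType.iff_quotient_mvPolynomial''.mp h5
  let ψ : MvPolynomial (Fin n) ℤ →+* κ := (Ideal.Quotient.mk 𝔪).comp (φ : MvPolynomial (Fin n) ℤ →+* B')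
  have hψ : Function.Surjective ψ := Ideal.Quotient.mk_surjective.comp hφ
  have hint : (ψ.comp MvPolynomial.C).IsIntegral :=
    MvPolynomial.comp_C_integral_of_surjective_of_isJacobsonRing ψ hψ
  obtain ⟨p, hp⟩ := CharP.exists κ
  have hp0 : p ≠ 0 := by
    rintro rfl
    have h0 : CharZero κ := CharP.charP_to_charZero κ
    have h1 : ψ.comp MvPolynomial.C = algebraMap ℤ κ := Subsingleton.elim _ _
    rw [h1] at hint
    have h2 : Algebra.IsIntegral ℤ κ := ⟨hint⟩
    have h3 : Function.Injective (algebraMap ℤ κ) := by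
      intro a b hab
      simpa using hab
    exact Int.not_isField (isField_of_isIntegral_of_isField h3 (Field.toIsField κ))
  have hpp : p.Prime := (CharP.char_is_prime_or_zero κ p).resolve_right hp0
  have hpN : N₀ < p := by
    by_contra hle
    push Not at hle
    have h1 : p ∣ N₀.factorial := (Nat.Prime.dvd_factorial hpp).mpr hle
    have h2 : ((N₀.factorial : ℕ) : κ) = 0 := (CharP.cast_eq_zero_iff κ p _).mpr h1
    have h3 : IsUnit (Ideal.Quotient.mk 𝔪 (algebraMap B B' c)) :=
      (IsLocalization.Away.algebraMap_isUnit c).map _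
    have h4 : ∀ m : ℕ, Ideal.Quotient.mk 𝔪 (algebraMap B B' (m : B)) = (m : κ) := fun m => by
      rw [map_natCast, map_natCast]
    have h5 : Ideal.Quotient.mk 𝔪 (algebraMap B B' c) = 0 := (h4 _).trans h2
    rw [h5] at h3
    exact not_isUnit_zero h3
  refine ⟨AlgebraicClosure κ, inferInstance, inferInstance, p, hpN, hpp,
    charP_of_injective_algebraMap (algebraMap κ (AlgebraicClosure κ)).injective p,
    ⟨(algebraMap κ (AlgebraicClosure κ)).comp ((Ideal.Quotient.mk 𝔪).comp (algebraMap B B'))⟩⟩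

end Vale.Agent.P292.Mo
end
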