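import Mathlib
import Vale.Agent.P292.Bn.N1
import Vale.Agent.P292.Defs

set_option linter.all false

section

/-! # Coefficients of a minimal polynomial killed by derivations. -/

namespace Vale.Agent.P292

open Polynomial

universe u v

/-- I-5a: coefficient in the fraction field, killed by everything -/
theorem ni_galois {F : Type u} {L : Type v} [Field F] [CharZero F] [Field L] [IsAlgClosed L]
    [Algebra F L] [Algebra.IsAlgebraic F L] [Algebra ℂ F] [Algebra ℂ L] [IsScalarTower ℂ F L]
    (S : Set (Derivation ℂ L L))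
    (hS : ∀ D ∈ S, ∀ σ : L ≃ₐ[F] L, ∃ D' ∈ S, ∀ x, D' x = σ.symm (D (σ x)))
    {c : L} (hc : ∀ D ∈ S, D c = 0) (hc' : ∀ a : ℂ, c ≠ algebraMap ℂ L a) :
    ∃ f : F, (∀ a : ℂ, f ≠ algebraMap ℂ F a) ∧ ∀ D ∈ S, D (algebraMap F L f) = 0 := by
  classical
  have hcl : IsAlgClosure F L := ⟨inferInstance, inferInstance⟩
  have hnor : Normal F L := IsAlgClosure.normal F L
  have halg : IsIntegral F c := Algebra.IsIntegral.isIntegral c
  set p := minpoly F c with hp
  -- all roots are killed
  have hroot : ∀ D ∈ S, ∀ r : L, aeval r p = 0 → D r = 0 := by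
    intro D hD r hr
    obtain ⟨σ, hσ⟩ := minpoly.exists_algEquiv_of_root' halg.isAlgebraic hr
    obtain ⟨D', hD', h1⟩ := hS D hD σ
    have h2 := h1 c
    rw [hc D' hD', hσ] at h2
    have h3 := congrArg σ h2
    rw [map_zero, AlgEquiv.apply_symm_apply] at h3
    exact h3.symm
  -- all coefficients are killed
  have hcoeff : ∀ D ∈ S, ∀ n, D (algebraMap F L (p.coeff n)) = 0 := by
    intro D hD n
    let A : Subring L :=
      { carrier := {x | D x = 0}
        mul_mem' := by
          intro a b ha hb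
          change D (a * b) = 0
          rw [Derivation.leibniz, show D a = 0 from ha, show D b = 0 from hb, smul_zero, smul_zero,
            add_zero]
        one_mem' := Derivation.map_one_eq_zero D
        add_mem' := by
          intro a b ha hb
          change D (a + b) = 0
          rw [map_add, show D a = 0 from ha, show D b = 0 from hb, add_zero]
        zero_mem' := map_zero D
        neg_mem' := by
          intro a ha
          change D (-a) = 0
          rw [map_neg, show D a = 0 from ha, neg_zero] }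
    have hmon : (p.map (algebraMap F L)).Monic := (minpoly.monic halg).map _
    have hsp : (p.map (algebraMap F L)).Splits := IsAlgClosed.splits _
    have hprod : p.map (algebraMap F L) = ((p.map (algebraMap F L)).roots.map (X - C ·)).prod :=
      hsp.eq_prod_roots_of_monic hmon
    have hlift : p.map (algebraMap F L) ∈ Polynomial.lifts A.subtype := by
      rw [hprod]
      refine Submonoid.multiset_prod_mem (Polynomial.lifts A.subtype).toSubmonoid _ ?_
      intro q hq
      obtain ⟨r, hr, rfl⟩ := Multiset.mem_map.1 hq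
      have hr0 : D r = 0 := by
        refine hroot D hD r ?_
        have := (Polynomial.mem_roots'.1 hr).2
        rw [Polynomial.IsRoot.def, Polynomial.eval_map_algebraMap] at this
        exact this
      change X - C r ∈ Polynomial.lifts A.subtype
      rw [Polynomial.mem_lifts]
      refine ⟨X - C (⟨r, hr0⟩ : A), ?_⟩
      rw [Polynomial.map_sub, Polynomial.map_X, Polynomial.map_C]
      rfl
    rw [Polynomial.lifts_iff_coeff_lifts] at hlift
    obtain ⟨x, hx⟩ := hlift n
    rw [Polynomial.coeff_map] at hx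
    rw [← hx]
    exact x.2
  by_contra hno
  push Not at hno
  -- all coefficients are complex numbers
  have hC : ∀ n, ∃ a : ℂ, p.coeff n = algebraMap ℂ F a := by
    intro n
    by_contra h1
    push Not at h1
    obtain ⟨D, hD, h2⟩ := hno (p.coeff n) h1
    exact h2 (hcoeff D hD n)
  have hlift : p ∈ Polynomial.lifts (algebraMap ℂ F) := by
    rw [Polynomial.lifts_iff_coeff_lifts]
    intro n
    obtain ⟨a, ha⟩ := hC n
    exact ⟨a, ha.symm⟩
  obtain ⟨q, hq⟩ := (Polynomial.mem_lifts _).1 hlift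
  have hq0 : q ≠ 0 := by
    rintro rfl
    rw [Polynomial.map_zero] at hq
    exact minpoly.ne_zero halg hq.symm
  have hroot : aeval c q = 0 := by
    have : aeval c p = 0 := minpoly.aeval F c
    rw [← hq, aeval_map_algebraMap] at this
    exact this
  have hmem : c ∈ (q.map (algebraMap ℂ L)).roots := by
    rw [Polynomial.mem_roots', Polynomial.IsRoot.def, Polynomial.eval_map_algebraMap]
    exact ⟨(Polynomial.map_ne_zero_iff (algebraMap ℂ L).injective).2 hq0, hroot⟩
  rw [(IsAlgClosed.splits q).roots_map (algebraMap ℂ L)] at hmem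
  obtain ⟨a, _, ha⟩ := Multiset.mem_map.1 hmem
  exact hc' a ha.symm

end Vale.Agent.P292
end

section

/-! # F4a: frames of the same size along a map to a field. -/

namespace Vale.Agent.P292.Mo

universe u v w

variable {k : Type u} [Field k] {K : Type w} [Field K] [Algebra k K]

theorem frame_card_le {R : Type v} [CommRing R] [Algebra k R] {𝒜 : ℕ → Submodule k R}
    {P : R →ₗ[k] R →ₗ[k] R} (halt : ∀ a, P a a = 0)
    (hlei : ∀ a b c, P a (b * c) = P a b * c + b * P a c) (φ : R →ₐ[k] K) {N N' : ℕ}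
    {x : Fin N → R} {d : Fin N → ℕ} {g : R} (h : IsFr 𝒜 x d g) (hg : φ g ≠ 0)
    {x' : Fin N' → R} (h0' : φ (brM P x').det ≠ 0) : N' ≤ N := by
  classical
  let δ : R → Derivation k R R := fun a => Derivation.mk' (P a) (fun b c => by
    rw [hlei, smul_eq_mul, smul_eq_mul]; ring)
  have hanti : ∀ a b, P a b = - P b a := by
    intro a b
    have h1 := halt (a + b)
    simp only [map_add, LinearMap.add_apply, halt, zero_add, add_zero] at h1
    linear_combination h1
  have key : ∀ a b : R, ∀ c : Fin N → R, g • KaehlerDifferential.D k R b =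
      ∑ i, c i • KaehlerDifferential.D k R (x i) → g * P a b = ∑ i, c i * P a (x i) := by
    intro a b c hc
    have h1 := congrArg ((δ a).liftKaehlerDifferential) hc
    simp only [map_smul, map_sum, Derivation.liftKaehlerDifferential_comp_D, smul_eq_mul] at h1
    exact h1
  choose c hc using h.gen
  have hMM : ∀ a b, g * g * P a b = ∑ i, ∑ j, c a i * P (x i) (x j) * c b j := by
    intro a b
    have h1 := key a b (c b) (hc b)
    have h2 : ∀ j, g * P a (x j) = ∑ i, c a i * P (x i) (x j) := by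
      intro j
      have h3 := key (x j) a (c a) (hc a)
      have h4 : g * P a (x j) = - (g * P (x j) a) := by rw [hanti a (x j), mul_neg]
      rw [h4, h3, ← Finset.sum_neg_distrib]
      refine Finset.sum_congr rfl fun i _ => ?_
      rw [hanti (x j) (x i), mul_neg, neg_neg]
    calc g * g * P a b = g * (g * P a b) := by ring
      _ = ∑ j, (g * P a (x j)) * c b j := by
          rw [h1, Finset.mul_sum]
          exact Finset.sum_congr rfl fun j _ => by ring
      _ = ∑ j, ∑ i, c a i * P (x i) (x j) * c b j := by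
          refine Finset.sum_congr rfl fun j _ => ?_
          rw [h2, Finset.sum_mul]
      _ = _ := Finset.sum_comm
  set M : Matrix (Fin N) (Fin N) K := (brM P x).map φ with hM
  set M' : Matrix (Fin N') (Fin N') K := (brM P x').map φ with hM'
  set C : Matrix (Fin N') (Fin N) K := Matrix.of fun i j => φ (c (x' i) j) with hC
  have hprod : (φ g * φ g) • M' = C * M * C.transpose := by
    ext i j
    rw [Matrix.smul_apply, smul_eq_mul, Matrix.mul_apply]
    have h5 := congrArg φ (hMM (x' i) (x' j))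
    simp only [map_mul, map_sum] at h5
    rw [show M' i j = φ (P (x' i) (x' j)) from rfl, h5, Finset.sum_comm]
    refine Finset.sum_congr rfl fun b _ => ?_
    rw [Matrix.mul_apply, Finset.sum_mul]
    rfl
  have hdet : M'.det ≠ 0 := by
    rw [hM']
    have h6 : φ (brM P x').det = ((brM P x').map φ).det := by
      rw [AlgHom.map_det]
      rfl
    rwa [← h6]
  have hrank : ((φ g * φ g) • M').rank = N' := by
    rw [Matrix.rank_of_isUnit, Fintype.card_fin]
    rw [Matrix.isUnit_iff_isUnit_det, Matrix.det_smul]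
    exact (IsUnit.mk0 _ (mul_ne_zero (pow_ne_zero _ (mul_ne_zero hg hg)) hdet))
  calc N' = ((φ g * φ g) • M').rank := hrank.symm
    _ = (C * M * C.transpose).rank := by rw [hprod]
    _ ≤ (C * M).rank := Matrix.rank_mul_le_left _ _
    _ ≤ C.rank := Matrix.rank_mul_le_left _ _
    _ ≤ Fintype.card (Fin N) := Matrix.rank_le_card_width _
    _ = N := Fintype.card_fin N

/-- F4a: frames of the same size along a map to a field. -/
theorem frame_card_eq {R : Type v} [CommRing R] [Algebra k R] {𝒜 : ℕ → Submodule k R}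
    [GradedAlgebra 𝒜] {P : R →ₗ[k] R →ₗ[k] R} (hP : IsPM 𝒜 P) (φ : R →ₐ[k] K) {N N' : ℕ}
    {x : Fin N → R} {d : Fin N → ℕ} {g : R} (h : IsFr 𝒜 x d g) (h0 : φ (g * (brM P x).det) ≠ 0)
    {x' : Fin N' → R} {d' : Fin N' → ℕ} {g' : R} (h' : IsFr 𝒜 x' d' g')
    (h0' : φ (g' * (brM P x').det) ≠ 0) : N = N' := by
  rw [map_mul] at h0 h0'
  exact le_antisymm
    (frame_card_le hP.alternating hP.leibniz φ h' (left_ne_zero_of_mul h0')
      (right_ne_zero_of_mul h0))
    (frame_card_le hP.alternating hP.leibniz φ h (left_ne_zero_of_mul h0)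
      (right_ne_zero_of_mul h0'))

end Vale.Agent.P292.Mo
end

section

/-! # Closed points of the first chart. -/

namespace Vale.Agent.P292.Mo

universe u w

namespace C0

variable {k : Type u} [Field k] {K : Type w} [Field K] [Algebra k K]

theorem le_IC (B : Subalgebra k K) : B ≤ IC B := fun x hx =>
  (integralClosure B K).algebraMap_mem ⟨x, hx⟩

/-- Every element of `k[t, 1/g(t)]` is `f(t)` divided by a power of `g(t)`. -/
theorem exists_mul_pow_B0 {t : K} {g : Polynomial k} (hgt : Polynomial.aeval t g ≠ 0)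
    {x : K} (hx : x ∈ B0 t g) :
    ∃ (f : Polynomial k) (n : ℕ), x * (Polynomial.aeval t g) ^ n = Polynomial.aeval t f := by
  unfold B0 at hx
  induction hx using Algebra.adjoin_induction with
  | mem y hy =>
    rcases hy with rfl | hy
    · exact ⟨Polynomial.X, 0, by simp⟩
    · rw [Set.mem_singleton_iff] at hy
      subst hy
      exact ⟨1, 1, by rw [pow_one, inv_mul_cancel₀ hgt, map_one]⟩
  | algebraMap c => exact ⟨Polynomial.C c, 0, by simp⟩
  | add a b _ _ ha hb =>
    obtain ⟨f, n, h⟩ := ha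
    obtain ⟨f', n', h'⟩ := hb
    refine ⟨f * g ^ n' + f' * g ^ n, n + n', ?_⟩
    rw [map_add, map_mul, map_mul, map_pow, map_pow, ← h, ← h']
    ring
  | mul a b _ _ ha hb =>
    obtain ⟨f, n, h⟩ := ha
    obtain ⟨f', n', h'⟩ := hb
    refine ⟨f * f', n + n', ?_⟩
    rw [map_mul, ← h, ← h']
    ring

theorem coe_aeval {B : Subalgebra k K} (b : B) (q : Polynomial k) :
    ((Polynomial.aeval b q : B) : K) = Polynomial.aeval (b : K) q :=
  (Polynomial.aeval_algHom_apply B.val b q).symm

theorem aeval_mem_B0 (t : K) (g q : Polynomial k) : Polynomial.aeval t q ∈ B0 t g := by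
  have htB : t ∈ B0 t g := Algebra.subset_adjoin (Set.mem_insert _ _)
  have := (Polynomial.aeval (⟨t, htB⟩ : B0 t g) q).2
  rwa [coe_aeval] at this

/-- A homomorphism from `k[t, 1/g(t)]` to a domain which kills a nonzero polynomial in `t` has
values in `k`. -/
theorem range_B0_le_bot [IsAlgClosed k] {t : K} {g : Polynomial k}
    {D : Type w} [CommRing D] [IsDomain D] [Algebra k D] (ψ : B0 t g →ₐ[k] D)
    (f : Polynomial k) (hf : f ≠ 0)
    (h : ∀ h : Polynomial.aeval t f ∈ B0 t g, ψ ⟨Polynomial.aeval t f, h⟩ = 0)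
    (hgt : Polynomial.aeval t g ≠ 0) (b : B0 t g) : ψ b ∈ (⊥ : Subalgebra k D) := by
  have htB : t ∈ B0 t g := Algebra.subset_adjoin (Set.mem_insert _ _)
  have hgB : (Polynomial.aeval t g)⁻¹ ∈ B0 t g :=
    Algebra.subset_adjoin (Set.mem_insert_of_mem _ (Set.mem_singleton _))
  -- `ψ t` is a scalar
  obtain ⟨c, hc⟩ : ∃ c : k, ψ ⟨t, htB⟩ = algebraMap k D c := by
    have h1 : Polynomial.aeval (ψ ⟨t, htB⟩) f = 0 := by
      rw [Polynomial.aeval_algHom_apply, ← h (aeval_mem_B0 t g f)]
      congr 1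
      exact Subtype.ext (coe_aeval _ f)
    have h3 : f = Polynomial.C f.leadingCoeff *
        (f.roots.map fun a => Polynomial.X - Polynomial.C a).prod :=
      (IsAlgClosed.splits f).eq_prod_roots
    rw [h3, map_mul, Polynomial.aeval_C, map_multiset_prod, Multiset.map_map] at h1
    rcases mul_eq_zero.1 h1 with h4 | h4
    · exfalso
      have : Function.Injective (algebraMap k D) := (algebraMap k D).injective
      rw [map_eq_zero_iff _ this] at h4
      exact hf (Polynomial.leadingCoeff_eq_zero.1 h4)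
    · rw [Multiset.prod_eq_zero_iff, Multiset.mem_map] at h4
      obtain ⟨a, -, ha⟩ := h4
      refine ⟨a, ?_⟩
      simpa [sub_eq_zero] using ha
  have hS : ∀ x (hx : x ∈ B0 t g), ψ ⟨x, hx⟩ ∈ (⊥ : Subalgebra k D) := by
    intro x hx
    induction hx using Algebra.adjoin_induction with
    | mem y hy =>
      rcases hy with rfl | hy
      · exact Algebra.mem_bot.2 ⟨c, hc.symm⟩
      · rw [Set.mem_singleton_iff] at hy
        subst hy
        have h5 : ψ ⟨(Polynomial.aeval t g)⁻¹, hgB⟩ * algebraMap k D (g.eval c) = 1 := by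
          have h6 : algebraMap k D (g.eval c) = ψ (Polynomial.aeval (⟨t, htB⟩ : B0 t g) g) := by
            rw [← Polynomial.aeval_algHom_apply, hc, Polynomial.aeval_algebraMap_apply,
              Polynomial.coe_aeval_eq_eval]
          rw [h6, ← map_mul, ← map_one ψ]
          congr 1
          apply Subtype.ext
          show (Polynomial.aeval t g)⁻¹ * (Polynomial.aeval (⟨t, htB⟩ : B0 t g) g : K) = 1
          rw [coe_aeval, inv_mul_cancel₀ hgt]
        have h7 : g.eval c ≠ 0 := by
          intro h8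
          rw [h8, map_zero, mul_zero] at h5
          exact zero_ne_one h5
        refine Algebra.mem_bot.2 ⟨(g.eval c)⁻¹, ?_⟩
        have h9 : algebraMap k D (g.eval c)⁻¹ * algebraMap k D (g.eval c) = 1 := by
          rw [← map_mul, inv_mul_cancel₀ h7, map_one]
        have h10 : algebraMap k D (g.eval c) ≠ 0 := fun h => by
          rw [h, mul_zero] at h9; exact zero_ne_one h9
        exact mul_right_cancel₀ h10 (h9.trans h5.symm)
    | algebraMap r =>
      have : ψ (algebraMap k (B0 t g) r) ∈ (⊥ : Subalgebra k D) := by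
        rw [AlgHom.commutes]
        exact Subalgebra.algebraMap_mem _ r
      exact this
    | add a b ha' hb' ha hb =>
      have : ψ (⟨a, ha'⟩ + ⟨b, hb'⟩) ∈ (⊥ : Subalgebra k D) := by
        rw [map_add]
        exact add_mem ha hb
      exact this
    | mul a b ha' hb' ha hb =>
      have : ψ (⟨a, ha'⟩ * ⟨b, hb'⟩) ∈ (⊥ : Subalgebra k D) := by
        rw [map_mul]
        exact mul_mem ha hb
      exact this
  exact hS b.1 b.2

/-- An integral extension of a ring whose image in a domain is `k` has image `k`. -/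
theorem surj_of_bot [IsAlgClosed k] {A B D : Type w} [CommRing A] [Algebra k A] [CommRing B]
    [Algebra k B] [CommRing D] [IsDomain D] [Algebra k D] (ι : B →ₐ[k] A) (q : A →ₐ[k] D)
    (hq : Function.Surjective q)
    (hint : ∀ a : A, ∃ p : Polynomial B, p.Monic ∧ Polynomial.eval₂ ι.toRingHom a p = 0)
    (hbot : ∀ b, q (ι b) ∈ (⊥ : Subalgebra k D)) : Function.Surjective (algebraMap k D) := by
  have hinj : Function.Injective (algebraMap k D) := (algebraMap k D).injective
  let χ : B →ₐ[k] k :=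
    (Algebra.botEquivOfInjective hinj).toAlgHom.comp ((q.comp ι).codRestrict ⊥ hbot)
  have hχ : ∀ b, algebraMap k D (χ b) = q (ι b) := by
    intro b
    obtain ⟨c, hc⟩ := Algebra.mem_bot.1 (hbot b)
    have h1 : ((q.comp ι).codRestrict ⊥ hbot) b = algebraMap k (⊥ : Subalgebra k D) c :=
      Subtype.ext hc.symm
    have h2 : χ b = c := by
      show (Algebra.botEquivOfInjective hinj) (((q.comp ι).codRestrict ⊥ hbot) b) = c
      rw [h1, AlgEquiv.commutes]
      rfl
    rw [h2, hc]
  have : Algebra.IsIntegral k D := by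
    refine ⟨fun x => ?_⟩
    obtain ⟨a, rfl⟩ := hq x
    obtain ⟨p, hp, hpa⟩ := hint a
    refine ⟨p.map χ.toRingHom, hp.map _, ?_⟩
    rw [Polynomial.eval₂_map]
    have h1 : (algebraMap k D).comp χ.toRingHom = q.toRingHom.comp ι.toRingHom :=
      RingHom.ext fun b => hχ b
    rw [h1]
    have h2 := Polynomial.hom_eval₂ p ι.toRingHom q.toRingHom a
    rw [hpa, map_zero] at h2
    exact h2.symm
  exact (IsAlgClosed.algebraMap_bijective_of_isIntegral (k := k)).2

/-- Integral equations inside the integral closure. -/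
theorem exists_eq_IC (B : Subalgebra k K) (a : IC B) : ∃ p : Polynomial B, p.Monic ∧
    Polynomial.eval₂ (Subalgebra.inclusion (le_IC B)).toRingHom a p = 0 := by
  obtain ⟨p, hp, hpa⟩ := a.2
  refine ⟨p, hp, Subtype.ext ?_⟩
  have h2 := Polynomial.hom_eval₂ p (Subalgebra.inclusion (le_IC B)).toRingHom
    (IC B).val.toRingHom a
  exact h2.trans hpa

/-- A nonzero ideal of the integral closure contains a nonzero element of the base. -/
theorem exists_mem_base {B : Subalgebra k K} (I : Ideal (IC B)) (hI : I ≠ ⊥) :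
    ∃ b : B, b ≠ 0 ∧ Subalgebra.inclusion (le_IC B) b ∈ I := by
  obtain ⟨s, hs, hs0⟩ := Submodule.exists_mem_ne_zero_of_ne_bot hI
  let _ : Algebra B (IC B) := (Subalgebra.inclusion (le_IC B)).toRingHom.toAlgebra
  obtain ⟨p, hp, hps⟩ := exists_eq_IC B s
  have hne := Ideal.comap_ne_bot_of_integral_mem (R := B) hs0 hs ⟨p, hp, hps⟩
  obtain ⟨b, hb, hb0⟩ := Submodule.exists_mem_ne_zero_of_ne_bot hne
  exact ⟨b, hb0, hb⟩

end C0

open C0 in
/-- F3d: closed points of the first chart. -/
theorem closed_IC0 {k : Type u} [Field k] {K : Type w} [Field K] [Algebra k K]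
    [IsAlgClosed k] {t : K} (ht : Transcendental k t)
    [FiniteDimensional (IntermediateField.adjoin k {t}) K] {g : Polynomial k} (hg : g ≠ 0)
    (𝔭 : Ideal (IC (B0 t g))) (h𝔭 : 𝔭.IsPrime) (h0 : 𝔭 ≠ ⊥) :
    Function.Surjective (algebraMap k (IC (B0 t g) ⧸ 𝔭)) := by
  have hgt : Polynomial.aeval t g ≠ 0 := fun h => hg ((transcendental_iff.1 ht) g h)
  have : IsDomain (IC (B0 t g) ⧸ 𝔭) := Ideal.Quotient.isDomain 𝔭
  obtain ⟨b, hb0, hb⟩ := exists_mem_base 𝔭 h0
  obtain ⟨f, n, hfn⟩ := exists_mul_pow_B0 hgt b.2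
  refine surj_of_bot (Subalgebra.inclusion (le_IC (B0 t g))) (Ideal.Quotient.mkₐ k 𝔭)
    Ideal.Quotient.mk_surjective (exists_eq_IC _) ?_
  refine range_B0_le_bot ((Ideal.Quotient.mkₐ k 𝔭).comp (Subalgebra.inclusion (le_IC (B0 t g))))
    f ?_ ?_ hgt
  · rintro rfl
    rw [map_zero] at hfn
    rcases mul_eq_zero.1 hfn with h | h
    · exact hb0 (Subtype.ext h)
    · exact pow_ne_zero _ hgt h
  · intro h
    have h1 : (⟨Polynomial.aeval t f, h⟩ : B0 t g) =
        b * ⟨Polynomial.aeval t g, aeval_mem_B0 t g g⟩ ^ n := Subtype.ext hfn.symm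
    rw [h1, map_mul]
    have h2 : ((Ideal.Quotient.mkₐ k 𝔭).comp (Subalgebra.inclusion (le_IC (B0 t g)))) b = 0 :=
      Ideal.Quotient.eq_zero_iff_mem.2 hb
    rw [h2, zero_mul]

end Vale.Agent.P292.Mo
end

section

/-! # One homogeneous frame for finitely many points -/

namespace Vale.Agent.P292.Mo

universe u v w

variable {k : Type u} [Field k]

/-! ### Linear algebra over an infinite field -/

private theorem eff_avoid [Infinite k] {V : Type v} [AddCommGroup V] [Module k V] {ι : Type w}
    [Finite ι] (p : ι → Submodule k V) (h : ∀ i, p i ≠ ⊤) : ∃ v : V, ∀ i, v ∉ p i := by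
  by_contra hcon
  push Not at hcon
  obtain ⟨i, hi⟩ := Subspace.exists_eq_top_of_iUnion_eq_univ (p := p) (by
    refine Set.eq_univ_of_forall fun v => ?_
    obtain ⟨i, hi⟩ := hcon v
    exact Set.mem_iUnion.mpr ⟨i, hi⟩)
  exact h i hi

private theorem eff_exists_li [Infinite k] {V : Type v} [AddCommGroup V] [Module k V] {ι : Type w}
    [Finite ι] {N : ℕ} (L : ι → V →ₗ[k] (Fin N → k)) (h : ∀ i, Function.Surjective (L i)) :
    ∀ m ≤ N, ∃ z : Fin m → V, ∀ i, LinearIndependent k (fun j => L i (z j)) := by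
  intro m
  induction m with
  | zero => intro _; exact ⟨Fin.elim0, fun i => linearIndependent_empty_type⟩
  | succ m ih =>
    intro hm
    obtain ⟨z, hz⟩ := ih (by omega)
    obtain ⟨v, hv⟩ := eff_avoid (fun i => (Submodule.span k (Set.range fun j => L i (z j))).comap
      (L i)) (by
        intro i htop
        have h1 : Submodule.span k (Set.range fun j => L i (z j)) = ⊤ := by
          rw [eq_top_iff]
          intro x _
          obtain ⟨a, rfl⟩ := h i x
          have : a ∈ (Submodule.span k (Set.range fun j => L i (z j))).comap (L i) := by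
            rw [htop]; trivial
          exact this
        have h2 : Module.finrank k (Submodule.span k (Set.range fun j => L i (z j))) = m := by
          have := finrank_span_eq_card (hz i)
          simpa using this
        rw [h1, finrank_top, Module.finrank_fin_fun] at h2
        omega)
    refine ⟨Fin.cons v z, fun i => ?_⟩
    have h3 : (fun j => L i ((Fin.cons v z : Fin (m + 1) → V) j)) =
        (Fin.cons (L i v) (fun j => L i (z j)) : Fin (m + 1) → (Fin N → k)) := by
      funext j
      refine Fin.cases ?_ (fun j => ?_) j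
      · simp
      · simp
    rw [h3, linearIndependent_finCons]
    exact ⟨hz i, hv i⟩

/-! ### Elements of large degree -/

section graded

variable {R : Type v} [CommRing R] [Algebra k R] {𝒜 : ℕ → Submodule k R} [GradedAlgebra 𝒜]

private theorem eff_S (y : R →ₐ[k] k)
    (hlb : ∀ d : ℕ, (∀ n, ∀ r ∈ 𝒜 n, y r ≠ 0 → d ∣ n) → d = 1) :
    ∃ n : ℕ, 0 < n ∧ ∃ a ∈ 𝒜 n, ∃ b ∈ 𝒜 (n + 1), y a = 1 ∧ y b = 1 := by
  let S : AddSubmonoid ℕ :=
    { carrier := {n | ∃ r ∈ 𝒜 n, y r ≠ 0}
      zero_mem' := ⟨1, SetLike.GradedOne.one_mem, by rw [map_one]; exact one_ne_zero⟩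
      add_mem' := by
        rintro a b ⟨r, hr, hr'⟩ ⟨s, hs, hs'⟩
        exact ⟨r * s, SetLike.mul_mem_graded hr hs, by rw [map_mul]; exact mul_ne_zero hr' hs'⟩ }
  have hS : Nat.setGcd (S : Set ℕ) = 1 := by
    refine hlb _ fun n r hr hr' => ?_
    exact Nat.setGcd_dvd_of_mem (show n ∈ (S : Set ℕ) from ⟨r, hr, hr'⟩)
  obtain ⟨n, hn⟩ := Nat.exists_mem_closure_of_ge (S : Set ℕ)
  have hn' : ∀ m ≥ n, m ∈ S := by
    intro m hm
    have := hn m hm (by rw [hS]; exact one_dvd _)
    rwa [AddSubmonoid.closure_eq] at this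
  have key : ∀ m ≥ n, ∃ r ∈ 𝒜 m, y r = 1 := by
    intro m hm
    obtain ⟨r, hr, hr'⟩ := hn' m hm
    refine ⟨(y r)⁻¹ • r, (𝒜 m).smul_mem _ hr, ?_⟩
    rw [map_smul, smul_eq_mul, inv_mul_cancel₀ hr']
  obtain ⟨a, ha, ha'⟩ := key (n + 1) (by omega)
  obtain ⟨b, hb, hb'⟩ := key (n + 1 + 1) (by omega)
  exact ⟨n + 1, by omega, a, ha, b, hb, ha', hb'⟩

private theorem eff_mon {n : ℕ} {a b : R} (ha : a ∈ 𝒜 n) (hb : b ∈ 𝒜 (n + 1)) (α β : ℕ) :
    a ^ α * b ^ β ∈ 𝒜 (α * n + β * (n + 1)) := by
  have h1 := SetLike.pow_mem_graded α ha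
  have h2 := SetLike.pow_mem_graded β hb
  have h3 := SetLike.mul_mem_graded h1 h2
  simpa [smul_eq_mul] using h3

private theorem eff_rep {n m : ℕ} (hn : 0 < n) (hm : n * n ≤ m) :
    ∃ α β, m = α * n + β * (n + 1) := by
  refine ⟨m / n - m % n, m % n, ?_⟩
  have h1 : m % n < n := Nat.mod_lt _ hn
  have h2 : n ≤ m / n := (Nat.le_div_iff_mul_le hn).mpr hm
  have h3 : n * (m / n) + m % n = m := Nat.div_add_mod m n
  have h4 : (m / n - m % n) * n + (m % n) * n = (m / n) * n := by
    rw [← add_mul, Nat.sub_add_cancel (by omega)]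
  have h5 : (m % n) * (n + 1) = (m % n) * n + m % n := by ring
  rw [h5, ← add_assoc, h4, mul_comm]
  exact h3.symm

private theorem eff_rep' {n m : ℕ} (hn : 0 < n) (hm : n * n + (n + 1) * n ≤ m) :
    ∃ α β, m = (α + (n + 1)) * n + β * (n + 1) := by
  obtain ⟨α, β, h⟩ := eff_rep (n := n) (m := m - (n + 1) * n) hn (by omega)
  refine ⟨α, β, ?_⟩
  have h1 : (n + 1) * n ≤ m := by omega
  have h2 : (α + (n + 1)) * n = α * n + (n + 1) * n := by ring
  omega

/-! ### Point derivations -/

private theorem eff_pd_one {y : R →ₐ[k] k} {δ : R →ₗ[k] k}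
    (hδ : ∀ a b, δ (a * b) = y a * δ b + y b * δ a) : δ 1 = 0 := by
  have := hδ 1 1
  rw [mul_one, map_one y, one_mul] at this
  simpa using this

private theorem eff_pd_pow {y : R →ₐ[k] k} {δ : R →ₗ[k] k}
    (hδ : ∀ a b, δ (a * b) = y a * δ b + y b * δ a) {a : R} (ha : y a = 1) (m : ℕ) :
    δ (a ^ m) = m * δ a := by
  induction m with
  | zero => rw [pow_zero, eff_pd_one hδ]; simp
  | succ m ih =>
    rw [pow_succ, hδ, ih, map_pow, ha, one_pow]
    push_cast
    ring

private theorem eff_pd_mon {y : R →ₐ[k] k} {δ : R →ₗ[k] k}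
    (hδ : ∀ a b, δ (a * b) = y a * δ b + y b * δ a) {a b : R} (ha : y a = 1) (hb : y b = 1)
    (α β : ℕ) : δ (a ^ α * b ^ β) = α * δ a + β * δ b := by
  rw [hδ, eff_pd_pow hδ ha, eff_pd_pow hδ hb, map_pow, map_pow, ha, hb, one_pow, one_pow]
  ring

/-- A point derivation which vanishes in small degrees is zero. -/
private theorem eff_J (hft : Algebra.FiniteType k R) : ∃ J : ℕ, ∀ (y : R →ₐ[k] k) (δ : R →ₗ[k] k),
    (∀ a b, δ (a * b) = y a * δ b + y b * δ a) → (∀ j ≤ J, ∀ r ∈ 𝒜 j, δ r = 0) → δ = 0 := by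
  classical
  obtain ⟨s, hs⟩ := hft.out
  refine ⟨s.sup fun r => (DFinsupp.support (DirectSum.decompose 𝒜 r)).sup id, ?_⟩
  intro y δ hδ h0
  have h1 : ∀ r ∈ s, δ r = 0 := by
    intro r hr
    rw [← DirectSum.sum_support_decompose 𝒜 r, map_sum]
    refine Finset.sum_eq_zero fun j hj => ?_
    refine h0 j ?_ _ (SetLike.coe_mem _)
    have h2 : j ≤ (DFinsupp.support (DirectSum.decompose 𝒜 r)).sup id :=
      Finset.le_sup (f := id) hj
    exact h2.trans (Finset.le_sup (f := fun r => (DFinsupp.support (DirectSum.decompose 𝒜 r)).sup id) hr)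
  ext r
  have hr : r ∈ Algebra.adjoin k (s : Set R) := by rw [hs]; trivial
  rw [LinearMap.zero_apply]
  induction hr using Algebra.adjoin_induction with
  | mem x hx => exact h1 x hx
  | algebraMap c =>
    rw [Algebra.algebraMap_eq_smul_one, map_smul, eff_pd_one hδ, smul_zero]
  | add a b _ _ ha hb => rw [map_add, ha, hb, add_zero]
  | mul a b _ _ ha hb => rw [hδ, ha, hb, mul_zero, mul_zero, add_zero]

private theorem eff_D (hft : Algebra.FiniteType k R) (y : R →ₐ[k] k)
    (hlb : ∀ d : ℕ, (∀ n, ∀ r ∈ 𝒜 n, y r ≠ 0 → d ∣ n) → d = 1) :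
    ∃ D₀ : ℕ, (∀ D ≥ D₀, ∃ r ∈ 𝒜 D, y r = 1) ∧ ∀ D ≥ D₀, (D : k) ≠ 0 → ∀ δ : R →ₗ[k] k,
      (∀ a b, δ (a * b) = y a * δ b + y b * δ a) → (∀ r ∈ 𝒜 D, δ r = 0) → δ = 0 := by
  obtain ⟨J, hJ⟩ := eff_J (𝒜 := 𝒜) hft
  obtain ⟨n, hn, a, ha, b, hb, ha', hb'⟩ := eff_S y hlb
  have hmon1 : ∀ α β : ℕ, y (a ^ α * b ^ β) = 1 := by
    intro α β
    rw [map_mul, map_pow, map_pow, ha', hb', one_pow, one_pow, one_mul]
  refine ⟨n * n + (n + 1) * n + J, ?_, ?_⟩
  · intro D hD
    obtain ⟨α, β, h⟩ := eff_rep (n := n) (m := D) hn (by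
      have : 0 ≤ (n + 1) * n := Nat.zero_le _
      omega)
    exact ⟨a ^ α * b ^ β, h ▸ eff_mon ha hb α β, hmon1 α β⟩
  · intro D hD hDk δ hδ h0
    obtain ⟨α, β, h⟩ := eff_rep' (n := n) (m := D) hn (by omega)
    have e1 : δ (a ^ (α + (n + 1)) * b ^ β) = 0 := h0 _ (h ▸ eff_mon ha hb (α + (n + 1)) β)
    have e2 : δ (a ^ α * b ^ (β + n)) = 0 := by
      refine h0 _ ?_
      have h' : D = α * n + (β + n) * (n + 1) := by rw [h]; ring
      exact h' ▸ eff_mon ha hb α (β + n)
    rw [eff_pd_mon hδ ha' hb'] at e1 e2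
    push_cast at e1 e2
    have hDk' : (D : k) = (α + (n + 1)) * n + β * (n + 1) := by
      rw [h]; push_cast; ring
    have e3 : ((n : k) + 1) * δ a = n * δ b := by linear_combination e1 - e2
    have e4 : (D : k) * δ a = 0 := by
      rw [hDk']
      linear_combination (n : k) * e1 + (β : k) * e3
    have e5 : (D : k) * δ b = 0 := by
      rw [hDk']
      linear_combination ((n : k) + 1) * e1 - ((α : k) + (n + 1)) * e3
    have e6 : δ a = 0 := (mul_eq_zero.mp e4).resolve_left hDk
    have e7 : δ b = 0 := (mul_eq_zero.mp e5).resolve_left hDk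
    refine hJ y δ hδ fun j hj r hr => ?_
    obtain ⟨α', β', h'⟩ := eff_rep (n := n) (m := D - j) hn (by omega)
    have e8 : r * (a ^ α' * b ^ β') ∈ 𝒜 D := by
      have h8 := SetLike.mul_mem_graded hr (eff_mon ha hb α' β')
      have h9 : j + (α' * n + β' * (n + 1)) = D := by rw [← h']; omega
      rwa [h9] at h8
    have e9 := h0 _ e8
    rw [hδ, hmon1, eff_pd_mon hδ ha' hb', e6, e7] at e9
    simpa using e9

end graded

/-! ### Brackets and differentials -/

section bracket

variable {R : Type v} [CommRing R] [Algebra k R]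

private theorem eff_bracket {P : R →ₗ[k] R →ₗ[k] R}
    (hl : ∀ a b c, P a (b * c) = P a b * c + b * P a c)
    {N : ℕ} {x : Fin N → R} {g r : R} {c : Fin N → R}
    (h : g • KaehlerDifferential.D k R r = ∑ i, c i • KaehlerDifferential.D k R (x i)) (a : R) :
    g * P a r = ∑ i, c i * P a (x i) := by
  let D : Derivation k R R := Derivation.mk' (P a) (fun b c => by
    rw [hl, smul_eq_mul, smul_eq_mul]; ring)
  have := congrArg D.liftKaehlerDifferential h
  rw [map_smul, map_sum, Derivation.liftKaehlerDifferential_comp_D] at this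
  rw [← smul_eq_mul, show P a r = D r from rfl, this]
  refine Finset.sum_congr rfl fun i _ => ?_
  rw [map_smul, Derivation.liftKaehlerDifferential_comp_D, smul_eq_mul]
  rfl

private theorem eff_det_mem {𝒜 : ℕ → Submodule k R} [GradedAlgebra 𝒜] {N : ℕ}
    (M : Matrix (Fin N) (Fin N) R) (a b : Fin N → ℕ) (h : ∀ i j, M i j ∈ 𝒜 (a i + b j)) :
    M.det ∈ 𝒜 (∑ i, a i + ∑ i, b i) := by
  rw [Matrix.det_apply]
  refine Submodule.sum_mem _ fun σ _ => ?_
  have h1 := SetLike.prod_mem_graded 𝒜 (fun i => a (σ i) + b i) (fun i => M (σ i) i)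
    (F := Finset.univ) fun i _ => h (σ i) i
  rw [Finset.sum_add_distrib, Equiv.sum_comp σ a] at h1
  rcases Int.units_eq_one_or (Equiv.Perm.sign σ) with hs | hs
  · rw [hs, one_smul]; exact h1
  · rw [hs, Units.neg_smul, one_smul]; exact Submodule.neg_mem _ h1

private theorem eff_skew {P : R →ₗ[k] R →ₗ[k] R} (ha : ∀ a, P a a = 0) (a b : R) :
    P a b = - P b a := by
  have h := ha (a + b)
  rw [map_add, map_add, LinearMap.add_apply, LinearMap.add_apply, ha, ha, zero_add,
    add_zero] at h
  exact eq_neg_of_add_eq_zero_right h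

private theorem eff_point {𝒜 : ℕ → Submodule k R} [GradedAlgebra 𝒜] {P : R →ₗ[k] R →ₗ[k] R}
    (hP : IsPM 𝒜 P) {N : ℕ} {x : Fin N → R} {d : Fin N → ℕ} {g : R} (hfr : IsFr 𝒜 x d g)
    (y : R →ₐ[k] k) (hg : y g ≠ 0) {D : ℕ} (hD : 0 < D) {z : Fin N → R} (hz : ∀ i, z i ∈ 𝒜 D)
    (hdet : y (Matrix.of fun j i => P (x j) (z i)).det ≠ 0) :
    y (brM P z).det ≠ 0 ∧ ∃ l, ∃ h ∈ 𝒜 l, y h ≠ 0 ∧ ∀ r, h • KaehlerDifferential.D k R r ∈
      Submodule.span R (Set.range fun i => KaehlerDifferential.D k R (z i)) := by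
  set B : Matrix (Fin N) (Fin N) R := Matrix.of fun j i => P (x j) (z i) with hB
  choose C hC using fun i => hfr.gen (z i)
  let Cm : Matrix (Fin N) (Fin N) R := Matrix.of C
  have h1 : g • B = brM P x * Cm.transpose := by
    ext j i
    rw [Matrix.smul_apply, Matrix.mul_apply, smul_eq_mul]
    rw [show B j i = P (x j) (z i) from rfl, eff_bracket hP.leibniz (hC i) (x j)]
    exact Finset.sum_congr rfl fun l _ => mul_comm _ _
  have h2 : g ^ N * B.det = (brM P x).det * Cm.det := by
    have := congrArg Matrix.det h1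
    rwa [Matrix.det_smul, Matrix.det_mul, Matrix.det_transpose, Fintype.card_fin] at this
  have h3 : g • (brM P z).transpose = -(Cm * B) := by
    ext i l
    rw [Matrix.smul_apply, Matrix.neg_apply, Matrix.mul_apply, smul_eq_mul]
    rw [show (brM P z).transpose i l = P (z l) (z i) from rfl,
      eff_bracket hP.leibniz (hC i) (z l), ← Finset.sum_neg_distrib]
    refine Finset.sum_congr rfl fun m _ => ?_
    rw [eff_skew hP.alternating (z l) (x m), mul_neg]
    rfl
  have h4 : g ^ N * (brM P z).det = (-1) ^ N * (Cm.det * B.det) := by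
    have := congrArg Matrix.det h3
    rwa [Matrix.det_smul, Matrix.det_neg, Matrix.det_mul, Matrix.det_transpose,
      Fintype.card_fin] at this
  have h5 : y Cm.det ≠ 0 := by
    intro h0
    have := congrArg y h2
    rw [map_mul, map_mul, h0, mul_zero, map_pow] at this
    exact mul_ne_zero (pow_ne_zero _ hg) hdet this
  refine ⟨?_, ?_⟩
  · intro h0
    have := congrArg y h4
    rw [map_mul, h0, mul_zero, map_mul, map_mul, map_pow, map_neg, map_one] at this
    exact mul_ne_zero (pow_ne_zero _ (neg_ne_zero.mpr one_ne_zero)) (mul_ne_zero h5 hdet) this.symm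
  · obtain ⟨l, hl⟩ := hfr.ghom
    refine ⟨(N + 1) * l + (∑ i, d i + ∑ _i : Fin N, (D - 1)), g ^ (N + 1) * B.det, ?_, ?_, ?_⟩
    · have hg' := SetLike.pow_mem_graded (N + 1) hl
      refine SetLike.mul_mem_graded (by simpa [smul_eq_mul] using hg') ?_
      refine eff_det_mem B d (fun _ => D - 1) fun j i => ?_
      exact hP.degree (d j) D _ (by omega) _ (hfr.hom j) _ (hz i)
    · rw [map_mul, map_pow]
      exact mul_ne_zero (pow_ne_zero _ hg) hdet
    · intro r
      have h6 : g ^ (N + 1) * B.det = (brM P x).det * (Cm.det * g) := by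
        rw [pow_succ, mul_right_comm, h2]; ring
      rw [h6, mul_smul, mul_smul]
      refine Submodule.smul_mem _ _ ?_
      obtain ⟨c, hc⟩ := hfr.gen r
      rw [hc, Finset.smul_sum]
      refine Submodule.sum_mem _ fun l _ => ?_
      rw [smul_comm]
      refine Submodule.smul_mem _ _ ?_
      have h7 : Cm.det • KaehlerDifferential.D k R (x l) =
          ∑ i, Cm.adjugate l i • (g • KaehlerDifferential.D k R (z i)) := by
        have h8 : ∀ i, Cm.adjugate l i • (g • KaehlerDifferential.D k R (z i)) =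
            ∑ m, (Cm.adjugate l i * Cm i m) • KaehlerDifferential.D k R (x m) := by
          intro i
          rw [hC i, Finset.smul_sum]
          exact Finset.sum_congr rfl fun m _ => by rw [smul_smul]; rfl
        rw [Finset.sum_congr rfl fun i _ => h8 i, Finset.sum_comm]
        have h9 : ∀ m, ∑ i, (Cm.adjugate l i * Cm i m) • KaehlerDifferential.D k R (x m) =
            ((Cm.det • (1 : Matrix (Fin N) (Fin N) R)) l m) • KaehlerDifferential.D k R (x m) := by
          intro m
          rw [← Finset.sum_smul, ← Matrix.adjugate_mul, Matrix.mul_apply]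
        rw [Finset.sum_congr rfl fun m _ => h9 m, Finset.sum_eq_single l]
        · rw [Matrix.smul_apply, Matrix.one_apply_eq, smul_eq_mul, mul_one]
        · intro m _ hm
          rw [Matrix.smul_apply, Matrix.one_apply_ne (Ne.symm hm), smul_zero, zero_smul]
        · intro h; exact absurd (Finset.mem_univ _) h
      rw [h7]
      refine Submodule.sum_mem _ fun i _ => Submodule.smul_mem _ _ (Submodule.smul_mem _ _ ?_)
      exact Submodule.subset_span ⟨i, rfl⟩

private theorem eff_surj {𝒜 : ℕ → Submodule k R} [GradedAlgebra 𝒜] {P : R →ₗ[k] R →ₗ[k] R}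
    (hP : IsPM 𝒜 P) {N : ℕ} {x : Fin N → R} (y : R →ₐ[k] k) (hdet : y (brM P x).det ≠ 0) {D : ℕ}
    (hD : ∀ δ : R →ₗ[k] k, (∀ a b, δ (a * b) = y a * δ b + y b * δ a) →
      (∀ r ∈ 𝒜 D, δ r = 0) → δ = 0) :
    Function.Surjective (LinearMap.pi (fun j => y.toLinearMap ∘ₗ P (x j) ∘ₗ (𝒜 D).subtype) :
      𝒜 D →ₗ[k] (Fin N → k)) := by
  rw [← LinearMap.range_eq_top]
  by_contra hne
  obtain ⟨f, hf, hle⟩ := Submodule.exists_le_ker_of_lt_top _ (lt_top_iff_ne_top.mpr hne)
  apply hf
  let Q : R →ₗ[k] (Fin N → k) := LinearMap.pi (fun j => y.toLinearMap ∘ₗ P (x j))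
  have hQ : ∀ r j, Q r j = y (P (x j) r) := fun r j => rfl
  have hδ : f ∘ₗ Q = 0 := by
    refine hD _ ?_ ?_
    · intro a b
      have h1 : Q (a * b) = y a • Q b + y b • Q a := by
        funext j
        rw [Pi.add_apply, Pi.smul_apply, Pi.smul_apply, hQ, hQ, hQ, smul_eq_mul, smul_eq_mul,
          hP.leibniz, map_add, map_mul, map_mul]
        ring
      rw [LinearMap.comp_apply, LinearMap.comp_apply, LinearMap.comp_apply, h1, map_add,
        map_smul, map_smul, smul_eq_mul, smul_eq_mul]
    · intro r hr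
      exact hle ⟨⟨r, hr⟩, rfl⟩
  have hc : (fun j => f (fun i => if j = i then 1 else 0)) = 0 := by
    refine Matrix.eq_zero_of_vecMul_eq_zero (M := y.mapMatrix (brM P x)) ?_ ?_
    · rwa [← AlgHom.map_det]
    · funext l
      have h1 : f (Q (x l)) = 0 := by
        rw [← LinearMap.comp_apply, hδ, LinearMap.zero_apply]
      rw [LinearMap.pi_apply_eq_sum_univ f] at h1
      have h2 : (Matrix.vecMul (fun j => f (fun i => if j = i then 1 else 0))
          (y.mapMatrix (brM P x))) l =
          ∑ j, Q (x l) j • f (fun i => if j = i then 1 else 0) := by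
        rw [Matrix.vecMul, dotProduct]
        refine Finset.sum_congr rfl fun j _ => ?_
        rw [smul_eq_mul, mul_comm]
        rfl
      rw [h2, h1, Pi.zero_apply]
  refine LinearMap.ext fun v => ?_
  rw [LinearMap.pi_apply_eq_sum_univ f, LinearMap.zero_apply]
  refine Finset.sum_eq_zero fun j _ => ?_
  have := congrFun hc j
  simp only [Pi.zero_apply] at this
  rw [this, smul_zero]

private def eff_I (k : Type u) [Field k] {R : Type v} [CommRing R] [Algebra k R] {N : ℕ}
    (z : Fin N → R) : Submodule k R where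
  carrier := {h | ∀ r, h • KaehlerDifferential.D k R r ∈
    Submodule.span R (Set.range fun i => KaehlerDifferential.D k R (z i))}
  add_mem' := fun ha hb r => by rw [add_smul]; exact add_mem (ha r) (hb r)
  zero_mem' := fun r => by rw [zero_smul]; exact zero_mem _
  smul_mem' := fun c a ha r => by
    rw [Algebra.smul_def, mul_smul]
    exact Submodule.smul_mem _ _ (ha r)

end bracket

theorem exists_frame_finset {R : Type v} [CommRing R] [Algebra k R] {𝒜 : ℕ → Submodule k R}
    [GradedAlgebra 𝒜] {P : R →ₗ[k] R →ₗ[k] R} [IsAlgClosed k] (p : ℕ) [Fact p.Prime] [CharP k p]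
    (hP : IsPM 𝒜 P) {N : ℕ} (Y : Set (R →ₐ[k] k)) (hY : Y.Finite) (hNV : ∀ y ∈ Y, NV 𝒜 y)
    (hrk : ∀ y ∈ Y, HasRk 𝒜 P y N) :
    ∃ (x : Fin N → R) (d : Fin N → ℕ) (g : R), IsFr 𝒜 x d g ∧
      ∀ y ∈ Y, y (g * (brM P x).det) ≠ 0 := by
  classical
  have : Finite Y := hY
  choose D₀ hD₀ hD₀' using fun y : Y => eff_D (𝒜 := 𝒜) hP.finiteType y.1
    (hP.lineBundle y.1 (hNV y.1 y.2))
  obtain ⟨b, hb⟩ : ∃ b, ∀ y : Y, D₀ y ≤ b := by
    obtain ⟨b, hb⟩ := (Set.finite_range D₀).bddAbove
    exact ⟨b, fun y => hb ⟨y, rfl⟩⟩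
  obtain ⟨D, hDb, hDpos, hDk⟩ : ∃ D, b ≤ D ∧ 0 < D ∧ (D : k) ≠ 0 := by
    by_cases h1 : ((b + 1 : ℕ) : k) = 0
    · refine ⟨b + 2, by omega, by omega, ?_⟩
      intro h2
      push_cast at h1 h2
      have h3 : (1 : k) = 0 := by linear_combination h2 - h1
      exact one_ne_zero h3
    · exact ⟨b + 1, by omega, by omega, h1⟩
  choose x d g hfr hne using fun y : Y => hrk y.1 y.2
  have hg : ∀ y : Y, y.1 (g y) ≠ 0 := fun y h => hne y (by rw [map_mul, h, zero_mul])
  have hM : ∀ y : Y, y.1 (brM P (x y)).det ≠ 0 := fun y h => hne y (by rw [map_mul, h, mul_zero])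
  obtain ⟨z, hz⟩ := eff_exists_li (fun y : Y => (LinearMap.pi (fun j => y.1.toLinearMap ∘ₗ
    P (x y j) ∘ₗ (𝒜 D).subtype) : 𝒜 D →ₗ[k] (Fin N → k)))
    (fun y => eff_surj hP y.1 (hM y) (hD₀' y D ((hb y).trans hDb) hDk)) N le_rfl
  have hdet : ∀ y : Y, y.1 (Matrix.of fun j i => P (x y j) (z i : R)).det ≠ 0 := by
    intro y
    have h1 : IsUnit (Matrix.of fun i j => y.1 (P (x y j) (z i : R)) : Matrix (Fin N) (Fin N) k) :=
      Matrix.linearIndependent_rows_iff_isUnit.mp (hz y)
    rw [Matrix.isUnit_iff_isUnit_det, isUnit_iff_ne_zero] at h1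
    rw [AlgHom.map_det, ← Matrix.det_transpose]
    exact h1
  have hpt := fun y : Y => eff_point hP (hfr y) y.1 (hg y) hDpos (z := fun i => (z i : R))
    (fun i => (z i).2) (hdet y)
  choose l h hmem hyne hspan using fun y : Y => (hpt y).2
  obtain ⟨c, hc⟩ : ∃ c, ∀ y : Y, l y + D₀ y ≤ c := by
    obtain ⟨c, hc⟩ := (Set.finite_range fun y => l y + D₀ y).bddAbove
    exact ⟨c, fun y => hc ⟨y, rfl⟩⟩
  let W : Submodule k R := 𝒜 c ⊓ eff_I k (fun i => (z i : R))
  obtain ⟨w, hw⟩ := eff_avoid (fun y : Y => LinearMap.ker (y.1.toLinearMap ∘ₗ W.subtype)) (by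
    intro y htop
    obtain ⟨r, hr, hr1⟩ := hD₀ y (c - l y) (by have := hc y; omega)
    have h1 : h y * r ∈ W := by
      refine ⟨?_, ?_⟩
      · have h2 := SetLike.mul_mem_graded (hmem y) hr
        have h3 : l y + (c - l y) = c := by have := hc y; omega
        rwa [h3] at h2
      · intro s
        rw [mul_comm, mul_smul]
        exact Submodule.smul_mem _ _ (hspan y s)
    have h4 : (⟨h y * r, h1⟩ : W) ∈ LinearMap.ker (y.1.toLinearMap ∘ₗ W.subtype) := by
      rw [htop]; trivial
    rw [LinearMap.mem_ker] at h4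
    have h5 : y.1 (h y * r) = 0 := h4
    rw [map_mul, hr1, mul_one] at h5
    exact hyne y h5)
  refine ⟨fun i => (z i : R), fun _ => D, w, ⟨fun i => (z i).2, ⟨c, w.2.1⟩, fun r => ?_⟩, ?_⟩
  · have h1 := w.2.2 r
    rw [Submodule.mem_span_range_iff_exists_fun] at h1
    obtain ⟨c', hc'⟩ := h1
    exact ⟨c', hc'.symm⟩
  · intro y hy
    rw [map_mul]
    refine mul_ne_zero ?_ (hpt ⟨y, hy⟩).1
    intro h0
    exact hw ⟨y, hy⟩ (LinearMap.mem_ker.mpr h0)

end Vale.Agent.P292.Mo
end

section

/-! # P292, Mori step, block F4c: the rank is positive (Euler derivation). Owner helper777. -/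

namespace Vale.Agent.P292.Mo

universe u v w

section euler

variable {k : Type u} [Field k] {R : Type v} [CommRing R] [Algebra k R] (𝒜 : ℕ → Submodule k R)
  [GradedAlgebra 𝒜]

/-- The Euler map. -/
noncomputable def rkEuler : R →ₗ[k] R :=
  (DirectSum.toModule k ℕ R (fun n => (n : k) • (𝒜 n).subtype)) ∘ₗ
    (DirectSum.decomposeLinearEquiv 𝒜).toLinearMap

variable {𝒜}

theorem rkEuler_apply {n : ℕ} {r : R} (hr : r ∈ 𝒜 n) : rkEuler 𝒜 r = (n : k) • r := by
  change DirectSum.toModule k ℕ R (fun n => (n : k) • (𝒜 n).subtype)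
    (DirectSum.decompose 𝒜 r) = _
  rw [DirectSum.decompose_of_mem 𝒜 hr]
  change DirectSum.toModule k ℕ R (fun n => (n : k) • (𝒜 n).subtype)
    (DirectSum.lof k ℕ (fun n => 𝒜 n) n ⟨r, hr⟩) = _
  rw [DirectSum.toModule_lof]
  rfl

theorem rkEuler_ext (f g : R →ₗ[k] R) (h : ∀ n, ∀ r ∈ 𝒜 n, f r = g r) : f = g := by
  refine LinearMap.ext fun r => ?_
  induction r using DirectSum.Decomposition.inductionOn 𝒜 with
  | zero => rw [map_zero, map_zero]
  | homogeneous m => exact h _ m.1 m.2
  | add a b ha hb => rw [map_add, map_add, ha, hb]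

theorem rkEuler_mul (a b : R) :
    rkEuler 𝒜 (a * b) = a * rkEuler 𝒜 b + b * rkEuler 𝒜 a := by
  have h1 : ∀ b, (rkEuler 𝒜) ∘ₗ LinearMap.mulRight k b =
      LinearMap.mulRight k (rkEuler 𝒜 b) + LinearMap.mulLeft k b ∘ₗ rkEuler 𝒜 := by
    intro b
    refine rkEuler_ext (𝒜 := 𝒜) _ _ fun n r hr => ?_
    have h2 : (rkEuler 𝒜) ∘ₗ LinearMap.mulLeft k r =
        LinearMap.mulLeft k r ∘ₗ rkEuler 𝒜 + LinearMap.mulRight k (rkEuler 𝒜 r) := by
      refine rkEuler_ext (𝒜 := 𝒜) _ _ fun l s hs => ?_
      simp only [LinearMap.comp_apply, LinearMap.mulLeft_apply, LinearMap.add_apply,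
        LinearMap.mulRight_apply]
      rw [rkEuler_apply (SetLike.mul_mem_graded hr hs), rkEuler_apply hr, rkEuler_apply hs]
      simp only [Algebra.smul_def, Nat.cast_add, map_add, map_natCast]
      ring
    have h3 := LinearMap.congr_fun h2 b
    simp only [LinearMap.comp_apply, LinearMap.mulLeft_apply, LinearMap.add_apply,
      LinearMap.mulRight_apply] at h3 ⊢
    exact h3
  have h4 := LinearMap.congr_fun (h1 b) a
  simpa only [LinearMap.comp_apply, LinearMap.mulLeft_apply, LinearMap.add_apply,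
    LinearMap.mulRight_apply] using h4

variable (𝒜) in
/-- The Euler derivation. -/
noncomputable def rkEulerD : Derivation k R R :=
  Derivation.mk' (rkEuler 𝒜) fun a b => by
    rw [rkEuler_mul, smul_eq_mul, smul_eq_mul]

theorem rkEulerD_apply {n : ℕ} {r : R} (hr : r ∈ 𝒜 n) : rkEulerD 𝒜 r = (n : k) • r :=
  rkEuler_apply hr

end euler

/-- F4c: the rank is positive. -/
theorem rank_pos {k : Type u} [Field k] {R : Type v} [CommRing R] [Algebra k R]
    {𝒜 : ℕ → Submodule k R}
    [GradedAlgebra 𝒜] {P : R →ₗ[k] R →ₗ[k] R} [IsAlgClosed k] (p : ℕ) [Fact p.Prime] [CharP k p]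
    (hP : IsPM 𝒜 P) {y : R →ₐ[k] k} (hy : NV 𝒜 y) {N : ℕ} (h : HasRk 𝒜 P y N) : 0 < N := by
  rcases Nat.eq_zero_or_pos N with h0 | h0
  swap
  · exact h0
  exfalso
  subst h0
  obtain ⟨x, d, g, hF, hg⟩ := h
  have hg' : y g ≠ 0 := by
    rw [Matrix.det_isEmpty, mul_one] at hg
    exact hg
  have hd : ∀ n, ∀ r ∈ 𝒜 n, y r ≠ 0 → p ∣ n := by
    intro n r hr hyr
    obtain ⟨c, hc⟩ := hF.gen r
    rw [Finset.univ_eq_empty, Finset.sum_empty] at hc
    have h1 := congrArg (rkEulerD 𝒜).liftKaehlerDifferential hc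
    rw [map_smul, Derivation.liftKaehlerDifferential_comp_D, map_zero, rkEulerD_apply hr,
      smul_eq_mul] at h1
    have h2 := congrArg y h1
    rw [map_mul, map_smul, map_zero, smul_eq_mul] at h2
    have h3 : (n : k) = 0 := by
      rcases mul_eq_zero.1 h2 with h4 | h4
      · exact absurd h4 hg'
      · exact (mul_eq_zero.1 h4).resolve_right hyr
    exact (CharP.cast_eq_zero_iff k p n).1 h3
  exact (Fact.out : p.Prime).one_lt.ne' (hP.lineBundle y hy p hd)

end Vale.Agent.P292.Mo
end

section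

/-! # Spreading out: finite data for graded algebras with a bracket. -/

namespace Vale.Agent.P292.Mo

open MvPolynomial

universe u v w

/-- Finite data describing a graded algebra with a bracket over an arbitrary base ring:
weights `d` of the generators, degrees `e` of the relations `F`, brackets `π` of the generators. -/
structure Dat (A : Type u) [CommRing A] (M L : ℕ) where
  d : Fin M → ℕ
  e : Fin L → ℕ
  F : Fin L → MvPolynomial (Fin M) A
  π : Fin M → Fin M → MvPolynomial (Fin M) A

namespace Dat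

variable {A : Type u} [CommRing A] {M L : ℕ}

/-- The ideal of relations. -/
noncomputable def I (D : Dat A M L) : Ideal (MvPolynomial (Fin M) A) := Ideal.span (Set.range D.F)

/-- The algebra. -/
abbrev Rg (D : Dat A M L) : Type u := MvPolynomial (Fin M) A ⧸ D.I

/-- The class of a polynomial. -/
noncomputable abbrev q (D : Dat A M L) : MvPolynomial (Fin M) A →ₐ[A] D.Rg := Ideal.Quotient.mkₐ A D.I

/-- The graded pieces. -/
noncomputable def gr (D : Dat A M L) (n : ℕ) : Submodule A D.Rg :=
  (weightedHomogeneousSubmodule A D.d n).map D.q.toLinearMap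

/-- The bracket of two polynomials. -/
noncomputable def pbr (D : Dat A M L) (a b : MvPolynomial (Fin M) A) : MvPolynomial (Fin M) A :=
  ∑ i, ∑ j, pderiv i a * pderiv j b * D.π i j

/-- The matrix of brackets. -/
noncomputable def pbrM (D : Dat A M L) {N : ℕ} (x : Fin N → MvPolynomial (Fin M) A) :
    Matrix (Fin N) (Fin N) (MvPolynomial (Fin M) A) :=
  Matrix.of fun i j => D.pbr (x i) (x j)

/-- Change of the base ring. -/
noncomputable def map {B : Type v} [CommRing B] (j : A →+* B) (D : Dat A M L) : Dat B M L where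
  d := D.d
  e := D.e
  F := fun l => MvPolynomial.map j (D.F l)
  π := fun i i' => MvPolynomial.map j (D.π i i')

/-- Validity of the data. -/
structure IsOK (D : Dat A M L) : Prop where
  pos : ∀ i, 0 < D.d i
  homF : ∀ l, IsWeightedHomogeneous D.d (D.F l) (D.e l)
  homπ : ∀ i j n, D.d i + D.d j = n + 1 → IsWeightedHomogeneous D.d (D.π i j) n
  alt : ∀ i, D.π i i = 0
  skew : ∀ i j, D.π i j = - D.π j i
  desc : ∀ l j, ∑ i, pderiv i (D.F l) * D.π i j ∈ D.I

end Dat

/-- `D` is a presentation of the graded Poisson algebra `(R, 𝒜, P)`. -/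
structure IsPres {R : Type u} [CommRing R] [Algebra ℂ R] (𝒜 : ℕ → Submodule ℂ R)
    (P : R →ₗ[ℂ] R →ₗ[ℂ] R) {M L : ℕ} (D : Dat ℂ M L)
    (ev : MvPolynomial (Fin M) ℂ →ₐ[ℂ] R) : Prop where
  ok : D.IsOK
  surj : Function.Surjective ev
  ker : ∀ p, ev p = 0 ↔ p ∈ D.I
  hom : ∀ i, ev (X i) ∈ 𝒜 (D.d i)
  lift : ∀ n, ∀ r ∈ 𝒜 n, ∃ p, IsWeightedHomogeneous D.d p n ∧ ev p = r
  br : ∀ i j, ev (D.π i j) = P (ev (X i)) (ev (X j))

end Vale.Agent.P292.Mo
end

section

/-! # Spreading out: polynomials and memberships in ideals. -/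

namespace Vale.Agent.P292.Mo

open MvPolynomial

universe u v w

/-- A polynomial over `ℂ` whose coefficients lie in a subalgebra comes from the subalgebra. -/
theorem lift_poly_iff {σ : Type w} (A : Subalgebra ℤ ℂ) (p : MvPolynomial σ ℂ) :
    (∃ q : MvPolynomial σ A, MvPolynomial.map (algebraMap A ℂ) q = p) ↔
      ∀ m, coeff m p ∈ A := by
  constructor
  · rintro ⟨q, rfl⟩ m
    rw [coeff_map]
    exact (coeff m q).2
  · intro h
    have h1 : p ∈ Set.range (MvPolynomial.map (σ := σ) (algebraMap A ℂ)) := by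
      rw [MvPolynomial.mem_range_map_iff_coeffs_subset]
      intro c hc
      rw [Finset.mem_coe, MvPolynomial.mem_coeffs_iff] at hc
      obtain ⟨m, -, rfl⟩ := hc
      exact ⟨⟨coeff m p, h m⟩, rfl⟩
    exact h1

theorem map_algebraMap_injective {σ : Type w} (A : Subalgebra ℤ ℂ) :
    Function.Injective (MvPolynomial.map (σ := σ) (algebraMap A ℂ)) :=
  MvPolynomial.map_injective _ Subtype.val_injective

/-- Finitely many finitely generated subalgebras are contained in a finitely generated one. -/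
theorem exists_fg_of_forall {ι : Type w} [Finite ι] (Φ : ι → Subalgebra ℤ ℂ → Prop)
    (h : ∀ i, ∃ A₀ : Subalgebra ℤ ℂ, A₀.FG ∧ ∀ A : Subalgebra ℤ ℂ, A₀ ≤ A → Φ i A) :
    ∃ A₀ : Subalgebra ℤ ℂ, A₀.FG ∧ ∀ A : Subalgebra ℤ ℂ, A₀ ≤ A → ∀ i, Φ i A := by
  classical
  have := Fintype.ofFinite ι
  choose B hB hB' using h
  refine ⟨Finset.univ.sup B, ?_, fun A hA i => hB' i A (le_trans (Finset.le_sup (Finset.mem_univ i)) hA)⟩
  refine Finset.sup_induction (p := fun A : Subalgebra ℤ ℂ => A.FG) ?_ ?_ fun i _ => hB i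
  · exact Subalgebra.fg_bot
  · intro a ha b hb
    exact Subalgebra.FG.sup ha hb

/-- Every finite set of complex numbers lies in a finitely generated subalgebra. -/
theorem exists_fg_of_finite (S : Set ℂ) (hS : S.Finite) :
    ∃ A₀ : Subalgebra ℤ ℂ, A₀.FG ∧ ∀ A : Subalgebra ℤ ℂ, A₀ ≤ A → S ⊆ A :=
  ⟨Algebra.adjoin ℤ S, Subalgebra.fg_def.mpr ⟨S, hS, rfl⟩, fun _ hA =>
    subset_trans Algebra.subset_adjoin hA⟩

/-- T0. -/
theorem exists_lift_poly {σ : Type v} {ι : Type w} [Finite ι] (p : ι → MvPolynomial σ ℂ) :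
    ∃ A₀ : Subalgebra ℤ ℂ, A₀.FG ∧ ∀ A : Subalgebra ℤ ℂ, A₀ ≤ A →
      ∀ i, ∃ q : MvPolynomial σ A, MvPolynomial.map (algebraMap A ℂ) q = p i := by
  classical
  refine exists_fg_of_forall _ fun i => ?_
  obtain ⟨A₀, h1, h2⟩ := exists_fg_of_finite ((p i).coeffs : Set ℂ) (Finset.finite_toSet _)
  refine ⟨A₀, h1, fun A hA => (lift_poly_iff A _).mpr fun m => ?_⟩
  by_cases hm : coeff m (p i) = 0
  · rw [hm]; exact zero_mem A
  · exact h2 A hA (by
      rw [Finset.mem_coe, MvPolynomial.mem_coeffs_iff]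
      exact ⟨m, by rwa [mem_support_iff], rfl⟩)

/-- T1: memberships in ideals spread out. -/
theorem mem_spread {σ : Type w} {ι : Type u} [Finite ι] (G : ι → MvPolynomial σ ℂ)
    (p : MvPolynomial σ ℂ) (h : p ∈ Ideal.span (Set.range G)) :
    ∃ A₀ : Subalgebra ℤ ℂ, A₀.FG ∧ ∀ A : Subalgebra ℤ ℂ, A₀ ≤ A →
      ∀ (G' : ι → MvPolynomial σ A) (p' : MvPolynomial σ A),
        (∀ i, MvPolynomial.map (algebraMap A ℂ) (G' i) = G i) →
        MvPolynomial.map (algebraMap A ℂ) p' = p →
        p' ∈ Ideal.span (Set.range G') ∧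
        ∀ (k : Type v) [CommRing k] (j : A →+* k),
          MvPolynomial.map j p' ∈ Ideal.span (Set.range fun i => MvPolynomial.map j (G' i)) := by
  classical
  have := Fintype.ofFinite ι
  obtain ⟨c, hc⟩ := (Ideal.mem_span_range_iff_exists_fun).mp h
  obtain ⟨A₀, h1, h2⟩ := exists_lift_poly c
  refine ⟨A₀, h1, fun A hA G' p' hG hp => ?_⟩
  choose c' hc' using h2 A hA
  have h3 : p' = ∑ i, c' i * G' i := by
    apply map_algebraMap_injective A
    rw [map_sum, hp, ← hc]
    exact Finset.sum_congr rfl fun i _ => by rw [map_mul, hc', hG]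
  refine ⟨?_, fun k _ j => ?_⟩
  · rw [h3]
    exact sum_mem fun i _ => Ideal.mul_mem_left _ _ (Ideal.subset_span ⟨i, rfl⟩)
  · rw [h3, map_sum]
    refine sum_mem fun i _ => ?_
    rw [map_mul]
    exact Ideal.mul_mem_left _ _ (Ideal.subset_span ⟨i, rfl⟩)

end Vale.Agent.P292.Mo
end

section

/-! # Spreading out: tools for the final assembly. -/

namespace Vale.Agent.P292.Mo

open MvPolynomial

universe u v w

/-- Weighted homogeneity of the image under a change of the coefficients. -/
theorem asm_wh_map {σ : Type w} {A : Type u} {B : Type v} [CommRing A] [CommRing B] (j : A →+* B)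
    {d : σ → ℕ} {p : MvPolynomial σ A} {n : ℕ} (h : IsWeightedHomogeneous d p n) :
    IsWeightedHomogeneous d (MvPolynomial.map j p) n := by
  intro m hm
  refine h fun h0 => hm ?_
  rw [coeff_map, h0, map_zero]

theorem asm_wh_of_map {σ : Type w} {A : Type u} {B : Type v} [CommRing A] [CommRing B]
    {j : A →+* B} (hj : Function.Injective j)
    {d : σ → ℕ} {p : MvPolynomial σ A} {n : ℕ}
    (h : IsWeightedHomogeneous d (MvPolynomial.map j p) n) : IsWeightedHomogeneous d p n := by
  intro m hm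
  refine h ?_
  rw [coeff_map]
  exact fun h0 => hm (hj (by rw [h0, map_zero]))

/-- Polynomials without constant term vanish at the origin. -/
theorem asm_eval_zero {M : ℕ} {A : Type u} {E : Type v} [CommRing A] [CommRing E]
    (j : A →+* E) {d : Fin M → ℕ} {p : MvPolynomial (Fin M) A} {n : ℕ} (hn : 0 < n)
    (h : IsWeightedHomogeneous d p n) {z : Fin M → E} (hz : ∀ i, z i = 0) :
    eval₂ j z p = 0 := by
  have h1 : z = fun _ => 0 := funext hz
  rw [eval₂_eq', h1]
  refine Finset.sum_eq_zero fun m hm => ?_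
  have h2 : m ≠ 0 := by
    rintro rfl
    have := h (mem_support_iff.mp hm)
    rw [map_zero] at this
    omega
  obtain ⟨i, hi⟩ := Finsupp.ne_iff.mp h2
  rw [Finset.prod_eq_zero (Finset.mem_univ i), mul_zero]
  exact zero_pow (by simpa using hi)

theorem asm_pderiv_map {A : Type u} {B : Type v} [CommRing A] [CommRing B] (j : A →+* B)
    {M : ℕ} (i : Fin M) (p : MvPolynomial (Fin M) A) :
    pderiv i (MvPolynomial.map j p) = MvPolynomial.map j (pderiv i p) := by
  induction p using MvPolynomial.induction_on with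
  | C a => rw [map_C, pderiv_C, pderiv_C, map_zero]
  | add p q hp hq => rw [map_add, map_add, map_add, map_add, hp, hq]
  | mul_X p l hp =>
    rw [map_mul, Derivation.leibniz, Derivation.leibniz, map_add, hp, map_X, smul_eq_mul,
      smul_eq_mul, smul_eq_mul, smul_eq_mul, map_mul, map_mul, map_X]
    congr 2
    classical
    rw [pderiv_X, pderiv_X, Pi.single_apply, Pi.single_apply]
    split_ifs <;> simp

theorem asm_pbr_map {A : Type u} {B : Type v} [CommRing A] [CommRing B] (j : A →+* B)
    {M L : ℕ} (D : Dat A M L) (a b : MvPolynomial (Fin M) A) :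
    (D.map j).pbr (MvPolynomial.map j a) (MvPolynomial.map j b) = MvPolynomial.map j (D.pbr a b) := by
  simp only [Dat.pbr, Dat.map, asm_pderiv_map, map_sum, map_mul]

theorem asm_det_map {A : Type u} {B : Type v} [CommRing A] [CommRing B] (j : A →+* B)
    {M L n : ℕ} (D : Dat A M L) (y : Fin n → MvPolynomial (Fin M) A) :
    ((D.map j).pbrM fun i => MvPolynomial.map j (y i)).det = MvPolynomial.map j (D.pbrM y).det := by
  have h1 : (D.map j).pbrM (fun i => MvPolynomial.map j (y i)) =
      (MvPolynomial.map j).mapMatrix (D.pbrM y) := by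
    ext1 i i'
    exact asm_pbr_map j D _ _
  rw [h1, ← RingHom.map_det]

/-- The determinant of the brackets of classes of polynomials. -/
theorem asm_det_q {k : Type u} [Field k] {M L n : ℕ} (D : Dat k M L)
    (Q : D.Rg →ₗ[k] D.Rg →ₗ[k] D.Rg) (hQ : ∀ a b, Q (D.q a) (D.q b) = D.q (D.pbr a b))
    (y : Fin n → MvPolynomial (Fin M) k) : (brM Q fun i => D.q (y i)).det = D.q (D.pbrM y).det := by
  have h1 : brM Q (fun i => D.q (y i)) = D.q.toRingHom.mapMatrix (D.pbrM y) := by
    ext1 i i'
    exact hQ _ _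
  rw [h1, ← RingHom.map_det]
  rfl

/-- The bracket of two values. -/
theorem asm_ev_pbr {R : Type u} [CommRing R] [Algebra ℂ R] {𝒜 : ℕ → Submodule ℂ R}
    {P : R →ₗ[ℂ] R →ₗ[ℂ] R} (halt : ∀ a, P a a = 0)
    (hl : ∀ a b c, P a (b * c) = P a b * c + b * P a c)
    {M L : ℕ} {D : Dat ℂ M L} {ev : MvPolynomial (Fin M) ℂ →ₐ[ℂ] R}
    (hD : IsPres 𝒜 P D ev) (a b : MvPolynomial (Fin M) ℂ) :
    ev (D.pbr a b) = P (ev a) (ev b) := by
  have hsk : ∀ a b, P a b = - P b a := by
    intro a b
    have h1 := halt (a + b)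
    simp only [map_add, LinearMap.add_apply, halt, zero_add, add_zero] at h1
    exact eq_neg_of_add_eq_zero_right h1
  have hC : ∀ (a : R) (c : ℂ), P a (algebraMap ℂ R c) = 0 := by
    intro a c
    have h1 : P a 1 = 0 := by
      have := hl a 1 1
      rw [mul_one, mul_one, one_mul] at this
      exact left_eq_add.mp this
    rw [Algebra.algebraMap_eq_smul_one, map_smul, h1, smul_zero]
  -- the expansion in the second argument
  have hR : ∀ (r : R) (b : MvPolynomial (Fin M) ℂ),
      P r (ev b) = ∑ i, ev (pderiv i b) * P r (ev (X i)) := by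
    intro r b
    induction b using MvPolynomial.induction_on with
    | C c =>
      have : ev (C c) = algebraMap ℂ R c := ev.commutes c
      rw [this, hC]
      refine (Finset.sum_eq_zero fun i _ => ?_).symm
      rw [pderiv_C, map_zero, zero_mul]
    | add p q hp hq =>
      rw [map_add, map_add, hp, hq, ← Finset.sum_add_distrib]
      refine Finset.sum_congr rfl fun i _ => ?_
      rw [map_add, map_add, add_mul]
    | mul_X p l hp =>
      rw [map_mul, hl, hp, Finset.sum_mul]
      have h1 : ∀ i, ev (pderiv i (p * X l)) * P r (ev (X i)) =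
          ev (pderiv i p) * P r (ev (X i)) * ev (X l) +
            (if i = l then ev p * P r (ev (X l)) else 0) := by
        intro i
        classical
        rw [Derivation.leibniz, smul_eq_mul, smul_eq_mul, pderiv_X, Pi.single_apply, map_add,
          map_mul, map_mul]
        by_cases h : i = l
        · subst h
          rw [if_pos rfl, if_pos rfl, map_one]
          ring
        · rw [if_neg h, if_neg (Ne.symm h), map_zero]
          ring
      rw [Finset.sum_congr rfl fun i _ => h1 i, Finset.sum_add_distrib,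
        Finset.sum_ite_eq' Finset.univ l, if_pos (Finset.mem_univ l)]
  have hLft : ∀ (r : R) (a : MvPolynomial (Fin M) ℂ),
      P (ev a) r = ∑ i, ev (pderiv i a) * P (ev (X i)) r := by
    intro r a
    rw [hsk, hR, ← Finset.sum_neg_distrib]
    refine Finset.sum_congr rfl fun i _ => ?_
    rw [hsk (ev (X i)) r]
    ring
  rw [hLft, Dat.pbr, map_sum]
  refine Finset.sum_congr rfl fun i _ => ?_
  rw [hR, Finset.mul_sum, map_sum]
  refine Finset.sum_congr rfl fun l _ => ?_
  rw [map_mul, map_mul, hD.br]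
  ring


/-- The homomorphism from the algebra of the data given by a solution of the relations. -/
theorem asm_exists_point {A : Type u} [CommRing A] {k : Type v} [Field k] (j : A →+* k)
    {M L : ℕ} (D : Dat A M L) (z : Fin M → k) (hz : ∀ l, eval₂ j z (D.F l) = 0) :
    ∃ w : (D.map j).Rg →ₐ[k] k, ∀ p : MvPolynomial (Fin M) A,
      w ((D.map j).q (MvPolynomial.map j p)) = eval₂ j z p := by
  have h1 : ∀ a ∈ (D.map j).I, aeval z a = 0 := by
    intro a ha
    have h2 : (D.map j).I ≤ RingHom.ker (aeval z : MvPolynomial (Fin M) k →ₐ[k] k) := by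
      rw [Dat.I, Ideal.span_le]
      rintro _ ⟨l, rfl⟩
      rw [SetLike.mem_coe, RingHom.mem_ker]
      change aeval z (MvPolynomial.map j (D.F l)) = 0
      rw [aeval_def, Algebra.algebraMap_self, eval₂_map]
      exact hz l
    exact h2 ha
  refine ⟨Ideal.Quotient.liftₐ _ (aeval z) h1, fun p => ?_⟩
  have h3 : (Ideal.Quotient.liftₐ (D.map j).I (aeval z) h1) ((D.map j).q (MvPolynomial.map j p)) =
      aeval z (MvPolynomial.map j p) := rfl
  rw [h3, aeval_def, Algebra.algebraMap_self, eval₂_map]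
  rfl

theorem asm_finiteType_int {B : Type u} [CommRing B] (h : (Int.castRingHom B).FiniteType) :
    Algebra.FiniteType ℤ B := by
  have h1 : Int.castRingHom B = algebraMap ℤ B := RingHom.ext_int _ _
  rw [h1] at h
  exact RingHom.finiteType_algebraMap.mp h

/-- Finite type over the integers. -/
theorem asm_finiteType {A : Subalgebra ℤ ℂ} (hA : A.FG) {M L : ℕ} (D : Dat A M L) (g : D.Rg) :
    (Int.castRingHom (Localization.Away g)).FiniteType := by
  have h1 : Algebra.FiniteType ℤ A := (Subalgebra.fg_iff_finiteType A).mp hA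
  have h2 : (algebraMap ℤ A).FiniteType := RingHom.finiteType_algebraMap.mpr h1
  have h3 : (C : A →+* MvPolynomial (Fin M) A).FiniteType := by
    have : Algebra.FiniteType A (MvPolynomial (Fin M) A) := inferInstance
    exact RingHom.finiteType_algebraMap.mpr this
  have h4 : (Ideal.Quotient.mk D.I).FiniteType :=
    RingHom.FiniteType.of_surjective _ Ideal.Quotient.mk_surjective
  have h5 : (algebraMap D.Rg (Localization.Away g)).FiniteType := by
    have : Algebra.FiniteType D.Rg (Localization.Away g) :=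
      IsLocalization.finiteType_of_monoid_fg (Submonoid.powers g) _
    exact RingHom.finiteType_algebraMap.mpr this
  have h6 := h5.comp (h4.comp (h3.comp h2))
  have h7 : ((algebraMap D.Rg (Localization.Away g)).comp ((Ideal.Quotient.mk D.I).comp
      ((C : A →+* MvPolynomial (Fin M) A).comp (algebraMap ℤ A)))) =
      Int.castRingHom (Localization.Away g) := RingHom.ext_int _ _
  rw [h7] at h6
  exact h6

end Vale.Agent.P292.Mo
end

section

/-! # Spreading out: the grading of the algebra given by finite data. -/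

namespace Vale.Agent.P292.Mo

open MvPolynomial

universe u v w

section modelgr

variable {A : Type u} [CommRing A] {M L : ℕ}

theorem modelgr_mem (D : Dat A M L) {n : ℕ} {p : MvPolynomial (Fin M) A}
    (hp : IsWeightedHomogeneous D.d p n) : D.q p ∈ D.gr n :=
  Submodule.mem_map_of_mem (f := D.q.toLinearMap)
    ((mem_weightedHomogeneousSubmodule A D.d n p).2 hp)

instance modelgr_monoid (D : Dat A M L) : SetLike.GradedMonoid D.gr where
  one_mem := by
    have := modelgr_mem D (isWeightedHomogeneous_one A D.d)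
    rwa [map_one] at this
  mul_mem := by
    rintro i j _ _ ⟨a, ha, rfl⟩ ⟨b, hb, rfl⟩
    have := modelgr_mem D (IsWeightedHomogeneous.mul ha hb)
    rwa [map_mul] at this

/-- The coaction, on polynomials. -/
noncomputable def modelgr_f (D : Dat A M L) :
    MvPolynomial (Fin M) A →ₐ[A] DirectSum ℕ (fun n => D.gr n) :=
  aeval fun i => DirectSum.of (fun n => D.gr n) (D.d i)
    ⟨D.q (X i), modelgr_mem D (isWeightedHomogeneous_X A D.d i)⟩

theorem modelgr_coe (D : Dat A M L) (p : MvPolynomial (Fin M) A) :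
    DirectSum.coeAlgHom D.gr (modelgr_f D p) = D.q p := by
  have : (DirectSum.coeAlgHom D.gr).comp (modelgr_f D) = D.q := by
    ext i
    rw [AlgHom.comp_apply, modelgr_f, aeval_X, DirectSum.coeAlgHom_of]
  rw [← this, AlgHom.comp_apply]

/-- The elements of degree `n` of the direct sum. -/
noncomputable def modelgr_S (D : Dat A M L) (n : ℕ) : Submodule A (DirectSum ℕ (fun n => D.gr n)) :=
  LinearMap.range (DirectSum.lof A ℕ (fun n => D.gr n) n)

theorem modelgr_one (D : Dat A M L) : (1 : DirectSum ℕ (fun n => D.gr n)) ∈ modelgr_S D 0 :=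
  ⟨1, rfl⟩

theorem modelgr_mul (D : Dat A M L) {i j : ℕ} {x y : DirectSum ℕ (fun n => D.gr n)}
    (hx : x ∈ modelgr_S D i) (hy : y ∈ modelgr_S D j) : x * y ∈ modelgr_S D (i + j) := by
  obtain ⟨a, rfl⟩ := hx
  obtain ⟨b, rfl⟩ := hy
  exact ⟨GradedMonoid.GMul.mul (A := fun n => D.gr n) a b,
    (DirectSum.of_mul_of (A := fun n => D.gr n) a b).symm⟩

theorem modelgr_pow (D : Dat A M L) {i : ℕ} {x : DirectSum ℕ (fun n => D.gr n)}
    (hx : x ∈ modelgr_S D i) (m : ℕ) : x ^ m ∈ modelgr_S D (m * i) := by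
  induction m with
  | zero => rw [pow_zero, zero_mul]; exact modelgr_one D
  | succ m ih => rw [pow_succ, Nat.succ_mul]; exact modelgr_mul D ih hx

theorem modelgr_monomial (D : Dat A M L) (m : Fin M →₀ ℕ) :
    modelgr_f D (monomial m 1) ∈ modelgr_S D (Finsupp.weight D.d m) := by
  induction m using Finsupp.induction_linear with
  | zero =>
    rw [map_zero]
    have : (monomial 0 1 : MvPolynomial (Fin M) A) = 1 := rfl
    rw [this, map_one]
    exact modelgr_one D
  | add m m' h h' =>
    rw [map_add, ← mul_one (1 : A), ← monomial_mul, map_mul]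
    exact modelgr_mul D h h'
  | single i c =>
    rw [← X_pow_eq_monomial, map_pow, Finsupp.weight_single, smul_eq_mul]
    refine modelgr_pow D ?_ c
    rw [modelgr_f, aeval_X]
    exact ⟨_, rfl⟩

theorem modelgr_hom (D : Dat A M L) {n : ℕ} {p : MvPolynomial (Fin M) A}
    (hp : IsWeightedHomogeneous D.d p n) :
    modelgr_f D p = DirectSum.of (fun n => D.gr n) n ⟨D.q p, modelgr_mem D hp⟩ := by
  have h : modelgr_f D p ∈ modelgr_S D n := by
    rw [p.as_sum, map_sum]
    refine Submodule.sum_mem _ fun m hm => ?_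
    have h1 := modelgr_monomial D m
    rw [hp (mem_support_iff.1 hm)] at h1
    have h2 : (monomial m (coeff m p) : MvPolynomial (Fin M) A) = coeff m p • monomial m 1 := by
      rw [smul_monomial, smul_eq_mul, mul_one]
    rw [h2, map_smul]
    exact Submodule.smul_mem _ _ h1
  obtain ⟨y, hy⟩ := h
  have h3 := modelgr_coe D p
  rw [← hy, DirectSum.lof_eq_of, DirectSum.coeAlgHom_of] at h3
  rw [← hy, DirectSum.lof_eq_of]
  congr 1
  exact Subtype.ext h3

theorem modelgr_I (D : Dat A M L) (h : D.IsOK) (p : MvPolynomial (Fin M) A) (hp : p ∈ D.I) :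
    modelgr_f D p = 0 := by
  have h1 : D.I ≤ RingHom.ker (modelgr_f D) := by
    refine Ideal.span_le.2 ?_
    rintro _ ⟨l, rfl⟩
    rw [SetLike.mem_coe, RingHom.mem_ker, modelgr_hom D (h.homF l)]
    have h2 : (⟨D.q (D.F l), modelgr_mem D (h.homF l)⟩ : D.gr (D.e l)) = 0 := by
      apply Subtype.ext
      exact Ideal.Quotient.eq_zero_iff_mem.2 (Ideal.subset_span ⟨l, rfl⟩)
    rw [h2, map_zero]
  exact h1 hp

/-- The coaction. -/
noncomputable def modelgr_g (D : Dat A M L) (h : D.IsOK) :
    D.Rg →ₐ[A] DirectSum ℕ (fun n => D.gr n) :=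
  Ideal.Quotient.liftₐ D.I (modelgr_f D) (modelgr_I D h)

theorem modelgr_g_q (D : Dat A M L) (h : D.IsOK) (p : MvPolynomial (Fin M) A) :
    modelgr_g D h (D.q p) = modelgr_f D p := rfl

/-- The grading. -/
@[instance_reducible]
noncomputable def modelgr_graded (D : Dat A M L) (h : D.IsOK) : GradedAlgebra D.gr :=
  GradedAlgebra.ofAlgHom D.gr (modelgr_g D h)
    (by
      apply AlgHom.ext
      intro r
      obtain ⟨p, rfl⟩ := Ideal.Quotient.mkₐ_surjective A D.I r
      rw [AlgHom.comp_apply, modelgr_g_q, modelgr_coe, AlgHom.id_apply])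
    (by
      rintro i ⟨_, p, hp, rfl⟩
      exact modelgr_hom D hp)

theorem modelgr_connected (D : Dat A M L) (h : D.IsOK) (r : D.Rg) (hr : r ∈ D.gr 0) :
    ∃ c : A, r = algebraMap A D.Rg c := by
  obtain ⟨p, hp, rfl⟩ := hr
  have h1 : p = C (coeff 0 p) := by
    rw [← weightedHomogeneousComponent_zero p (fun i => (h.pos i).ne')]
    exact (IsWeightedHomogeneous.weightedHomogeneousComponent_same hp).symm
  refine ⟨coeff 0 p, ?_⟩
  rw [AlgHom.toLinearMap_apply]
  conv_lhs => rw [h1]
  exact D.q.commutes (coeff 0 p)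

end modelgr

section model

variable {k : Type u} [Field k] {M L : ℕ}

/-- M1 -/
theorem Dat.nonempty_gradedAlgebra (D : Dat k M L) (h : D.IsOK) : Nonempty (GradedAlgebra D.gr) :=
  ⟨modelgr_graded D h⟩

/-- M2 -/
theorem Dat.connected (D : Dat k M L) (h : D.IsOK) :
    ∀ r ∈ D.gr 0, ∃ c : k, r = algebraMap k D.Rg c :=
  fun r hr => modelgr_connected D h r hr

end model

end Vale.Agent.P292.Mo
end

section

/-! # Spreading out: algebraic independence from a nonvanishing determinant. -/

namespace Vale.Agent.P292.Mo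

open MvPolynomial

universe u v w

/-- The homomorphism to the dual numbers given by a point and a tangent vector. -/
theorem indep_dual {k : Type u} [Field k] {R : Type v} [CommRing R] [Algebra k R]
    (w : R →ₐ[k] k) (δ : R →ₗ[k] k) (hδ : ∀ r s, δ (r * s) = w r * δ s + w s * δ r)
    {T : Type w} [CommRing T] [Algebra k T] (ε : T) (hε : ε * ε = 0) :
    ∃ g : R →ₐ[k] T, ∀ r, g r = algebraMap k T (w r) + algebraMap k T (δ r) * ε := by
  have hδ1 : δ 1 = 0 := by
    have h := hδ 1 1
    rw [mul_one, map_one w, one_mul] at h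
    exact left_eq_add.mp h
  refine ⟨AlgHom.ofLinearMap
    ((Algebra.linearMap k T).comp w.toLinearMap +
      (LinearMap.toSpanSingleton k T ε).comp δ) ?_ ?_, fun r => ?_⟩
  · simp [hδ1]
  · intro r t
    simp only [LinearMap.add_apply, LinearMap.comp_apply, AlgHom.toLinearMap_apply,
      Algebra.linearMap_apply, LinearMap.toSpanSingleton_apply, map_mul, hδ, Algebra.smul_def,
      map_add]
    linear_combination (- (algebraMap k T (δ r)) * (algebraMap k T (δ t))) * hε
  · simp [Algebra.smul_def]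

/-- Lifting along a nilpotent thickening, at a smooth point. -/
theorem indep_lift {k : Type u} [Field k] {R : Type v} [CommRing R] [Algebra k R]
    (w : R →ₐ[k] k) (δ : R →ₗ[k] k) (hδ : ∀ r s, δ (r * s) = w r * δ s + w s * δ r)
    (s : R) (hs : w s ≠ 0) (hsm : Algebra.FormallySmooth k (Localization.Away s))
    {B : Type w} [CommRing B] [Algebra k B] (x : B) (N : ℕ) (hxN : x ^ N = 0) :
    ∃ γ : R →ₐ[k] B, ∀ r, ∃ c : B,
      γ r = algebraMap k B (w r) + algebraMap k B (δ r) * x + x ^ 2 * c := by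
  set I : Ideal B := Ideal.span {x ^ 2} with hI
  have hnil : IsNilpotent I := by
    refine ⟨N, ?_⟩
    rw [hI, Ideal.span_singleton_pow, ← pow_mul, mul_comm, pow_mul, hxN, Ideal.zero_eq_bot,
      Ideal.span_singleton_eq_bot]
    ring
  have hεε : Ideal.Quotient.mk I x * Ideal.Quotient.mk I x = 0 := by
    rw [← map_mul, Ideal.Quotient.eq_zero_iff_mem, hI, ← pow_two]
    exact Ideal.mem_span_singleton_self _
  obtain ⟨g0, hg0a⟩ := indep_dual w δ hδ (Ideal.Quotient.mk I x) hεε
  have hu : IsUnit (g0 s) := by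
    have h1 : g0 s * (algebraMap k (B ⧸ I) (w s) -
        algebraMap k (B ⧸ I) (δ s) * Ideal.Quotient.mk I x) =
        algebraMap k (B ⧸ I) (w s * w s) := by
      rw [hg0a, map_mul]
      linear_combination (- (algebraMap k (B ⧸ I) (δ s)) *
        (algebraMap k (B ⧸ I) (δ s))) * hεε
    have h2 : IsUnit (algebraMap k (B ⧸ I) (w s * w s)) :=
      (IsUnit.mk0 _ (mul_ne_zero hs hs)).map _
    rw [← h1] at h2
    exact isUnit_of_mul_isUnit_left h2
  have hu' : ∀ t : Submonoid.powers s, IsUnit (g0 t) := by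
    rintro ⟨_, n, rfl⟩
    change IsUnit (g0 (s ^ n))
    rw [map_pow]
    exact hu.pow n
  obtain ⟨f, hf⟩ := Algebra.FormallySmooth.exists_lift (R := k) (A := Localization.Away s) I hnil
    (IsLocalization.liftAlgHom (M := Submonoid.powers s) (f := g0) hu')
  refine ⟨f.comp (IsScalarTower.toAlgHom k R (Localization.Away s)), fun r => ?_⟩
  have h1 : Ideal.Quotient.mk I (f (algebraMap R (Localization.Away s) r)) = g0 r := by
    have h2 := DFunLike.congr_fun hf (algebraMap R (Localization.Away s) r)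
    rw [AlgHom.comp_apply, Ideal.Quotient.mkₐ_eq_mk, IsLocalization.liftAlgHom_apply,
      IsLocalization.lift_eq] at h2
    exact h2
  have h3 : Ideal.Quotient.mk I (f (algebraMap R (Localization.Away s) r)) =
      Ideal.Quotient.mk I (algebraMap k B (w r) + algebraMap k B (δ r) * x) := by
    rw [h1, hg0a, map_add, map_mul]
    rfl
  rw [Ideal.Quotient.eq, hI, Ideal.mem_span_singleton] at h3
  obtain ⟨c, hc⟩ := h3
  refine ⟨c, ?_⟩
  rw [← hc]
  change f (algebraMap R (Localization.Away s) r) = _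
  ring

/-- A truncated arc with a given tangent vector at a smooth point. -/
theorem indep_arc {k : Type u} [Field k] {R : Type v} [CommRing R] [Algebra k R]
    (w : R →ₐ[k] k) (δ : R →ₗ[k] k) (hδ : ∀ r s, δ (r * s) = w r * δ s + w s * δ r)
    (s : R) (hs : w s ≠ 0) (hsm : Algebra.FormallySmooth k (Localization.Away s)) (N : ℕ) :
    ∃ γ : R →ₐ[k] (Polynomial k ⧸ Ideal.span {(Polynomial.X : Polynomial k) ^ N}),
      ∀ r, ∃ q : Polynomial k, γ r =
        Ideal.Quotient.mk (Ideal.span {(Polynomial.X : Polynomial k) ^ N})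
        (Polynomial.C (w r) + Polynomial.C (δ r) * Polynomial.X + Polynomial.X ^ 2 * q) := by
  have hxN : (Ideal.Quotient.mk (Ideal.span {(Polynomial.X : Polynomial k) ^ N}) Polynomial.X) ^ N
      = 0 := by
    rw [← map_pow, Ideal.Quotient.eq_zero_iff_mem]
    exact Ideal.mem_span_singleton_self _
  obtain ⟨γ, hγ⟩ := indep_lift w δ hδ s hs hsm _ N hxN
  refine ⟨γ, fun r => ?_⟩
  obtain ⟨c, hc⟩ := hγ r
  obtain ⟨q, rfl⟩ := Ideal.Quotient.mk_surjective c
  refine ⟨q, ?_⟩
  rw [hc, map_add, map_add, map_mul, map_mul, map_pow]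
  rfl

/-- Tangent vectors from the bracket. -/
theorem indep_vec {k : Type u} [Field k] {R : Type v} [CommRing R] [Algebra k R]
    {P : R →ₗ[k] R →ₗ[k] R} (hL : ∀ a b c, P a (b * c) = P a b * c + b * P a c)
    {n : ℕ} (y : Fin n → R) (w : R →ₐ[k] k) (hdet : w (brM P y).det ≠ 0) (a : Fin n → k) :
    ∃ δ : R →ₗ[k] k, (∀ r s, δ (r * s) = w r * δ s + w s * δ r) ∧ ∀ j, δ (y j) = a j := by
  have hM : ((brM P y).map w).det ≠ 0 := by
    have h := AlgHom.map_det w (brM P y)
    rw [h] at hdet
    exact hdet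
  have hMu : IsUnit ((brM P y).map w).det := IsUnit.mk0 _ hM
  set c : Fin n → k := Matrix.vecMul a ((brM P y).map w)⁻¹ with hc
  have hcM : Matrix.vecMul c ((brM P y).map w) = a := by
    rw [hc, Matrix.vecMul_vecMul, Matrix.nonsing_inv_mul _ hMu, Matrix.vecMul_one]
  refine ⟨∑ l, c l • (w.toLinearMap.comp (P (y l))), fun r s => ?_, fun j => ?_⟩
  · simp only [LinearMap.sum_apply, LinearMap.smul_apply, LinearMap.comp_apply,
      AlgHom.toLinearMap_apply, smul_eq_mul, Finset.mul_sum]
    rw [← Finset.sum_add_distrib]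
    refine Finset.sum_congr rfl fun l _ => ?_
    rw [hL, map_add, map_mul, map_mul]
    ring
  · have h := congrFun hcM j
    rw [← h]
    simp only [LinearMap.sum_apply, LinearMap.smul_apply, LinearMap.comp_apply,
      AlgHom.toLinearMap_apply, smul_eq_mul, Matrix.vecMul, dotProduct, Matrix.map_apply, brM,
      Matrix.of_apply]

/-- A nonzero polynomial does not vanish to infinite order along all arcs. -/
theorem indep_poly {k : Type u} [Field k] [Infinite k] {n : ℕ} (G : MvPolynomial (Fin n) k)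
    (hG : G ≠ 0) (b : Fin n → k) : ∃ (m : ℕ) (a : Fin n → k), ∀ p : Fin n → Polynomial k,
      (∀ i, (p i).coeff 0 = a i) → ¬ ((Polynomial.X : Polynomial k) ^ (m + 1) ∣
        aeval (fun i => Polynomial.C (b i) + Polynomial.X * p i) G) := by
  classical
  set G' : MvPolynomial (Fin n) k := aeval (fun i => C (b i) + X i) G with hG'
  have hback : aeval (fun i => X i - C (b i)) G' = G := by
    rw [hG', ← AlgHom.comp_apply]
    have h : (aeval (fun i => (X i - C (b i) : MvPolynomial (Fin n) k))).comp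
        (aeval (fun i => (C (b i) + X i : MvPolynomial (Fin n) k))) = AlgHom.id k _ := by
      refine MvPolynomial.algHom_ext fun i => ?_
      simp [MvPolynomial.algebraMap_eq]
    rw [h]
    rfl
  have hG0 : G' ≠ 0 := by
    intro h
    rw [h, map_zero] at hback
    exact hG hback.symm
  have hex : ∃ m, homogeneousComponent m G' ≠ 0 := by
    by_contra hcon
    push Not at hcon
    refine hG0 ?_
    rw [← MvPolynomial.sum_homogeneousComponent G']
    exact Finset.sum_eq_zero fun i _ => hcon i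
  set m := Nat.find hex with hm
  have hm1 : homogeneousComponent m G' ≠ 0 := Nat.find_spec hex
  have hm2 : ∀ d < m, homogeneousComponent d G' = 0 := fun d hd => by
    by_contra h
    exact Nat.find_min hex hd h
  obtain ⟨a, ha⟩ : ∃ a : Fin n → k, eval a (homogeneousComponent m G') ≠ 0 := by
    by_contra hcon
    push Not at hcon
    exact hm1 (MvPolynomial.funext fun x => by rw [hcon x, map_zero])
  refine ⟨m, a, fun p hp hdvd => ha ?_⟩
  have h1 : aeval (fun i => Polynomial.C (b i) + Polynomial.X * p i) G =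
      aeval (fun i => (Polynomial.X : Polynomial k) * p i) G' := by
    rw [hG', ← AlgHom.comp_apply]
    congr 1
    refine MvPolynomial.algHom_ext fun i => ?_
    simp [Polynomial.algebraMap_eq]
  have h2 : aeval (fun i => (Polynomial.X : Polynomial k) * p i) G' =
      ∑ d ∈ Finset.range (G'.totalDegree + 1),
        (Polynomial.X : Polynomial k) ^ d * aeval p (homogeneousComponent d G') := by
    conv_lhs => rw [← MvPolynomial.sum_homogeneousComponent G']
    rw [map_sum]
    refine Finset.sum_congr rfl fun d _ => ?_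
    have hh := homogeneousComponent_isHomogeneous d G'
    rw [MvPolynomial.aeval_def, MvPolynomial.aeval_def, MvPolynomial.eval₂_eq,
      MvPolynomial.eval₂_eq, Finset.mul_sum]
    refine Finset.sum_congr rfl fun e he => ?_
    have hde : ∑ i, e i = d := by
      have h3 := hh (MvPolynomial.mem_support_iff.mp he)
      rw [← h3, Finsupp.weight_apply, Finsupp.sum_fintype _ _ (fun _ => by simp)]
      simp
    have h4 : ∏ i ∈ e.support, ((Polynomial.X : Polynomial k) * p i) ^ e i =
        Polynomial.X ^ d * ∏ i ∈ e.support, p i ^ e i := by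
      simp only [mul_pow]
      rw [Finset.prod_mul_distrib, Finset.prod_pow_eq_pow_sum]
      congr 2
      rw [← hde]
      refine Finset.sum_subset (Finset.subset_univ _) fun i _ hi => ?_
      exact Finsupp.notMem_support_iff.mp hi
    rw [h4]
    ring
  rw [h1, h2, Polynomial.X_pow_dvd_iff] at hdvd
  have h5 := hdvd m (Nat.lt_succ_self m)
  rw [Polynomial.finsetSum_coeff, Finset.sum_eq_single m] at h5
  · rw [Polynomial.coeff_X_pow_mul', if_pos le_rfl, Nat.sub_self] at h5
    have h6 : (aeval p (homogeneousComponent m G') : Polynomial k).coeff 0 =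
        eval a (homogeneousComponent m G') := by
      rw [← Polynomial.constantCoeff_apply, ← MvPolynomial.coe_aeval_eq_eval, RingHom.coe_coe]
      have h7 : ((Polynomial.constantCoeff : Polynomial k →+* k)).comp
          ((aeval p : MvPolynomial (Fin n) k →ₐ[k] Polynomial k) : MvPolynomial (Fin n) k →+* _) =
          ((aeval a : MvPolynomial (Fin n) k →ₐ[k] k) : MvPolynomial (Fin n) k →+* k) := by
        refine MvPolynomial.ringHom_ext (fun r => ?_) (fun i => ?_)
        · simp
        · simp [hp]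
      exact DFunLike.congr_fun h7 _
    rw [← h6]
    exact h5
  · intro d _ hd
    rcases lt_or_gt_of_ne hd with h | h
    · rw [hm2 d h, map_zero, mul_zero, Polynomial.coeff_zero]
    · rw [Polynomial.coeff_X_pow_mul', if_neg (by omega)]
  · intro h
    have h8 : homogeneousComponent m G' = 0 := by
      apply homogeneousComponent_eq_zero
      rw [Finset.mem_range] at h
      omega
    rw [h8, map_zero, mul_zero, Polynomial.coeff_zero]

/-- IND: algebraic independence from a nonvanishing determinant. -/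
theorem indep_of_det {k : Type u} [Field k] [IsAlgClosed k] {R : Type v} [CommRing R]
    [Algebra k R] {𝒜 : ℕ → Submodule k R} [GradedAlgebra 𝒜] {P : R →ₗ[k] R →ₗ[k] R}
    (hPM : IsPM 𝒜 P) {n : ℕ} (y : Fin n → R) (w : R →ₐ[k] k) (hw : NV 𝒜 w)
    (hdet : w (brM P y).det ≠ 0) : AlgebraicIndependent k y := by
  have : Infinite k := IsAlgClosed.instInfinite
  obtain ⟨e, he, s, hs, hws⟩ := hw
  rw [algebraicIndependent_iff]
  intro G hG
  by_contra hne
  obtain ⟨m, a, hma⟩ := indep_poly G hne (fun i => w (y i))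
  obtain ⟨δ, hδ1, hδ2⟩ := indep_vec hPM.leibniz y w hdet a
  obtain ⟨γ, hγ⟩ := indep_arc w δ hδ1 s hws (hPM.smooth e he s hs) (m + 1)
  choose q hq using hγ
  refine hma (fun i => Polynomial.C (a i) + Polynomial.X * q (y i)) (fun i => by simp) ?_
  rw [← Ideal.mem_span_singleton, ← Ideal.Quotient.eq_zero_iff_mem]
  have h1 : γ (aeval y G) = 0 := by rw [hG, map_zero]
  rw [← h1]
  have h2 : ∀ H : MvPolynomial (Fin n) k,
      Ideal.Quotient.mk (Ideal.span {(Polynomial.X : Polynomial k) ^ (m + 1)})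
        (aeval (fun i => Polynomial.C (w (y i)) + Polynomial.X *
          (Polynomial.C (a i) + Polynomial.X * q (y i))) H) = γ (aeval y H) := by
    intro H
    have h3 : (Ideal.Quotient.mkₐ k (Ideal.span {(Polynomial.X : Polynomial k) ^ (m + 1)})).comp
        (aeval (fun i => Polynomial.C (w (y i)) + Polynomial.X *
          (Polynomial.C (a i) + Polynomial.X * q (y i)))) = γ.comp (aeval y) := by
      refine MvPolynomial.algHom_ext fun i => ?_
      rw [AlgHom.comp_apply, AlgHom.comp_apply, aeval_X, aeval_X, hq (y i), hδ2 i,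
        Ideal.Quotient.mkₐ_eq_mk]
      congr 1
      ring
    exact DFunLike.congr_fun h3 H
  exact h2 G

end Vale.Agent.P292.Mo
end

section

/-! # Graded Noether normalisation. -/

namespace Vale.Agent.P292.Mo

open MvPolynomial

universe u v w

/-! ## The coefficient of top degree after a linear change of variables -/

theorem noether_prod {A : Type u} [CommRing A] {n : ℕ} (s : Finset (Fin n)) (c b : Fin n → A)
    (m : Fin n → ℕ) :
    (∏ i ∈ s, (Polynomial.C (c i) + Polynomial.C (b i) * Polynomial.X) ^ m i).natDegree ≤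
        ∑ i ∈ s, m i ∧
      (∏ i ∈ s, (Polynomial.C (c i) + Polynomial.C (b i) * Polynomial.X) ^ m i).coeff
        (∑ i ∈ s, m i) = ∏ i ∈ s, b i ^ m i := by
  classical
  have h1 : ∀ i, (Polynomial.C (c i) + Polynomial.C (b i) * Polynomial.X).natDegree ≤ 1 := by
    intro i
    refine (Polynomial.natDegree_add_le _ _).trans (max_le ?_ ?_)
    · rw [Polynomial.natDegree_C]
      exact Nat.zero_le _
    · refine Polynomial.natDegree_mul_le.trans ?_
      rw [Polynomial.natDegree_C, zero_add]
      exact Polynomial.natDegree_X_le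
  have h2 : ∀ i, (Polynomial.C (c i) + Polynomial.C (b i) * Polynomial.X).coeff 1 = b i := by
    intro i
    rw [Polynomial.coeff_add, Polynomial.coeff_C, if_neg one_ne_zero, zero_add,
      Polynomial.coeff_C_mul, Polynomial.coeff_X_one, mul_one]
  induction s using Finset.induction_on with
  | empty => simp
  | insert i s hi ih =>
    rw [Finset.prod_insert hi, Finset.sum_insert hi, Finset.prod_insert hi]
    have h3 : ((Polynomial.C (c i) + Polynomial.C (b i) * Polynomial.X) ^ m i).natDegree ≤ m i := by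
      refine Polynomial.natDegree_pow_le.trans ?_
      calc m i * (Polynomial.C (c i) + Polynomial.C (b i) * Polynomial.X).natDegree
          ≤ m i * 1 := Nat.mul_le_mul_left _ (h1 i)
        _ = m i := mul_one _
    have h4 : ((Polynomial.C (c i) + Polynomial.C (b i) * Polynomial.X) ^ m i).coeff (m i) =
        b i ^ m i := by
      have h5 := Polynomial.coeff_pow_of_natDegree_le (m := m i) (h1 i)
      rw [mul_one, h2] at h5
      exact h5
    refine ⟨Polynomial.natDegree_mul_le.trans (add_le_add h3 ih.1), ?_⟩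
    rw [Polynomial.coeff_mul_add_eq_of_natDegree_le h3 ih.1, h4, ih.2]

theorem noether_coeff {k : Type u} [Field k] {A : Type v} [CommRing A] [Algebra k A] {n : ℕ}
    (c : Fin n → A) (b : Fin n → k) (f : MvPolynomial (Fin n) k) (j : ℕ)
    (hf : f.IsHomogeneous j) :
    (aeval (fun i => Polynomial.C (c i) + Polynomial.C (algebraMap k A (b i)) *
        Polynomial.X : Fin n → Polynomial A) f).natDegree ≤ j ∧
      (aeval (fun i => Polynomial.C (c i) + Polynomial.C (algebraMap k A (b i)) *
        Polynomial.X : Fin n → Polynomial A) f).coeff j = algebraMap k A (eval b f) := by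
  classical
  have key : ∀ m ∈ f.support, (aeval (fun i => Polynomial.C (c i) +
      Polynomial.C (algebraMap k A (b i)) * Polynomial.X : Fin n → Polynomial A)
        (monomial m (coeff m f))).natDegree ≤ j ∧
      (aeval (fun i => Polynomial.C (c i) +
      Polynomial.C (algebraMap k A (b i)) * Polynomial.X : Fin n → Polynomial A)
        (monomial m (coeff m f))).coeff j = algebraMap k A (eval b (monomial m (coeff m f))) := by
    intro m hm
    have hd : ∑ i, m i = j := by
      have h := hf (mem_support_iff.mp hm)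
      rw [Finsupp.weight_apply] at h
      simp only [Pi.one_apply, smul_eq_mul, mul_one] at h
      rw [← h, Finsupp.sum_fintype _ _ (fun _ => rfl)]
    have h := noether_prod (Finset.univ : Finset (Fin n)) c (fun i => algebraMap k A (b i)) m
    rw [hd] at h
    rw [aeval_monomial, Finsupp.prod_fintype _ _ (fun _ => pow_zero _), eval_monomial,
      Finsupp.prod_fintype _ _ (fun _ => pow_zero _)]
    have h6 : (algebraMap k (Polynomial A)) (coeff m f) =
        Polynomial.C (algebraMap k A (coeff m f)) := rfl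
    rw [h6]
    refine ⟨(Polynomial.natDegree_C_mul_le _ _).trans h.1, ?_⟩
    rw [Polynomial.coeff_C_mul, h.2, map_mul, map_prod]
    simp only [map_pow]
  have hs : f = ∑ m ∈ f.support, monomial m (coeff m f) := (support_sum_monomial_coeff f).symm
  constructor
  · conv_lhs => rw [hs]
    rw [map_sum]
    exact Polynomial.natDegree_sum_le_of_forall_le _ _ fun m hm => (key m hm).1
  · conv_lhs => rw [hs]
    conv_rhs => rw [hs]
    rw [map_sum, map_sum, map_sum, Polynomial.finsetSum_coeff]
    exact Finset.sum_congr rfl fun m hm => (key m hm).2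

/-! ## Integrality -/

theorem noether_trans {k : Type u} [Field k] {R : Type v} [CommRing R] [Algebra k R]
    {S T : Set R} (hS : ∀ r : R, IsIntegral (Algebra.adjoin k S) r)
    (hT : ∀ s ∈ S, IsIntegral (Algebra.adjoin k T) s) (r : R) :
    IsIntegral (Algebra.adjoin k T) r := by
  have hle : Algebra.adjoin k S ≤
      (integralClosure (Algebra.adjoin k T) R).restrictScalars k :=
    Algebra.adjoin_le fun s hs => hT s hs
  have h1 : IsIntegral ((integralClosure (Algebra.adjoin k T) R).restrictScalars k) r := by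
    have h := IsIntegral.map_of_comp_eq (Subalgebra.inclusion hle).toRingHom (RingHom.id R)
      (RingHom.ext fun _ => rfl) (hS r)
    exact h
  exact isIntegral_trans (A := integralClosure (Algebra.adjoin k T) R) r h1

theorem noether_of_mem {k : Type u} [Field k] {R : Type v} [CommRing R] [Algebra k R]
    {T : Set R} {r : R} (hr : r ∈ Algebra.adjoin k T) : IsIntegral (Algebra.adjoin k T) r :=
  isIntegral_algebraMap (R := Algebra.adjoin k T) (A := R) (x := ⟨r, hr⟩)

/-! ## Homogeneous relations -/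

theorem noether_aeval_mem {k : Type u} [Field k] {R : Type v} [CommRing R] [Algebra k R]
    {𝒜 : ℕ → Submodule k R} [GradedAlgebra 𝒜] {e n : ℕ} {y : Fin n → R}
    (hy : ∀ i, y i ∈ 𝒜 e) (f : MvPolynomial (Fin n) k) (j : ℕ) (hf : f.IsHomogeneous j) :
    aeval y f ∈ 𝒜 (e * j) := by
  classical
  rw [← support_sum_monomial_coeff f, map_sum]
  refine Submodule.sum_mem _ fun m hm => ?_
  have hd : ∑ i, m i = j := by
    have h := hf (mem_support_iff.mp hm)
    rw [Finsupp.weight_apply] at h
    simp only [Pi.one_apply, smul_eq_mul, mul_one] at h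
    rw [← h, Finsupp.sum_fintype _ _ (fun _ => rfl)]
  rw [aeval_monomial, Finsupp.prod_fintype _ _ (fun _ => pow_zero _), ← Algebra.smul_def]
  refine Submodule.smul_mem _ _ ?_
  have h1 : ∏ i, y i ^ m i ∈ 𝒜 (∑ i, m i • e) :=
    SetLike.prod_pow_mem_graded 𝒜 (fun _ => e) y m fun i _ => hy i
  rw [← Finset.sum_smul, hd, smul_eq_mul, mul_comm] at h1
  exact h1

theorem noether_component {k : Type u} [Field k] {R : Type v} [CommRing R] [Algebra k R]
    {𝒜 : ℕ → Submodule k R} [GradedAlgebra 𝒜] {e n : ℕ} (he : 0 < e) {y : Fin n → R}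
    (hy : ∀ i, y i ∈ 𝒜 e) (f : MvPolynomial (Fin n) k) (hf : aeval y f = 0) (j : ℕ) :
    aeval y (homogeneousComponent j f) = 0 := by
  classical
  have h1 : ∑ i ∈ Finset.range (f.totalDegree + 1), aeval y (homogeneousComponent i f) = 0 := by
    rw [← map_sum, sum_homogeneousComponent, hf]
  have hm : ∀ i, aeval y (homogeneousComponent i f) ∈ 𝒜 (e * i) := fun i =>
    noether_aeval_mem hy _ i (homogeneousComponent_isHomogeneous i f)
  by_cases hj : j ∈ Finset.range (f.totalDegree + 1)
  · have h2 : ((DirectSum.decompose 𝒜 (∑ i ∈ Finset.range (f.totalDegree + 1),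
        aeval y (homogeneousComponent i f))) (e * j) : R) = 0 := by
      rw [h1, DirectSum.decompose_zero]
      rfl
    rw [DirectSum.decompose_sum, DFinsupp.finsetSum_apply, AddSubmonoidClass.coe_finsetSum,
      Finset.sum_eq_single j] at h2
    · rwa [DirectSum.decompose_of_mem_same 𝒜 (hm j)] at h2
    · intro i _ hij
      exact DirectSum.decompose_of_mem_ne 𝒜 (hm i) fun h => hij (Nat.eq_of_mul_eq_mul_left he h)
    · intro h
      exact absurd hj h
  · rw [homogeneousComponent_eq_zero _ _ (by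
      rw [Finset.mem_range] at hj
      omega), map_zero]

/-! ## Dropping one element -/

theorem noether_drop {k : Type u} [Field k] [Infinite k] {R : Type v} [CommRing R] [Nontrivial R]
    [Algebra k R] {𝒜 : ℕ → Submodule k R} [GradedAlgebra 𝒜] {e n : ℕ} (he : 0 < e)
    (y : Fin (n + 1) → R) (hy : ∀ i, y i ∈ 𝒜 e)
    (hint : ∀ r : R, IsIntegral (Algebra.adjoin k (Set.range y)) r)
    (hna : ¬ AlgebraicIndependent k y) :
    ∃ y' : Fin n → R, (∀ i, y' i ∈ 𝒜 e) ∧
      ∀ r : R, IsIntegral (Algebra.adjoin k (Set.range y')) r := by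
  classical
  rw [algebraicIndependent_iff] at hna
  push Not at hna
  obtain ⟨f, hf0, hfne⟩ := hna
  obtain ⟨j, hj⟩ : ∃ j, homogeneousComponent j f ≠ 0 := by
    by_contra h
    push Not at h
    apply hfne
    rw [← sum_homogeneousComponent f]
    exact Finset.sum_eq_zero fun i _ => h i
  have hg0 := noether_component he hy f hf0 j
  have hgh := homogeneousComponent_isHomogeneous j f
  generalize homogeneousComponent j f = g at hj hg0 hgh
  -- the degree is positive
  have hjpos : j ≠ 0 := by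
    rintro rfl
    obtain ⟨c, hc⟩ : ∃ c, g = C c := ⟨coeff 0 g, (totalDegree_eq_zero_iff_eq_C).mp
      (Nat.le_zero.mp hgh.totalDegree_le)⟩
    rw [hc, aeval_C] at hg0
    have hc0 : c = 0 := (algebraMap k R).injective (by rw [hg0, map_zero])
    rw [hc, hc0, map_zero] at hj
    exact hj rfl
  obtain ⟨a, ha⟩ : ∃ a : Fin (n + 1) → k, eval a g ≠ 0 := by
    by_contra h
    push Not at h
    exact hj (MvPolynomial.funext fun x => by rw [h x, map_zero])
  obtain ⟨i0, hi0⟩ : ∃ i, a i ≠ 0 := by
    by_contra h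
    push Not at h
    apply ha
    have h0 : a = 0 := funext h
    rw [h0, eval_zero, constantCoeff_eq]
    by_contra hc
    have h := hgh hc
    rw [map_zero] at h
    exact hjpos h.symm
  have hc : ∀ i, ∃ c : R, c = y i - algebraMap k R (a i) * (algebraMap k R (a i0)⁻¹ * y i0) :=
    fun i => ⟨_, rfl⟩
  choose c hc using hc
  have hci0 : c i0 = 0 := by
    rw [hc, ← mul_assoc, ← map_mul, mul_inv_cancel₀ hi0, map_one, one_mul, sub_self]
  have hcA : ∀ i, c i ∈ 𝒜 e := by
    intro i
    rw [hc]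
    refine Submodule.sub_mem _ (hy i) ?_
    rw [← Algebra.smul_def, ← Algebra.smul_def]
    exact Submodule.smul_mem _ _ (Submodule.smul_mem _ _ (hy i0))
  have hcmem : ∀ i, c i ∈ Algebra.adjoin k (Set.range fun i' : Fin n => c (i0.succAbove i')) := by
    intro i
    by_cases h : i = i0
    · rw [h, hci0]
      exact zero_mem _
    · obtain ⟨i', rfl⟩ := Fin.exists_succAbove_eq h
      exact Algebra.subset_adjoin ⟨i', rfl⟩
  refine ⟨fun i' => c (i0.succAbove i'), fun i' => hcA _, ?_⟩
  -- `t` is integral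
  have ht : IsIntegral (Algebra.adjoin k (Set.range fun i' : Fin n => c (i0.succAbove i')))
      (algebraMap k R (a i0)⁻¹ * y i0) := by
    have h := noether_coeff (A := Algebra.adjoin k (Set.range fun i' : Fin n =>
      c (i0.succAbove i'))) (fun i => ⟨c i, hcmem i⟩) a g j hgh
    refine ⟨Polynomial.C (algebraMap k _ (eval a g)⁻¹) * aeval (fun i => Polynomial.C
      (⟨c i, hcmem i⟩ : Algebra.adjoin k (Set.range fun i' : Fin n => c (i0.succAbove i'))) +
      Polynomial.C (algebraMap k _ (a i)) * Polynomial.X) g, ?_, ?_⟩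
    · refine Polynomial.monic_of_natDegree_le_of_coeff_eq_one j
        ((Polynomial.natDegree_C_mul_le _ _).trans h.1) ?_
      rw [Polynomial.coeff_C_mul, h.2, ← map_mul, inv_mul_cancel₀ ha, map_one]
    · rw [Polynomial.eval₂_mul]
      have h5 : Polynomial.eval₂ (algebraMap (Algebra.adjoin k (Set.range fun i' : Fin n =>
          c (i0.succAbove i'))) R) (algebraMap k R (a i0)⁻¹ * y i0) (aeval (fun i => Polynomial.C
          (⟨c i, hcmem i⟩ : Algebra.adjoin k (Set.range fun i' : Fin n => c (i0.succAbove i'))) +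
          Polynomial.C (algebraMap k _ (a i)) * Polynomial.X) g) = aeval y g := by
        have h6 : (((Polynomial.aeval (algebraMap k R (a i0)⁻¹ * y i0)).restrictScalars k).comp
            (aeval (fun i => Polynomial.C (⟨c i, hcmem i⟩ : Algebra.adjoin k (Set.range
              fun i' : Fin n => c (i0.succAbove i'))) +
              Polynomial.C (algebraMap k _ (a i)) * Polynomial.X))) = aeval y := by
          refine MvPolynomial.algHom_ext fun i => ?_
          rw [AlgHom.comp_apply, aeval_X, aeval_X, AlgHom.restrictScalars_apply, map_add,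
            map_mul, Polynomial.aeval_C, Polynomial.aeval_C, Polynomial.aeval_X]
          change c i + algebraMap k R (a i) * _ = y i
          rw [hc i, sub_add_cancel]
        exact DFunLike.congr_fun h6 g
      rw [h5, hg0, mul_zero]
  refine noether_trans hint ?_
  rintro _ ⟨i, rfl⟩
  have h7 : y i = c i + algebraMap k R (a i) * (algebraMap k R (a i0)⁻¹ * y i0) := by
    rw [hc i, sub_add_cancel]
  rw [h7]
  refine (noether_of_mem (hcmem i)).add (IsIntegral.mul (noether_of_mem ?_) ht)
  exact Subalgebra.algebraMap_mem _ _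

/-! ## Homogeneous generators -/

theorem noether_gens {k : Type u} [Field k] {R : Type v} [CommRing R] [Algebra k R]
    {𝒜 : ℕ → Submodule k R} [GradedAlgebra 𝒜] (hft : Algebra.FiniteType k R)
    (hconn : ∀ r ∈ 𝒜 0, ∃ c : k, r = algebraMap k R c) :
    ∃ (m : ℕ) (x : Fin m → R) (d : Fin m → ℕ), (∀ i, 0 < d i) ∧ (∀ i, x i ∈ 𝒜 (d i)) ∧
      Algebra.adjoin k (Set.range x) = ⊤ := by
  classical
  obtain ⟨S, hS⟩ := hft.out
  obtain ⟨T, hT⟩ : ∃ T : Finset R, T = S.biUnion fun s =>
      ((DirectSum.decompose 𝒜 s).support.erase 0).image fun i => (DirectSum.decompose 𝒜 s i : R) :=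
    ⟨_, rfl⟩
  have hd : ∀ t : T, ∃ d, 0 < d ∧ (t : R) ∈ 𝒜 d := by
    rintro ⟨t, ht⟩
    rw [hT, Finset.mem_biUnion] at ht
    obtain ⟨s, -, ht⟩ := ht
    rw [Finset.mem_image] at ht
    obtain ⟨i, hi, rfl⟩ := ht
    rw [Finset.mem_erase] at hi
    exact ⟨i, Nat.pos_of_ne_zero hi.1, SetLike.coe_mem _⟩
  choose d hd0 hd using hd
  refine ⟨T.card, fun i => (T.equivFin.symm i : R), fun i => d (T.equivFin.symm i),
    fun i => hd0 _, fun i => hd _, ?_⟩
  have hr : Set.range (fun i => (T.equivFin.symm i : R)) = (T : Set R) := by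
    ext r
    constructor
    · rintro ⟨i, rfl⟩
      exact (T.equivFin.symm i).2
    · intro hr
      exact ⟨T.equivFin ⟨r, hr⟩, by simp⟩
  rw [hr, eq_top_iff, ← hS]
  refine Algebra.adjoin_le fun s hs => ?_
  rw [← DirectSum.sum_support_decompose 𝒜 s]
  refine Subalgebra.sum_mem _ fun i hi => ?_
  by_cases h0 : i = 0
  · obtain ⟨c, hc⟩ := hconn (DirectSum.decompose 𝒜 s i : R) (h0 ▸ SetLike.coe_mem _)
    rw [hc]
    exact Subalgebra.algebraMap_mem _ _
  · refine Algebra.subset_adjoin ?_
    rw [hT]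
    exact Finset.mem_biUnion.mpr ⟨s, hs, Finset.mem_image.mpr
      ⟨i, Finset.mem_erase.mpr ⟨h0, hi⟩, rfl⟩⟩

/-- Graded Noether normalisation over an infinite field. -/
theorem noether_main {k : Type u} [Field k] [Infinite k] {R : Type v} [CommRing R] [Nontrivial R]
    [Algebra k R] {𝒜 : ℕ → Submodule k R} [GradedAlgebra 𝒜] (hft : Algebra.FiniteType k R)
    (hconn : ∀ r ∈ 𝒜 0, ∃ c : k, r = algebraMap k R c) :
    ∃ (e n : ℕ) (y : Fin n → R), 0 < e ∧ (∀ i, y i ∈ 𝒜 e) ∧ AlgebraicIndependent k y ∧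
      ∃ S : Finset R, Submodule.span (Algebra.adjoin k (Set.range y)) (S : Set R) = ⊤ := by
  classical
  obtain ⟨m, x, d, hd, hx, htop⟩ := noether_gens hft hconn
  obtain ⟨e, he⟩ : ∃ e, e = ∏ i, d i := ⟨_, rfl⟩
  have he0 : 0 < e := by
    rw [he]
    exact Finset.prod_pos fun i _ => hd i
  have hdvd : ∀ i, d i ∣ e := fun i => he ▸ Finset.dvd_prod_of_mem _ (Finset.mem_univ i)
  have hQ : ∃ n : ℕ, ∃ y : Fin n → R, (∀ i, y i ∈ 𝒜 e) ∧
      ∀ r : R, IsIntegral (Algebra.adjoin k (Set.range y)) r := by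
    refine ⟨m, fun i => x i ^ (e / d i), fun i => ?_, ?_⟩
    · have h := SetLike.pow_mem_graded (A := 𝒜) (e / d i) (hx i)
      rwa [smul_eq_mul, Nat.div_mul_cancel (hdvd i)] at h
    · refine noether_trans (S := Set.range x) (fun r => noether_of_mem (by rw [htop]; trivial)) ?_
      rintro _ ⟨i, rfl⟩
      refine IsIntegral.of_pow (n := e / d i)
        (Nat.div_pos (Nat.le_of_dvd he0 (hdvd i)) (hd i)) ?_
      exact noether_of_mem (Algebra.subset_adjoin ⟨i, rfl⟩)
  obtain ⟨y, hy, hint⟩ := Nat.find_spec hQ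
  have hmin := fun n => Nat.find_min (m := n) hQ
  generalize Nat.find hQ = n at y hy hint hmin
  have hind : AlgebraicIndependent k y := by
    by_contra hna
    cases n with
    | zero =>
      apply hna
      rw [algebraicIndependent_empty_type_iff]
      exact (algebraMap k R).injective
    | succ n => exact hmin n (Nat.lt_succ_self n) (noether_drop he0 y hy hint hna)
  refine ⟨e, n, y, he0, hy, hind, ?_⟩
  have : Algebra.IsIntegral (Algebra.adjoin k (Set.range y)) R := ⟨hint⟩
  have : Algebra.FiniteType (Algebra.adjoin k (Set.range y)) R :=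
    Algebra.FiniteType.of_restrictScalars_finiteType k _ R
  have : Module.Finite (Algebra.adjoin k (Set.range y)) R := Algebra.IsIntegral.finite
  exact Module.Finite.fg_top

variable {R : Type u} [CommRing R] [Algebra ℂ R] {𝒜 : ℕ → Submodule ℂ R} [GradedAlgebra 𝒜]
  {P : R →ₗ[ℂ] R →ₗ[ℂ] R}

/-- NN: graded Noether normalisation. -/
theorem exists_noether (hX : IsContactFano 𝒜 P) :
    ∃ (e n : ℕ) (y : Fin n → R), 0 < e ∧ (∀ i, y i ∈ 𝒜 e) ∧ AlgebraicIndependent ℂ y ∧
      ∃ S : Finset R, Submodule.span (Algebra.adjoin ℂ (Set.range y)) (S : Set R) = ⊤ := by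
  have := hX.domain
  exact noether_main hX.finiteType hX.connected

end Vale.Agent.P292.Mo
end

section

/-! # The bracket on the graded algebra of the data over a field. -/

namespace Vale.Agent.P292.Mo

open MvPolynomial

universe u

variable {k : Type u} [Field k] {M L : ℕ}

theorem modelbr_add_left (D : Dat k M L) (a a' b : MvPolynomial (Fin M) k) :
    D.pbr (a + a') b = D.pbr a b + D.pbr a' b := by
  simp only [Dat.pbr, map_add, add_mul, Finset.sum_add_distrib]

theorem modelbr_add_right (D : Dat k M L) (a b b' : MvPolynomial (Fin M) k) :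
    D.pbr a (b + b') = D.pbr a b + D.pbr a b' := by
  simp only [Dat.pbr, map_add, add_mul, mul_add, Finset.sum_add_distrib]

theorem modelbr_smul_left (D : Dat k M L) (c : k) (a b : MvPolynomial (Fin M) k) :
    D.pbr (c • a) b = c • D.pbr a b := by
  simp only [Dat.pbr, Derivation.map_smul, smul_mul_assoc, Finset.smul_sum]

theorem modelbr_smul_right (D : Dat k M L) (c : k) (a b : MvPolynomial (Fin M) k) :
    D.pbr a (c • b) = c • D.pbr a b := by
  simp only [Dat.pbr, Derivation.map_smul, smul_mul_assoc, mul_smul_comm, Finset.smul_sum]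

theorem modelbr_mul_right (D : Dat k M L) (a b c : MvPolynomial (Fin M) k) :
    D.pbr a (b * c) = D.pbr a b * c + b * D.pbr a c := by
  simp only [Dat.pbr, Derivation.leibniz, smul_eq_mul, Finset.sum_mul, Finset.mul_sum,
    ← Finset.sum_add_distrib]
  refine Finset.sum_congr rfl fun i _ => Finset.sum_congr rfl fun j _ => ?_
  ring

theorem modelbr_skew (D : Dat k M L) (h : D.IsOK) (a b : MvPolynomial (Fin M) k) :
    D.pbr a b = - D.pbr b a := by
  unfold Dat.pbr
  rw [Finset.sum_comm, ← Finset.sum_neg_distrib]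
  refine Finset.sum_congr rfl fun i _ => ?_
  rw [← Finset.sum_neg_distrib]
  refine Finset.sum_congr rfl fun j _ => ?_
  rw [h.skew j i]
  ring

theorem modelbr_self (D : Dat k M L) (h : D.IsOK) (a : MvPolynomial (Fin M) k) :
    D.pbr a a = 0 := by
  unfold Dat.pbr
  rw [← Finset.sum_product']
  refine Finset.sum_involution (fun p _ => p.swap) ?_ ?_ ?_ ?_
  · rintro ⟨i, j⟩ _
    simp only [Prod.swap_prod_mk]
    rw [h.skew j i]
    ring
  · rintro ⟨i, j⟩ _ hne heq
    simp only [Prod.swap_prod_mk, Prod.mk.injEq] at heq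
    obtain ⟨h1, _⟩ := heq
    subst h1
    apply hne
    simp only [h.alt, mul_zero]
  · intro p _
    simp
  · intro p _
    simp

theorem modelbr_mem_left (D : Dat k M L) (h : D.IsOK) (a b : MvPolynomial (Fin M) k)
    (ha : a ∈ D.I) : D.pbr b a ∈ D.I := by
  unfold Dat.I at ha
  induction ha using Submodule.span_induction with
  | mem x hx =>
    obtain ⟨l, rfl⟩ := hx
    rw [modelbr_skew D h]
    refine neg_mem ?_
    unfold Dat.pbr
    rw [Finset.sum_comm]
    refine Submodule.sum_mem _ fun j _ => ?_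
    have : ∑ i, pderiv i (D.F l) * pderiv j b * D.π i j =
        pderiv j b * ∑ i, pderiv i (D.F l) * D.π i j := by
      rw [Finset.mul_sum]
      refine Finset.sum_congr rfl fun i _ => ?_
      ring
    rw [this]
    exact Ideal.mul_mem_left _ _ (h.desc l j)
  | zero =>
    have : D.pbr b 0 = 0 := by simp [Dat.pbr]
    rw [this]
    exact zero_mem _
  | add x y _ _ hx hy =>
    rw [modelbr_add_right]
    exact add_mem hx hy
  | smul c x hx' hx =>
    rw [smul_eq_mul, modelbr_mul_right]
    exact add_mem (Ideal.mul_mem_left _ _ hx') (Ideal.mul_mem_left _ _ hx)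

theorem modelbr_q_congr_right (D : Dat k M L) (h : D.IsOK) (a b b' : MvPolynomial (Fin M) k)
    (hb : D.q b = D.q b') : D.q (D.pbr a b) = D.q (D.pbr a b') := by
  have h1 : b - b' ∈ D.I := by
    rw [← Ideal.Quotient.eq]
    exact hb
  have h2 := modelbr_mem_left D h (b - b') a h1
  have h3 : D.pbr a (b - b') = D.pbr a b - D.pbr a b' := by
    have := modelbr_add_right D a (b - b') b'
    rw [sub_add_cancel] at this
    rw [this, add_sub_cancel_right]
  rw [h3] at h2
  exact (Ideal.Quotient.eq).2 h2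

theorem modelbr_q_congr (D : Dat k M L) (h : D.IsOK) (a a' b b' : MvPolynomial (Fin M) k)
    (ha : D.q a = D.q a') (hb : D.q b = D.q b') : D.q (D.pbr a b) = D.q (D.pbr a' b') := by
  rw [modelbr_q_congr_right D h a b b' hb, modelbr_skew D h a b', modelbr_skew D h a' b',
    map_neg, map_neg, modelbr_q_congr_right D h b' a a' ha]

theorem modelbr_pderiv_zero {M : ℕ} (w : Fin M → ℕ) (i : Fin M) (m : ℕ)
    (a : MvPolynomial (Fin M) k) (ha : IsWeightedHomogeneous w a m) (hm : m < w i) :
    pderiv i a = 0 := by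
  rw [a.as_sum, map_sum]
  refine Finset.sum_eq_zero fun s hs => ?_
  rw [pderiv_monomial]
  have h1 : s i = 0 := by
    by_contra hne
    have h2 : Finsupp.weight w s = m := ha (mem_support_iff.1 hs)
    have h3 : w i ≤ Finsupp.weight w s := Finsupp.le_weight_of_ne_zero' w hne
    omega
  rw [h1]
  simp

theorem modelbr_hom (D : Dat k M L) (h : D.IsOK) (a b : MvPolynomial (Fin M) k) (m m' n : ℕ)
    (hm : m + m' = n + 1) (ha : IsWeightedHomogeneous D.d a m)
    (hb : IsWeightedHomogeneous D.d b m') : IsWeightedHomogeneous D.d (D.pbr a b) n := by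
  unfold Dat.pbr
  rw [← mem_weightedHomogeneousSubmodule]
  refine Submodule.sum_mem _ fun i _ => Submodule.sum_mem _ fun j _ => ?_
  rw [mem_weightedHomogeneousSubmodule]
  by_cases hi : m < D.d i
  · rw [modelbr_pderiv_zero D.d i m a ha hi, zero_mul, zero_mul]
    exact isWeightedHomogeneous_zero _ _ _
  by_cases hj : m' < D.d j
  · rw [modelbr_pderiv_zero D.d j m' b hb hj, mul_zero, zero_mul]
    exact isWeightedHomogeneous_zero _ _ _
  push Not at hi hj
  have hpi := h.pos i
  have hpj := h.pos j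
  have h1 : IsWeightedHomogeneous D.d (pderiv i a) (m - D.d i) :=
    ha.pderiv (by omega)
  have h2 : IsWeightedHomogeneous D.d (pderiv j b) (m' - D.d j) :=
    hb.pderiv (by omega)
  have h3 : IsWeightedHomogeneous D.d (D.π i j) (D.d i + D.d j - 1) :=
    h.homπ i j _ (by omega)
  have h4 := (h1.mul h2).mul h3
  have h5 : m - D.d i + (m' - D.d j) + (D.d i + D.d j - 1) = n := by omega
  rwa [h5] at h4

/-- M3 -/
theorem Dat.exists_bracket (D : Dat k M L) (h : D.IsOK) :
    ∃ Q : D.Rg →ₗ[k] D.Rg →ₗ[k] D.Rg, (∀ a b, Q (D.q a) (D.q b) = D.q (D.pbr a b)) ∧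
      (∀ a, Q a a = 0) ∧ (∀ a b c, Q a (b * c) = Q a b * c + b * Q a c) ∧
      ∀ i j n, i + j = n + 1 → ∀ a ∈ D.gr i, ∀ b ∈ D.gr j, Q a b ∈ D.gr n := by
  have hsurj : Function.Surjective D.q := Ideal.Quotient.mkₐ_surjective k D.I
  choose o ho using hsurj
  have key : ∀ a b x y, D.q a = x → D.q b = y → D.q (D.pbr (o x) (o y)) = D.q (D.pbr a b) :=
    fun a b x y hx hy => modelbr_q_congr D h _ _ _ _ ((ho x).trans hx.symm) ((ho y).trans hy.symm)
  let Q : D.Rg →ₗ[k] D.Rg →ₗ[k] D.Rg := LinearMap.mk₂ k (fun x y => D.q (D.pbr (o x) (o y)))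
    (fun x x' y => by
      rw [key (o x + o x') (o y) (x + x') y (by rw [map_add, ho, ho]) (ho y),
        modelbr_add_left, map_add])
    (fun c x y => by
      rw [key (c • o x) (o y) (c • x) y (by rw [map_smul, ho]) (ho y),
        modelbr_smul_left, map_smul])
    (fun x y y' => by
      rw [key (o x) (o y + o y') x (y + y') (ho x) (by rw [map_add, ho, ho]),
        modelbr_add_right, map_add])
    (fun c x y => by
      rw [key (o x) (c • o y) x (c • y) (ho x) (by rw [map_smul, ho]),
        modelbr_smul_right, map_smul])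
  have hQ : ∀ a b, Q (D.q a) (D.q b) = D.q (D.pbr a b) := fun a b => key a b _ _ rfl rfl
  refine ⟨Q, hQ, ?_, ?_, ?_⟩
  · intro x
    rw [← ho x, hQ, modelbr_self D h, map_zero]
  · intro x y z
    rw [← ho x, ← ho y, ← ho z, ← map_mul, hQ, hQ, hQ, ← map_mul, ← map_mul, ← map_add,
      modelbr_mul_right]
  · intro i j n hij x hx y hy
    obtain ⟨a, ha, rfl⟩ := Submodule.mem_map.1 hx
    obtain ⟨b, hb, rfl⟩ := Submodule.mem_map.1 hy
    refine Submodule.mem_map.2 ⟨D.pbr a b, ?_, ?_⟩
    · rw [mem_weightedHomogeneousSubmodule] at ha hb ⊢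
      exact modelbr_hom D h a b i j n hij ha hb
    · exact (hQ a b).symm

end Vale.Agent.P292.Mo
end

section

/-! # Spreading out: presentations of contact Fano algebras exist. -/

namespace Vale.Agent.P292.Mo

open MvPolynomial

universe u

section gr

variable {R : Type u} [CommRing R] [Algebra ℂ R] (𝒜 : ℕ → Submodule ℂ R) [GradedAlgebra 𝒜]

/-- homogeneous generators of positive degree, indexed by `Fin M` -/
lemma pres_gens [hft : Algebra.FiniteType ℂ R]
    (h0 : ∀ r ∈ 𝒜 0, ∃ c : ℂ, r = algebraMap ℂ R c) :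
    ∃ (M : ℕ) (x : Fin M → R) (d : Fin M → ℕ), Algebra.adjoin ℂ (Set.range x) = ⊤ ∧
      (∀ i, 0 < d i) ∧ ∀ i, x i ∈ 𝒜 (d i) := by
  classical
  obtain ⟨F, hF⟩ := hft.out
  let ι₀ := Σ (x : F), (DirectSum.decompose 𝒜 x.1).support
  let x (i : ι₀) : R := ((DirectSum.decompose 𝒜) i.1 i.2).1
  obtain ⟨s, hs, hn⟩ : ∃ s : Finset R, Algebra.adjoin ℂ (s : Set R) = ⊤ ∧
      ∀ i ∈ s, ∃ n, 0 < n ∧ i ∈ 𝒜 n := by
    refine ⟨(Finset.univ.filter fun i : ι₀ => i.2.1 ≠ 0).image x, ?_, ?_⟩
    · rw [← top_le_iff, ← hF, Algebra.adjoin_le_iff]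
      intro s hs
      rw [← DirectSum.sum_support_decompose 𝒜 s]
      refine sum_mem fun n hn => ?_
      by_cases h : n = 0
      · subst h
        obtain ⟨c, hc⟩ := h0 _ (DirectSum.decompose 𝒜 s 0).2
        rw [hc]
        exact Subalgebra.algebraMap_mem _ c
      · refine Algebra.subset_adjoin ?_
        rw [Finset.coe_image]
        exact ⟨⟨⟨s, hs⟩, n, hn⟩, by simpa using h, rfl⟩
    · intro i hi
      rw [Finset.mem_image] at hi
      obtain ⟨j, hj, rfl⟩ := hi
      rw [Finset.mem_filter] at hj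
      exact ⟨j.2.1, Nat.pos_of_ne_zero hj.2, (DirectSum.decompose 𝒜 j.1.1 j.2.1).2⟩
  choose! dd hdd using hn
  refine ⟨s.card, fun i => (s.equivFin.symm i : R), fun i => dd (s.equivFin.symm i : R), ?_,
    fun i => (hdd _ (s.equivFin.symm i).2).1, fun i => (hdd _ (s.equivFin.symm i).2).2⟩
  rw [← hs]
  congr 1
  ext r
  constructor
  · rintro ⟨i, rfl⟩
    exact (s.equivFin.symm i).2
  · intro hr
    exact ⟨s.equivFin ⟨r, hr⟩, by simp⟩

variable {M : ℕ} {x : Fin M → R} {d : Fin M → ℕ}

lemma pres_mono_mem (hx : ∀ i, x i ∈ 𝒜 (d i)) (m : Fin M →₀ ℕ) (c : ℂ) :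
    aeval x (monomial m c) ∈ 𝒜 (Finsupp.weight d m) := by
  rw [aeval_monomial, ← Algebra.smul_def]
  refine Submodule.smul_mem _ _ ?_
  rw [Finsupp.weight_apply]
  exact SetLike.prod_pow_mem_graded 𝒜 d x m fun k _ => hx k

/-- evaluation is graded -/
lemma pres_proj (hx : ∀ i, x i ∈ 𝒜 (d i)) (n : ℕ) (p : MvPolynomial (Fin M) ℂ) :
    aeval x (weightedHomogeneousComponent d n p) = GradedAlgebra.proj 𝒜 n (aeval x p) := by
  classical
  induction p using MvPolynomial.induction_on' with
  | monomial m c =>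
    rw [GradedAlgebra.proj_apply]
    by_cases h : Finsupp.weight d m = n
    · have h1 : weightedHomogeneousComponent d n (monomial m c) = monomial m c :=
        weightedHomogeneousComponent_eq_self (isWeightedHomogeneous_monomial d m c h)
      rw [h1, DirectSum.decompose_of_mem_same 𝒜 (h ▸ pres_mono_mem 𝒜 hx m c)]
    · have h1 : weightedHomogeneousComponent d n (monomial m c) = 0 := by
        refine weightedHomogeneousComponent_eq_zero' _ _ fun m' hm' => ?_
        have h2 : m' = m := by
          have := support_monomial_subset hm'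
          simpa using this
        rw [h2]
        exact h
      rw [h1, map_zero, DirectSum.decompose_of_mem_ne 𝒜 (pres_mono_mem 𝒜 hx m c) h]
  | add p q hp hq =>
    rw [map_add, map_add, map_add, map_add, hp, hq]

lemma pres_sum (d : Fin M → ℕ) (p : MvPolynomial (Fin M) ℂ) :
    ∑ n ∈ p.support.image (Finsupp.weight d), weightedHomogeneousComponent d n p = p := by
  classical
  conv_rhs => rw [← sum_weightedHomogeneousComponent d p]
  rw [finsum_eq_sum_of_support_subset]
  intro n hn
  by_contra h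
  refine hn (weightedHomogeneousComponent_eq_zero' _ _ fun m hm hm' => h ?_)
  rw [Finset.coe_image]
  exact ⟨m, hm, hm'⟩

/-- homogeneous elements have weighted homogeneous preimages -/
lemma pres_lift (hx : ∀ i, x i ∈ 𝒜 (d i)) (htop : Function.Surjective (aeval (R := ℂ) x)) (n : ℕ)
    (r : R) (hr : r ∈ 𝒜 n) :
    ∃ p : MvPolynomial (Fin M) ℂ, IsWeightedHomogeneous d p n ∧ aeval x p = r := by
  obtain ⟨p, hp⟩ := htop r
  refine ⟨weightedHomogeneousComponent d n p, weightedHomogeneousComponent_isWeightedHomogeneous _ _, ?_⟩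
  rw [pres_proj 𝒜 hx, hp, GradedAlgebra.proj_apply, DirectSum.decompose_of_mem_same 𝒜 hr]

/-- the kernel of the evaluation is generated by finitely many weighted homogeneous polynomials -/
lemma pres_ker (hx : ∀ i, x i ∈ 𝒜 (d i)) :
    ∃ (L : ℕ) (F : Fin L → MvPolynomial (Fin M) ℂ) (e : Fin L → ℕ),
      (∀ l, IsWeightedHomogeneous d (F l) (e l)) ∧
      ∀ p, aeval x p = 0 ↔ p ∈ Ideal.span (Set.range F) := by
  classical
  have hfg : (RingHom.ker (aeval (R := ℂ) x)).FG := (isNoetherianRing_iff_ideal_fg _).mp inferInstance _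
  obtain ⟨T, hT⟩ := hfg
  let G : Finset (ℕ × MvPolynomial (Fin M) ℂ) := T.biUnion fun p =>
    (p.support.image (Finsupp.weight d)).image fun n => (n, weightedHomogeneousComponent d n p)
  have hG : ∀ g ∈ G, IsWeightedHomogeneous d g.2 g.1 ∧ aeval x g.2 = 0 := by
    intro g hg
    rw [Finset.mem_biUnion] at hg
    obtain ⟨p, hp, hg⟩ := hg
    rw [Finset.mem_image] at hg
    obtain ⟨n, -, rfl⟩ := hg
    refine ⟨weightedHomogeneousComponent_isWeightedHomogeneous _ _, ?_⟩
    have h1 : aeval x p = 0 := by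
      have : p ∈ RingHom.ker (aeval (R := ℂ) x) := hT ▸ Ideal.subset_span hp
      exact this
    show aeval x (weightedHomogeneousComponent d n p) = 0
    rw [pres_proj 𝒜 hx, h1, map_zero]
  refine ⟨G.card, fun l => (G.equivFin.symm l).1.2, fun l => (G.equivFin.symm l).1.1,
    fun l => (hG _ (G.equivFin.symm l).2).1, fun p => ⟨fun hp => ?_, fun hp => ?_⟩⟩
  · have h1 : p ∈ Ideal.span (T : Set (MvPolynomial (Fin M) ℂ)) := by
      rw [hT]
      exact hp
    refine (Ideal.span_le.mpr fun q hq => ?_) h1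
    rw [SetLike.mem_coe, ← pres_sum d q]
    refine Ideal.sum_mem _ fun n hn => Ideal.subset_span ?_
    have h2 : (n, weightedHomogeneousComponent d n q) ∈ G := by
      rw [Finset.mem_biUnion]
      exact ⟨q, hq, Finset.mem_image.mpr ⟨n, hn, rfl⟩⟩
    exact ⟨G.equivFin ⟨_, h2⟩, by simp⟩
  · have h1 : Ideal.span (Set.range fun l => (G.equivFin.symm l).1.2) ≤
        RingHom.ker (aeval (R := ℂ) x) := by
      rw [Ideal.span_le]
      rintro _ ⟨l, rfl⟩
      exact (hG _ (G.equivFin.symm l).2).2
    exact h1 hp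

end gr

section br

variable {R : Type u} [CommRing R] [Algebra ℂ R] (P : R →ₗ[ℂ] R →ₗ[ℂ] R)

lemma pres_skew (h : ∀ a, P a a = 0) (a b : R) : P a b = - P b a := by
  have h1 := h (a + b)
  rw [map_add, map_add, LinearMap.add_apply, LinearMap.add_apply, h, h, zero_add, add_zero] at h1
  exact eq_neg_of_add_eq_zero_right h1

lemma pres_leib (h : ∀ a, P a a = 0) (hl : ∀ a b c, P a (b * c) = P a b * c + b * P a c) (a b c : R) :
    P (a * b) c = P a c * b + a * P b c := by
  rw [pres_skew P h (a * b) c, hl, pres_skew P h a c, pres_skew P h b c]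
  ring

/-- chain rule -/
lemma pres_chain (h : ∀ a, P a a = 0) (hl : ∀ a b c, P a (b * c) = P a b * c + b * P a c) {M : ℕ}
    (x : Fin M → R) (b : R) (p : MvPolynomial (Fin M) ℂ) :
    P (aeval x p) b = ∑ i, aeval x (pderiv i p) * P (x i) b := by
  classical
  induction p using MvPolynomial.induction_on with
  | C c =>
    have h1 : P 1 b = 0 := by
      have h2 := pres_leib P h hl 1 1 b
      rw [one_mul, mul_one, one_mul] at h2
      exact left_eq_add.mp h2
    have h3 : aeval x (C c : MvPolynomial (Fin M) ℂ) = c • (1 : R) := by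
      rw [aeval_C, Algebra.algebraMap_eq_smul_one]
    rw [h3, map_smul, LinearMap.smul_apply, h1, smul_zero]
    symm
    refine Finset.sum_eq_zero fun i _ => ?_
    rw [pderiv_C, map_zero, zero_mul]
  | add p q hp hq =>
    rw [map_add, map_add, LinearMap.add_apply, hp, hq, ← Finset.sum_add_distrib]
    refine Finset.sum_congr rfl fun i _ => ?_
    rw [map_add, map_add, add_mul]
  | mul_X p j hp =>
    rw [map_mul, aeval_X, pres_leib P h hl, hp]
    have h1 : ∀ i, aeval x (pderiv i (p * X j)) * P (x i) b =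
        aeval x (pderiv i p) * P (x i) b * x j + if i = j then aeval x p * P (x i) b else 0 := by
      intro i
      rw [Derivation.leibniz, pderiv_X, map_add, smul_eq_mul, smul_eq_mul, map_mul, map_mul, aeval_X]
      by_cases hij : i = j
      · subst hij
        rw [Pi.single_eq_same, if_pos rfl, map_one]
        ring
      · rw [if_neg hij, Pi.single_eq_of_ne' hij, map_zero]
        ring
    rw [Finset.sum_congr rfl fun i _ => h1 i, Finset.sum_add_distrib, ← Finset.sum_mul,
      Finset.sum_ite_eq' Finset.univ j, if_pos (Finset.mem_univ j)]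

end br

variable {R : Type u} [CommRing R] [Algebra ℂ R] {𝒜 : ℕ → Submodule ℂ R} [GradedAlgebra 𝒜]
  {P : R →ₗ[ℂ] R →ₗ[ℂ] R}

/-- P: presentations exist. -/
theorem exists_isPres (hX : IsContactFano 𝒜 P) :
    ∃ (M L : ℕ) (D : Dat ℂ M L) (ev : MvPolynomial (Fin M) ℂ →ₐ[ℂ] R), IsPres 𝒜 P D ev := by
  classical
  have := hX.finiteType
  obtain ⟨M, x, d, htop, hpos, hx⟩ := pres_gens 𝒜 hX.connected
  have hsurj : Function.Surjective (aeval (R := ℂ) x) := by
    rw [← AlgHom.range_eq_top, ← Algebra.adjoin_range_eq_range_aeval, htop]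
  obtain ⟨L, F, e, hF, hker⟩ := pres_ker 𝒜 (x := x) (d := d) hx
  have hlift := pres_lift 𝒜 hx hsurj
  have hP : ∀ i j, ∃ p : MvPolynomial (Fin M) ℂ,
      IsWeightedHomogeneous d p (d i + d j - 1) ∧ aeval x p = P (x i) (x j) := by
    intro i j
    refine hlift _ _ (hX.degree (d i) (d j) _ ?_ _ (hx i) _ (hx j))
    have := hpos i
    omega
  choose ℓ hℓ1 hℓ2 using hP
  let π : Fin M → Fin M → MvPolynomial (Fin M) ℂ := fun i j =>
    if i < j then ℓ i j else if j < i then - ℓ j i else 0
  have hbr : ∀ i j, aeval x (π i j) = P (x i) (x j) := by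
    intro i j
    simp only [π]
    rcases lt_trichotomy i j with h | h | h
    · rw [if_pos h, hℓ2]
    · subst h
      rw [if_neg (lt_irrefl _), if_neg (lt_irrefl _), map_zero, hX.alternating]
    · rw [if_neg h.not_gt, if_pos h, map_neg, hℓ2, pres_skew P hX.alternating (x i) (x j)]
  refine ⟨M, L, ⟨d, e, F, π⟩, aeval x, ?_⟩
  refine ⟨⟨hpos, hF, ?_, ?_, ?_, ?_⟩, hsurj, hker, fun i => by rw [aeval_X]; exact hx i, hlift,
    fun i j => by rw [aeval_X, aeval_X]; exact hbr i j⟩
  · intro i j n hn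
    have hn' : n = d i + d j - 1 := by
      have : d i + d j = n + 1 := hn
      omega
    show IsWeightedHomogeneous d (π i j) n
    rw [hn']
    simp only [π]
    rcases lt_trichotomy i j with h | h | h
    · rw [if_pos h]
      exact hℓ1 i j
    · subst h
      rw [if_neg (lt_irrefl _), if_neg (lt_irrefl _)]
      exact isWeightedHomogeneous_zero _ _ _
    · rw [if_neg h.not_gt, if_pos h, add_comm (d i) (d j)]
      exact (weightedHomogeneousSubmodule ℂ d _).neg_mem (hℓ1 j i)
  · intro i
    simp [π]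
  · intro i j
    simp only [π]
    rcases lt_trichotomy i j with h | h | h
    · rw [if_pos h, if_neg h.not_gt, if_pos h, neg_neg]
    · subst h
      rw [if_neg (lt_irrefl _), if_neg (lt_irrefl _), neg_zero]
    · rw [if_neg h.not_gt, if_pos h, if_pos h]
  · intro l j
    refine (hker _).mp ?_
    rw [map_sum]
    simp only [map_mul]
    show ∑ i, aeval x (pderiv i (F l)) * aeval x (π i j) = 0
    simp only [hbr]
    rw [← pres_chain P hX.alternating hX.leibniz x (x j) (F l)]
    have h1 : aeval x (F l) = 0 := (hker _).mpr (Ideal.subset_span ⟨l, rfl⟩)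
    rw [h1, map_zero, LinearMap.zero_apply]

end Vale.Agent.P292.Mo
end

section

/-! # Spreading out, block LBC: finitely many products of elements of coprime degrees suffice. -/

namespace Vale.Agent.P292.Mo

open MvPolynomial

universe u v w

variable {R : Type u} [CommRing R] [Algebra ℂ R] {𝒜 : ℕ → Submodule ℂ R} [GradedAlgebra 𝒜]
  {P : R →ₗ[ℂ] R →ₗ[ℂ] R}

/-- At a nonvertex point there are homogeneous elements of consecutive degrees. -/
theorem lbcover_exists_coprime (hX : IsContactFano 𝒜 P) (p : R →ₐ[ℂ] ℂ) (hp : ¬ IsVertex 𝒜 p) :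
    ∃ m n : ℕ, m.Coprime n ∧ (∃ r ∈ 𝒜 m, p r ≠ 0) ∧ ∃ r ∈ 𝒜 n, p r ≠ 0 := by
  let S : AddSubmonoid ℕ :=
    { carrier := {n | ∃ r ∈ 𝒜 n, p r ≠ 0}
      zero_mem' := ⟨1, SetLike.one_mem_graded 𝒜, by rw [map_one]; exact one_ne_zero⟩
      add_mem' := by
        rintro m n ⟨r, hr, hr0⟩ ⟨s, hs, hs0⟩
        exact ⟨r * s, SetLike.mul_mem_graded hr hs, by rw [map_mul]; exact mul_ne_zero hr0 hs0⟩ }
  have hS : Nat.setGcd (S : Set ℕ) = 1 := by
    refine hX.lineBundle p hp _ fun k r hr hr0 => ?_
    exact Nat.setGcd_dvd_of_mem (show k ∈ (S : Set ℕ) from ⟨r, hr, hr0⟩)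
  obtain ⟨N, hN⟩ := Nat.exists_mem_closure_of_ge (s := (S : Set ℕ))
  rw [hS, AddSubmonoid.closure_eq] at hN
  refine ⟨N, N + 1, by simp, hN N le_rfl (one_dvd _), hN (N + 1) (Nat.le_succ _) (one_dvd _)⟩

/-- LBC: finitely many products of elements of coprime degrees suffice. -/
theorem lb_cover (hX : IsContactFano 𝒜 P) {M L : ℕ} {D : Dat ℂ M L}
    {ev : MvPolynomial (Fin M) ℂ →ₐ[ℂ] R} (hD : IsPres 𝒜 P D ev) :
    ∃ (T : ℕ) (a b : Fin T → MvPolynomial (Fin M) ℂ) (da db : Fin T → ℕ),
      (∀ t, IsWeightedHomogeneous D.d (a t) (da t)) ∧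
      (∀ t, IsWeightedHomogeneous D.d (b t) (db t)) ∧ (∀ t, (da t).Coprime (db t)) ∧
      ∀ i, ∃ n, (X i : MvPolynomial (Fin M) ℂ) ^ n ∈
        Ideal.span (Set.range (Sum.elim D.F fun t => a t * b t)) := by
  classical
  let S : Set (MvPolynomial (Fin M) ℂ) :=
    {h | ∃ (a b : MvPolynomial (Fin M) ℂ) (da db : ℕ), IsWeightedHomogeneous D.d a da ∧
      IsWeightedHomogeneous D.d b db ∧ da.Coprime db ∧ h = a * b}
  obtain ⟨s, hsS, hs⟩ := (Submodule.fg_span_iff_fg_span_finset_subset (R := MvPolynomial (Fin M) ℂ)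
    S).mp (IsNoetherian.noetherian _)
  have hs' : ∀ t : Fin s.card, ((s.equivFin.symm t : s) : MvPolynomial (Fin M) ℂ) ∈ S := fun t =>
    hsS (s.equivFin.symm t).2
  choose a b da db ha hb hc hab using hs'
  refine ⟨s.card, a, b, da, db, ha, hb, hc, fun i => ?_⟩
  let J := Ideal.span (Set.range (Sum.elim D.F fun t => a t * b t))
  have hSJ : ∀ h ∈ S, h ∈ J := by
    intro h hh
    have h1 : h ∈ Submodule.span (MvPolynomial (Fin M) ℂ) (s : Set (MvPolynomial (Fin M) ℂ)) := by
      rw [← hs]; exact Submodule.subset_span hh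
    refine (Submodule.span_le.mpr ?_ : Submodule.span (MvPolynomial (Fin M) ℂ)
      (s : Set (MvPolynomial (Fin M) ℂ)) ≤ J) h1
    intro x hx
    refine Ideal.subset_span ⟨Sum.inr (s.equivFin ⟨x, hx⟩), ?_⟩
    rw [Sum.elim_inr, ← hab, Equiv.symm_apply_apply]
  have hFJ : ∀ l, D.F l ∈ J := fun l => Ideal.subset_span ⟨Sum.inl l, rfl⟩
  have hrad : (X i : MvPolynomial (Fin M) ℂ) ∈ J.radical := by
    rw [← vanishingIdeal_zeroLocus_eq_radical (K := ℂ), mem_vanishingIdeal_iff]
    intro x hx
    by_contra hne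
    have hx0 : ∀ f ∈ J, aeval x f = 0 := fun f hf => mem_zeroLocus_iff.mp hx f hf
    -- the point of `R`
    have hker : ∀ f, ev f = 0 → aeval (R := ℂ) x f = 0 := by
      intro f hf
      have h1 : f ∈ D.I := (hD.ker f).mp hf
      have h2 : D.I ≤ J := Ideal.span_le.mpr (by rintro _ ⟨l, rfl⟩; exact hFJ l)
      exact hx0 f (h2 h1)
    let p : R →ₐ[ℂ] ℂ := AlgHom.liftOfSurjective ev hD.surj (aeval x) (by
      intro f hf
      exact hker f hf)
    have hpe : ∀ f, p (ev f) = aeval (R := ℂ) x f := fun f =>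
      AlgHom.liftOfSurjective_apply ev hD.surj (aeval x) _ f
    have hv : ¬ IsVertex 𝒜 p := by
      intro hv
      have h1 := hv (D.d i) (hD.ok.pos i) (ev (X i)) (hD.hom i)
      rw [hpe] at h1
      exact hne h1
    obtain ⟨m, n, hmn, ⟨r, hr, hr0⟩, ⟨s', hs', hs0⟩⟩ := lbcover_exists_coprime hX p hv
    obtain ⟨f, hf, hfr⟩ := hD.lift m r hr
    obtain ⟨g, hg, hgs⟩ := hD.lift n s' hs'
    have h2 : aeval (R := ℂ) x (f * g) = 0 := hx0 _ (hSJ _ ⟨f, g, m, n, hf, hg, hmn, rfl⟩)
    rw [map_mul, ← hpe, ← hpe, hfr, hgs] at h2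
    exact (mul_ne_zero hr0 hs0) h2
  exact hrad

end Vale.Agent.P292.Mo
end

section

/-! # Spreading out: generation of differentials. -/

namespace Vale.Agent.P292.Mo

open MvPolynomial TensorProduct

universe u v w

section quot

variable {k : Type u} [CommRing k] {M : ℕ} {Q : Type v} [CommRing Q] [Algebra k Q]
  [Algebra (MvPolynomial (Fin M) k) Q] [IsScalarTower k (MvPolynomial (Fin M) k) Q]

/-- Chain rule in a quotient of a polynomial ring. -/
theorem framespread_D (p : MvPolynomial (Fin M) k) :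
    KaehlerDifferential.D k Q (algebraMap (MvPolynomial (Fin M) k) Q p) =
      ∑ m, algebraMap (MvPolynomial (Fin M) k) Q (pderiv m p) •
        KaehlerDifferential.D k Q (algebraMap (MvPolynomial (Fin M) k) Q (X m)) := by
  have h := (KaehlerDifferential.mvPolynomialBasis k (Fin M)).sum_repr
    (KaehlerDifferential.D k (MvPolynomial (Fin M) k) p)
  have h2 := congrArg (KaehlerDifferential.map k k (MvPolynomial (Fin M) k) Q) h
  rw [map_sum, KaehlerDifferential.map_D] at h2
  rw [← h2]
  refine Finset.sum_congr rfl fun m _ => ?_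
  rw [map_smul, KaehlerDifferential.mvPolynomialBasis_apply,
    KaehlerDifferential.mvPolynomialBasis_repr_apply, KaehlerDifferential.map_D,
    algebraMap_smul]

variable (Q) in
/-- The coordinate `m` of an element of `Q ⊗ Ω`. -/
noncomputable def framespread_coord (m : Fin M) :
    Q ⊗[MvPolynomial (Fin M) k] (Ω[MvPolynomial (Fin M) k⁄k]) →ₗ[MvPolynomial (Fin M) k] Q :=
  (TensorProduct.rid (MvPolynomial (Fin M) k) Q).toLinearMap ∘ₗ
    LinearMap.lTensor Q ((KaehlerDifferential.mvPolynomialBasis k (Fin M)).coord m)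

omit [Algebra k Q] [IsScalarTower k (MvPolynomial (Fin M) k) Q] in
theorem framespread_coord_tmul (m : Fin M) (q : Q) (p : MvPolynomial (Fin M) k) :
    framespread_coord Q m (q ⊗ₜ KaehlerDifferential.D k (MvPolynomial (Fin M) k) p) =
      algebraMap (MvPolynomial (Fin M) k) Q (pderiv m p) * q := by
  unfold framespread_coord
  rw [LinearMap.comp_apply, LinearMap.lTensor_tmul, Module.Basis.coord_apply,
    KaehlerDifferential.mvPolynomialBasis_repr_apply]
  show (TensorProduct.rid (MvPolynomial (Fin M) k) Q) (q ⊗ₜ (pderiv m p)) = _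
  rw [TensorProduct.rid_tmul, Algebra.smul_def]

/-- The certificate of a relation between differentials. -/
theorem framespread_cert {L N : ℕ}
    (hs : Function.Surjective (algebraMap (MvPolynomial (Fin M) k) Q))
    (F : Fin L → MvPolynomial (Fin M) k) (a y : MvPolynomial (Fin M) k)
    (x : Fin N → MvPolynomial (Fin M) k)
    (hF : ∀ t, algebraMap (MvPolynomial (Fin M) k) Q (F t) = 0)
    (hI : ∀ f, algebraMap (MvPolynomial (Fin M) k) Q f = 0 →
      ∃ H : Fin L → MvPolynomial (Fin M) k, ∑ t, H t * F t = f)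
    (c : Fin N → Q)
    (h : algebraMap (MvPolynomial (Fin M) k) Q a • KaehlerDifferential.D k Q
      (algebraMap (MvPolynomial (Fin M) k) Q y) =
        ∑ l, c l • KaehlerDifferential.D k Q (algebraMap (MvPolynomial (Fin M) k) Q (x l))) :
    ∃ (C : Fin N → MvPolynomial (Fin M) k) (H : Fin L → MvPolynomial (Fin M) k), ∀ m,
      algebraMap (MvPolynomial (Fin M) k) Q
        (a * pderiv m y - ∑ l, C l * pderiv m (x l) - ∑ t, H t * pderiv m (F t)) = 0 := by
  let τ : Q ⊗[MvPolynomial (Fin M) k] (Ω[MvPolynomial (Fin M) k⁄k]) :=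
    (algebraMap (MvPolynomial (Fin M) k) Q a) ⊗ₜ
      KaehlerDifferential.D k (MvPolynomial (Fin M) k) y -
      ∑ l, c l ⊗ₜ KaehlerDifferential.D k (MvPolynomial (Fin M) k) (x l)
  have hτ : KaehlerDifferential.mapBaseChange k (MvPolynomial (Fin M) k) Q τ = 0 := by
    show KaehlerDifferential.mapBaseChange k (MvPolynomial (Fin M) k) Q (_ - _) = 0
    rw [map_sub, map_sum, KaehlerDifferential.mapBaseChange_tmul, KaehlerDifferential.map_D, h]
    simp only [KaehlerDifferential.mapBaseChange_tmul, KaehlerDifferential.map_D]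
    exact sub_self _
  obtain ⟨κ, hκ⟩ := (KaehlerDifferential.exact_kerCotangentToTensor_mapBaseChange k
    (MvPolynomial (Fin M) k) Q hs τ).1 hτ
  obtain ⟨f, rfl⟩ := Ideal.toCotangent_surjective _ κ
  rw [KaehlerDifferential.kerCotangentToTensor_toCotangent] at hκ
  have hf : algebraMap (MvPolynomial (Fin M) k) Q f.1 = 0 := (RingHom.mem_ker).1 f.2
  obtain ⟨H, hH⟩ := hI _ hf
  choose C hC using fun l => hs (c l)
  refine ⟨C, H, fun m => ?_⟩
  have h2 := congrArg (framespread_coord Q m) hκ
  have h3 : framespread_coord Q m τ = algebraMap (MvPolynomial (Fin M) k) Q (pderiv m y) *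
      algebraMap (MvPolynomial (Fin M) k) Q a -
      ∑ l, algebraMap (MvPolynomial (Fin M) k) Q (pderiv m (x l)) * c l := by
    show framespread_coord Q m (_ - _) = _
    rw [map_sub, map_sum, framespread_coord_tmul]
    congr 1
    exact Finset.sum_congr rfl fun l _ => framespread_coord_tmul m _ _
  rw [h3, framespread_coord_tmul, mul_one, ← hH, map_sum, map_sum] at h2
  have h4 : ∀ t, algebraMap (MvPolynomial (Fin M) k) Q (pderiv m (H t * F t)) =
      algebraMap (MvPolynomial (Fin M) k) Q (H t * pderiv m (F t)) := by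
    intro t
    rw [Derivation.leibniz, smul_eq_mul, smul_eq_mul, map_add, map_mul, map_mul, hF, zero_mul,
      add_zero]
  rw [Finset.sum_congr rfl fun t _ => h4 t] at h2
  rw [map_sub, map_sub, map_sum, map_sum, h2, map_mul]
  have h6 : ∑ l, algebraMap (MvPolynomial (Fin M) k) Q (C l * pderiv m (x l)) =
      ∑ l, algebraMap (MvPolynomial (Fin M) k) Q (pderiv m (x l)) * c l := by
    refine Finset.sum_congr rfl fun l _ => ?_
    rw [map_mul, hC, mul_comm]
  rw [h6]
  ring

/-- From a certificate back to the relation. -/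
theorem framespread_back {L N : ℕ}
    (hs : Function.Surjective (algebraMap (MvPolynomial (Fin M) k) Q))
    (F : Fin L → MvPolynomial (Fin M) k) (g : MvPolynomial (Fin M) k)
    (x : Fin N → MvPolynomial (Fin M) k) (C : Fin M → Fin N → MvPolynomial (Fin M) k)
    (H : Fin M → Fin L → MvPolynomial (Fin M) k)
    (hF : ∀ t, algebraMap (MvPolynomial (Fin M) k) Q (F t) = 0)
    (h : ∀ i m, algebraMap (MvPolynomial (Fin M) k) Q
      (g * pderiv m (X i) - ∑ l, C i l * pderiv m (x l) - ∑ t, H i t * pderiv m (F t)) = 0)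
    (r : Q) :
    ∃ c : Fin N → Q,
      algebraMap (MvPolynomial (Fin M) k) Q g • KaehlerDifferential.D k Q r =
        ∑ l, c l • KaehlerDifferential.D k Q (algebraMap (MvPolynomial (Fin M) k) Q (x l)) := by
  -- generators
  have h1 : ∀ i, algebraMap (MvPolynomial (Fin M) k) Q g • KaehlerDifferential.D k Q
      (algebraMap (MvPolynomial (Fin M) k) Q (X i)) =
      ∑ l, algebraMap (MvPolynomial (Fin M) k) Q (C i l) • KaehlerDifferential.D k Q
        (algebraMap (MvPolynomial (Fin M) k) Q (x l)) := by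
    intro i
    have e1 : ∀ m, algebraMap (MvPolynomial (Fin M) k) Q g *
        algebraMap (MvPolynomial (Fin M) k) Q (pderiv m (X i)) =
        (∑ l, algebraMap (MvPolynomial (Fin M) k) Q (C i l) *
          algebraMap (MvPolynomial (Fin M) k) Q (pderiv m (x l))) +
          ∑ t, algebraMap (MvPolynomial (Fin M) k) Q (H i t) *
            algebraMap (MvPolynomial (Fin M) k) Q (pderiv m (F t)) := by
      intro m
      have h2 := h i m
      rw [map_sub, map_sub, map_sum, map_sum, map_mul] at h2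
      simp only [map_mul] at h2
      linear_combination h2
    have e2 : ∀ t, ∑ m, algebraMap (MvPolynomial (Fin M) k) Q (pderiv m (F t)) •
        KaehlerDifferential.D k Q (algebraMap (MvPolynomial (Fin M) k) Q (X m)) = 0 := by
      intro t
      rw [← framespread_D, hF, map_zero]
    rw [framespread_D (X i), Finset.smul_sum]
    calc ∑ m, algebraMap (MvPolynomial (Fin M) k) Q g •
          algebraMap (MvPolynomial (Fin M) k) Q (pderiv m (X i)) •
          KaehlerDifferential.D k Q (algebraMap (MvPolynomial (Fin M) k) Q (X m))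
        = ∑ m, ((∑ l, algebraMap (MvPolynomial (Fin M) k) Q (C i l) •
          algebraMap (MvPolynomial (Fin M) k) Q (pderiv m (x l)) •
          KaehlerDifferential.D k Q (algebraMap (MvPolynomial (Fin M) k) Q (X m))) +
          ∑ t, algebraMap (MvPolynomial (Fin M) k) Q (H i t) •
            algebraMap (MvPolynomial (Fin M) k) Q (pderiv m (F t)) •
          KaehlerDifferential.D k Q (algebraMap (MvPolynomial (Fin M) k) Q (X m))) := by
          refine Finset.sum_congr rfl fun m _ => ?_
          rw [smul_smul, e1 m, add_smul, Finset.sum_smul, Finset.sum_smul]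
          simp only [smul_smul]
      _ = ∑ l, algebraMap (MvPolynomial (Fin M) k) Q (C i l) • KaehlerDifferential.D k Q
            (algebraMap (MvPolynomial (Fin M) k) Q (x l)) := by
          rw [Finset.sum_add_distrib]
          have s1 : ∑ m, ∑ t, algebraMap (MvPolynomial (Fin M) k) Q (H i t) •
              algebraMap (MvPolynomial (Fin M) k) Q (pderiv m (F t)) •
              KaehlerDifferential.D k Q (algebraMap (MvPolynomial (Fin M) k) Q (X m)) = 0 := by
            rw [Finset.sum_comm]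
            refine Finset.sum_eq_zero fun t _ => ?_
            rw [← Finset.smul_sum, e2 t, smul_zero]
          rw [s1, add_zero, Finset.sum_comm]
          refine Finset.sum_congr rfl fun l _ => ?_
          rw [← Finset.smul_sum, ← framespread_D]
  obtain ⟨p, rfl⟩ := hs r
  refine ⟨fun l => ∑ m, algebraMap (MvPolynomial (Fin M) k) Q (pderiv m p) *
    algebraMap (MvPolynomial (Fin M) k) Q (C m l), ?_⟩
  rw [framespread_D p, Finset.smul_sum]
  have e3 : ∀ m, algebraMap (MvPolynomial (Fin M) k) Q g •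
      algebraMap (MvPolynomial (Fin M) k) Q (pderiv m p) •
      KaehlerDifferential.D k Q (algebraMap (MvPolynomial (Fin M) k) Q (X m)) =
      ∑ l, (algebraMap (MvPolynomial (Fin M) k) Q (pderiv m p) *
        algebraMap (MvPolynomial (Fin M) k) Q (C m l)) •
        KaehlerDifferential.D k Q (algebraMap (MvPolynomial (Fin M) k) Q (x l)) := by
    intro m
    rw [smul_comm, h1 m, Finset.smul_sum]
    exact Finset.sum_congr rfl fun l _ => smul_smul _ _ _
  rw [Finset.sum_congr rfl fun m _ => e3 m, Finset.sum_comm]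
  exact Finset.sum_congr rfl fun l _ => (Finset.sum_smul).symm

end quot

/-- The certificate, for the quotient by an ideal. -/
theorem framespread_cert' {k : Type u} [CommRing k] {M L N : ℕ}
    (F : Fin L → MvPolynomial (Fin M) k) (a y : MvPolynomial (Fin M) k)
    (x : Fin N → MvPolynomial (Fin M) k) (I : Ideal (MvPolynomial (Fin M) k))
    (hF : ∀ t, F t ∈ I) (hI : ∀ f ∈ I, ∃ H : Fin L → MvPolynomial (Fin M) k, ∑ t, H t * F t = f)
    (c : Fin N → MvPolynomial (Fin M) k ⧸ I)
    (h : Ideal.Quotient.mk I a • KaehlerDifferential.D k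
        (MvPolynomial (Fin M) k ⧸ I) (Ideal.Quotient.mk I y) =
        ∑ l, c l • KaehlerDifferential.D k (MvPolynomial (Fin M) k ⧸ I)
          (Ideal.Quotient.mk I (x l))) :
    ∃ (C : Fin N → MvPolynomial (Fin M) k) (H : Fin L → MvPolynomial (Fin M) k), ∀ m,
      a * pderiv m y - ∑ l, C l * pderiv m (x l) - ∑ t, H t * pderiv m (F t) ∈ I := by
  obtain ⟨C, H, hCH⟩ := framespread_cert
      (Q := MvPolynomial (Fin M) k ⧸ I) Ideal.Quotient.mk_surjective F a
      y x (fun t => Ideal.Quotient.eq_zero_iff_mem.2 (hF t))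
      (fun f hf => hI f (Ideal.Quotient.eq_zero_iff_mem.1 hf))
      c h
  exact ⟨C, H, fun m => Ideal.Quotient.eq_zero_iff_mem.1 (hCH m)⟩

/-- Back, for the quotient by an ideal. -/
theorem framespread_back' {k : Type u} [CommRing k] {M L N : ℕ}
    (F : Fin L → MvPolynomial (Fin M) k) (g : MvPolynomial (Fin M) k)
    (x : Fin N → MvPolynomial (Fin M) k) (C : Fin M → Fin N → MvPolynomial (Fin M) k)
    (H : Fin M → Fin L → MvPolynomial (Fin M) k) (I : Ideal (MvPolynomial (Fin M) k))
    (hF : ∀ t, F t ∈ I)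
    (h : ∀ i m, g * pderiv m (X i) - ∑ l, C i l * pderiv m (x l) -
      ∑ t, H i t * pderiv m (F t) ∈ I)
    (r : MvPolynomial (Fin M) k ⧸ I) :
    ∃ c : Fin N → MvPolynomial (Fin M) k ⧸ I,
      Ideal.Quotient.mk I g • KaehlerDifferential.D k (MvPolynomial (Fin M) k ⧸ I) r =
        ∑ l, c l • KaehlerDifferential.D k (MvPolynomial (Fin M) k ⧸ I)
          (Ideal.Quotient.mk I (x l)) :=
  framespread_back (Q := MvPolynomial (Fin M) k ⧸ I) Ideal.Quotient.mk_surjective F g x C H
    (fun t => Ideal.Quotient.eq_zero_iff_mem.2 (hF t))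
    (fun i m => Ideal.Quotient.eq_zero_iff_mem.2 (h i m)) r

/-- Spreading out of finitely many memberships. -/
theorem framespread_mem {M L : ℕ} (F : Fin L → MvPolynomial (Fin M) ℂ)
    (q : Fin M × Fin M → MvPolynomial (Fin M) ℂ)
    (h : ∀ s, q s ∈ Ideal.span (Set.range F)) :
    ∃ A₀ : Subalgebra ℤ ℂ, A₀.FG ∧ ∀ A : Subalgebra ℤ ℂ, A₀ ≤ A → ∀ s : Fin M × Fin M,
      ∀ (G' : Fin L → MvPolynomial (Fin M) A) (p' : MvPolynomial (Fin M) A),
        (∀ i, MvPolynomial.map (algebraMap A ℂ) (G' i) = F i) →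
        MvPolynomial.map (algebraMap A ℂ) p' = q s →
        p' ∈ Ideal.span (Set.range G') ∧
        ∀ (k : Type v) [CommRing k] (j : A →+* k),
          MvPolynomial.map j p' ∈ Ideal.span (Set.range fun i => MvPolynomial.map j (G' i)) :=
  exists_fg_of_forall _ fun s => mem_spread F (q s) (h s)

/-- Spreading out of the certificate. -/
theorem framespread_poly {M L N : ℕ} (F : Fin L → MvPolynomial (Fin M) ℂ)
    (g : MvPolynomial (Fin M) ℂ) (x : Fin N → MvPolynomial (Fin M) ℂ)
    (C : Fin M → Fin N → MvPolynomial (Fin M) ℂ) (H : Fin M → Fin L → MvPolynomial (Fin M) ℂ)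
    (hCH : ∀ i m, g * pderiv m (X i) - ∑ l, C i l * pderiv m (x l) -
      ∑ t, H i t * pderiv m (F t) ∈ Ideal.span (Set.range F)) :
    ∃ A₀ : Subalgebra ℤ ℂ, A₀.FG ∧ ∀ A : Subalgebra ℤ ℂ, A₀ ≤ A →
      ∀ (F' : Fin L → MvPolynomial (Fin M) A) (g' : MvPolynomial (Fin M) A)
        (x' : Fin N → MvPolynomial (Fin M) A),
        (∀ i, MvPolynomial.map (algebraMap A ℂ) (F' i) = F i) →
        MvPolynomial.map (algebraMap A ℂ) g' = g →
        (∀ i, MvPolynomial.map (algebraMap A ℂ) (x' i) = x i) →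
        ∃ (C' : Fin M → Fin N → MvPolynomial (Fin M) A)
          (H' : Fin M → Fin L → MvPolynomial (Fin M) A),
        ∀ (k : Type v) [CommRing k] (j : A →+* k) (i m : Fin M),
          MvPolynomial.map j g' * pderiv m (X i) -
            ∑ l, MvPolynomial.map j (C' i l) * pderiv m (MvPolynomial.map j (x' l)) -
            ∑ t, MvPolynomial.map j (H' i t) * pderiv m (MvPolynomial.map j (F' t)) ∈
              Ideal.span (Set.range fun l => MvPolynomial.map j (F' l)) := by
  obtain ⟨A₁, hA₁, hA₁'⟩ := exists_lift_poly (fun s : Fin M × Fin N => C s.1 s.2)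
  obtain ⟨A₂, hA₂, hA₂'⟩ := exists_lift_poly (fun s : Fin M × Fin L => H s.1 s.2)
  obtain ⟨q, hq⟩ : ∃ q : Fin M × Fin M → MvPolynomial (Fin M) ℂ, ∀ s, q s =
      g * pderiv s.2 (X s.1) - ∑ l, C s.1 l * pderiv s.2 (x l) -
        ∑ t, H s.1 t * pderiv s.2 (F t) := ⟨_, fun _ => rfl⟩
  obtain ⟨A₃, hA₃, hA₃'⟩ := framespread_mem.{v} F q fun s => by
    rw [hq s]
    exact hCH s.1 s.2
  refine ⟨A₁ ⊔ A₂ ⊔ A₃, (hA₁.sup hA₂).sup hA₃, fun A hA F' g' x' hF hg hx => ?_⟩
  have l1 : A₁ ≤ A := (le_sup_left.trans le_sup_left).trans hA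
  have l2 : A₂ ≤ A := (le_sup_right.trans le_sup_left).trans hA
  have l3 : A₃ ≤ A := le_sup_right.trans hA
  choose C' hC' using fun s : Fin M × Fin N => hA₁' A l1 s
  choose H' hH' using fun s : Fin M × Fin L => hA₂' A l2 s
  refine ⟨fun i l => C' (i, l), fun i t => H' (i, t), fun k _ j i m => ?_⟩
  have h0 : MvPolynomial.map (algebraMap A ℂ) (g' * pderiv m (X i) -
      ∑ l, C' (i, l) * pderiv m (x' l) - ∑ t, H' (i, t) * pderiv m (F' t)) =
      g * pderiv m (X i) - ∑ l, C i l * pderiv m (x l) - ∑ t, H i t * pderiv m (F t) := by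
    rw [map_sub, map_sub, map_sum, map_sum, map_mul, ← pderiv_map, map_X, hg]
    simp only [map_mul, ← pderiv_map, hx, hF, hC', hH']
  have h1 := (hA₃' A l3 (i, m) F' _ hF (h0.trans (hq (i, m)).symm)).2 k j
  have e : MvPolynomial.map j (g' * pderiv m (X i) - ∑ l, C' (i, l) * pderiv m (x' l) -
      ∑ t, H' (i, t) * pderiv m (F' t)) = MvPolynomial.map j g' * pderiv m (X i) -
      ∑ l, MvPolynomial.map j (C' (i, l)) * pderiv m (MvPolynomial.map j (x' l)) -
      ∑ t, MvPolynomial.map j (H' (i, t)) * pderiv m (MvPolynomial.map j (F' t)) := by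
    rw [map_sub, map_sub, map_sum, map_sum, map_mul, ← pderiv_map, map_X]
    simp only [map_mul, pderiv_map]
  rw [e] at h1
  exact h1

/-- T3: generation of differentials spreads out. -/
theorem frame_spread {M L N : ℕ} (F : Fin L → MvPolynomial (Fin M) ℂ)
    (g : MvPolynomial (Fin M) ℂ) (x : Fin N → MvPolynomial (Fin M) ℂ)
    (h : ∀ i, ∃ c : Fin N → MvPolynomial (Fin M) ℂ ⧸ Ideal.span (Set.range F),
      Ideal.Quotient.mk (Ideal.span (Set.range F)) g • KaehlerDifferential.D ℂ
        (MvPolynomial (Fin M) ℂ ⧸ Ideal.span (Set.range F)) (Ideal.Quotient.mk _ (X i)) =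
        ∑ l, c l • KaehlerDifferential.D ℂ (MvPolynomial (Fin M) ℂ ⧸ Ideal.span (Set.range F))
          (Ideal.Quotient.mk _ (x l))) :
    ∃ A₀ : Subalgebra ℤ ℂ, A₀.FG ∧ ∀ A : Subalgebra ℤ ℂ, A₀ ≤ A →
      ∀ (F' : Fin L → MvPolynomial (Fin M) A) (g' : MvPolynomial (Fin M) A)
        (x' : Fin N → MvPolynomial (Fin M) A),
        (∀ i, MvPolynomial.map (algebraMap A ℂ) (F' i) = F i) →
        MvPolynomial.map (algebraMap A ℂ) g' = g →
        (∀ i, MvPolynomial.map (algebraMap A ℂ) (x' i) = x i) →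
        ∀ (k : Type v) [Field k] (j : A →+* k)
          (r : MvPolynomial (Fin M) k ⧸ Ideal.span (Set.range fun l => MvPolynomial.map j (F' l))),
          ∃ c : Fin N →
            MvPolynomial (Fin M) k ⧸ Ideal.span (Set.range fun l => MvPolynomial.map j (F' l)),
          Ideal.Quotient.mk (Ideal.span (Set.range fun l => MvPolynomial.map j (F' l)))
            (MvPolynomial.map j g') • KaehlerDifferential.D k _ r =
            ∑ l, c l • KaehlerDifferential.D k _ (Ideal.Quotient.mk _ (MvPolynomial.map j (x' l))) := by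
  choose c hc using h
  choose C H hCH using fun i => framespread_cert' F g (X i) x (Ideal.span (Set.range F))
    (fun t => Ideal.subset_span ⟨t, rfl⟩)
    (fun f hf => (Ideal.mem_span_range_iff_exists_fun).mp hf) (c i) (hc i)
  obtain ⟨A₀, h1, h2⟩ := framespread_poly.{v} F g x C H hCH
  refine ⟨A₀, h1, fun A hA F' g' x' hF hg hx k _ j r => ?_⟩
  obtain ⟨C', H', h3⟩ := h2 A hA F' g' x' hF hg hx
  exact framespread_back' (fun l => MvPolynomial.map j (F' l)) (MvPolynomial.map j g')
    (fun l => MvPolynomial.map j (x' l)) (fun i l => MvPolynomial.map j (C' i l))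
    (fun i t => MvPolynomial.map j (H' i t))
    (Ideal.span (Set.range fun l => MvPolynomial.map j (F' l)))
    (fun t => Ideal.subset_span ⟨t, rfl⟩) (h3 k j) r

end Vale.Agent.P292.Mo
end
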