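import Mathlib
import Vale.Agent.P292.K.Defs
import Vale.Agent.P292.Bdl.B1
import Vale.Agent.P292.K.PicDef

set_option linter.all false

section

/-! # Internal definitions for the proof: derivations over points, the symplectic form `om`,
good polynomials, generic curves. -/

namespace Vale.Agent.P292

open MvPolynomial TensorProduct

universe u v w

variable {R : Type u} [CommRing R] [Algebra ℂ R]

@[simp] theorem pt_apply {κ : Type v} [Field κ] [Algebra ℂ κ]
    (φ : R →ₐ[ℂ] MvPolynomial (Fin 2) κ) (a : Fin 2 → κ) (r : R) : pt φ a r = eval a (φ r) := by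
  simp [pt, aeval_eq_eval]

/-- `x` is not (a generalisation of) the vertex. -/
def IsNV {E : Type v} [CommRing E] [Algebra ℂ E] (𝒜 : ℕ → Submodule ℂ R) (x : R →ₐ[ℂ] E) : Prop :=
  ∃ k : ℕ, 0 < k ∧ ∃ r ∈ 𝒜 k, x r ≠ 0

/-- `δ` is a derivation over the point `x`. -/
def IsDer {E : Type v} [CommRing E] [Algebra ℂ E] (x : R →ₐ[ℂ] E) (δ : R →ₗ[ℂ] E) : Prop :=
  ∀ r s, δ (r * s) = x r * δ s + x s * δ r

/-- The space of derivations over `x` (the tangent space of the cone at `x`). -/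
def DerAt {E : Type v} [CommRing E] [Algebra ℂ E] (x : R →ₐ[ℂ] E) : Submodule E (R →ₗ[ℂ] E) where
  carrier := {δ | IsDer x δ}
  add_mem' := fun {a b} ha hb r s => by
    simp only [LinearMap.add_apply, ha r s, hb r s]; ring
  zero_mem' := fun r s => by simp
  smul_mem' := fun c a ha r s => by
    simp only [LinearMap.smul_apply, ha r s, smul_eq_mul]; ring

@[simp] theorem mem_DerAt {E : Type v} [CommRing E] [Algebra ℂ E] {x : R →ₐ[ℂ] E}
    {δ : R →ₗ[ℂ] E} : δ ∈ DerAt x ↔ IsDer x δ := Iff.rfl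

/-- The Hamiltonian vector field of `r` at the point `x`. -/
def hamAt {E : Type v} [CommRing E] [Algebra ℂ E] (P : R →ₗ[ℂ] R →ₗ[ℂ] R) (x : R →ₐ[ℂ] E)
    (r : R) : R →ₗ[ℂ] E := x.toLinearMap ∘ₗ P r

@[simp] theorem hamAt_apply {E : Type v} [CommRing E] [Algebra ℂ E] (P : R →ₗ[ℂ] R →ₗ[ℂ] R)
    (x : R →ₐ[ℂ] E) (r s : R) : hamAt P x r s = x (P r s) := rfl

/-- The derivation `D ∘ x` over `x`, for a derivation `D` of `E`. -/
def alongAt {E : Type v} [CommRing E] [Algebra ℂ E] (x : R →ₐ[ℂ] E) (D : Derivation ℂ E E) :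
    R →ₗ[ℂ] E := (D : E →ₗ[ℂ] E) ∘ₗ x.toLinearMap

@[simp] theorem alongAt_apply {E : Type v} [CommRing E] [Algebra ℂ E] (x : R →ₐ[ℂ] E)
    (D : Derivation ℂ E E) (r : R) : alongAt x D r = D (x r) := rfl

theorem isDer_alongAt {E : Type v} [CommRing E] [Algebra ℂ E] (x : R →ₐ[ℂ] E)
    (D : Derivation ℂ E E) : IsDer x (alongAt x D) := fun r s => by
  simp [smul_eq_mul]

/-- `c` is the value of the symplectic form at `δ`, `δ'`. -/
def IsOm {E : Type v} [CommRing E] [Algebra ℂ E] (P : R →ₗ[ℂ] R →ₗ[ℂ] R) (x : R →ₐ[ℂ] E)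
    (δ δ' : R →ₗ[ℂ] E) (c : E) : Prop :=
  ∃ (N : ℕ) (a : Fin N → E) (r : Fin N → R), (∀ s, δ s = ∑ i, a i * x (P (r i) s)) ∧
    c = ∑ i, a i * δ' (r i)

open Classical in
/-- The symplectic form at the point `x`. -/
noncomputable def om {E : Type v} [CommRing E] [Algebra ℂ E] (P : R →ₗ[ℂ] R →ₗ[ℂ] R)
    (x : R →ₐ[ℂ] E) (δ δ' : R →ₗ[ℂ] E) : E :=
  if h : ∃ c, IsOm P x δ δ' c then h.choose else 0

/-- The dimension of the cone. -/
noncomputable def cdim (R : Type u) [CommRing R] [Algebra ℂ R] : ℕ :=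
  Module.finrank (FractionRing R)
    (DerAt (IsScalarTower.toAlgHom ℂ R (FractionRing R)))

/-! ### curves -/

section curves

variable {κ : Type v} [Field κ] [Algebra ℂ κ]

/-- `∂_i φ`. -/
noncomputable def pd (φ : R →ₐ[ℂ] MvPolynomial (Fin 2) κ) (i : Fin 2) :
    R →ₗ[ℂ] MvPolynomial (Fin 2) κ :=
  ((pderiv i : Derivation κ _ _).toLinearMap.restrictScalars ℂ) ∘ₗ φ.toLinearMap

@[simp] theorem pd_apply (φ : R →ₐ[ℂ] MvPolynomial (Fin 2) κ) (i : Fin 2) (r : R) :
    pd φ i r = pderiv i (φ r) := rfl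

/-- The value of a derivation over `φ` at the parameter `a`. -/
noncomputable def evL (a : Fin 2 → κ) (δ : R →ₗ[ℂ] MvPolynomial (Fin 2) κ) : R →ₗ[ℂ] κ :=
  ((aeval a : MvPolynomial (Fin 2) κ →ₐ[κ] κ).restrictScalars ℂ).toLinearMap ∘ₗ δ

@[simp] theorem evL_apply (a : Fin 2 → κ) (δ : R →ₗ[ℂ] MvPolynomial (Fin 2) κ) (r : R) :
    evL a δ r = eval a (δ r) := by
  simp [evL, aeval_eq_eval]

/-- `δ` is a derivation over `φ` which shifts degrees by `e` (`φ` a curve of degree `d`). -/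
structure IsHDer (𝒜 : ℕ → Submodule ℂ R) (d : ℕ) (φ : R →ₐ[ℂ] MvPolynomial (Fin 2) κ) (e : ℤ)
    (δ : R →ₗ[ℂ] MvPolynomial (Fin 2) κ) : Prop where
  der : IsDer φ δ
  homog : ∀ k, ∀ r ∈ 𝒜 k, ∀ m : ℕ, (m : ℤ) = d * k + e → (δ r).IsHomogeneous m
  neg : ∀ k : ℕ, (d * k + e : ℤ) < 0 → ∀ r ∈ 𝒜 k, δ r = 0

/-- The derivation `D` of `κ` applied to all coefficients. -/
noncomputable def mapDF (D : Derivation ℂ κ κ) (p : MvPolynomial (Fin 2) κ) :
    MvPolynomial (Fin 2) κ := ∑ m ∈ p.support, monomial m (D (coeff m p))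

theorem coeff_mapDF (D : Derivation ℂ κ κ) (p : MvPolynomial (Fin 2) κ) (m : Fin 2 →₀ ℕ) :
    coeff m (mapDF D p) = D (coeff m p) := by
  classical
  rw [mapDF, coeff_sum]
  simp only [coeff_monomial, Finset.sum_ite_eq', mem_support_iff]
  by_cases hm : coeff m p = 0
  · simp [hm]
  · simp [hm]

/-- The derivation `D` of `κ` applied to all coefficients. -/
noncomputable def mapDL (D : Derivation ℂ κ κ) :
    MvPolynomial (Fin 2) κ →ₗ[ℂ] MvPolynomial (Fin 2) κ where
  toFun := mapDF D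
  map_add' p q := by
    ext m
    rw [coeff_add, coeff_mapDF, coeff_mapDF, coeff_mapDF, coeff_add, map_add]
  map_smul' c p := by
    ext m
    rw [RingHom.id_apply, coeff_smul, coeff_mapDF, coeff_mapDF, coeff_smul, Derivation.map_smul]

theorem coeff_mapDL (D : Derivation ℂ κ κ) (p : MvPolynomial (Fin 2) κ) (m : Fin 2 →₀ ℕ) :
    coeff m (mapDL D p) = D (coeff m p) := coeff_mapDF D p m

/-- The derivation of `κ[s, t]` which acts coefficientwise by the derivation `D` of `κ`. -/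
noncomputable def mapD (D : Derivation ℂ κ κ) :
    Derivation ℂ (MvPolynomial (Fin 2) κ) (MvPolynomial (Fin 2) κ) :=
  Derivation.mk' (mapDL D) (fun p q => by
    classical
    ext m
    rw [coeff_mapDL, coeff_mul, map_sum, smul_eq_mul, smul_eq_mul, coeff_add, coeff_mul,
      mul_comm q, coeff_mul, ← Finset.sum_add_distrib]
    refine Finset.sum_congr rfl fun x _ => ?_
    rw [Derivation.leibniz, coeff_mapDL, coeff_mapDL, smul_eq_mul, smul_eq_mul]
    ring)

@[simp] theorem coeff_mapD (D : Derivation ℂ κ κ) (p : MvPolynomial (Fin 2) κ)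
    (m : Fin 2 →₀ ℕ) : coeff m (mapD D p) = D (coeff m p) := coeff_mapDL D p m

/-- The value of the symplectic form on derivations over a curve, as a polynomial. -/
noncomputable def omC (P : R →ₗ[ℂ] R →ₗ[ℂ] R) (φ : R →ₐ[ℂ] MvPolynomial (Fin 2) κ)
    (δ δ' : R →ₗ[ℂ] MvPolynomial (Fin 2) κ) : MvPolynomial (Fin 2) κ :=
  Classical.epsilon fun c => algebraMap _ (FractionRing (MvPolynomial (Fin 2) κ)) c =
    om P ((IsScalarTower.toAlgHom ℂ (MvPolynomial (Fin 2) κ)
        (FractionRing (MvPolynomial (Fin 2) κ))).comp φ)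
      ((IsScalarTower.toAlgHom ℂ (MvPolynomial (Fin 2) κ)
        (FractionRing (MvPolynomial (Fin 2) κ))).toLinearMap ∘ₗ δ)
      ((IsScalarTower.toAlgHom ℂ (MvPolynomial (Fin 2) κ)
        (FractionRing (MvPolynomial (Fin 2) κ))).toLinearMap ∘ₗ δ')

/-- The coefficient of `s ^ i t ^ j`. -/
noncomputable def cf (p : MvPolynomial (Fin 2) κ) (i j : ℕ) : κ :=
  coeff (Finsupp.single 0 i + Finsupp.single 1 j) p

end curves

/-! ### good polynomials -/

/-- `P r` acts on the coefficients of `Q`. -/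
noncomputable def brP (P : R →ₗ[ℂ] R →ₗ[ℂ] R) (r : R) (Q : Polynomial R) : Polynomial R :=
  Q.sum fun i c => Polynomial.monomial i (P r c)

/-- `Q` is the minimal polynomial of an integral function `β` of degree `1 / d`, such that all
brackets `{r, β}` are integral. -/
structure IsGood (𝒜 : ℕ → Submodule ℂ R) (P : R →ₗ[ℂ] R →ₗ[ℂ] R) (d : ℕ) (Q : Polynomial R) :
    Prop where
  monic : Q.Monic
  irr : Irreducible Q
  homog : ∀ i ≤ Q.natDegree, ∀ j, Q.natDegree - i = d * j → Q.coeff i ∈ 𝒜 j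
  homog0 : ∀ i ≤ Q.natDegree, ¬ d ∣ Q.natDegree - i → Q.coeff i = 0
  bracket : ∃ (M : Type u) (_ : Field M) (_ : Algebra R M), Function.Injective (algebraMap R M) ∧
    ∃ β : M, Polynomial.aeval β Q = 0 ∧ ∀ r, IsIntegral R
      (Polynomial.aeval β (brP P r Q) / Polynomial.aeval β (Polynomial.derivative Q))

/-- There is a generic conic through the point `w`: the other end point is generic. -/
structure GenConicAt (𝒜 : ℕ → Submodule ℂ R) (w : R →ₐ[ℂ] ℂ) {Ω : Type v} [Field Ω] [Algebra ℂ Ω]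
    (φ : R →ₐ[ℂ] MvPolynomial (Fin 2) Ω) : Prop where
  curve : IsCurve 𝒜 2 φ
  left : ∀ r, pt φ ![1, 0] r = algebraMap ℂ Ω (w r)
  inj : Function.Injective (pt φ ![0, 1])

end Vale.Agent.P292
end

section

/-! # P292, block C4, C5: standard derivations along a curve, division by a linear form. -/

namespace Vale.Agent.P292

open MvPolynomial TensorProduct

universe u v w

variable {R : Type u} [CommRing R] [Algebra ℂ R] {𝒜 : ℕ → Submodule ℂ R} [GradedAlgebra 𝒜]

section C4

variable {κ : Type v} [Field κ] [IsAlgClosed κ] [Algebra ℂ κ] {d : ℕ}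
  {φ : R →ₐ[ℂ] MvPolynomial (Fin 2) κ}

omit [GradedAlgebra 𝒜] [IsAlgClosed κ] in
/-- C4: the partial derivatives along a curve. -/
theorem isHDer_pd (hφ : IsCurve 𝒜 d φ) (i : Fin 2) : IsHDer 𝒜 d φ (-1) (pd φ i) where
  der r s := by
    rw [pd_apply, pd_apply, pd_apply, map_mul, Derivation.leibniz, smul_eq_mul, smul_eq_mul]
  homog k r hr m hm := by
    rw [pd_apply]
    have h := (hφ.degree k r hr).pderiv (i := i)
    have h1 : d * k - 1 = m := by
      have : ((d * k : ℕ) : ℤ) = d * k := by push_cast; ring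
      omega
    rwa [h1] at h
  neg k hk r hr := by
    have h := hφ.degree k r hr
    have h1 : d * k = 0 := by
      have : ((d * k : ℕ) : ℤ) = d * k := by push_cast; ring
      omega
    rw [h1] at h
    rw [pd_apply]
    have h2 : (φ r).totalDegree = 0 := Nat.le_zero.1 h.totalDegree_le
    rw [totalDegree_eq_zero_iff_eq_C.1 h2, pderiv_C]

omit [GradedAlgebra 𝒜] [IsAlgClosed κ] in
/-- C4: the derivation of the coefficients along a curve. -/
theorem isHDer_mapD (hφ : IsCurve 𝒜 d φ) (D : Derivation ℂ κ κ) :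
    IsHDer 𝒜 d φ 0 ((mapD D : Derivation ℂ _ _).toLinearMap ∘ₗ φ.toLinearMap) where
  der r s := by
    change mapD D (φ (r * s)) = φ r * mapD D (φ s) + φ s * mapD D (φ r)
    rw [map_mul, Derivation.leibniz, smul_eq_mul, smul_eq_mul]
  homog k r hr m hm := by
    have h1 : d * k = m := by
      have : ((d * k : ℕ) : ℤ) = d * k := by push_cast; ring
      omega
    have h := hφ.degree k r hr
    rw [h1] at h
    intro a ha
    apply h
    intro h0
    apply ha
    change coeff a (mapD D (φ r)) = 0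
    rw [coeff_mapD, h0, map_zero]
  neg k hk r hr := by
    have : ((d * k : ℕ) : ℤ) = d * k := by push_cast; ring
    omega

end C4

section C5

variable {κ : Type v} [Field κ] [Algebra ℂ κ] {d : ℕ}
  {φ : R →ₐ[ℂ] MvPolynomial (Fin 2) κ}

/-- Division by the variable `X i`. -/
noncomputable def C4_divL (κ : Type v) [Field κ] [Algebra ℂ κ] (i : Fin 2) :
    MvPolynomial (Fin 2) κ →ₗ[ℂ] MvPolynomial (Fin 2) κ where
  toFun p := divMonomial p (Finsupp.single i 1)
  map_add' p q := by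
    ext m
    simp only [coeff_divMonomial, coeff_add]
  map_smul' c p := by
    ext m
    simp only [coeff_divMonomial, coeff_smul, RingHom.id_apply]

theorem C4_coeff_divL (i : Fin 2) (p : MvPolynomial (Fin 2) κ) (m : Fin 2 →₀ ℕ) :
    coeff m (C4_divL κ i p) = coeff (Finsupp.single i 1 + m) p := by
  simp [C4_divL, coeff_divMonomial]

theorem C4_X_mul_divL {i : Fin 2} {p : MvPolynomial (Fin 2) κ} (h : X i ∣ p) :
    X i * C4_divL κ i p = p := by
  obtain ⟨q, rfl⟩ := h
  congr 1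
  simp only [C4_divL, LinearMap.coe_mk, AddHom.coe_mk]
  exact X_mul_divMonomial i q

/-- The point where only the `i`-th coordinate vanishes. -/
def C4_pt (κ : Type v) [Field κ] (i : Fin 2) : Fin 2 → κ := fun j => if j = i then 0 else 1

omit [Algebra ℂ κ] in
theorem C4_eval_monomial (i : Fin 2) (m : Fin 2 →₀ ℕ) (c : κ) :
    eval (C4_pt κ i) (monomial m c) = if m i = 0 then c else 0 := by
  rw [eval_monomial, Finsupp.prod_fintype _ _ (fun _ => pow_zero _)]
  fin_cases i <;> simp [C4_pt, zero_pow_eq]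

omit [Algebra ℂ κ] in
theorem C4_dvd {i : Fin 2} {m : ℕ} {p : MvPolynomial (Fin 2) κ} (hp : p.IsHomogeneous m)
    (h : eval (C4_pt κ i) p = 0) : X i ∣ p := by
  classical
  rw [X_dvd_iff_modMonomial_eq_zero]
  ext a
  rw [coeff_zero]
  by_cases ha : Finsupp.single i 1 ≤ a
  · exact coeff_modMonomial_of_le p ha
  · rw [coeff_modMonomial_of_not_le p ha]
    by_contra hc
    have hai : a i = 0 := by
      by_contra h0
      apply ha
      rw [Finsupp.single_le_iff]
      omega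
    have hdeg : ∀ b : Fin 2 →₀ ℕ, b ∈ p.support → b i = 0 → b = a := by
      intro b hb hbi
      have h1 := hp (mem_support_iff.1 hb)
      have h2 := hp hc
      rw [Finsupp.weight_apply, Finsupp.sum_fintype _ _ (by simp)] at h1 h2
      simp only [Pi.one_apply, smul_eq_mul, mul_one, Fin.sum_univ_two] at h1 h2
      ext j
      fin_cases i <;> fin_cases j <;> simp at hai hbi ⊢ <;> omega
    apply hc
    have h3 : eval (C4_pt κ i) p = coeff a p := by
      conv_lhs => rw [p.as_sum]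
      rw [map_sum, Finset.sum_eq_single a]
      · rw [C4_eval_monomial, if_pos hai]
      · intro b hb hba
        rw [C4_eval_monomial, if_neg]
        exact fun h0 => hba (hdeg b hb h0)
      · intro h0
        rw [C4_eval_monomial, if_pos hai]
        exact notMem_support_iff.1 h0
    rw [← h3, h]

theorem C4_div {e : ℤ} {δ : R →ₗ[ℂ] MvPolynomial (Fin 2) κ}
    (h1 : IsHDer 𝒜 d φ e δ) (i : Fin 2) (h0 : ∀ r, eval (C4_pt κ i) (δ r) = 0) :
    ∃ δ', IsHDer 𝒜 d φ (e - 1) δ' ∧ ∀ r, δ r = X i * δ' r := by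
  classical
  have hdvd : ∀ r, X i ∣ δ r := by
    intro r
    induction r using DirectSum.Decomposition.inductionOn 𝒜 with
    | zero => rw [map_zero]; exact dvd_zero _
    | @homogeneous k r =>
      by_cases hk : (d * k + e : ℤ) < 0
      · rw [h1.neg k hk r r.2]; exact dvd_zero _
      · push Not at hk
        obtain ⟨m, hm⟩ := Int.eq_ofNat_of_zero_le hk
        exact C4_dvd (h1.homog k r r.2 m hm.symm) (h0 r)
    | add r s hr hs => rw [map_add]; exact dvd_add hr hs
  have hmul : ∀ r, δ r = X i * C4_divL κ i (δ r) := fun r => (C4_X_mul_divL (hdvd r)).symm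
  refine ⟨C4_divL κ i ∘ₗ δ, ⟨fun r s => ?_, fun k r hr m hm => ?_, fun k hk r hr => ?_⟩,
    fun r => hmul r⟩
  · have hX : (X i : MvPolynomial (Fin 2) κ) ≠ 0 := X_ne_zero i
    apply mul_left_cancel₀ hX
    simp only [LinearMap.comp_apply]
    rw [← hmul, h1.der, mul_add, mul_left_comm, ← hmul, mul_left_comm, ← hmul]
  · intro a ha
    simp only [LinearMap.comp_apply] at ha
    rw [C4_coeff_divL] at ha
    have h2 := h1.homog k r hr (m + 1) (by push_cast; omega) ha
    rw [map_add, Finsupp.weight_single] at h2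
    simp only [Pi.one_apply, smul_eq_mul, mul_one] at h2
    omega
  · simp only [LinearMap.comp_apply]
    by_cases hk' : (d * k + e : ℤ) < 0
    · rw [h1.neg k hk' r hr, map_zero]
    · have h3 := h1.homog k r hr 0 (by push_cast; omega)
      ext a
      rw [C4_coeff_divL, coeff_zero]
      by_contra hc
      have h2 := h3 hc
      rw [map_add, Finsupp.weight_single] at h2
      simp only [Pi.one_apply, smul_eq_mul, mul_one] at h2
      omega

/-- C5: division by a linear form: a derivation over `φ` of degree `e` vanishing at `(1, 0)` is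
`X 1` times one of degree `e - 1`. -/
theorem exists_div_X_one (_hφ : IsCurve 𝒜 d φ) {e : ℤ} {δ : R →ₗ[ℂ] MvPolynomial (Fin 2) κ}
    (h1 : IsHDer 𝒜 d φ e δ) (h0 : ∀ r, eval ![1, 0] (δ r) = 0) :
    ∃ δ', IsHDer 𝒜 d φ (e - 1) δ' ∧ ∀ r, δ r = X 1 * δ' r := by
  have hpt : C4_pt κ 1 = ![1, 0] := by
    funext j
    fin_cases j <;> simp [C4_pt]
  exact C4_div h1 1 fun r => by rw [hpt]; exact h0 r

theorem exists_div_X_zero (_hφ : IsCurve 𝒜 d φ) {e : ℤ} {δ : R →ₗ[ℂ] MvPolynomial (Fin 2) κ}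
    (h1 : IsHDer 𝒜 d φ e δ) (h0 : ∀ r, eval ![0, 1] (δ r) = 0) :
    ∃ δ', IsHDer 𝒜 d φ (e - 1) δ' ∧ ∀ r, δ r = X 0 * δ' r := by
  have hpt : C4_pt κ 0 = ![0, 1] := by
    funext j
    fin_cases j <;> simp [C4_pt]
  exact C4_div h1 0 fun r => by rw [hpt]; exact h0 r

end C5

end Vale.Agent.P292
end

section

/-! # Ultraproducts of curves: transfer of families of closed curves to curves over an
algebraically closed field. -/

namespace Vale.Agent.P292

open Filter

universe u

/-- `Ω` is the ultrapower of `ℂ` over the ultrafilter `U`, with quotient map `g`. -/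
structure IsUP {S : Type u} (U : Ultrafilter S) {Ω : Type u} [Field Ω] [Algebra ℂ Ω]
    (g : (S → ℂ) →+* Ω) : Prop where
  surj : Function.Surjective g
  zero : ∀ f, g f = 0 ↔ ∀ᶠ s in (U : Filter S), f s = 0
  const : ∀ c : ℂ, g (fun _ => c) = algebraMap ℂ Ω c

theorem exists_isUP {S : Type u} (U : Ultrafilter S) :
    ∃ (Ω : Type u) (_ : Field Ω) (_ : Algebra ℂ Ω) (g : (S → ℂ) →+* Ω), IsUP U g := by
  let g : (S → ℂ) →+* Germ (U : Filter S) ℂ := Germ.coeRingHom _
  refine ⟨Germ (U : Filter S) ℂ, inferInstance, (g.comp (Pi.constRingHom S ℂ)).toAlgebra, g, ?_⟩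
  refine @IsUP.mk _ _ _ _ (_) _ ?_ ?_ ?_
  · intro x
    induction x using Filter.Germ.inductionOn with
    | _ f => exact ⟨f, rfl⟩
  · intro f
    change ((f : Germ (U : Filter S) ℂ) = ((0 : S → ℂ) : Germ (U : Filter S) ℂ)) ↔ _
    rw [Germ.coe_eq]
    rfl
  · intro c
    rfl

namespace IsUP

variable {S : Type u} {U : Ultrafilter S} {Ω : Type u} [Field Ω] [Algebra ℂ Ω]
  {g : (S → ℂ) →+* Ω} (h : IsUP U g)
include h

theorem ne_zero {f : S → ℂ} : g f ≠ 0 ↔ ∀ᶠ s in (U : Filter S), f s ≠ 0 := by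
  rw [Ne, h.zero, Ultrafilter.eventually_not]

theorem congr {f f' : S → ℂ} (hf : ∀ᶠ s in (U : Filter S), f s = f' s) : g f = g f' := by
  rw [← sub_eq_zero, ← map_sub, h.zero]
  filter_upwards [hf] with s hs
  rw [Pi.sub_apply, hs, sub_self]

theorem isAlgClosed : IsAlgClosed Ω := by
  refine IsAlgClosed.of_exists_root Ω fun p hp hirr => ?_
  choose f hf using fun i => h.surj (p.coeff i)
  have hn : 0 < p.natDegree := hirr.natDegree_pos
  have hx : ∀ s : S, ∃ x : ℂ, x ^ p.natDegree +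
      ∑ i ∈ Finset.range p.natDegree, f i s * x ^ i = 0 := by
    intro s
    let q : Polynomial ℂ := Polynomial.X ^ p.natDegree +
      ∑ i ∈ Finset.range p.natDegree, Polynomial.C (f i s) * Polynomial.X ^ i
    have hlt : (∑ i ∈ Finset.range p.natDegree,
        Polynomial.C (f i s) * Polynomial.X ^ i).degree < (p.natDegree : WithBot ℕ) := by
      refine lt_of_le_of_lt (Polynomial.degree_sum_le _ _) ?_
      rw [Finset.sup_lt_iff (by exact_mod_cast WithBot.bot_lt_coe p.natDegree)]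
      intro i hi
      rw [Finset.mem_range] at hi
      refine lt_of_le_of_lt (Polynomial.degree_C_mul_X_pow_le _ _) ?_
      exact_mod_cast hi
    have hq : q.degree ≠ 0 := by
      have h1 : q.degree = (p.natDegree : WithBot ℕ) := by
        rw [Polynomial.degree_add_eq_left_of_degree_lt, Polynomial.degree_X_pow]
        rw [Polynomial.degree_X_pow]; exact hlt
      rw [h1]
      exact_mod_cast hn.ne'
    obtain ⟨x, hx⟩ := IsAlgClosed.exists_root q hq
    refine ⟨x, ?_⟩
    have := hx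
    simpa [q, Polynomial.IsRoot, Polynomial.eval_finsetSum] using this
  choose x hx using hx
  refine ⟨g x, ?_⟩
  have h1 : p.eval (g x) = g (x ^ p.natDegree +
      ∑ i ∈ Finset.range p.natDegree, f i * x ^ i) := by
    rw [Polynomial.eval_eq_sum_range, Finset.sum_range_succ, hp.coeff_natDegree, one_mul,
      map_add, map_pow, map_sum, add_comm]
    congr 1
    refine Finset.sum_congr rfl fun i _ => ?_
    rw [map_mul, map_pow, hf]
  rw [h1, h.zero]
  refine Filter.Eventually.of_forall fun s => ?_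
  have := hx s
  simpa using this

end IsUP

section curve

open MvPolynomial

/-- The box of exponents. -/
noncomputable def box (N : ℕ) : Finset (Fin 2 →₀ ℕ) := by
  classical
  exact (Finset.range (N + 1) ×ˢ Finset.range (N + 1)).image fun ij =>
    Finsupp.single 0 ij.1 + Finsupp.single 1 ij.2

theorem mem_box {N : ℕ} {m : Fin 2 →₀ ℕ} (h0 : m 0 ≤ N) (h1 : m 1 ≤ N) : m ∈ box N := by
  classical
  rw [box, Finset.mem_image]
  refine ⟨(m 0, m 1), by simp; omega, ?_⟩
  ext i
  fin_cases i <;> simp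

theorem eq_sum_box {K : Type*} [CommSemiring K] {N : ℕ} {p : MvPolynomial (Fin 2) K}
    (hp : ∀ m, m ∉ box N → coeff m p = 0) : p = ∑ m ∈ box N, monomial m (coeff m p) := by
  classical
  ext m
  rw [coeff_sum]
  simp only [coeff_monomial]
  rw [Finset.sum_ite_eq']
  split_ifs with hm
  · rfl
  · exact hp m hm

theorem eval_box {K : Type*} [CommSemiring K] {N : ℕ} {p : MvPolynomial (Fin 2) K}
    (hp : ∀ m, m ∉ box N → coeff m p = 0) (a : Fin 2 → K) :
    eval a p = ∑ m ∈ box N, coeff m p * (a 0 ^ m 0 * a 1 ^ m 1) := by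
  conv_lhs => rw [eq_sum_box hp]
  rw [map_sum]
  refine Finset.sum_congr rfl fun m _ => ?_
  rw [eval_monomial]
  congr 1
  rw [Finsupp.prod_fintype _ _ (fun i => by simp), Fin.prod_univ_two]

variable {R : Type u} [CommRing R] [Algebra ℂ R] {𝒜 : ℕ → Submodule ℂ R} [GradedAlgebra 𝒜]

variable (𝒜) in
/-- A bound for the degrees of the homogeneous components. -/
noncomputable def dbd (d : ℕ) (r : R) : ℕ := by
  classical
  exact d * (DirectSum.decompose 𝒜 r).support.sup id

theorem coeff_eq_zero_of_notMem_box {d : ℕ} {K : Type*} [Field K] [Algebra ℂ K]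
    {φ : R →ₐ[ℂ] MvPolynomial (Fin 2) K}
    (hφ : ∀ k, ∀ r ∈ 𝒜 k, (φ r).IsHomogeneous (d * k)) (r : R) (m : Fin 2 →₀ ℕ)
    (hm : m ∉ box (dbd 𝒜 d r)) : coeff m (φ r) = 0 := by
  classical
  rw [← DirectSum.sum_support_decompose 𝒜 r, map_sum, coeff_sum]
  refine Finset.sum_eq_zero fun k hk => ?_
  by_contra hne
  have h1 := hφ k _ (DirectSum.decompose 𝒜 r k).2 hne
  apply hm
  have h2 : m 0 + m 1 = d * k := by
    rw [← h1, Finsupp.weight_apply, Finsupp.sum_fintype _ _ (fun i => by simp), Fin.sum_univ_two]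
    simp
  have h3 : d * k ≤ dbd 𝒜 d r := by
    rw [dbd]
    exact Nat.mul_le_mul_left _ (Finset.le_sup (f := id) hk)
  exact mem_box (by omega) (by omega)

theorem apply_eq_zero_of_generators {K : Type*} [CommRing K] [Algebra ℂ K] (p : R →ₐ[ℂ] K)
    {t : Set R} (ht : Algebra.adjoin ℂ t = ⊤) (hn : ∀ x ∈ t, ∃ n ≠ 0, x ∈ 𝒜 n)
    (hp : ∀ x ∈ t, p x = 0) : ∀ k, 0 < k → ∀ r ∈ 𝒜 k, p r = 0 := by
  have key : ∀ r : R, p r = p (GradedRing.projZeroRingHom 𝒜 r) := by
    intro r
    have hr : r ∈ Algebra.adjoin ℂ t := by rw [ht]; trivial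
    induction hr using Algebra.adjoin_induction with
    | mem x hx =>
      obtain ⟨n, hn0, hxn⟩ := hn x hx
      rw [GradedRing.projZeroRingHom_apply, DirectSum.decompose_of_mem_ne 𝒜 hxn hn0, map_zero,
        hp x hx]
    | algebraMap c =>
      rw [GradedRing.projZeroRingHom_apply, DirectSum.decompose_of_mem_same 𝒜]
      rw [Algebra.algebraMap_eq_smul_one]
      exact Submodule.smul_mem _ _ SetLike.GradedOne.one_mem
    | add x y _ _ hx hy => rw [map_add, map_add, map_add, hx, hy]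
    | mul x y _ _ hx hy => rw [map_mul, map_mul, map_mul, hx, hy]
  intro k hk r hr
  rw [key, GradedRing.projZeroRingHom_apply, DirectSum.decompose_of_mem_ne 𝒜 hr hk.ne', map_zero]

/-- The ultraproduct of curves. -/
theorem IsUP.exists_curve {S : Type u} {U : Ultrafilter S} {Ω : Type u} [Field Ω] [Algebra ℂ Ω]
    {g : (S → ℂ) →+* Ω} (h : IsUP U g) [Algebra.FiniteType ℂ R]
    (h0 : ∀ r ∈ 𝒜 0, ∃ c : ℂ, r = algebraMap ℂ R c) {d : ℕ}
    (φ : S → R →ₐ[ℂ] MvPolynomial (Fin 2) ℂ) (hφ : ∀ s, IsCurve 𝒜 d (φ s)) :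
    ∃ Φ : R →ₐ[ℂ] MvPolynomial (Fin 2) Ω, IsCurve 𝒜 d Φ ∧
      (∀ r m, coeff m (Φ r) = g fun s => coeff m (φ s r)) ∧
      ∀ (r : R) (a : Fin 2 → S → ℂ), eval (fun i => g (a i)) (Φ r) =
        g fun s => eval (fun i => a i s) (φ s r) := by
  classical
  let F : R → MvPolynomial (Fin 2) Ω := fun r =>
    ∑ m ∈ box (dbd 𝒜 d r), monomial m (g fun s => coeff m (φ s r))
  have hF : ∀ r m, coeff m (F r) = g fun s => coeff m (φ s r) := by
    intro r m
    change coeff m (∑ m ∈ box (dbd 𝒜 d r), monomial m (g fun s => coeff m (φ s r))) = _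
    rw [coeff_sum]
    simp only [coeff_monomial]
    rw [Finset.sum_ite_eq']
    split_ifs with hm
    · rfl
    · have : (fun s => coeff m (φ s r)) = 0 := by
        funext s
        exact coeff_eq_zero_of_notMem_box (hφ s).degree r m hm
      rw [this, map_zero]
  let Φ : R →ₐ[ℂ] MvPolynomial (Fin 2) Ω :=
    { toFun := F
      map_one' := by
        ext m
        rw [hF, coeff_one]
        simp only [map_one, coeff_one]
        split_ifs
        · exact map_one g
        · exact map_zero g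
      map_mul' := fun r r' => by
        ext m
        rw [hF, coeff_mul]
        simp only [map_mul, coeff_mul]
        have : (fun s => ∑ x ∈ Finset.HasAntidiagonal.antidiagonal m, coeff x.1 (φ s r) * coeff x.2 (φ s r')) =
            ∑ x ∈ Finset.HasAntidiagonal.antidiagonal m,
              (fun s => coeff x.1 (φ s r)) * (fun s => coeff x.2 (φ s r')) := by
          funext s
          simp
        rw [this, map_sum]
        refine Finset.sum_congr rfl fun x _ => ?_
        rw [map_mul, hF, hF]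
      map_zero' := by
        ext m
        rw [hF]
        simp only [map_zero, coeff_zero]
        exact map_zero g
      map_add' := fun r r' => by
        ext m
        rw [hF, coeff_add, hF, hF]
        simp only [map_add, coeff_add]
        exact map_add g _ _
      commutes' := fun c => by
        ext m
        rw [hF]
        simp only [AlgHom.commutes, MvPolynomial.algebraMap_apply, coeff_C]
        split_ifs
        · exact h.const c
        · exact map_zero g }
  have hΦ : ∀ r m, coeff m (Φ r) = g fun s => coeff m (φ s r) := hF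
  have hdeg : ∀ k, ∀ r ∈ 𝒜 k, (Φ r).IsHomogeneous (d * k) := by
    intro k r hr m hm
    by_contra hne
    apply hm
    rw [hΦ]
    have : (fun s => coeff m (φ s r)) = 0 := by
      funext s
      by_contra h1
      exact hne ((hφ s).degree k r hr h1)
    rw [this, map_zero]
  have heval : ∀ (r : R) (a : Fin 2 → S → ℂ), eval (fun i => g (a i)) (Φ r) =
        g fun s => eval (fun i => a i s) (φ s r) := by
    intro r a
    rw [eval_box (fun m hm => coeff_eq_zero_of_notMem_box hdeg r m hm)]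
    have : (fun s => eval (fun i => a i s) (φ s r)) = ∑ m ∈ box (dbd 𝒜 d r),
        (fun s => coeff m (φ s r)) * (a 0 ^ m 0 * a 1 ^ m 1) := by
      funext s
      rw [eval_box (fun m hm => coeff_eq_zero_of_notMem_box (hφ s).degree r m hm)]
      simp
    rw [this, map_sum]
    refine Finset.sum_congr rfl fun m _ => ?_
    rw [map_mul, map_mul, map_pow, map_pow, hΦ]
  refine ⟨Φ, ⟨hdeg, ?_⟩, hΦ, heval⟩
  intro x hx
  choose a ha using fun i => h.surj (x i)
  obtain ⟨t, ht, htn⟩ := exists_generators 𝒜 h0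
  have hx' : ∀ᶠ s in (U : Filter S), (fun i => a i s) ≠ 0 := by
    obtain ⟨i, hi⟩ := Function.ne_iff.1 hx
    rw [Pi.zero_apply, ← ha i, h.ne_zero] at hi
    filter_upwards [hi] with s hs h1
    exact hs (congrFun h1 i)
  have h2 : ∀ᶠ s in (U : Filter S), ∃ r ∈ t, eval (fun i => a i s) (φ s r) ≠ 0 := by
    filter_upwards [hx'] with s hs
    by_contra hcon
    push Not at hcon
    obtain ⟨k, hk, r, hr, hrs⟩ := (hφ s).bpf _ hs
    apply hrs
    rw [aeval_eq_eval]
    have key : ∀ k, 0 < k → ∀ r ∈ 𝒜 k, pt (φ s) (fun i => a i s) r = 0 :=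
      apply_eq_zero_of_generators _ ht htn fun x hx => by
        rw [pt_apply]; exact hcon x hx
    have := key k hk r hr
    rwa [pt_apply] at this
  have h3 : ∃ r ∈ t, ∀ᶠ s in (U : Filter S), eval (fun i => a i s) (φ s r) ≠ 0 := by
    by_contra hcon
    push Not at hcon
    have h4 : ∀ᶠ s in (U : Filter S), ∀ r ∈ t, ¬ eval (fun i => a i s) (φ s r) ≠ 0 := by
      rw [Filter.eventually_all_finset]
      intro r hr
      filter_upwards [hcon r hr] with s hs
      exact not_not.2 hs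
    obtain ⟨s, hs1, r, hr, hs2⟩ := (h4.and h2).exists
    exact hs1 r hr hs2
  obtain ⟨r, hr, h4⟩ := h3
  obtain ⟨n, hn, hrn⟩ := htn r hr
  refine ⟨n, Nat.pos_of_ne_zero hn, r, hrn, ?_⟩
  have h5 : x = fun i => g (a i) := by
    funext i
    rw [ha]
  rw [aeval_eq_eval, h5]
  change eval _ _ ≠ 0
  rw [heval, h.ne_zero]
  exact h4

/-- The ultrafilter of a generic closed point. -/
theorem exists_generic_ultrafilter (A : Type u) [CommRing A] [Algebra ℂ A] [IsDomain A]
    [Algebra.FiniteType ℂ A] :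
    ∃ U : Ultrafilter (A →ₐ[ℂ] ℂ), ∀ a : A, a ≠ 0 →
      ∀ᶠ s in (U : Filter (A →ₐ[ℂ] ℂ)), s a ≠ 0 := by
  classical
  let F : Filter (A →ₐ[ℂ] ℂ) := Filter.generate {V | ∃ a : A, a ≠ 0 ∧ V = {s | s a ≠ 0}}
  have hne : F.NeBot := by
    rw [Filter.generate_neBot_iff]
    intro t ht htf
    have key : ∀ t : Set (Set (A →ₐ[ℂ] ℂ)), t.Finite →
        t ⊆ {V | ∃ a : A, a ≠ 0 ∧ V = {s | s a ≠ 0}} →
        ∃ a : A, a ≠ 0 ∧ ∀ s : A →ₐ[ℂ] ℂ, s a ≠ 0 → s ∈ ⋂₀ t := by
      intro t htf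
      induction t, htf using Set.Finite.induction_on with
      | empty => intro _; exact ⟨1, one_ne_zero, fun s _ => by simp⟩
      | insert _ _ ih =>
        intro ht
        obtain ⟨a, ha, h1⟩ := ih fun x hx => ht (Set.mem_insert_of_mem _ hx)
        obtain ⟨b, hb, h2⟩ := ht (Set.mem_insert _ _)
        refine ⟨a * b, mul_ne_zero ha hb, fun s hs => ?_⟩
        rw [map_mul] at hs
        rw [Set.sInter_insert, h2]
        exact ⟨right_ne_zero_of_mul hs, h1 s (left_ne_zero_of_mul hs)⟩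
    obtain ⟨a, ha, h1⟩ := key t htf ht
    obtain ⟨s, hs⟩ := exists_point_ne_zero a ha
    exact ⟨s, h1 s hs⟩
  refine ⟨Ultrafilter.of F, fun a ha => ?_⟩
  exact Ultrafilter.of_le F (Filter.mem_generate_of_mem ⟨a, ha, rfl⟩)

/-- Transfer with two end points in a finitely generated domain. -/
theorem exists_curve_of_forall_point [Algebra.FiniteType ℂ R]
    (h0 : ∀ r ∈ 𝒜 0, ∃ c : ℂ, r = algebraMap ℂ R c) {A : Type u} [CommRing A] [Algebra ℂ A]
    [IsDomain A] [Algebra.FiniteType ℂ A] {a : A} (ha : a ≠ 0) {d : ℕ} (p q : R →ₐ[ℂ] A)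
    (H : ∀ s : A →ₐ[ℂ] ℂ, s a ≠ 0 → ∃ φ : R →ₐ[ℂ] MvPolynomial (Fin 2) ℂ, IsCurve 𝒜 d φ ∧
      pt φ ![1, 0] = s.comp p ∧ pt φ ![0, 1] = s.comp q) :
    ∃ (Ω : Type u) (_ : Field Ω) (_ : IsAlgClosed Ω) (_ : Algebra ℂ Ω) (i : A →ₐ[ℂ] Ω)
      (φ : R →ₐ[ℂ] MvPolynomial (Fin 2) Ω), Function.Injective i ∧ IsCurve 𝒜 d φ ∧
      pt φ ![1, 0] = i.comp p ∧ pt φ ![0, 1] = i.comp q := by
  classical
  obtain ⟨U, hU⟩ := exists_generic_ultrafilter A
  obtain ⟨Ω, _, _, g, hg⟩ := exists_isUP U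
  obtain ⟨s₀, hs₀⟩ := exists_point_ne_zero a ha
  obtain ⟨φ₀, hφ₀, -⟩ := H s₀ hs₀
  have : Nonempty (R →ₐ[ℂ] MvPolynomial (Fin 2) ℂ) := ⟨φ₀⟩
  choose! φ hφ using H
  let φ' : (A →ₐ[ℂ] ℂ) → R →ₐ[ℂ] MvPolynomial (Fin 2) ℂ := fun s =>
    if s a ≠ 0 then φ s else φ₀
  have hφ' : ∀ s, IsCurve 𝒜 d (φ' s) := by
    intro s
    change IsCurve 𝒜 d (if s a ≠ 0 then φ s else φ₀)
    split_ifs with hs
    · exact (hφ s hs).1
    · exact hφ₀
  obtain ⟨Φ, hΦ, -, heval⟩ := hg.exists_curve h0 φ' hφ'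
  let i : A →ₐ[ℂ] Ω :=
    { toFun := fun x => g fun s => s x
      map_one' := by simp only [map_one]; exact map_one g
      map_zero' := by simp only [map_zero]; exact map_zero g
      map_mul' := fun x y => by simp only [map_mul]; exact map_mul g _ _
      map_add' := fun x y => by simp only [map_add]; exact map_add g _ _
      commutes' := fun c => by
        simp only [AlgHom.commutes]
        exact hg.const c }
  have hi : ∀ x, i x = g fun s => s x := fun x => rfl
  refine ⟨Ω, inferInstance, hg.isAlgClosed, inferInstance, i, Φ, ?_, hΦ, ?_, ?_⟩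
  · rw [injective_iff_map_eq_zero]
    intro x hx
    by_contra hx0
    rw [hi, hg.zero] at hx
    obtain ⟨s, h1, h2⟩ := (hx.and (hU x hx0)).exists
    exact h2 h1
  · ext r
    rw [pt_apply, AlgHom.comp_apply, hi]
    have h1 : (![1, 0] : Fin 2 → Ω) = fun j => g ((![1, 0] : Fin 2 → (A →ₐ[ℂ] ℂ) → ℂ) j) := by
      funext j
      fin_cases j
      · simp
      · simp
    rw [h1, heval]
    apply hg.congr
    filter_upwards [hU a ha] with s hs
    have h2 : φ' s = φ s := if_pos hs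
    have h3 : (fun j => (![1, 0] : Fin 2 → (A →ₐ[ℂ] ℂ) → ℂ) j s) = ![1, 0] := by
      funext j
      fin_cases j <;> simp
    rw [h2, h3, ← pt_apply, (hφ s hs).2.1, AlgHom.comp_apply]
  · ext r
    rw [pt_apply, AlgHom.comp_apply, hi]
    have h1 : (![0, 1] : Fin 2 → Ω) = fun j => g ((![0, 1] : Fin 2 → (A →ₐ[ℂ] ℂ) → ℂ) j) := by
      funext j
      fin_cases j
      · simp
      · simp
    rw [h1, heval]
    apply hg.congr
    filter_upwards [hU a ha] with s hs
    have h2 : φ' s = φ s := if_pos hs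
    have h3 : (fun j => (![0, 1] : Fin 2 → (A →ₐ[ℂ] ℂ) → ℂ) j s) = ![0, 1] := by
      funext j
      fin_cases j <;> simp
    rw [h2, h3, ← pt_apply, (hφ s hs).2.2, AlgHom.comp_apply]

/-- Block G: the generic conic at a closed point. -/
theorem exists_genConicAt {P : R →ₗ[ℂ] R →ₗ[ℂ] R} (hX : IsContactFano 𝒜 P) (w : R →ₐ[ℂ] ℂ)
    (g : R) (hg : g ≠ 0)
    (h : ∀ q : R →ₐ[ℂ] ℂ, q g ≠ 0 → ∃ φ : R →ₐ[ℂ] MvPolynomial (Fin 2) ℂ, IsCurve 𝒜 2 φ ∧
      pt φ ![1, 0] = w ∧ pt φ ![0, 1] = q) :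
    ∃ (Ω : Type u) (_ : Field Ω) (_ : IsAlgClosed Ω) (_ : Algebra ℂ Ω)
      (φ : R →ₐ[ℂ] MvPolynomial (Fin 2) Ω), GenConicAt 𝒜 w φ := by
  have := hX.domain
  have := hX.finiteType
  obtain ⟨Ω, h1, h2, h3, i, φ, hi, hφ, hl, hr⟩ := exists_curve_of_forall_point hX.connected hg
    ((Algebra.ofId ℂ R).comp w) (AlgHom.id ℂ R) (fun s hs => by
      obtain ⟨φ, h1, h2, h3⟩ := h s hs
      refine ⟨φ, h1, ?_, ?_⟩
      · rw [h2]
        ext r
        simp [Algebra.ofId_apply]
      · rw [h3]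
        rfl)
  refine ⟨Ω, h1, h2, h3, φ, hφ, fun r => ?_, ?_⟩
  · rw [hl]
    simp [Algebra.ofId_apply]
  · rw [hr]
    exact hi

/-- The general two point version for conic connected contact Fano manifolds. -/
theorem exists_conic_of_isConicConnected {P : R →ₗ[ℂ] R →ₗ[ℂ] R} (hX : IsContactFano 𝒜 P)
    {F : TensorProduct ℂ R R}
    (hF : ∀ p q : R →ₐ[ℂ] ℂ, Algebra.TensorProduct.lift p q (fun _ _ => Commute.all _ _) F ≠ 0 →
      ∃ φ : R →ₐ[ℂ] MvPolynomial (Fin 2) ℂ, IsCurve 𝒜 2 φ ∧ pt φ ![1, 0] = p ∧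
        pt φ ![0, 1] = q)
    {A : Type u} [CommRing A] [Algebra ℂ A] [IsDomain A] [Algebra.FiniteType ℂ A]
    (p q : R →ₐ[ℂ] A)
    (hpq : Algebra.TensorProduct.lift p q (fun _ _ => Commute.all _ _) F ≠ 0) :
    ∃ (Ω : Type u) (_ : Field Ω) (_ : IsAlgClosed Ω) (_ : Algebra ℂ Ω) (i : A →ₐ[ℂ] Ω)
      (φ : R →ₐ[ℂ] MvPolynomial (Fin 2) Ω), Function.Injective i ∧ IsCurve 𝒜 2 φ ∧
      pt φ ![1, 0] = i.comp p ∧ pt φ ![0, 1] = i.comp q := by
  have := hX.finiteType
  refine exists_curve_of_forall_point hX.connected hpq p q fun s hs => ?_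
  apply hF
  have h1 : (Algebra.TensorProduct.lift (s.comp p) (s.comp q) (fun _ _ => Commute.all _ _)) =
      s.comp (Algebra.TensorProduct.lift p q (fun _ _ => Commute.all _ _)) := by
    apply Algebra.TensorProduct.ext
    · ext r
      simp
    · ext r
      simp
  rw [h1]
  exact hs

end curve

end Vale.Agent.P292
end

section

/-! # Q2, block S: a curve through the generic point, from closed curves through many points. -/

namespace Vale.Agent.P292

open Filter MvPolynomial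

universe u v

variable {R : Type u} [CommRing R] [Algebra ℂ R] {𝒜 : ℕ → Submodule ℂ R}

/-- A curve over `Ω` whose point with parameter `(1, 0)` is generic. -/
structure IsAnch (𝒜 : ℕ → Submodule ℂ R) (d : ℕ) {Ω : Type v} [Field Ω] [Algebra ℂ Ω]
    (φ : R →ₐ[ℂ] MvPolynomial (Fin 2) Ω) : Prop where
  curve : IsCurve 𝒜 d φ
  inj : Function.Injective (pt φ ![1, 0])

variable [GradedAlgebra 𝒜]

/-- An ultraproduct of closed curves whose `(1, 0)` ends are dense is an anchored curve. -/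
theorem exists_isAnch {P : R →ₗ[ℂ] R →ₗ[ℂ] R} (hX : IsContactFano 𝒜 P) {d : ℕ}
    (h : ∀ g : R, g ≠ 0 → ∃ φ : R →ₐ[ℂ] MvPolynomial (Fin 2) ℂ, IsCurve 𝒜 d φ ∧
      pt φ ![1, 0] g ≠ 0) :
    ∃ (Ω : Type u) (_ : Field Ω) (_ : IsAlgClosed Ω) (_ : Algebra ℂ Ω)
      (φ : R →ₐ[ℂ] MvPolynomial (Fin 2) Ω), IsAnch 𝒜 d φ := by
  classical
  have := hX.domain
  have := hX.finiteType
  let S : Type u := {φ : R →ₐ[ℂ] MvPolynomial (Fin 2) ℂ // IsCurve 𝒜 d φ}
  let F : Filter S := Filter.generate {V | ∃ a : R, a ≠ 0 ∧ V = {s : S | pt s.1 ![1, 0] a ≠ 0}}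
  have hne : F.NeBot := by
    rw [Filter.generate_neBot_iff]
    intro t ht htf
    have key : ∀ t : Set (Set S), t.Finite →
        t ⊆ {V | ∃ a : R, a ≠ 0 ∧ V = {s : S | pt s.1 ![1, 0] a ≠ 0}} →
        ∃ a : R, a ≠ 0 ∧ ∀ s : S, pt s.1 ![1, 0] a ≠ 0 → s ∈ ⋂₀ t := by
      intro t htf
      induction t, htf using Set.Finite.induction_on with
      | empty => intro _; exact ⟨1, one_ne_zero, fun s _ => by simp⟩
      | insert _ _ ih =>
        intro ht
        obtain ⟨a, ha, h1⟩ := ih fun x hx => ht (Set.mem_insert_of_mem _ hx)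
        obtain ⟨b, hb, h2⟩ := ht (Set.mem_insert _ _)
        refine ⟨a * b, mul_ne_zero ha hb, fun s hs => ?_⟩
        rw [map_mul] at hs
        rw [Set.sInter_insert, h2]
        exact ⟨right_ne_zero_of_mul hs, h1 s (left_ne_zero_of_mul hs)⟩
    obtain ⟨a, ha, h1⟩ := key t htf ht
    obtain ⟨φ, hφ, hs⟩ := h a ha
    exact ⟨⟨φ, hφ⟩, h1 ⟨φ, hφ⟩ hs⟩
  let U := Ultrafilter.of F
  have hU : ∀ a : R, a ≠ 0 → ∀ᶠ s in (U : Filter S), pt s.1 ![1, 0] a ≠ 0 := fun a ha =>
    Ultrafilter.of_le F (Filter.mem_generate_of_mem ⟨a, ha, rfl⟩)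
  obtain ⟨Ω, _, _, g, hg⟩ := exists_isUP U
  obtain ⟨Φ, hΦ, -, heval⟩ := hg.exists_curve hX.connected (fun s : S => s.1) (fun s => s.2)
  refine ⟨Ω, inferInstance, hg.isAlgClosed, inferInstance, Φ, hΦ, ?_⟩
  rw [injective_iff_map_eq_zero]
  intro r hr
  by_contra hr0
  have h1 : (![1, 0] : Fin 2 → Ω) = fun j => g ((![1, 0] : Fin 2 → S → ℂ) j) := by
    funext j
    fin_cases j
    · simp
    · simp
  rw [pt_apply, h1, heval, hg.zero] at hr
  obtain ⟨s, hs1, hs2⟩ := (hr.and (hU r hr0)).exists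
  apply hs2
  have h3 : (fun j => (![1, 0] : Fin 2 → S → ℂ) j s) = ![1, 0] := by
    funext j
    fin_cases j <;> simp
  rw [h3] at hs1
  rw [pt_apply]
  exact hs1

end Vale.Agent.P292
end

section

/-! # Extension of derivations to arbitrary field extensions in characteristic zero, valuation
rings dominating primes, tensor products of domains over the complex numbers -/

namespace Vale.Agent.P292

open TensorProduct

universe u v w

/-- Dual numbers, without the standard algebra structures. -/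
def ExtDual (E : Type*) := TrivSqZeroExt E E

noncomputable instance (E : Type*) [CommRing E] : CommRing (ExtDual E) :=
  inferInstanceAs (CommRing (TrivSqZeroExt E E))

/-- Field extensions in characteristic zero are formally smooth. -/
theorem formallySmooth_of_charZero (K L : Type*) [Field K] [Field L] [CharZero K] [Algebra K L] :
    Algebra.FormallySmooth K L := by
  obtain ⟨ι, x, hx⟩ := exists_isTranscendenceBasis' K L
  have h1 : Algebra.IsAlgebraic (IntermediateField.adjoin K (Set.range x)) L :=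
    hx.isAlgebraic_field
  have h2 : CharZero (IntermediateField.adjoin K (Set.range x)) :=
    charZero_of_injective_algebraMap (algebraMap K _).injective
  have h3 : Algebra.IsSeparable (IntermediateField.adjoin K (Set.range x)) L := inferInstance
  exact Algebra.FormallySmooth.of_algebraicIndependent_of_isSeparable hx.1

/-- Every derivation from a domain to an overfield of characteristic zero extends to a derivation
of the overfield. -/
theorem exists_derivation_extend {k : Type*} {A : Type*} {E : Type*} [CommRing k] [CommRing A]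
    [IsDomain A] [Field E] [CharZero E] [Algebra k A] [Algebra A E] [Algebra k E]
    [IsScalarTower k A E] (hinj : Function.Injective (algebraMap A E)) (d : Derivation k A E) :
    ∃ D : Derivation k E E, ∀ x, D (algebraMap A E x) = d x := by
  have : FaithfulSMul A E := (faithfulSMul_iff_algebraMap_injective A E).2 hinj
  let : Algebra (FractionRing A) E := FractionRing.liftAlgebra A E
  have : IsScalarTower A (FractionRing A) E := FractionRing.isScalarTower_liftAlgebra A E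
  have : CharZero A := (algebraMap A E).charZero
  have : CharZero (FractionRing A) := IsFractionRing.charZero_of_isFractionRing A
  have : Algebra.FormallyEtale A (FractionRing A) :=
    Algebra.FormallyEtale.of_isLocalization (nonZeroDivisors A)
  have : Algebra.FormallySmooth (FractionRing A) E := formallySmooth_of_charZero _ _
  have : Algebra.FormallySmooth A E := Algebra.FormallySmooth.comp A (FractionRing A) E
  let φ : A →+* ExtDual E :=
    { toFun := fun a => (TrivSqZeroExt.inl (algebraMap A E a) + TrivSqZeroExt.inr (d a) :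
        TrivSqZeroExt E E)
      map_one' := by
        change (_ : TrivSqZeroExt E E) = 1
        ext <;> simp
      map_zero' := by
        change (_ : TrivSqZeroExt E E) = 0
        ext <;> simp
      map_mul' := fun a b => by
        change (_ : TrivSqZeroExt E E) = (_ : TrivSqZeroExt E E) * (_ : TrivSqZeroExt E E)
        refine TrivSqZeroExt.ext ?_ ?_
        · simp
        · rw [TrivSqZeroExt.snd_mul]
          simp only [TrivSqZeroExt.snd_add, TrivSqZeroExt.fst_add, TrivSqZeroExt.fst_inl,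
            TrivSqZeroExt.snd_inl, TrivSqZeroExt.fst_inr, TrivSqZeroExt.snd_inr, zero_add,
            add_zero, Derivation.leibniz, Algebra.smul_def, MulOpposite.smul_eq_mul_unop,
            MulOpposite.unop_op, Algebra.algebraMap_self, RingHom.id_apply]
          ring
      map_add' := fun a b => by
        change (_ : TrivSqZeroExt E E) = (_ : TrivSqZeroExt E E) + (_ : TrivSqZeroExt E E)
        ext <;> simp }
  let _ : Algebra A (ExtDual E) := φ.toAlgebra
  let g : ExtDual E →ₐ[A] E :=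
    { toRingHom := (TrivSqZeroExt.fstHom E E E).toRingHom
      commutes' := fun a => by
        change TrivSqZeroExt.fst (TrivSqZeroExt.inl (algebraMap A E a) +
          TrivSqZeroExt.inr (d a) : TrivSqZeroExt E E) = _
        simp }
  have hg : Function.Surjective g := fun x => ⟨(TrivSqZeroExt.inl x : TrivSqZeroExt E E), rfl⟩
  have hgn : IsNilpotent (RingHom.ker (g : ExtDual E →+* E)) := by
    refine ⟨2, ?_⟩
    rw [pow_two]
    refine le_antisymm (Ideal.mul_le.2 fun r hr s hs => ?_) bot_le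
    have h1 : TrivSqZeroExt.fst (r : TrivSqZeroExt E E) = 0 := hr
    have h2 : TrivSqZeroExt.fst (s : TrivSqZeroExt E E) = 0 := hs
    have h3 : ∀ a b : TrivSqZeroExt E E, TrivSqZeroExt.fst a = 0 → TrivSqZeroExt.fst b = 0 →
        a * b = 0 := fun a b ha hb => by ext <;> simp [ha, hb]
    exact h3 r s h1 h2
  let h : E →ₐ[A] ExtDual E :=
    Algebra.FormallySmooth.liftOfSurjective (AlgHom.id A E) g hg hgn
  have hh : ∀ x, TrivSqZeroExt.fst (h x : TrivSqZeroExt E E) = x := fun x =>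
    Algebra.FormallySmooth.liftOfSurjective_apply (AlgHom.id A E) g hg hgn x
  let D : E →ₗ[ℤ] E :=
    { toFun := fun x => TrivSqZeroExt.snd (h x : TrivSqZeroExt E E)
      map_add' := fun x y => by
        rw [map_add]
        exact TrivSqZeroExt.snd_add _ _
      map_smul' := fun c x => by
        rw [map_zsmul]
        exact TrivSqZeroExt.snd_smul _ _ }
  have hD : ∀ x, D x = TrivSqZeroExt.snd (h x : TrivSqZeroExt E E) := fun _ => rfl
  have hDA : ∀ a, D (algebraMap A E a) = d a := by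
    intro a
    rw [hD, h.commutes]
    change TrivSqZeroExt.snd (TrivSqZeroExt.inl (algebraMap A E a) +
          TrivSqZeroExt.inr (d a) : TrivSqZeroExt E E) = _
    simp
  have hDm : ∀ x y, D (x * y) = x * D y + y * D x := by
    intro x y
    have key : ∀ a b : TrivSqZeroExt E E, TrivSqZeroExt.snd (a * b) =
        TrivSqZeroExt.fst a * TrivSqZeroExt.snd b + TrivSqZeroExt.fst b * TrivSqZeroExt.snd a := by
      intro a b
      rw [TrivSqZeroExt.snd_mul]
      simp [mul_comm]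
    have h3 := key (h x) (h y)
    rw [hh, hh] at h3
    rw [hD, map_mul]
    exact h3
  have hDk : ∀ c : k, D (algebraMap k E c) = 0 := by
    intro c
    rw [IsScalarTower.algebraMap_apply k A E, hDA, Derivation.map_algebraMap]
  refine ⟨Derivation.mk' { toFun := D, map_add' := map_add D, map_smul' := fun c x => ?_ }
    (fun x y => hDm x y), hDA⟩
  rw [Algebra.smul_def, hDm, hDk, mul_zero, add_zero, RingHom.id_apply, Algebra.smul_def]

/-- A prime of a subring of a field is dominated by a valuation ring of the field. -/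
theorem exists_valuationSubring_prime {A : Type u} [CommRing A] {E : Type v} [Field E]
    (f : A →+* E) (hf : Function.Injective f) (𝔭 : Ideal A) [h𝔭 : 𝔭.IsPrime] :
    ∃ O : ValuationSubring E, ∀ a, f a ∈ O ∧ (a ∈ 𝔭 ↔ O.valuation (f a) < 1) := by
  have : IsDomain A := hf.isDomain f
  have hunit : ∀ y : 𝔭.primeCompl, IsUnit (f y) := fun y => by
    refine IsUnit.mk0 _ fun h0 => y.2 ?_
    have h1 : (y : A) = 0 := hf (by rw [h0, map_zero])
    rw [h1]
    exact 𝔭.zero_mem
  let g : Localization.AtPrime 𝔭 →+* E := IsLocalization.lift hunit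
  have hg : ∀ a, g (algebraMap A _ a) = f a := fun a => IsLocalization.lift_eq hunit a
  obtain ⟨O, h, hloc⟩ := IsLocalRing.exists_factor_valuationRing g
  refine ⟨O, fun a => ⟨?_, ?_⟩⟩
  · have := h (algebraMap A _ a)
    rwa [hg] at this
  · have h1 : IsUnit (algebraMap A (Localization.AtPrime 𝔭) a) ↔ a ∉ 𝔭 := by
      rw [IsLocalization.AtPrime.isUnit_to_map_iff (Localization.AtPrime 𝔭) 𝔭]
      rfl
    have h2 : IsUnit (g.codRestrict O.toSubring h (algebraMap A _ a)) ↔
        IsUnit (algebraMap A (Localization.AtPrime 𝔭) a) := isUnit_map_iff _ _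
    have h3 : (O.valuation (f a) < 1) ↔
        ¬ IsUnit (g.codRestrict O.toSubring h (algebraMap A _ a)) := by
      rw [← hg a]
      exact (O.valuation_lt_one_iff ⟨g (algebraMap A _ a), h _⟩).symm.trans
        (by rw [IsLocalRing.mem_maximalIdeal]; rfl)
    rw [h3, h2, h1, not_not]

end Vale.Agent.P292
end

section

/-! # The Newton slope of a conic over a valued field. -/

namespace Vale.Agent.P292

open Polynomial WithZero

universe u v

set_option linter.all false

variable {R : Type u} [CommRing R] [Algebra ℂ R] {𝒜 : ℕ → Submodule ℂ R} [GradedAlgebra 𝒜]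
  {P : R →ₗ[ℂ] R →ₗ[ℂ] R}

/-- Scaling a finite family in an algebraically closed valued field. -/
theorem nw_scale {L : Type v} [Field L] [IsAlgClosed L] {Γ : Type*}
    [LinearOrderedCommGroupWithZero Γ] (v : Valuation L Γ) {ι : Type*} (s : Finset ι)
    (x : ι → L) (n : ι → ℕ) (hn : ∀ i ∈ s, 0 < n i) (hne : ∃ i ∈ s, x i ≠ 0) :
    ∃ θ : L, θ ≠ 0 ∧ (∀ i ∈ s, v (θ ^ n i * x i) ≤ 1) ∧ ∃ i ∈ s, v (θ ^ n i * x i) = 1 := by
  classical
  have h1 : ∀ i ∈ s, ∃ θ : L, x i ≠ 0 → θ ^ n i * x i = 1 := by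
    intro i hi
    obtain ⟨θ, hθ⟩ := IsAlgClosed.exists_pow_nat_eq (x i)⁻¹ (hn i hi)
    exact ⟨θ, fun h => by rw [hθ, inv_mul_cancel₀ h]⟩
  choose! θ hθ using h1
  obtain ⟨i₀, hi₀, hmin⟩ := Finset.exists_min_image (s.filter fun i => x i ≠ 0)
    (fun i => v (θ i)) (by
      obtain ⟨i, hi, hxi⟩ := hne
      exact ⟨i, Finset.mem_filter.mpr ⟨hi, hxi⟩⟩)
  rw [Finset.mem_filter] at hi₀
  refine ⟨θ i₀, ?_, fun i hi => ?_, i₀, hi₀.1, ?_⟩
  · intro h0
    have := hθ i₀ hi₀.1 hi₀.2
    rw [h0, zero_pow (hn i₀ hi₀.1).ne', zero_mul] at this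
    exact zero_ne_one this
  · by_cases hxi : x i = 0
    · rw [hxi, mul_zero, map_zero]; exact zero_le_one
    · have h2 := hmin i (Finset.mem_filter.mpr ⟨hi, hxi⟩)
      calc v (θ i₀ ^ n i * x i) = v (θ i₀) ^ n i * v (x i) := by rw [map_mul, map_pow]
        _ ≤ v (θ i) ^ n i * v (x i) :=
            mul_le_mul_of_nonneg_right (pow_le_pow_left₀ zero_le h2 _) zero_le
        _ = 1 := by rw [← map_pow, ← map_mul, hθ i hi hxi, map_one]
  · rw [hθ i₀ hi₀.1 hi₀.2, map_one]

/-- A homomorphism with integral values on generators has integral values. -/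
theorem nw_le_one_of_generators {R : Type u} [CommRing R] [Algebra ℂ R]
    {L : Type v} [Field L] [Algebra ℂ L] {Γ : Type*} [LinearOrderedCommGroupWithZero Γ]
    (v : Valuation L Γ) (hc : ∀ c : ℂ, v (algebraMap ℂ L c) ≤ 1) {s : Set R}
    (hs : Algebra.adjoin ℂ s = ⊤) (x : R →ₐ[ℂ] L) (hx : ∀ g ∈ s, v (x g) ≤ 1) (r : R) :
    v (x r) ≤ 1 := by
  have hr : r ∈ Algebra.adjoin ℂ s := by rw [hs]; trivial
  induction hr using Algebra.adjoin_induction with
  | mem g hg => exact hx g hg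
  | algebraMap c => rw [AlgHom.commutes]; exact hc c
  | add a b _ _ ha hb => rw [map_add]; exact v.map_add_le ha hb
  | mul a b _ _ ha hb => rw [map_mul, map_mul]; exact mul_le_one' ha hb

/-- Twisting a homomorphism by the powers of an element. -/
theorem nw_twist {B : Type v} [CommRing B] [Algebra ℂ B] (x : R →ₐ[ℂ] B) (θ : B) :
    ∃ x' : R →ₐ[ℂ] B, ∀ k, ∀ r ∈ 𝒜 k, x' r = θ ^ k * x r := by
  classical
  let F : ∀ k, (𝒜 k) →ₗ[ℂ] B := fun k =>
    (LinearMap.mulLeft ℂ (θ ^ k)) ∘ₗ x.toLinearMap ∘ₗ (𝒜 k).subtype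
  have hF : ∀ k (r : 𝒜 k), F k r = θ ^ k * x (r : R) := fun k r => rfl
  let c₀ : (DirectSum ℕ fun k => 𝒜 k) →ₐ[ℂ] B := DirectSum.toAlgebra ℂ (fun k => 𝒜 k) F (by
      rw [hF]
      change θ ^ 0 * x (1 : R) = 1
      rw [pow_zero, map_one, mul_one]) (by
      intro i j a b
      rw [hF, hF, hF]
      change θ ^ (i + j) * x ((a : R) * (b : R)) = _
      rw [map_mul, pow_add]; ring)
  refine ⟨c₀.comp (DirectSum.decomposeAlgEquiv 𝒜).toAlgHom, fun k r hr => ?_⟩
  have e2 : (DirectSum.decomposeAlgEquiv 𝒜) r = DirectSum.of (fun k => 𝒜 k) k ⟨r, hr⟩ := by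
    rw [DirectSum.decomposeAlgEquiv_apply, DirectSum.decompose_of_mem 𝒜 hr]
  change c₀ ((DirectSum.decomposeAlgEquiv 𝒜) r) = _
  rw [e2]
  change DirectSum.toModule ℂ ℕ B F (DirectSum.lof ℂ ℕ (fun k => 𝒜 k) k ⟨r, hr⟩) = _
  rw [DirectSum.toModule_lof]
  rfl

/-- A homomorphism to `κ[X]` which maps every `𝒜 k`, `k > 0`, to polynomials of degree `< k`
has constant values. -/
theorem nw_const (hX : IsContactFano 𝒜 P) {κ : Type v} [Field κ] [Algebra ℂ κ]
    (Ψ : R →ₐ[ℂ] κ[X]) (hΨ : ∀ k, 0 < k → ∀ r ∈ 𝒜 k, (Ψ r).natDegree < k) (r : R) :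
    (Ψ r).natDegree = 0 := by
  classical
  have := hX.finiteType
  obtain ⟨s, hs, hn⟩ := exists_generators 𝒜 hX.connected
  choose! n hn0 hn using hn
  have key : ∀ g ∈ s, (Ψ g).natDegree = 0 := by
    by_contra hcon
    push Not at hcon
    obtain ⟨g₁, hg₁, hg₁0⟩ := hcon
    obtain ⟨g₀, hg₀, hmax⟩ := Finset.exists_max_image s
      (fun g => ((Ψ g).natDegree : ℚ) / n g) ⟨g₁, hg₁⟩
    have hk0 : 0 < n g₀ := Nat.pos_of_ne_zero (hn0 g₀ hg₀)
    have hk0' : (0 : ℚ) < n g₀ := by exact_mod_cast hk0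
    have hmax' : ∀ g ∈ s, (Ψ g).natDegree * n g₀ ≤ (Ψ g₀).natDegree * n g := by
      intro g hg
      have h1 := hmax g hg
      have hkg : (0 : ℚ) < n g := by exact_mod_cast Nat.pos_of_ne_zero (hn0 g hg)
      rw [div_le_div_iff₀ hkg hk0'] at h1
      exact_mod_cast h1
    have hi0 : 0 < (Ψ g₀).natDegree := by
      have h1 := hmax' g₁ hg₁
      have h2 : 0 < (Ψ g₁).natDegree * n g₀ := Nat.mul_pos (Nat.pos_of_ne_zero hg₁0) hk0
      exact Nat.pos_of_mul_pos_right (a := (Ψ g₀).natDegree) (b := n g₁) (by omega)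
    set k₀ := n g₀ with hk₀
    set i₀ := (Ψ g₀).natDegree with hi₀
    have hlt : i₀ < k₀ := hΨ k₀ hk0 g₀ (hn g₀ hg₀)
    -- the twisted point
    let x₁ : R →ₐ[ℂ] RatFunc κ :=
      ((IsScalarTower.toAlgHom ℂ κ[X] (RatFunc κ)).comp
        ((Polynomial.expand κ k₀).restrictScalars ℂ)).comp Ψ
    have hx₁ : ∀ r, x₁ r = algebraMap κ[X] (RatFunc κ) (Polynomial.expand κ k₀ (Ψ r)) :=
      fun r => rfl
    obtain ⟨x, hx⟩ := nw_twist (𝒜 := 𝒜) x₁ ((RatFunc.X : RatFunc κ) ^ (-(i₀ : ℤ)))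
    set w := RatFunc.inftyValuation κ with hw
    have hval : ∀ k, ∀ r ∈ 𝒜 k, Ψ r ≠ 0 →
        w (x r) = exp (((k₀ * (Ψ r).natDegree : ℕ) : ℤ) - ((i₀ * k : ℕ) : ℤ)) := by
      intro k r hr hr0
      have h1 : Polynomial.expand κ k₀ (Ψ r) ≠ 0 := (Polynomial.expand_ne_zero hk0).mpr hr0
      rw [hx k r hr, map_mul, map_pow, RatFunc.inftyValuation.X_zpow, hx₁,
        RatFunc.inftyValuation_apply, RatFunc.inftyValuation.polynomial κ h1,
        Polynomial.natDegree_expand, ← exp_nsmul, ← exp_add]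
      congr 1
      push_cast
      rw [nsmul_eq_mul]
      ring
    have hle : ∀ r, w (x r) ≤ 1 := by
      refine nw_le_one_of_generators w (fun c => ?_) hs x (fun g hg => ?_)
      · have : algebraMap ℂ (RatFunc κ) c = RatFunc.C (algebraMap ℂ κ c) := by
          rw [IsScalarTower.algebraMap_apply ℂ κ (RatFunc κ)]
          rfl
        rw [this]
        by_cases hc : algebraMap ℂ κ c = 0
        · rw [hc, map_zero, map_zero]; exact zero_le_one
        · rw [RatFunc.inftyValuation.C κ hc]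
      · by_cases hg0 : Ψ g = 0
        · have : x g = 0 := by
            rw [hx (n g) g (hn g hg), hx₁, hg0, map_zero, map_zero, mul_zero]
          rw [this, map_zero]; exact zero_le_one
        · rw [hval (n g) g (hn g hg) hg0, ← exp_zero, exp_le_exp]
          have := hmax' g hg
          have h2 : k₀ * (Ψ g).natDegree ≤ i₀ * n g := by rw [mul_comm]; exact this
          omega
    have hΨg₀ : Ψ g₀ ≠ 0 := by
      intro h
      rw [h, natDegree_zero] at hi₀
      omega
    have hone : w (x g₀) = 1 := by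
      rw [hval k₀ g₀ (hn g₀ hg₀) hΨg₀, ← exp_zero]
      congr 1
      rw [mul_comm k₀]
      exact sub_self _
    obtain ⟨p, hp, hpg⟩ := exists_closed_of_valuation hX w x hle g₀ (by rw [hone]; exact lt_irrefl 1)
    have hv : ¬ IsVertex 𝒜 p := fun h => hpg (h k₀ hk0 g₀ (hn g₀ hg₀))
    have hG0 : 0 < Nat.gcd i₀ k₀ := Nat.gcd_pos_of_pos_right _ hk0
    have key : k₀ / Nat.gcd i₀ k₀ = 1 := by
      apply hX.lineBundle p hv
      intro k r hr hr0
      have h1 : w (x r) = 1 := by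
        by_contra hcon
        exact hr0 (hp r (lt_of_le_of_ne (hle r) hcon))
      have hr0' : Ψ r ≠ 0 := by
        intro h
        rw [hx k r hr, hx₁, h, map_zero, map_zero, mul_zero, map_zero] at h1
        exact zero_ne_one h1
      rw [hval k r hr hr0', ← exp_zero, exp_inj] at h1
      have h2 : k₀ * (Ψ r).natDegree = i₀ * k := by omega
      have h3 : k₀ / Nat.gcd i₀ k₀ ∣ (i₀ / Nat.gcd i₀ k₀) * k := by
        refine ⟨(Ψ r).natDegree, Nat.eq_of_mul_eq_mul_left hG0 ?_⟩
        calc Nat.gcd i₀ k₀ * (i₀ / Nat.gcd i₀ k₀ * k)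
            = (Nat.gcd i₀ k₀ * (i₀ / Nat.gcd i₀ k₀)) * k := by ring
          _ = i₀ * k := by rw [Nat.mul_div_cancel' (Nat.gcd_dvd_left _ _)]
          _ = k₀ * (Ψ r).natDegree := h2.symm
          _ = (Nat.gcd i₀ k₀ * (k₀ / Nat.gcd i₀ k₀)) * (Ψ r).natDegree := by
              rw [Nat.mul_div_cancel' (Nat.gcd_dvd_right _ _)]
          _ = _ := by ring
      exact (Nat.Coprime.symm (Nat.coprime_div_gcd_div_gcd hG0)).dvd_of_dvd_mul_left h3
    have h4 : Nat.gcd i₀ k₀ = k₀ := by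
      have := Nat.div_mul_cancel (Nat.gcd_dvd_right i₀ k₀)
      rw [key, one_mul] at this
      exact this
    have h5 : k₀ ∣ i₀ := by rw [← h4]; exact Nat.gcd_dvd_left _ _
    have h6 := Nat.le_of_dvd hi0 h5
    omega
  have hr : r ∈ Algebra.adjoin ℂ (s : Set R) := by rw [hs]; trivial
  induction hr using Algebra.adjoin_induction with
  | mem g hg => exact key g hg
  | algebraMap c =>
    rw [AlgHom.commutes, IsScalarTower.algebraMap_apply ℂ κ κ[X]]
    exact natDegree_C _
  | add a b _ _ ha hb =>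
    rw [map_add]
    have := natDegree_add_le (Ψ a) (Ψ b)
    rw [ha, hb] at this
    simpa using this
  | mul a b _ _ ha hb =>
    rw [map_mul]
    have := natDegree_mul_le (p := Ψ a) (q := Ψ b)
    rw [ha, hb] at this
    simpa using this

section Bounds

variable {L : Type v} [Field L] [Algebra ℂ L] {Γ : Type*} [LinearOrderedCommGroupWithZero Γ]
  (v : Valuation L Γ)

/-- Bounds of the coefficients follow from bounds on generators. -/
theorem nw_bound (hv : ∀ c : ℂ, v (algebraMap ℂ L c) ≤ 1) (f : R →ₐ[ℂ] L[X]) (ρ : L) {s : Set R}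
    (hs : Algebra.adjoin ℂ s = ⊤) (h : ∀ g ∈ s, ∀ i, v ((f g).coeff i * ρ ^ i) ≤ 1) (r : R)
    (i : ℕ) : v ((f r).coeff i * ρ ^ i) ≤ 1 := by
  have hr : r ∈ Algebra.adjoin ℂ s := by rw [hs]; trivial
  induction hr using Algebra.adjoin_induction generalizing i with
  | mem g hg => exact h g hg i
  | algebraMap c =>
    rw [AlgHom.commutes, IsScalarTower.algebraMap_apply ℂ L L[X], Polynomial.algebraMap_eq,
      coeff_C]
    split_ifs with h0
    · rw [h0, pow_zero, mul_one]; exact hv c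
    · rw [zero_mul, map_zero]; exact zero_le_one
  | add a b _ _ ha hb =>
    rw [map_add, coeff_add, add_mul]
    exact v.map_add_le (ha i) (hb i)
  | mul a b _ _ ha hb =>
    rw [map_mul f, coeff_mul, Finset.sum_mul]
    refine v.map_sum_le fun x hx => ?_
    rw [Finset.HasAntidiagonal.mem_antidiagonal] at hx
    have e1 : (f a).coeff x.1 * (f b).coeff x.2 * ρ ^ i
        = ((f a).coeff x.1 * ρ ^ x.1) * ((f b).coeff x.2 * ρ ^ x.2) := by
      rw [← hx, pow_add]; ring
    rw [e1, map_mul]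
    exact mul_le_one' (ha _) (hb _)

/-- Reduction of a homomorphism with integral coefficients. -/
theorem nw_reduce (hv : ∀ c : ℂ, v (algebraMap ℂ L c) ≤ 1) (f : R →ₐ[ℂ] L[X]) (ρ : L)
    (h : ∀ r i, v ((f r).coeff i * ρ ^ i) ≤ 1) :
    ∃ (κ : Type v) (_ : Field κ) (_ : Algebra ℂ κ) (Ψ : R →ₐ[ℂ] κ[X]),
      ∀ r i, (Ψ r).coeff i = 0 ↔ v ((f r).coeff i * ρ ^ i) < 1 := by
  classical
  let O := v.valuationSubring
  let ι : O →+* L := O.subtype
  have hι : Function.Injective ι := Subtype.val_injective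
  -- the rescaled map
  let f₁ : R →+* L[X] := (Polynomial.compRingHom (C ρ * X)).comp f.toRingHom
  have hf₁ : ∀ r i, (f₁ r).coeff i = (f r).coeff i * ρ ^ i := by
    intro r i
    change ((f r).comp (C ρ * X)).coeff i = _
    rw [comp_C_mul_X_coeff]
  have hmem : ∀ r, f₁ r ∈ (mapRingHom ι).range := by
    intro r
    rw [Polynomial.mem_map_range]
    intro i
    rw [hf₁]
    exact ⟨⟨(f r).coeff i * ρ ^ i, (Valuation.mem_valuationSubring_iff v _).mpr (h r i)⟩, rfl⟩
  let e : O[X] ≃+* (mapRingHom ι).range := RingEquiv.ofBijective (mapRingHom ι).rangeRestrict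
    ⟨by
      intro a b hab
      have h1 : mapRingHom ι a = mapRingHom ι b := congrArg Subtype.val hab
      exact Polynomial.map_injective ι hι h1, RingHom.rangeRestrict_surjective _⟩
  let F : R →+* O[X] := (e.symm : (mapRingHom ι).range →+* O[X]).comp
    (f₁.codRestrict (mapRingHom ι).range hmem)
  have hF : ∀ r, mapRingHom ι (F r) = f₁ r := by
    intro r
    have h1 : e (F r) = ⟨f₁ r, hmem r⟩ := e.apply_symm_apply _
    exact congrArg Subtype.val h1
  have hFc : ∀ r i, (((F r).coeff i : O) : L) = (f r).coeff i * ρ ^ i := by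
    intro r i
    rw [← hf₁, ← hF]
    change _ = ((F r).map ι).coeff i
    rw [coeff_map]
    rfl
  let cO : ℂ →+* O := (algebraMap ℂ L).codRestrict O.toSubring (fun c =>
    (Valuation.mem_valuationSubring_iff v _).mpr (hv c))
  let κ := IsLocalRing.ResidueField O
  let q : O →+* κ := IsLocalRing.residue O
  let iκ : Algebra ℂ κ := (q.comp cO).toAlgebra
  let Ψ₀ : R →+* κ[X] := (mapRingHom q).comp F
  have hΨc : ∀ r i, (Ψ₀ r).coeff i = q ((F r).coeff i) := by
    intro r i
    change ((F r).map q).coeff i = _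
    rw [coeff_map]
  refine ⟨κ, inferInstance, iκ, { Ψ₀ with commutes' := fun c => ?_ }, fun r i => ?_⟩
  · change Ψ₀ (algebraMap ℂ R c) = _
    have h1 : F (algebraMap ℂ R c) = C (cO c) := by
      apply Polynomial.map_injective ι hι
      change mapRingHom ι (F _) = _
      rw [hF, map_C]
      change (f (algebraMap ℂ R c)).comp (C ρ * X) = _
      rw [AlgHom.commutes, IsScalarTower.algebraMap_apply ℂ L L[X], Polynomial.algebraMap_eq,
        C_comp]
      rfl
    change (F (algebraMap ℂ R c)).map q = _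
    rw [h1, map_C, IsScalarTower.algebraMap_apply ℂ κ κ[X]]
    rfl
  · change (Ψ₀ r).coeff i = 0 ↔ _
    rw [hΨc, ← hFc]
    change IsLocalRing.residue O _ = 0 ↔ _
    rw [IsLocalRing.residue_eq_zero_iff]
    exact Valuation.mem_maximalIdeal_iff _ _

/-- If the extremal slope is attained before the middle, it is attained at the middle. -/
theorem nw_half (hX : IsContactFano 𝒜 P) (hv : ∀ c : ℂ, v (algebraMap ℂ L c) ≤ 1)
    (f : R →ₐ[ℂ] L[X]) (ρ : L) (h : ∀ r i, v ((f r).coeff i * ρ ^ i) ≤ 1)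
    (h2 : ∀ k, ∀ r ∈ 𝒜 k, ∀ i, k < i → v ((f r).coeff i * ρ ^ i) < 1)
    (h3 : ∃ g, ∃ i, 0 < i ∧ v ((f g).coeff i * ρ ^ i) = 1) :
    ∃ k, 0 < k ∧ ∃ r ∈ 𝒜 k, v ((f r).coeff k * ρ ^ k) = 1 := by
  obtain ⟨κ, _, _, Ψ, hΨ⟩ := nw_reduce v hv f ρ h
  by_contra hcon
  push Not at hcon
  have hdeg : ∀ k, 0 < k → ∀ r ∈ 𝒜 k, (Ψ r).natDegree < k := by
    intro k hk r hr
    by_contra hnot
    rw [not_lt] at hnot
    have hne : Ψ r ≠ 0 := by
      intro h0
      rw [h0, natDegree_zero] at hnot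
      omega
    have hlead : (Ψ r).coeff (Ψ r).natDegree ≠ 0 := by
      rw [coeff_natDegree, leadingCoeff_ne_zero]; exact hne
    rcases hnot.lt_or_eq with hlt | heq
    · exact hlead ((hΨ r _).mpr (h2 k r hr _ hlt))
    · rw [← heq] at hlead
      exact hlead ((hΨ r _).mpr (lt_of_le_of_ne (h r k) (hcon k hk r hr)))
  obtain ⟨g, i, hi, hg⟩ := h3
  have h4 := nw_const hX Ψ hdeg g
  have h5 : (Ψ g).coeff i = 0 := coeff_eq_zero_of_natDegree_lt (by omega)
  rw [hΨ, hg] at h5
  exact lt_irrefl _ h5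

/-- The Newton slope of a conic over a valued field, for a pair of dehomogenised maps. -/
theorem nw_main [IsAlgClosed L] (hX : IsContactFano 𝒜 P)
    (hv : ∀ c : ℂ, v (algebraMap ℂ L c) ≤ 1)
    (f g : R →ₐ[ℂ] L[X]) (hf : ∀ k, ∀ r ∈ 𝒜 k, (f r).natDegree ≤ 2 * k)
    (hg : ∀ k, ∀ r ∈ 𝒜 k, (g r).natDegree ≤ 2 * k)
    (hfg : ∀ k, ∀ r ∈ 𝒜 k, ∀ i j, i + j = 2 * k → (f r).coeff i = (g r).coeff j)
    (h0 : ∀ k, ∀ r ∈ 𝒜 k, v ((f r).coeff 0) ≤ 1) (h0' : ∀ k, ∀ r ∈ 𝒜 k, v ((g r).coeff 0) ≤ 1) :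
    ∃ ρ : L, ρ ≠ 0 ∧ v ρ ≤ 1 ∧ (∀ r i, v ((f r).coeff i * ρ ^ i) ≤ 1) ∧
      (∀ r i, v ((g r).coeff i * ρ ^ i) ≤ 1) ∧
      (v ρ = 1 ∨ ∃ k, 0 < k ∧ ∃ r ∈ 𝒜 k, v ((f r).coeff k * ρ ^ k) = 1) := by
  classical
  have := hX.finiteType
  obtain ⟨s, hs, hn⟩ := exists_generators 𝒜 hX.connected
  choose! n hn0 hn using hn
  -- the general bound
  have gen : ∀ (f g : R →ₐ[ℂ] L[X]), (∀ k, ∀ r ∈ 𝒜 k, (f r).natDegree ≤ 2 * k) →
      (∀ k, ∀ r ∈ 𝒜 k, ∀ i j, i + j = 2 * k → (f r).coeff i = (g r).coeff j) →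
      (∀ k, ∀ r ∈ 𝒜 k, v ((f r).coeff 0) ≤ 1) → (∀ k, ∀ r ∈ 𝒜 k, v ((g r).coeff 0) ≤ 1) →
      ∀ ρ : L, v ρ ≤ 1 → (∀ r ∈ s, ∀ i, 0 < i → i < 2 * n r →
        v (ρ ^ (min i (2 * n r - i)) * (f r).coeff i) ≤ 1) →
      ∀ r i, v ((f r).coeff i * ρ ^ i) ≤ 1 := by
    intro f g hf hfg h0 h0' ρ hρ hb r i
    refine nw_bound v hv f ρ hs (fun t ht i => ?_) r i
    rcases Nat.eq_zero_or_pos i with rfl | hi
    · rw [pow_zero, mul_one]; exact h0 _ t (hn t ht)
    rcases lt_trichotomy i (2 * n t) with hlt | heq | hgt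
    · have h1 := hb t ht i hi hlt
      have e1 : (f t).coeff i * ρ ^ i
          = (ρ ^ (min i (2 * n t - i)) * (f t).coeff i) * ρ ^ (i - min i (2 * n t - i)) := by
        have e2 : ρ ^ i = ρ ^ (min i (2 * n t - i)) * ρ ^ (i - min i (2 * n t - i)) := by
          rw [← pow_add, Nat.add_sub_cancel' (min_le_left _ _)]
        rw [e2]; ring
      rw [e1, map_mul, map_pow v ρ (i - _)]
      exact mul_le_one' h1 (pow_le_one' hρ _)
    · rw [hfg (n t) t (hn t ht) i 0 (by omega), map_mul, map_pow]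
      exact mul_le_one' (h0' _ t (hn t ht)) (pow_le_one' hρ _)
    · rw [coeff_eq_zero_of_natDegree_lt (by have := hf (n t) t (hn t ht); omega), zero_mul,
        map_zero]
      exact zero_le_one
  let I : Finset (Σ _ : R, ℕ) := s.sigma (fun g => Finset.Ioo 0 (2 * n g))
  have hI : ∀ p : (Σ _ : R, ℕ), p ∈ I ↔ p.1 ∈ s ∧ 0 < p.2 ∧ p.2 < 2 * n p.1 := by
    intro p
    rw [Finset.mem_sigma, Finset.mem_Ioo]
  by_cases hall : ∀ p ∈ I, v ((f p.1).coeff p.2) ≤ 1
  · have hone : v (1 : L) ≤ 1 := by rw [map_one]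
    refine ⟨1, one_ne_zero, hone, ?_, ?_, Or.inl (map_one v)⟩
    · refine gen f g hf hfg h0 h0' 1 hone fun r hr i hi hi2 => ?_
      rw [one_pow, one_mul]
      exact hall ⟨r, i⟩ ((hI _).mpr ⟨hr, hi, hi2⟩)
    · refine gen g f hg (fun k r hr i j hij => (hfg k r hr j i (by omega)).symm) h0' h0 1 hone
        fun r hr i hi hi2 => ?_
      rw [one_pow, one_mul, ← hfg (n r) r (hn r hr) (2 * n r - i) i (by omega)]
      exact hall ⟨r, 2 * n r - i⟩ ((hI _).mpr ⟨hr, by change 0 < 2 * n r - i; omega,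
        by change 2 * n r - i < 2 * n r; omega⟩)
  · push Not at hall
    obtain ⟨p₁, hp₁, hvp₁⟩ := hall
    obtain ⟨ρ, hρ0, hρ1, p₂, hp₂, hρ2⟩ := nw_scale v I (fun p => (f p.1).coeff p.2)
      (fun p => min p.2 (2 * n p.1 - p.2)) (fun p hp => by
        have := (hI p).mp hp
        exact lt_min this.2.1 (by omega)) ⟨p₁, hp₁, fun h => by
          rw [h, map_zero] at hvp₁
          exact absurd hvp₁ (not_lt.mpr zero_le_one)⟩
    have hm₁ : 0 < min p₁.2 (2 * n p₁.1 - p₁.2) := by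
      have := (hI p₁).mp hp₁
      exact lt_min this.2.1 (by omega)
    have hρlt : v ρ < 1 := by
      by_contra hcon
      rw [not_lt] at hcon
      have h1 := hρ1 p₁ hp₁
      rw [map_mul, map_pow] at h1
      have h2 : (1 : Γ) ≤ v ρ ^ (min p₁.2 (2 * n p₁.1 - p₁.2)) := one_le_pow₀ hcon
      have h3 : (1 : Γ) < v ρ ^ (min p₁.2 (2 * n p₁.1 - p₁.2)) * v ((f p₁.1).coeff p₁.2) :=
        lt_of_lt_of_le hvp₁ (le_mul_of_one_le_left' h2)
      exact absurd h1 (not_le.mpr h3)
    have hF := gen f g hf hfg h0 h0' ρ hρlt.le fun r hr i hi hi2 =>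
      hρ1 ⟨r, i⟩ ((hI _).mpr ⟨hr, hi, hi2⟩)
    have hG := gen g f hg (fun k r hr i j hij => (hfg k r hr j i (by omega)).symm) h0' h0 ρ
      hρlt.le fun r hr i hi hi2 => by
        have h1 := hρ1 ⟨r, 2 * n r - i⟩ ((hI _).mpr ⟨hr, by change 0 < 2 * n r - i; omega,
          by change 2 * n r - i < 2 * n r; omega⟩)
        change v (ρ ^ (min (2 * n r - i) (2 * n r - (2 * n r - i))) * (f r).coeff (2 * n r - i))
          ≤ 1 at h1
        rw [hfg (n r) r (hn r hr) (2 * n r - i) i (by omega),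
          show 2 * n r - (2 * n r - i) = i by omega, min_comm] at h1
        exact h1
    -- after the middle the coefficients are small
    have small : ∀ (f g : R →ₐ[ℂ] L[X]), (∀ k, ∀ r ∈ 𝒜 k, (f r).natDegree ≤ 2 * k) →
        (∀ k, ∀ r ∈ 𝒜 k, ∀ i j, i + j = 2 * k → (f r).coeff i = (g r).coeff j) →
        (∀ r i, v ((g r).coeff i * ρ ^ i) ≤ 1) →
        ∀ k, ∀ r ∈ 𝒜 k, ∀ i, k < i → v ((f r).coeff i * ρ ^ i) < 1 := by
      intro f g hf hfg hG k r hr i hki
      rcases Nat.lt_or_ge (2 * k) i with h | h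
      · rw [coeff_eq_zero_of_natDegree_lt (by have := hf k r hr; omega), zero_mul, map_zero]
        exact zero_lt_one
      · have h1 := hG r (2 * k - i)
        rw [← hfg k r hr i (2 * k - i) (by omega)] at h1
        have e1 : (f r).coeff i * ρ ^ i
            = ((f r).coeff i * ρ ^ (2 * k - i)) * ρ ^ (2 * i - 2 * k) := by
          have e2 : ρ ^ i = ρ ^ (2 * k - i) * ρ ^ (2 * i - 2 * k) := by
            rw [← pow_add]; congr 1; omega
          rw [e2]; ring
        rw [e1, map_mul, map_pow v ρ (2 * i - 2 * k)]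
        exact mul_lt_one_of_nonneg_of_lt_one_right h1 zero_le
          (pow_lt_one₀ zero_le hρlt (by omega))
    obtain ⟨hp2s, hp2a, hp2b⟩ := (hI p₂).mp hp₂
    refine ⟨ρ, hρ0, hρlt.le, hF, hG, Or.inr ?_⟩
    rcases Nat.le_total p₂.2 (n p₂.1) with hle | hle
    · refine nw_half v hX hv f ρ hF (small f g hf hfg hG) ⟨p₂.1, p₂.2, hp2a, ?_⟩
      rw [show min p₂.2 (2 * n p₂.1 - p₂.2) = p₂.2 by omega, mul_comm] at hρ2
      exact hρ2
    · obtain ⟨k, hk, r, hr, h5⟩ := nw_half v hX hv g ρ hG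
        (small g f hg (fun k r hr i j hij => (hfg k r hr j i (by omega)).symm) hF)
        ⟨p₂.1, 2 * n p₂.1 - p₂.2, by omega, by
          rw [show min p₂.2 (2 * n p₂.1 - p₂.2) = 2 * n p₂.1 - p₂.2 by omega, mul_comm,
            hfg (n p₂.1) p₂.1 (hn _ hp2s) p₂.2 (2 * n p₂.1 - p₂.2) (by omega)] at hρ2
          exact hρ2⟩
      refine ⟨k, hk, r, hr, ?_⟩
      rw [hfg k r hr k k (by omega)]
      exact h5

end Bounds

section Mv

variable {L : Type v} [Field L] [Algebra ℂ L]

/-- Dehomogenisation `s = 1`, `t = X` (`i = 0`) or `s = X`, `t = 1` (`i = 1`). -/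
noncomputable def nwDehom (L : Type v) [Field L] [Algebra ℂ L] (a : Fin 2) :
    MvPolynomial (Fin 2) L →ₐ[ℂ] L[X] :=
  (MvPolynomial.aeval (fun j : Fin 2 => if j = a then (1 : L[X]) else X)).restrictScalars ℂ

theorem nwDehom_apply (a b : Fin 2) (hab : a ≠ b) (p : MvPolynomial (Fin 2) L) :
    nwDehom L a p = ∑ d ∈ p.support, C (p.coeff d) * X ^ (d b) := by
  change MvPolynomial.aeval _ p = _
  rw [MvPolynomial.aeval_def, MvPolynomial.eval₂_eq']
  refine Finset.sum_congr rfl fun d _ => ?_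
  rw [Polynomial.algebraMap_eq]
  congr 1
  fin_cases a <;> fin_cases b <;> simp_all [Fin.prod_univ_two]

theorem nw_fin_two_ext {a b : Fin 2} (hab : a ≠ b) {d m : Fin 2 →₀ ℕ} {N : ℕ}
    (hd : d 0 + d 1 = N) (hm : m 0 + m 1 = N) (h : d b = m b) : d = m := by
  ext j
  fin_cases a <;> fin_cases b <;> fin_cases j <;> simp_all <;> omega

theorem nwDehom_coeff (a b : Fin 2) (hab : a ≠ b) {p : MvPolynomial (Fin 2) L} {N : ℕ}
    (hp : p.IsHomogeneous N) {m : Fin 2 →₀ ℕ} (hm : m 0 + m 1 = N) :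
    (nwDehom L a p).coeff (m b) = p.coeff m := by
  classical
  rw [nwDehom_apply a b hab, finsetSum_coeff]
  have h1 : ∀ d ∈ p.support, (C (p.coeff d) * X ^ (d b)).coeff (m b)
      = if d = m then p.coeff m else 0 := by
    intro d hd
    have hdeg : d 0 + d 1 = N := by
      have h2 := hp (MvPolynomial.mem_support_iff.mp hd)
      rw [← h2, Finsupp.weight_apply, Finsupp.sum_fintype _ _ (by simp), Fin.sum_univ_two]
      simp
    rw [coeff_C_mul_X_pow]
    by_cases hdm : d = m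
    · rw [if_pos hdm, hdm, if_pos rfl]
    · rw [if_neg hdm, if_neg]
      intro h
      exact hdm (nw_fin_two_ext hab hdeg hm h.symm)
  rw [Finset.sum_congr rfl h1, Finset.sum_ite_eq']
  split_ifs with h
  · rfl
  · rw [MvPolynomial.notMem_support_iff.mp h]

theorem nwDehom_natDegree_le (a b : Fin 2) (hab : a ≠ b) {p : MvPolynomial (Fin 2) L} {N : ℕ}
    (hp : p.IsHomogeneous N) : (nwDehom L a p).natDegree ≤ N := by
  classical
  rw [nwDehom_apply a b hab]
  refine natDegree_sum_le_of_forall_le _ _ fun d hd => ?_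
  refine (natDegree_C_mul_X_pow_le _ _).trans ?_
  have h2 := hp (MvPolynomial.mem_support_iff.mp hd)
  rw [← h2, Finsupp.weight_apply, Finsupp.sum_fintype _ _ (by simp), Fin.sum_univ_two]
  fin_cases b <;> simp

/-- **The Newton slope of a conic over a valued field.** -/
theorem nw_conic [IsAlgClosed L] (hX : IsContactFano 𝒜 P) {Γ : Type*}
    [LinearOrderedCommGroupWithZero Γ] (v : Valuation L Γ)
    (hv : ∀ c : ℂ, v (algebraMap ℂ L c) ≤ 1) (φ : R →ₐ[ℂ] MvPolynomial (Fin 2) L)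
    (hφ : ∀ k, ∀ r ∈ 𝒜 k, (φ r).IsHomogeneous (2 * k))
    (h0 : ∀ k, ∀ r ∈ 𝒜 k, v ((φ r).coeff (Finsupp.single 0 (2 * k))) ≤ 1)
    (h1 : ∀ k, ∀ r ∈ 𝒜 k, v ((φ r).coeff (Finsupp.single 1 (2 * k))) ≤ 1) :
    ∃ ρ : L, ρ ≠ 0 ∧ v ρ ≤ 1 ∧
      (∀ k, ∀ r ∈ 𝒜 k, ∀ m, v ((φ r).coeff m * ρ ^ (m 0)) ≤ 1) ∧
      (∀ k, ∀ r ∈ 𝒜 k, ∀ m, v ((φ r).coeff m * ρ ^ (m 1)) ≤ 1) ∧
      (v ρ = 1 ∨ ∃ k, 0 < k ∧ ∃ r ∈ 𝒜 k,
        v ((φ r).coeff (Finsupp.single 0 k + Finsupp.single 1 k) * ρ ^ k) = 1) := by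
  have h01 : (0 : Fin 2) ≠ 1 := by decide
  obtain ⟨ρ, hρ0, hρ1, hF, hG, hM⟩ := nw_main v hX hv ((nwDehom L 0).comp φ)
    ((nwDehom L 1).comp φ)
    (fun k r hr => nwDehom_natDegree_le 0 1 h01 (hφ k r hr))
    (fun k r hr => nwDehom_natDegree_le 1 0 h01.symm (hφ k r hr))
    (fun k r hr i j hij => by
      have e1 := nwDehom_coeff 0 1 h01 (hφ k r hr)
        (m := Finsupp.single 0 j + Finsupp.single 1 i) (by simp; omega)
      have e2 := nwDehom_coeff 1 0 h01.symm (hφ k r hr)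
        (m := Finsupp.single 0 j + Finsupp.single 1 i) (by simp; omega)
      simp only [Finsupp.coe_add, Pi.add_apply, Finsupp.single_eq_same, ne_eq, h01,
        not_false_eq_true, Finsupp.single_eq_of_ne, zero_add, h01.symm, add_zero] at e1 e2
      change (nwDehom L 0 (φ r)).coeff i = (nwDehom L 1 (φ r)).coeff j
      rw [e1, e2])
    (fun k r hr => by
      have e1 := nwDehom_coeff 0 1 h01 (hφ k r hr) (m := Finsupp.single 0 (2 * k)) (by simp)
      simp only [ne_eq, h01, not_false_eq_true, Finsupp.single_eq_of_ne, h01.symm] at e1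
      change v ((nwDehom L 0 (φ r)).coeff 0) ≤ 1
      rw [e1]
      exact h0 k r hr)
    (fun k r hr => by
      have e1 := nwDehom_coeff 1 0 h01.symm (hφ k r hr) (m := Finsupp.single 1 (2 * k)) (by simp)
      simp only [ne_eq, h01, not_false_eq_true, Finsupp.single_eq_of_ne, h01.symm] at e1
      change v ((nwDehom L 1 (φ r)).coeff 0) ≤ 1
      rw [e1]
      exact h1 k r hr)
  have hzero : ∀ k, ∀ r ∈ 𝒜 k, ∀ m : Fin 2 →₀ ℕ, m 0 + m 1 ≠ 2 * k → (φ r).coeff m = 0 := by
    intro k r hr m hm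
    by_contra hne
    apply hm
    have h2 := hφ k r hr hne
    rw [← h2, Finsupp.weight_apply, Finsupp.sum_fintype _ _ (by simp), Fin.sum_univ_two]
    simp
  refine ⟨ρ, hρ0, hρ1, fun k r hr m => ?_, fun k r hr m => ?_, ?_⟩
  · by_cases hm : m 0 + m 1 = 2 * k
    · have := hG r (m 0)
      rwa [AlgHom.comp_apply, nwDehom_coeff 1 0 h01.symm (hφ k r hr) hm] at this
    · rw [hzero k r hr m hm, zero_mul, map_zero]; exact zero_le_one
  · by_cases hm : m 0 + m 1 = 2 * k
    · have := hF r (m 1)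
      rwa [AlgHom.comp_apply, nwDehom_coeff 0 1 h01 (hφ k r hr) hm] at this
    · rw [hzero k r hr m hm, zero_mul, map_zero]; exact zero_le_one
  · rcases hM with hM | ⟨k, hk, r, hr, h⟩
    · exact Or.inl hM
    · refine Or.inr ⟨k, hk, r, hr, ?_⟩
      have e1 := nwDehom_coeff 0 1 h01 (hφ k r hr)
        (m := Finsupp.single 0 k + Finsupp.single 1 k) (by simp; omega)
      simp only [Finsupp.coe_add, Pi.add_apply, Finsupp.single_eq_same, ne_eq, h01,
        not_false_eq_true, Finsupp.single_eq_of_ne, zero_add, h01.symm, add_zero] at e1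
      rw [← e1]
      exact h

end Mv

end Vale.Agent.P292
end

section

/-! # Degenerations of conics over a valued field: chains of two lines. -/

set_option linter.all false

namespace Vale.Agent.P292

open Polynomial

universe u v w

/-- A place of `L` with values in `κ`: the residue map of the valuation `v` (only its values on
the valuation ring matter). -/
structure IsPlace {L : Type v} [Field L] [Algebra ℂ L] {κ : Type w} [Field κ] [Algebra ℂ κ]
    {Γ : Type*} [LinearOrderedCommGroupWithZero Γ] (v : Valuation L Γ) (res : L → κ) :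
    Prop where
  le_one : ∀ c : ℂ, v (algebraMap ℂ L c) ≤ 1
  map_add : ∀ x y, v x ≤ 1 → v y ≤ 1 → res (x + y) = res x + res y
  map_mul : ∀ x y, v x ≤ 1 → v y ≤ 1 → res (x * y) = res x * res y
  eq_zero_iff : ∀ x, v x ≤ 1 → (res x = 0 ↔ v x < 1)
  map_algebraMap : ∀ c : ℂ, res (algebraMap ℂ L c) = algebraMap ℂ κ c

/-- Every valuation which is at most one on `ℂ` has a place. -/
theorem exists_isPlace {L : Type v} [Field L] [Algebra ℂ L]
    {Γ : Type*} [LinearOrderedCommGroupWithZero Γ] (v : Valuation L Γ)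
    (hv : ∀ c : ℂ, v (algebraMap ℂ L c) ≤ 1) :
    ∃ (κ : Type v) (_ : Field κ) (_ : Algebra ℂ κ) (res : L → κ), IsPlace v res ∧
      ∀ y, ∃ x, v x ≤ 1 ∧ res x = y := by
  classical
  let O := v.valuationSubring
  let cO : ℂ →+* O := (algebraMap ℂ L).codRestrict O.toSubring (fun c =>
    (Valuation.mem_valuationSubring_iff v _).mpr (hv c))
  let κ := IsLocalRing.ResidueField O
  let q : O →+* κ := IsLocalRing.residue O
  let iκ : Algebra ℂ κ := (q.comp cO).toAlgebra
  have hmem : ∀ x, x ∈ O ↔ v x ≤ 1 := fun x => Valuation.mem_valuationSubring_iff v x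
  let res : L → κ := fun x => if h : x ∈ O then q ⟨x, h⟩ else 0
  have hres : ∀ x (h : x ∈ O), res x = q ⟨x, h⟩ := fun x h => dif_pos h
  refine ⟨κ, inferInstance, iκ, res, ⟨hv, fun x y hx hy => ?_, fun x y hx hy => ?_,
    fun x hx => ?_, fun c => ?_⟩, fun y => ?_⟩
  · rw [hres x ((hmem x).mpr hx), hres y ((hmem y).mpr hy),
      hres _ ((hmem _).mpr (v.map_add_le hx hy)), ← map_add]
    rfl
  · have hxy : v (x * y) ≤ 1 := by rw [map_mul]; exact mul_le_one' hx hy
    rw [hres x ((hmem x).mpr hx), hres y ((hmem y).mpr hy), hres _ ((hmem _).mpr hxy),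
      ← q.map_mul]
    rfl
  · rw [hres x ((hmem x).mpr hx)]
    change IsLocalRing.residue O _ = 0 ↔ _
    rw [IsLocalRing.residue_eq_zero_iff]
    exact Valuation.mem_maximalIdeal_iff _ _
  · rw [hres _ ((hmem _).mpr (hv c))]
    rfl
  · obtain ⟨x, hx⟩ := IsLocalRing.residue_surjective (R := O) y
    exact ⟨x, (hmem _).mp x.2, by rw [hres _ x.2]; exact hx⟩

namespace IsPlace

variable {L : Type v} [Field L] [Algebra ℂ L] {κ : Type w} [Field κ] [Algebra ℂ κ]
    {Γ : Type*} [LinearOrderedCommGroupWithZero Γ] {v : Valuation L Γ} {res : L → κ}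
    (hp : IsPlace v res)
include hp

theorem map_zero : res 0 = 0 := (hp.eq_zero_iff 0 (by simp)).mpr (by simp)

theorem map_one : res 1 = 1 := by
  have := hp.map_algebraMap 1
  rwa [_root_.map_one, _root_.map_one] at this

theorem map_sum {ι : Type*} (s : Finset ι) (f : ι → L) (hf : ∀ i ∈ s, v (f i) ≤ 1) :
    res (∑ i ∈ s, f i) = ∑ i ∈ s, res (f i) := by
  classical
  induction s using Finset.induction_on with
  | empty => rw [Finset.sum_empty, Finset.sum_empty, hp.map_zero]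
  | insert a s ha ih =>
    rw [Finset.sum_insert ha, Finset.sum_insert ha, hp.map_add, ih]
    · exact fun i hi => hf i (Finset.mem_insert_of_mem hi)
    · exact hf a (Finset.mem_insert_self a s)
    · exact v.map_sum_le fun i hi => hf i (Finset.mem_insert_of_mem hi)

theorem map_pow (x : L) (hx : v x ≤ 1) (n : ℕ) : res (x ^ n) = res x ^ n := by
  induction n with
  | zero => rw [pow_zero, pow_zero, hp.map_one]
  | succ n ih =>
    rw [pow_succ, pow_succ, hp.map_mul _ _ (by rw [_root_.map_pow]; exact pow_le_one' hx n) hx,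
      ih]

theorem map_neg (x : L) (hx : v x ≤ 1) : res (-x) = - res x := by
  have h1 := hp.map_add x (-x) hx (by rwa [Valuation.map_neg])
  rw [add_neg_cancel, hp.map_zero] at h1
  exact (neg_eq_of_add_eq_zero_right h1.symm).symm

variable {R : Type u} [CommRing R] [Algebra ℂ R]

/-- Reduction of a homomorphism with integral (rescaled) coefficients. -/
theorem reduce (f : R →ₐ[ℂ] L[X]) (ρ : L)
    (h : ∀ r i, v ((f r).coeff i * ρ ^ i) ≤ 1) :
    ∃ Ψ : R →ₐ[ℂ] κ[X], ∀ r i, (Ψ r).coeff i = res ((f r).coeff i * ρ ^ i) := by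
  classical
  let O := v.valuationSubring
  let ι : O →+* L := O.subtype
  have hι : Function.Injective ι := Subtype.val_injective
  have hmemO : ∀ x, x ∈ O ↔ v x ≤ 1 := fun x => Valuation.mem_valuationSubring_iff v x
  let f₁ : R →+* L[X] := (Polynomial.compRingHom (C ρ * X)).comp f.toRingHom
  have hf₁ : ∀ r i, (f₁ r).coeff i = (f r).coeff i * ρ ^ i := by
    intro r i
    change ((f r).comp (C ρ * X)).coeff i = _
    rw [comp_C_mul_X_coeff]
  have hmem : ∀ r, f₁ r ∈ (mapRingHom ι).range := by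
    intro r
    rw [Polynomial.mem_map_range]
    intro i
    rw [hf₁]
    exact ⟨⟨(f r).coeff i * ρ ^ i, (hmemO _).mpr (h r i)⟩, rfl⟩
  let e : O[X] ≃+* (mapRingHom ι).range := RingEquiv.ofBijective (mapRingHom ι).rangeRestrict
    ⟨by
      intro a b hab
      have h1 : mapRingHom ι a = mapRingHom ι b := congrArg Subtype.val hab
      exact Polynomial.map_injective ι hι h1, RingHom.rangeRestrict_surjective _⟩
  let F : R →+* O[X] := (e.symm : (mapRingHom ι).range →+* O[X]).comp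
    (f₁.codRestrict (mapRingHom ι).range hmem)
  have hF : ∀ r, mapRingHom ι (F r) = f₁ r := by
    intro r
    have h1 : e (F r) = ⟨f₁ r, hmem r⟩ := e.apply_symm_apply _
    exact congrArg Subtype.val h1
  have hFc : ∀ r i, (((F r).coeff i : O) : L) = (f r).coeff i * ρ ^ i := by
    intro r i
    rw [← hf₁, ← hF]
    change _ = ((F r).map ι).coeff i
    rw [coeff_map]
    rfl
  let cO : ℂ →+* O := (algebraMap ℂ L).codRestrict O.toSubring (fun c =>
    (Valuation.mem_valuationSubring_iff v _).mpr (hp.le_one c))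
  let q : O →+* κ :=
    { toFun := fun x => res (x : L)
      map_zero' := hp.map_zero
      map_one' := hp.map_one
      map_add' := fun x y => hp.map_add _ _ ((hmemO _).mp x.2) ((hmemO _).mp y.2)
      map_mul' := fun x y => hp.map_mul _ _ ((hmemO _).mp x.2) ((hmemO _).mp y.2) }
  let Ψ₀ : R →+* κ[X] := (mapRingHom q).comp F
  have hΨc : ∀ r i, (Ψ₀ r).coeff i = q ((F r).coeff i) := by
    intro r i
    change ((F r).map q).coeff i = _
    rw [coeff_map]
  refine ⟨{ Ψ₀ with commutes' := fun c => ?_ }, fun r i => ?_⟩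
  · change Ψ₀ (algebraMap ℂ R c) = _
    have h1 : F (algebraMap ℂ R c) = C (cO c) := by
      apply Polynomial.map_injective ι hι
      change mapRingHom ι (F _) = _
      rw [hF, map_C]
      change (f (algebraMap ℂ R c)).comp (C ρ * X) = _
      rw [AlgHom.commutes, IsScalarTower.algebraMap_apply ℂ L L[X], Polynomial.algebraMap_eq,
        C_comp]
      rfl
    change (F (algebraMap ℂ R c)).map q = _
    rw [h1, map_C, IsScalarTower.algebraMap_apply ℂ κ κ[X]]
    congr 1
    exact hp.map_algebraMap c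
  · change (Ψ₀ r).coeff i = _
    rw [hΨc, ← hFc]
    rfl

end IsPlace

section Homogenize

variable {R : Type u} [CommRing R] [Algebra ℂ R] {𝒜 : ℕ → Submodule ℂ R} [GradedAlgebra 𝒜]
  {κ : Type w} [Field κ] [Algebra ℂ κ]

/-- The form of degree `N` with dehomogenisation `p`. -/
noncomputable def nwForm (N : ℕ) (p : κ[X]) : MvPolynomial (Fin 2) κ :=
  ∑ i ∈ Finset.range (N + 1),
    MvPolynomial.monomial (Finsupp.single 0 (N - i) + Finsupp.single 1 i) (p.coeff i)

theorem nwForm_isHomogeneous (N : ℕ) (p : κ[X]) : (nwForm N p).IsHomogeneous N := by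
  refine MvPolynomial.IsHomogeneous.sum _ _ _ fun i hi => ?_
  refine MvPolynomial.isHomogeneous_monomial _ ?_
  rw [Finset.mem_range] at hi
  simp only [map_add, Finsupp.degree_single]
  omega

theorem nwForm_coeff (N : ℕ) (p : κ[X]) {m : Fin 2 →₀ ℕ} (hm : m 0 + m 1 = N) :
    (nwForm N p).coeff m = p.coeff (m 1) := by
  classical
  rw [nwForm, MvPolynomial.coeff_sum]
  have h1 : ∀ i ∈ Finset.range (N + 1),
      (MvPolynomial.monomial (Finsupp.single 0 (N - i) + Finsupp.single 1 i) (p.coeff i)).coeff m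
        = if i = m 1 then p.coeff (m 1) else 0 := by
    intro i hi
    rw [Finset.mem_range] at hi
    rw [MvPolynomial.coeff_monomial]
    by_cases h : i = m 1
    · rw [if_pos h, if_pos, h]
      ext j
      fin_cases j
      · simp; omega
      · simp [h]
    · rw [if_neg h, if_neg]
      intro h2
      apply h
      rw [← h2]
      simp
  rw [Finset.sum_congr rfl h1, Finset.sum_ite_eq']
  rw [if_pos (by rw [Finset.mem_range]; omega)]

/-- A form is determined by its coefficients. -/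
theorem nw_form_ext {N : ℕ} {p q : MvPolynomial (Fin 2) κ} (hp : p.IsHomogeneous N)
    (hq : q.IsHomogeneous N) (h : ∀ m : Fin 2 →₀ ℕ, m 0 + m 1 = N → p.coeff m = q.coeff m) :
    p = q := by
  ext m
  by_cases hm : m 0 + m 1 = N
  · exact h m hm
  · have hdeg : m.degree ≠ N := by
      rw [Finsupp.degree_eq_sum, Fin.sum_univ_two]
      exact hm
    rw [hp.coeff_eq_zero hdeg, hq.coeff_eq_zero hdeg]

/-- The dehomogenisation is injective on forms. -/
theorem nwDehom_injOn {N : ℕ} {p q : MvPolynomial (Fin 2) κ} (hp : p.IsHomogeneous N)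
    (hq : q.IsHomogeneous N) (h : nwDehom κ 0 p = nwDehom κ 0 q) : p = q := by
  refine nw_form_ext hp hq fun m hm => ?_
  rw [← nwDehom_coeff 0 1 (by decide) hp hm, ← nwDehom_coeff 0 1 (by decide) hq hm, h]

theorem nwDehom_nwForm {N : ℕ} {p : κ[X]} (hp : p.natDegree ≤ N) :
    nwDehom κ 0 (nwForm N p) = p := by
  ext i
  rcases Nat.lt_or_ge N i with h | h
  · rw [coeff_eq_zero_of_natDegree_lt (lt_of_le_of_lt hp h), coeff_eq_zero_of_natDegree_lt
      (lt_of_le_of_lt (nwDehom_natDegree_le 0 1 (by decide) (nwForm_isHomogeneous N p)) h)]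
  · have h1 := nwDehom_coeff 0 1 (by decide) (nwForm_isHomogeneous N p)
      (m := Finsupp.single 0 (N - i) + Finsupp.single 1 i) (by simp; omega)
    rw [nwForm_coeff N p (by simp; omega)] at h1
    simpa using h1

/-- Homogenisation of a homomorphism to polynomials in one variable. -/
theorem nw_homogenize (f : R →ₐ[ℂ] κ[X]) (d : ℕ)
    (hf : ∀ k, ∀ r ∈ 𝒜 k, (f r).natDegree ≤ d * k) :
    ∃ φ : R →ₐ[ℂ] MvPolynomial (Fin 2) κ, (∀ k, ∀ r ∈ 𝒜 k, (φ r).IsHomogeneous (d * k)) ∧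
      (∀ k, ∀ r ∈ 𝒜 k, ∀ m : Fin 2 →₀ ℕ, m 0 + m 1 = d * k →
        (φ r).coeff m = (f r).coeff (m 1)) ∧ ∀ r, nwDehom κ 0 (φ r) = f r := by
  classical
  let F : ∀ k, (𝒜 k) →ₗ[ℂ] MvPolynomial (Fin 2) κ := fun k =>
    { toFun := fun r => nwForm (d * k) (f (r : R))
      map_add' := fun a b => by
        refine nw_form_ext (nwForm_isHomogeneous _ _)
          ((nwForm_isHomogeneous _ _).add (nwForm_isHomogeneous _ _)) fun m hm => ?_
        rw [MvPolynomial.coeff_add, nwForm_coeff _ _ hm, nwForm_coeff _ _ hm,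
          nwForm_coeff _ _ hm, Submodule.coe_add, map_add, coeff_add]
      map_smul' := fun c a => by
        have h2 : (c • nwForm (d * k) (f (a : R))).IsHomogeneous (d * k) := by
          rw [← algebraMap_smul κ c (nwForm (d * k) (f (a : R)))]
          exact (MvPolynomial.homogeneousSubmodule (Fin 2) κ (d * k)).smul_mem _
            (nwForm_isHomogeneous _ _)
        refine nw_form_ext (nwForm_isHomogeneous _ _) h2 fun m hm => ?_
        rw [RingHom.id_apply, MvPolynomial.coeff_smul, nwForm_coeff _ _ hm,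
          nwForm_coeff _ _ hm, Submodule.coe_smul, map_smul, coeff_smul] }
  have hF : ∀ k (r : 𝒜 k), F k r = nwForm (d * k) (f (r : R)) := fun k r => rfl
  let c₀ : (DirectSum ℕ fun k => 𝒜 k) →ₐ[ℂ] MvPolynomial (Fin 2) κ :=
    DirectSum.toAlgebra ℂ (fun k => 𝒜 k) F (by
      rw [hF]
      change nwForm (d * 0) (f (1 : R)) = 1
      rw [map_one]
      have h1 : (1 : MvPolynomial (Fin 2) κ).IsHomogeneous (d * 0) := by
        rw [mul_zero]; exact MvPolynomial.isHomogeneous_one _ _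
      refine nwDehom_injOn (nwForm_isHomogeneous _ _) h1 ?_
      rw [nwDehom_nwForm (by rw [natDegree_one]; exact Nat.zero_le _), map_one]) (by
      intro i j a b
      rw [hF, hF, hF]
      change nwForm (d * (i + j)) (f ((a : R) * (b : R))) = _
      have h1 : (nwForm (d * i) (f (a : R)) * nwForm (d * j) (f (b : R))).IsHomogeneous
          (d * (i + j)) := by
        rw [mul_add]
        exact (nwForm_isHomogeneous _ _).mul (nwForm_isHomogeneous _ _)
      refine nwDehom_injOn (nwForm_isHomogeneous _ _) h1 ?_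
      rw [map_mul (nwDehom κ 0), nwDehom_nwForm (hf i a a.2), nwDehom_nwForm (hf j b b.2),
        nwDehom_nwForm, map_mul]
      rw [map_mul, mul_add]
      exact natDegree_mul_le.trans (Nat.add_le_add (hf i a a.2) (hf j b b.2)))
  let φ : R →ₐ[ℂ] MvPolynomial (Fin 2) κ := c₀.comp (DirectSum.decomposeAlgEquiv 𝒜).toAlgHom
  have hφ : ∀ k, ∀ r ∈ 𝒜 k, φ r = nwForm (d * k) (f r) := by
    intro k r hr
    have e2 : (DirectSum.decomposeAlgEquiv 𝒜) r = DirectSum.of (fun k => 𝒜 k) k ⟨r, hr⟩ := by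
      rw [DirectSum.decomposeAlgEquiv_apply, DirectSum.decompose_of_mem 𝒜 hr]
    change c₀ ((DirectSum.decomposeAlgEquiv 𝒜) r) = _
    rw [e2]
    change DirectSum.toModule ℂ ℕ _ F (DirectSum.lof ℂ ℕ (fun k => 𝒜 k) k ⟨r, hr⟩) = _
    rw [DirectSum.toModule_lof]
    rfl
  refine ⟨φ, fun k r hr => ?_, fun k r hr m hm => ?_, ?_⟩
  · rw [hφ k r hr]; exact nwForm_isHomogeneous _ _
  · rw [hφ k r hr]; exact nwForm_coeff _ _ hm
  · exact forall_of_homogeneous' (𝒜 := 𝒜) ((nwDehom κ 0).toLinearMap ∘ₗ φ.toLinearMap)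
      f.toLinearMap (fun k r hr => by
        change nwDehom κ 0 (φ r) = f r
        rw [hφ k r hr]
        exact nwDehom_nwForm (hf k r hr))

end Homogenize

section Dehom

variable {κ : Type w} [Field κ] [Algebra ℂ κ]

theorem eval_nwDehom_zero (p : MvPolynomial (Fin 2) κ) (x : κ) :
    (nwDehom κ 0 p).eval x = MvPolynomial.eval ![1, x] p := by
  have h : ((Polynomial.aeval x : κ[X] →ₐ[κ] κ).comp
      (MvPolynomial.aeval (fun j : Fin 2 => if j = 0 then (1 : κ[X]) else X)))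
      = MvPolynomial.aeval ![1, x] := by
    refine MvPolynomial.algHom_ext fun j => ?_
    fin_cases j <;> simp
  have := AlgHom.congr_fun h p
  rw [AlgHom.comp_apply, Polynomial.coe_aeval_eq_eval, MvPolynomial.aeval_eq_eval] at this
  exact this

theorem eval_nwDehom_one (p : MvPolynomial (Fin 2) κ) (x : κ) :
    (nwDehom κ 1 p).eval x = MvPolynomial.eval ![x, 1] p := by
  have h : ((Polynomial.aeval x : κ[X] →ₐ[κ] κ).comp
      (MvPolynomial.aeval (fun j : Fin 2 => if j = 1 then (1 : κ[X]) else X)))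
      = MvPolynomial.aeval ![x, 1] := by
    refine MvPolynomial.algHom_ext fun j => ?_
    fin_cases j <;> simp
  have := AlgHom.congr_fun h p
  rw [AlgHom.comp_apply, Polynomial.coe_aeval_eq_eval, MvPolynomial.aeval_eq_eval] at this
  exact this

/-- Scaling the argument of a form. -/
theorem eval_smul_form {N : ℕ} {p : MvPolynomial (Fin 2) κ} (hp : p.IsHomogeneous N)
    (c : κ) (a : Fin 2 → κ) :
    MvPolynomial.eval (c • a) p = c ^ N * MvPolynomial.eval a p := by
  rw [MvPolynomial.eval_eq', MvPolynomial.eval_eq', Finset.mul_sum]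
  refine Finset.sum_congr rfl fun d hd => ?_
  have h2 := hp (MvPolynomial.mem_support_iff.mp hd)
  rw [Finsupp.weight_apply, Finsupp.sum_fintype _ _ (by simp), Fin.sum_univ_two] at h2
  simp only [Fin.prod_univ_two, Pi.smul_apply, smul_eq_mul, Pi.one_apply, mul_one] at h2 ⊢
  rw [← h2, mul_pow, mul_pow, pow_add]
  ring

end Dehom

section Root

variable {L : Type v} [Field L] [Algebra ℂ L] {κ : Type w} [Field κ] [Algebra ℂ κ]
    {Γ : Type*} [LinearOrderedCommGroupWithZero Γ] {v : Valuation L Γ} {res : L → κ}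

/-- A root of `f` reduces to a root of the reduction, on the first line. -/
theorem nw_half_root (hp : IsPlace v res) {f : L[X]} {q : κ[X]} {k N : ℕ} {ρ : L}
    (hρ : ρ ≠ 0) (hN : k ≤ N) (hdeg : f.natDegree ≤ N) (hq : q.natDegree ≤ k)
    (hc : ∀ j ≤ k, q.coeff j = res (f.coeff j * ρ ^ j)) (hb : ∀ j, v (f.coeff j * ρ ^ j) ≤ 1)
    (hb' : ∀ j, k < j → v (f.coeff j * ρ ^ j) < 1) {x : L} (hx : v x ≤ v ρ)
    (h : f.eval x = 0) : q.eval (res (x / ρ)) = 0 := by
  have hvρ : v ρ ≠ 0 := (Valuation.ne_zero_iff v).mpr hρ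
  have hy : v (x / ρ) ≤ 1 := by
    rw [map_div₀]
    exact div_le_one_of_le₀ hx zero_le
  have h1 : f.eval x = ∑ j ∈ Finset.range (N + 1), (f.coeff j * ρ ^ j) * (x / ρ) ^ j := by
    rw [eval_eq_sum_range' (Nat.lt_succ_of_le hdeg)]
    refine Finset.sum_congr rfl fun j _ => ?_
    rw [mul_assoc, ← mul_pow, mul_div_cancel₀ x hρ]
  rw [h] at h1
  have h2 := congrArg res h1
  rw [hp.map_zero, hp.map_sum _ _ (fun j _ => by
    rw [map_mul, map_pow]
    exact mul_le_one' (hb j) (pow_le_one' hy j))] at h2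
  have h3 : ∀ j ∈ Finset.range (N + 1), res ((f.coeff j * ρ ^ j) * (x / ρ) ^ j)
      = q.coeff j * res (x / ρ) ^ j := by
    intro j _
    rw [hp.map_mul _ _ (hb j) (by rw [map_pow]; exact pow_le_one' hy j), hp.map_pow _ hy]
    congr 1
    rcases Nat.lt_or_ge k j with hj | hj
    · rw [coeff_eq_zero_of_natDegree_lt (lt_of_le_of_lt hq hj)]
      exact (hp.eq_zero_iff _ (hb j)).mpr (hb' j hj)
    · exact (hc j hj).symm
  rw [Finset.sum_congr rfl h3, ← eval_eq_sum_range' (by omega)] at h2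
  exact h2.symm

/-- The node case. -/
theorem nw_node_root (hp : IsPlace v res) {f : L[X]} {k : ℕ} {ρ : L}
    (hρ : ρ ≠ 0) (hdeg : f.natDegree ≤ 2 * k) (hb : ∀ j, v (f.coeff j * ρ ^ j) ≤ 1)
    (hb' : ∀ j ≤ 2 * k, v (f.coeff j * ρ ^ (2 * k - j)) ≤ 1) {x : L} (hx : v ρ < v x)
    (hx' : v (ρ * x) < 1) (h : f.eval x = 0) : v (f.coeff k * ρ ^ k) < 1 := by
  classical
  have hx0 : x ≠ 0 := by
    rintro rfl
    rw [map_zero] at hx
    exact absurd hx (not_lt.mpr zero_le)
  have hvx : v x ≠ 0 := (Valuation.ne_zero_iff v).mpr hx0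
  have hy : v (ρ / x) < 1 := by
    rw [map_div₀]
    exact (div_lt_one₀ (zero_lt_iff.mpr hvx)).mpr hx
  have h1 : ∑ j ∈ Finset.range (2 * k + 1), f.coeff j * x ^ j * (ρ / x) ^ k = 0 := by
    rw [← Finset.sum_mul, ← eval_eq_sum_range' (Nat.lt_succ_of_le hdeg), h, zero_mul]
  have hk : k ∈ Finset.range (2 * k + 1) := by rw [Finset.mem_range]; omega
  rw [← Finset.add_sum_erase _ _ hk] at h1
  have h2 : f.coeff k * x ^ k * (ρ / x) ^ k = f.coeff k * ρ ^ k := by
    rw [mul_assoc, ← mul_pow, mul_div_cancel₀ ρ hx0]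
  rw [h2] at h1
  have h3 : v (∑ j ∈ (Finset.range (2 * k + 1)).erase k, f.coeff j * x ^ j * (ρ / x) ^ k) < 1 := by
    refine v.map_sum_lt one_ne_zero fun j hj => ?_
    rw [Finset.mem_erase, Finset.mem_range] at hj
    rcases Nat.lt_or_ge j k with hjk | hjk
    · have e1 : f.coeff j * x ^ j * (ρ / x) ^ k
          = (f.coeff j * ρ ^ j) * (ρ / x) ^ (k - j) := by
        have e2 : (ρ / x) ^ k = (ρ / x) ^ j * (ρ / x) ^ (k - j) := by
          rw [← pow_add]; congr 1; omega
        rw [e2, div_pow, div_pow]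
        field_simp
      rw [e1, map_mul, map_pow]
      exact mul_lt_one_of_nonneg_of_lt_one_right (hb j) zero_le
        (pow_lt_one₀ zero_le hy (by omega))
    · have e1 : f.coeff j * x ^ j * (ρ / x) ^ k
          = (f.coeff j * ρ ^ (2 * k - j)) * (ρ * x) ^ (j - k) := by
        have e2 : x ^ j = x ^ k * x ^ (j - k) := by
          rw [← pow_add]; congr 1; omega
        have e3 : ρ ^ k = ρ ^ (2 * k - j) * ρ ^ (j - k) := by
          rw [← pow_add]; congr 1; omega
        rw [e2, div_pow, e3, mul_pow]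
        field_simp
      rw [e1, map_mul, map_pow v (ρ * x)]
      exact mul_lt_one_of_nonneg_of_lt_one_right (hb' j (by omega)) zero_le
        (pow_lt_one₀ zero_le hx' (by omega))
  rw [eq_neg_of_add_eq_zero_left h1, Valuation.map_neg]
  exact h3

end Root

/-- Coefficients beyond the middle are small. -/
theorem nw_small {L : Type v} [Field L] {Γ : Type*} [LinearOrderedCommGroupWithZero Γ]
    {v : Valuation L Γ} {f g : L[X]} {k : ℕ} (hf : f.natDegree ≤ 2 * k)
    (hfg : ∀ i j, i + j = 2 * k → f.coeff i = g.coeff j) {ρ : L} (hρ : v ρ < 1)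
    (hb : ∀ i, v (g.coeff i * ρ ^ i) ≤ 1) {i : ℕ} (hi : k < i) :
    v (f.coeff i * ρ ^ i) < 1 := by
  rcases Nat.lt_or_ge (2 * k) i with h | h
  · rw [coeff_eq_zero_of_natDegree_lt (by omega), zero_mul, map_zero]
    exact zero_lt_one
  · have h1 := hb (2 * k - i)
    rw [← hfg i (2 * k - i) (by omega)] at h1
    have e1 : f.coeff i * ρ ^ i = (f.coeff i * ρ ^ (2 * k - i)) * ρ ^ (2 * i - 2 * k) := by
      have e2 : ρ ^ i = ρ ^ (2 * k - i) * ρ ^ (2 * i - 2 * k) := by
        rw [← pow_add]; congr 1; omega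
      rw [e2]; ring
    rw [e1, map_mul, map_pow v ρ (2 * i - 2 * k)]
    exact mul_lt_one_of_nonneg_of_lt_one_right h1 zero_le
      (pow_lt_one₀ zero_le hρ (by omega))

section Chain

variable {R : Type u} [CommRing R] [Algebra ℂ R] {𝒜 : ℕ → Submodule ℂ R} [GradedAlgebra 𝒜]
  {P : R →ₗ[ℂ] R →ₗ[ℂ] R}
  {L : Type v} [Field L] [Algebra ℂ L] {κ : Type w} [Field κ] [Algebra ℂ κ]
  {Γ : Type*} [LinearOrderedCommGroupWithZero Γ] {v : Valuation L Γ} {res : L → κ}

/-- The conic `φ` over `L` degenerates, at the place `res`, to the chain of the two lines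
`Ψ₁`, `Ψ₂` with a common point at the parameter `(0, 1)`. -/
structure IsChain (𝒜 : ℕ → Submodule ℂ R) (v : Valuation L Γ) (res : L → κ)
    (φ : R →ₐ[ℂ] MvPolynomial (Fin 2) L) (ρ : L)
    (Ψ₁ Ψ₂ : R →ₐ[ℂ] MvPolynomial (Fin 2) κ) : Prop where
  ne_zero : ρ ≠ 0
  lt_one : v ρ < 1
  bound0 : ∀ r i, v ((nwDehom L 0 (φ r)).coeff i * ρ ^ i) ≤ 1
  bound1 : ∀ r i, v ((nwDehom L 1 (φ r)).coeff i * ρ ^ i) ≤ 1
  homog₁ : ∀ k, ∀ r ∈ 𝒜 k, (Ψ₁ r).IsHomogeneous (1 * k)
  homog₂ : ∀ k, ∀ r ∈ 𝒜 k, (Ψ₂ r).IsHomogeneous (1 * k)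
  coeff₁ : ∀ r i, (nwDehom κ 0 (Ψ₁ r)).coeff i = res ((nwDehom L 0 (φ r)).coeff i * ρ ^ i)
  coeff₂ : ∀ r i, (nwDehom κ 0 (Ψ₂ r)).coeff i = res ((nwDehom L 1 (φ r)).coeff i * ρ ^ i)
  node : ∃ k, 0 < k ∧ ∃ r ∈ 𝒜 k, MvPolynomial.eval ![0, 1] (Ψ₁ r) ≠ 0

/-- `Φ₀` is the reduction of the conic `φ`. -/
structure IsRed (v : Valuation L Γ) (res : L → κ)
    (φ : R →ₐ[ℂ] MvPolynomial (Fin 2) L) (Φ₀ : R →ₐ[ℂ] MvPolynomial (Fin 2) κ) : Prop where
  bound : ∀ r m, v ((φ r).coeff m) ≤ 1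
  coeff : ∀ r m, (Φ₀ r).coeff m = res ((φ r).coeff m)

theorem nw_eval_one_zero {κ : Type w} [Field κ] [Algebra ℂ κ] (p : MvPolynomial (Fin 2) κ) :
    MvPolynomial.eval ![1, 0] p = (nwDehom κ 0 p).coeff 0 := by
  rw [← eval_nwDehom_zero, coeff_zero_eq_eval_zero]

theorem nw_eval_zero_one {κ : Type w} [Field κ] [Algebra ℂ κ] (p : MvPolynomial (Fin 2) κ) :
    MvPolynomial.eval ![0, 1] p = (nwDehom κ 1 p).coeff 0 := by
  rw [← eval_nwDehom_one, coeff_zero_eq_eval_zero]

/-- The two dehomogenisations of a form. -/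
theorem nwDehom_coeff_symm {κ : Type w} [Field κ] [Algebra ℂ κ] {N : ℕ}
    {p : MvPolynomial (Fin 2) κ} (hp : p.IsHomogeneous N) {i j : ℕ} (hij : i + j = N) :
    (nwDehom κ 0 p).coeff i = (nwDehom κ 1 p).coeff j := by
  have e1 := nwDehom_coeff 0 1 (by decide) hp
    (m := Finsupp.single 0 j + Finsupp.single 1 i) (by simp; omega)
  have e2 := nwDehom_coeff 1 0 (by decide) hp
    (m := Finsupp.single 0 j + Finsupp.single 1 i) (by simp; omega)
  simp at e1 e2
  rw [e1, e2]

variable {φ : R →ₐ[ℂ] MvPolynomial (Fin 2) L} {ρ : L}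
  {Ψ₁ Ψ₂ : R →ₐ[ℂ] MvPolynomial (Fin 2) κ}

/-- A family of linear maps with integral values reduces to a linear map. -/
theorem nw_res_ext (hp : IsPlace v res) (f : R →ₗ[ℂ] κ) (g : R →ₗ[ℂ] L) (hg : ∀ r, v (g r) ≤ 1)
    (h : ∀ k, ∀ r ∈ 𝒜 k, f r = res (g r)) (r : R) : f r = res (g r) := by
  let g' : R →ₗ[ℂ] κ :=
    { toFun := fun r => res (g r)
      map_add' := fun a b => by rw [map_add]; exact hp.map_add _ _ (hg a) (hg b)
      map_smul' := fun c a => by
        rw [map_smul, RingHom.id_apply, Algebra.smul_def, Algebra.smul_def,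
          hp.map_mul _ _ (hp.le_one c) (hg a), hp.map_algebraMap] }
  exact forall_of_homogeneous' (𝒜 := 𝒜) f g' h r

theorem IsChain.end₁ (hc : IsChain 𝒜 v res φ ρ Ψ₁ Ψ₂) (r : R) :
    MvPolynomial.eval ![1, 0] (Ψ₁ r) = res (MvPolynomial.eval ![1, 0] (φ r)) := by
  rw [nw_eval_one_zero, nw_eval_one_zero, hc.coeff₁, pow_zero, mul_one]

theorem IsChain.end₂ (hc : IsChain 𝒜 v res φ ρ Ψ₁ Ψ₂) (r : R) :
    MvPolynomial.eval ![1, 0] (Ψ₂ r) = res (MvPolynomial.eval ![0, 1] (φ r)) := by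
  rw [nw_eval_one_zero, nw_eval_zero_one, hc.coeff₂, pow_zero, mul_one]

/-- The value at the node. -/
theorem IsChain.node₁ (hc : IsChain 𝒜 v res φ ρ Ψ₁ Ψ₂) {k : ℕ} {r : R} (hr : r ∈ 𝒜 k) :
    MvPolynomial.eval ![0, 1] (Ψ₁ r) = res ((nwDehom L 0 (φ r)).coeff k * ρ ^ k) := by
  rw [nw_eval_zero_one, ← nwDehom_coeff_symm (hc.homog₁ k r hr) (i := k) (j := 0) (by omega),
    hc.coeff₁]

theorem IsChain.node₂ (hφ : ∀ k, ∀ r ∈ 𝒜 k, (φ r).IsHomogeneous (2 * k))
    (hc : IsChain 𝒜 v res φ ρ Ψ₁ Ψ₂) {k : ℕ} {r : R} (hr : r ∈ 𝒜 k) :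
    MvPolynomial.eval ![0, 1] (Ψ₂ r) = res ((nwDehom L 0 (φ r)).coeff k * ρ ^ k) := by
  rw [nw_eval_zero_one, ← nwDehom_coeff_symm (hc.homog₂ k r hr) (i := k) (j := 0) (by omega),
    hc.coeff₂, nwDehom_coeff_symm (hφ k r hr) (i := k) (j := k) (by omega)]

theorem IsChain.node_eq (hφ : ∀ k, ∀ r ∈ 𝒜 k, (φ r).IsHomogeneous (2 * k))
    (hc : IsChain 𝒜 v res φ ρ Ψ₁ Ψ₂) (r : R) :
    MvPolynomial.eval ![0, 1] (Ψ₁ r) = MvPolynomial.eval ![0, 1] (Ψ₂ r) := by
  have h := forall_of_homogeneous' (𝒜 := 𝒜)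
    (((MvPolynomial.aeval ![0, 1] : MvPolynomial (Fin 2) κ →ₐ[κ] κ).restrictScalars
      ℂ).toLinearMap ∘ₗ Ψ₁.toLinearMap)
    (((MvPolynomial.aeval ![0, 1] : MvPolynomial (Fin 2) κ →ₐ[κ] κ).restrictScalars
      ℂ).toLinearMap ∘ₗ Ψ₂.toLinearMap) (fun k r hr => by
        change MvPolynomial.aeval _ (Ψ₁ r) = MvPolynomial.aeval _ (Ψ₂ r)
        rw [MvPolynomial.aeval_eq_eval]
        exact (hc.node₁ hr).trans (hc.node₂ hφ hr).symm) r
  change MvPolynomial.aeval _ (Ψ₁ r) = MvPolynomial.aeval _ (Ψ₂ r) at h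
  rwa [MvPolynomial.aeval_eq_eval] at h

theorem IsChain.small₀ (hφ : ∀ k, ∀ r ∈ 𝒜 k, (φ r).IsHomogeneous (2 * k))
    (hc : IsChain 𝒜 v res φ ρ Ψ₁ Ψ₂) {k : ℕ} {r : R} (hr : r ∈ 𝒜 k) {i : ℕ} (hi : k < i) :
    v ((nwDehom L 0 (φ r)).coeff i * ρ ^ i) < 1 :=
  nw_small (nwDehom_natDegree_le 0 1 (by decide) (hφ k r hr))
    (fun i j hij => nwDehom_coeff_symm (hφ k r hr) hij) hc.lt_one (hc.bound1 r) hi

theorem IsChain.small₁ (hφ : ∀ k, ∀ r ∈ 𝒜 k, (φ r).IsHomogeneous (2 * k))
    (hc : IsChain 𝒜 v res φ ρ Ψ₁ Ψ₂) {k : ℕ} {r : R} (hr : r ∈ 𝒜 k) {i : ℕ} (hi : k < i) :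
    v ((nwDehom L 1 (φ r)).coeff i * ρ ^ i) < 1 :=
  nw_small (nwDehom_natDegree_le 1 0 (by decide) (hφ k r hr))
    (fun i j hij => (nwDehom_coeff_symm (hφ k r hr) (by omega)).symm) hc.lt_one (hc.bound0 r) hi

/-- **Good reduction or a chain of two lines.** -/
theorem good_or_chain [IsAlgClosed L] (hX : IsContactFano 𝒜 P) (hp : IsPlace v res)
    (hφ : ∀ k, ∀ r ∈ 𝒜 k, (φ r).IsHomogeneous (2 * k))
    (h10 : ∀ r, v (MvPolynomial.eval ![1, 0] (φ r)) ≤ 1)
    (h01 : ∀ r, v (MvPolynomial.eval ![0, 1] (φ r)) ≤ 1) :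
    (∃ Φ₀ : R →ₐ[ℂ] MvPolynomial (Fin 2) κ, (∀ k, ∀ r ∈ 𝒜 k, (Φ₀ r).IsHomogeneous (2 * k)) ∧
      IsRed v res φ Φ₀) ∨
    ∃ (ρ : L) (Ψ₁ Ψ₂ : R →ₐ[ℂ] MvPolynomial (Fin 2) κ), IsChain 𝒜 v res φ ρ Ψ₁ Ψ₂ := by
  have h01' : (0 : Fin 2) ≠ 1 := by decide
  have hf : ∀ k, ∀ r ∈ 𝒜 k, (((nwDehom L 0).comp φ) r).natDegree ≤ 2 * k :=
    fun k r hr => nwDehom_natDegree_le 0 1 h01' (hφ k r hr)
  have hg : ∀ k, ∀ r ∈ 𝒜 k, (((nwDehom L 1).comp φ) r).natDegree ≤ 2 * k :=
    fun k r hr => nwDehom_natDegree_le 1 0 h01'.symm (hφ k r hr)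
  have hfg : ∀ k, ∀ r ∈ 𝒜 k, ∀ i j, i + j = 2 * k →
      (((nwDehom L 0).comp φ) r).coeff i = (((nwDehom L 1).comp φ) r).coeff j :=
    fun k r hr i j hij => nwDehom_coeff_symm (hφ k r hr) hij
  obtain ⟨ρ, hρ0, hρ1, hF, hG, hM⟩ := nw_main v hX hp.le_one ((nwDehom L 0).comp φ)
    ((nwDehom L 1).comp φ) hf hg hfg
    (fun k r _ => by
      change v ((nwDehom L 0 (φ r)).coeff 0) ≤ 1
      rw [← nw_eval_one_zero]; exact h10 r)
    (fun k r _ => by
      change v ((nwDehom L 1 (φ r)).coeff 0) ≤ 1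
      rw [← nw_eval_zero_one]; exact h01 r)
  rcases eq_or_lt_of_le hρ1 with hρ | hρ
  · -- good reduction
    left
    have hb : ∀ k, ∀ r ∈ 𝒜 k, ∀ m, v ((φ r).coeff m) ≤ 1 := by
      intro k r hr m
      by_cases hm : m 0 + m 1 = 2 * k
      · have h1 := hF r (m 1)
        rw [AlgHom.comp_apply, nwDehom_coeff 0 1 h01' (hφ k r hr) hm, map_mul, map_pow, hρ,
          one_pow, mul_one] at h1
        exact h1
      · rw [(hφ k r hr).coeff_eq_zero (by
          rw [Finsupp.degree_eq_sum, Fin.sum_univ_two]; exact hm), map_zero]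
        exact zero_le
    have hF' : ∀ r i, v ((((nwDehom L 0).comp φ) r).coeff i * (1 : L) ^ i) ≤ 1 := by
      intro r i
      have h1 := hF r i
      rw [map_mul, map_pow, hρ, one_pow, mul_one] at h1
      rw [one_pow, mul_one]
      exact h1
    obtain ⟨Ψ, hΨ⟩ := hp.reduce ((nwDehom L 0).comp φ) 1 hF'
    obtain ⟨Φ₀, h1, h2, h3⟩ := nw_homogenize (𝒜 := 𝒜) Ψ 2 (fun k r hr => by
      rw [natDegree_le_iff_coeff_eq_zero]
      intro i hi
      rw [hΨ, coeff_eq_zero_of_natDegree_lt (lt_of_le_of_lt (hf k r hr) hi), zero_mul,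
        hp.map_zero])
    have hbr : ∀ r m, v ((φ r).coeff m) ≤ 1 := by
      classical
      intro r m
      rw [← DirectSum.sum_support_decompose 𝒜 r, map_sum, MvPolynomial.coeff_sum]
      exact v.map_sum_le fun k _ => hb k _ (SetLike.coe_mem _) m
    refine ⟨Φ₀, h1, hbr, fun r m => ?_⟩
    refine nw_res_ext (𝒜 := 𝒜) hp
      (((MvPolynomial.lcoeff κ m).restrictScalars ℂ) ∘ₗ Φ₀.toLinearMap)
      (((MvPolynomial.lcoeff L m).restrictScalars ℂ) ∘ₗ φ.toLinearMap)
      (fun r => hbr r m) (fun k r hr => ?_) r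
    change (Φ₀ r).coeff m = res ((φ r).coeff m)
    by_cases hm : m 0 + m 1 = 2 * k
    · rw [h2 k r hr m hm, hΨ, one_pow, mul_one, AlgHom.comp_apply,
        nwDehom_coeff 0 1 h01' (hφ k r hr) hm]
    · have hdeg : m.degree ≠ 2 * k := by
        rw [Finsupp.degree_eq_sum, Fin.sum_univ_two]; exact hm
      rw [(hφ k r hr).coeff_eq_zero hdeg, (h1 k r hr).coeff_eq_zero hdeg, hp.map_zero]
  · -- a chain
    right
    have hM' : ∃ k, 0 < k ∧ ∃ r ∈ 𝒜 k, v ((((nwDehom L 0).comp φ) r).coeff k * ρ ^ k) = 1 := by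
      rcases hM with hM | hM
      · exact absurd hM hρ.ne
      · exact hM
    obtain ⟨Ψ, hΨ⟩ := hp.reduce ((nwDehom L 0).comp φ) ρ hF
    obtain ⟨Ψ', hΨ'⟩ := hp.reduce ((nwDehom L 1).comp φ) ρ hG
    obtain ⟨Ψ₁, a1, a2, a3⟩ := nw_homogenize (𝒜 := 𝒜) Ψ 1 (fun k r hr => by
      rw [natDegree_le_iff_coeff_eq_zero]
      intro i hi
      rw [hΨ, hp.eq_zero_iff _ (hF r i)]
      exact nw_small (hf k r hr) (hfg k r hr) hρ (hG r) (by omega))
    obtain ⟨Ψ₂, b1, b2, b3⟩ := nw_homogenize (𝒜 := 𝒜) Ψ' 1 (fun k r hr => by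
      rw [natDegree_le_iff_coeff_eq_zero]
      intro i hi
      rw [hΨ', hp.eq_zero_iff _ (hG r i)]
      exact nw_small (hg k r hr) (fun i j hij => (hfg k r hr j i (by omega)).symm) hρ (hF r)
        (by omega))
    have c1 : ∀ r i, (nwDehom κ 0 (Ψ₁ r)).coeff i
        = res ((nwDehom L 0 (φ r)).coeff i * ρ ^ i) := fun r i => by rw [a3, hΨ]; rfl
    have c2 : ∀ r i, (nwDehom κ 0 (Ψ₂ r)).coeff i
        = res ((nwDehom L 1 (φ r)).coeff i * ρ ^ i) := fun r i => by rw [b3, hΨ']; rfl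
    refine ⟨ρ, Ψ₁, Ψ₂, hρ0, hρ, hF, hG, a1, b1, c1, c2, ?_⟩
    obtain ⟨k, hk, r, hr, h⟩ := hM'
    refine ⟨k, hk, r, hr, ?_⟩
    rw [nw_eval_zero_one, ← nwDehom_coeff_symm (a1 k r hr) (i := k) (j := 0) (by omega), c1]
    intro h0
    exact ((hp.eq_zero_iff _ (hF r k)).mp h0).ne h

/-- **Limit of a common zero**, at a chain. -/
theorem IsChain.root (hp : IsPlace v res) (hφ : ∀ k, ∀ r ∈ 𝒜 k, (φ r).IsHomogeneous (2 * k))
    (hc : IsChain 𝒜 v res φ ρ Ψ₁ Ψ₂) (I : Set R) (hI : ∀ r ∈ I, ∃ k, r ∈ 𝒜 k) {a : Fin 2 → L}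
    (ha : a ≠ 0) (h : ∀ r ∈ I, MvPolynomial.eval a (φ r) = 0) :
    ∃ u : Fin 2 → κ, u ≠ 0 ∧ ((∀ r ∈ I, MvPolynomial.eval u (Ψ₁ r) = 0) ∨
      ∀ r ∈ I, MvPolynomial.eval u (Ψ₂ r) = 0) := by
  have hρ := hc.ne_zero
  have hvρ : v ρ ≠ 0 := (Valuation.ne_zero_iff v).mpr hρ
  have hz : ∀ x y : L, (![x, y] : Fin 2 → L) = 0 → x = 0 ∧ y = 0 := by
    intro x y h
    exact ⟨by simpa using congrFun h 0, by simpa using congrFun h 1⟩
  -- a root `x = t / s`
  have hroot0 : ∀ x : L, a = (a 0) • ![1, x] → a 0 ≠ 0 → ∀ r ∈ I,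
      (nwDehom L 0 (φ r)).eval x = 0 := by
    intro x hx h0 r hr
    obtain ⟨k, hk⟩ := hI r hr
    have h1 := h r hr
    rw [hx, eval_smul_form (hφ k r hk), ← eval_nwDehom_zero] at h1
    exact (mul_eq_zero.mp h1).resolve_left (pow_ne_zero _ h0)
  have hroot1 : ∀ x : L, a = (a 1) • ![x, 1] → a 1 ≠ 0 → ∀ r ∈ I,
      (nwDehom L 1 (φ r)).eval x = 0 := by
    intro x hx h0 r hr
    obtain ⟨k, hk⟩ := hI r hr
    have h1 := h r hr
    rw [hx, eval_smul_form (hφ k r hk), ← eval_nwDehom_one] at h1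
    exact (mul_eq_zero.mp h1).resolve_left (pow_ne_zero _ h0)
  -- the root reduces to a point of the first line
  have case0 : ∀ x : L, v x ≤ v ρ → (∀ r ∈ I, (nwDehom L 0 (φ r)).eval x = 0) →
      ∀ r ∈ I, MvPolynomial.eval ![1, res (x / ρ)] (Ψ₁ r) = 0 := by
    intro x hx hr0 r hr
    obtain ⟨k, hk⟩ := hI r hr
    rw [← eval_nwDehom_zero]
    exact nw_half_root hp hρ (Nat.le_mul_of_pos_left k two_pos)
      (nwDehom_natDegree_le 0 1 (by decide) (hφ k r hk))
      (by simpa using nwDehom_natDegree_le 0 1 (by decide) (hc.homog₁ k r hk))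
      (fun j _ => hc.coeff₁ r j) (hc.bound0 r) (fun j hj => hc.small₀ hφ hk hj) hx (hr0 r hr)
  have case1 : ∀ x : L, v x ≤ v ρ → (∀ r ∈ I, (nwDehom L 1 (φ r)).eval x = 0) →
      ∀ r ∈ I, MvPolynomial.eval ![1, res (x / ρ)] (Ψ₂ r) = 0 := by
    intro x hx hr0 r hr
    obtain ⟨k, hk⟩ := hI r hr
    rw [← eval_nwDehom_zero]
    exact nw_half_root hp hρ (Nat.le_mul_of_pos_left k two_pos)
      (nwDehom_natDegree_le 1 0 (by decide) (hφ k r hk))
      (by simpa using nwDehom_natDegree_le 0 1 (by decide) (hc.homog₂ k r hk))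
      (fun j _ => hc.coeff₂ r j) (hc.bound1 r) (fun j hj => hc.small₁ hφ hk hj) hx (hr0 r hr)
  have hne : ∀ y : κ, (![1, y] : Fin 2 → κ) ≠ 0 := by
    intro y h
    have := congrFun h 0
    simp at this
  by_cases h0 : a 0 = 0
  · have h1 : a 1 ≠ 0 := by
      intro h1
      apply ha
      funext j
      fin_cases j
      · exact h0
      · exact h1
    refine ⟨![1, res (0 / ρ)], hne _, Or.inr (case1 0 (by rw [map_zero]; exact zero_le)
      (hroot1 0 ?_ h1))⟩
    funext j
    fin_cases j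
    · simpa using h0
    · simp
  · set x := a 1 / a 0 with hx
    have hax : a = (a 0) • ![1, x] := by
      funext j
      fin_cases j
      · simp
      · change a 1 = a 0 * (a 1 / a 0)
        rw [mul_div_cancel₀ _ h0]
    rcases le_or_gt (v x) (v ρ) with hxρ | hxρ
    · exact ⟨![1, res (x / ρ)], hne _, Or.inl (case0 x hxρ (hroot0 x hax h0))⟩
    · have hx0 : x ≠ 0 := by
        intro h'
        rw [h', map_zero] at hxρ
        exact absurd hxρ (not_lt.mpr zero_le)
      have hvx : v x ≠ 0 := (Valuation.ne_zero_iff v).mpr hx0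
      have ha1 : a 1 ≠ 0 := by
        intro h'
        rw [hx, h', zero_div] at hx0
        exact hx0 rfl
      rcases le_or_gt 1 (v (ρ * x)) with h2 | h2
      · -- close to the other end
        have h3 : v x⁻¹ ≤ v ρ := by
          rw [map_inv₀]
          rw [map_mul] at h2
          rw [inv_le_iff_one_le_mul₀ (zero_lt_iff.mpr hvx)]
          exact h2
        refine ⟨![1, res (x⁻¹ / ρ)], hne _, Or.inr (case1 x⁻¹ h3 (hroot1 x⁻¹ ?_ ha1))⟩
        funext j
        fin_cases j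
        · simp only [Fin.zero_eta, Pi.smul_apply, Matrix.cons_val_zero, smul_eq_mul]
          rw [hx, inv_div, mul_div_cancel₀ _ ha1]
        · simp
      · -- the node
        refine ⟨![0, 1], fun h' => ?_, Or.inl fun r hr => ?_⟩
        · have := congrFun h' 1
          simp at this
        · obtain ⟨k, hk⟩ := hI r hr
          rw [hc.node₁ hk, hp.eq_zero_iff _ (hc.bound0 r k)]
          refine nw_node_root hp hρ (nwDehom_natDegree_le 0 1 (by decide) (hφ k r hk))
            (hc.bound0 r) (fun j hj => ?_) hxρ h2 (hroot0 x hax h0 r hr)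
          rw [nwDehom_coeff_symm (hφ k r hk) (i := j) (j := 2 * k - j) (by omega)]
          exact hc.bound1 r _

/-- **Limit of a common zero**, good reduction. -/
theorem IsRed.root (hp : IsPlace v res) {d : ℕ}
    (hφ : ∀ k, ∀ r ∈ 𝒜 k, (φ r).IsHomogeneous (d * k))
    {Φ₀ : R →ₐ[ℂ] MvPolynomial (Fin 2) κ} (hc : IsRed v res φ Φ₀) (I : Set R)
    (hI : ∀ r ∈ I, ∃ k, r ∈ 𝒜 k) {a : Fin 2 → L}
    (ha : a ≠ 0) (h : ∀ r ∈ I, MvPolynomial.eval a (φ r) = 0) :
    ∃ u : Fin 2 → κ, u ≠ 0 ∧ ∀ r ∈ I, MvPolynomial.eval u (Φ₀ r) = 0 := by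
  -- evaluation at integral arguments commutes with reduction
  have hev : ∀ (b : Fin 2 → L), (∀ j, v (b j) ≤ 1) → ∀ r,
      MvPolynomial.eval (fun j => res (b j)) (Φ₀ r) = res (MvPolynomial.eval b (φ r)) := by
    intro b hb r
    classical
    have hsub : (Φ₀ r).support ⊆ (φ r).support := by
      intro m hm
      rw [MvPolynomial.mem_support_iff] at hm ⊢
      intro h0
      apply hm
      rw [hc.coeff, h0, hp.map_zero]
    rw [MvPolynomial.eval_eq', MvPolynomial.eval_eq', hp.map_sum]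
    · rw [Finset.sum_subset hsub (fun m _ hm => by
        rw [MvPolynomial.notMem_support_iff.mp hm, zero_mul])]
      refine Finset.sum_congr rfl fun m _ => ?_
      rw [Fin.prod_univ_two, Fin.prod_univ_two, hp.map_mul _ _ (hc.bound r m) (by
        rw [map_mul, map_pow, map_pow]
        exact mul_le_one' (pow_le_one' (hb 0) _) (pow_le_one' (hb 1) _)),
        hp.map_mul _ _ (by rw [map_pow]; exact pow_le_one' (hb 0) _)
          (by rw [map_pow]; exact pow_le_one' (hb 1) _), hp.map_pow _ (hb 0),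
        hp.map_pow _ (hb 1), hc.coeff]
    · intro m _
      rw [Fin.prod_univ_two, map_mul, map_mul, map_pow, map_pow]
      exact mul_le_one' (hc.bound r m) (mul_le_one' (pow_le_one' (hb 0) _)
        (pow_le_one' (hb 1) _))
  -- normalise the parameter
  obtain ⟨c, hc0, b, hb, hbc, j, hj⟩ : ∃ c : L, c ≠ 0 ∧ ∃ b : Fin 2 → L, (∀ j, v (b j) ≤ 1) ∧
      b = c • a ∧ ∃ j, v (b j) = 1 := by
    have hz : ∃ j, a j ≠ 0 := by
      by_contra hcon
      push Not at hcon
      exact ha (funext hcon)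
    obtain ⟨i, -, hi⟩ := Finset.exists_max_image Finset.univ (fun j => v (a j)) ⟨0, by simp⟩
    have hai : a i ≠ 0 := by
      intro h0
      obtain ⟨j, hj⟩ := hz
      have h1 := hi j (Finset.mem_univ j)
      rw [h0, map_zero] at h1
      exact hj ((Valuation.zero_iff v).mp (le_antisymm h1 zero_le))
    have hvi : v (a i) ≠ 0 := (Valuation.ne_zero_iff v).mpr hai
    refine ⟨(a i)⁻¹, inv_ne_zero hai, (a i)⁻¹ • a, fun j => ?_, rfl, i, ?_⟩
    · rw [Pi.smul_apply, smul_eq_mul, map_mul, map_inv₀]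
      rw [inv_mul_le_iff₀ (zero_lt_iff.mpr hvi), mul_one]
      exact hi j (Finset.mem_univ j)
    · rw [Pi.smul_apply, smul_eq_mul, inv_mul_cancel₀ hai, map_one]
  refine ⟨fun j => res (b j), fun h0 => ?_, fun r hr => ?_⟩
  · have h1 := congrFun h0 j
    have h2 := (hp.eq_zero_iff _ (hb j)).mp h1
    exact h2.ne hj
  · obtain ⟨k, hk⟩ := hI r hr
    rw [hev b hb r, hbc, eval_smul_form (hφ k r hk), h r hr, mul_zero, hp.map_zero]

end Chain

end Vale.Agent.P292
end

section

/-! # Q2: families of curves over a ring `A` with good reduction. -/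

namespace Vale.Agent.P292

open MvPolynomial

universe u v w

variable {R : Type u} [CommRing R] [Algebra ℂ R] {𝒜 : ℕ → Submodule ℂ R}

/-- If the reduction of a family of curves is a curve (over an algebraically closed field), then
so is the generic member. -/
theorem IsCurve.of_reduction {A : Type v} [CommRing A] [Algebra ℂ A] {K : Type w} [Field K]
    [IsAlgClosed K] [Algebra ℂ K] (π : A →ₐ[ℂ] K) (hπ : Function.Surjective π)
    {Ω : Type*} [Field Ω] [Algebra ℂ Ω] (ι : A →ₐ[ℂ] Ω) (O : ValuationSubring Ω)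
    (hO : ∀ a, ι a ∈ O) (hk : ∀ a, π a = 0 → O.valuation (ι a) < 1)
    (Φ : R →ₐ[ℂ] MvPolynomial (Fin 2) A) {d : ℕ}
    (hdeg : ∀ k, ∀ r ∈ 𝒜 k, (Φ r).IsHomogeneous (d * k))
    (hφ : IsCurve 𝒜 d ((mapAlgHom π).comp Φ)) : IsCurve 𝒜 d ((mapAlgHom ι).comp Φ) := by
  classical
  refine ⟨fun k r hr => (hdeg k r hr).map _, ?_⟩
  let T : Set (MvPolynomial (Fin 2) K) :=
    {p | ∃ k, 0 < k ∧ ∃ r ∈ 𝒜 k, p = map (π : A →+* K) (Φ r)}
  have hrad : ∀ i : Fin 2, (X i : MvPolynomial (Fin 2) K) ∈ (Ideal.span T).radical := by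
    intro i
    rw [← vanishingIdeal_zeroLocus_eq_radical (K := K)]
    intro x hx
    rw [aeval_X]
    by_contra hxi
    obtain ⟨k, hk0, r, hr, hne⟩ := hφ.bpf x (fun h0 => hxi (by rw [h0]; rfl))
    exact hne (hx _ (Ideal.subset_span ⟨k, hk0, r, hr, rfl⟩))
  have key : ∀ (y : Fin 2 → Ω) (i : Fin 2), (∀ j, y j ∈ O) → y i = 1 →
      ∃ k, 0 < k ∧ ∃ r ∈ 𝒜 k, eval y (map (ι : A →+* Ω) (Φ r)) ≠ 0 := by
    intro y i hy hyi
    by_contra hcon
    push Not at hcon
    obtain ⟨M, hM⟩ := hrad i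
    have hlift : ∀ p ∈ Ideal.span T, ∃ q : MvPolynomial (Fin 2) A,
        map (π : A →+* K) q = p ∧ eval y (map (ι : A →+* Ω) q) = 0 := by
      intro p hp
      induction hp using Submodule.span_induction with
      | mem p hp =>
        obtain ⟨k, hk0, r, hr, rfl⟩ := hp
        exact ⟨Φ r, rfl, hcon k hk0 r hr⟩
      | zero => exact ⟨0, by simp, by simp⟩
      | add p p' _ _ h h' =>
        obtain ⟨q, h1, h2⟩ := h
        obtain ⟨q', h1', h2'⟩ := h'
        exact ⟨q + q', by rw [map_add, h1, h1'], by rw [map_add, map_add, h2, h2', add_zero]⟩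
      | smul a p _ h =>
        obtain ⟨q, h1, h2⟩ := h
        obtain ⟨b, hb⟩ := map_surjective (π : A →+* K) hπ a
        exact ⟨b * q, by rw [map_mul, h1, hb, smul_eq_mul], by
          rw [map_mul, map_mul, h2, mul_zero]⟩
    obtain ⟨q, hq1, hq2⟩ := hlift _ hM
    have hE : map (π : A →+* K) (X i ^ M - q) = 0 := by
      rw [map_sub, map_pow, map_X, hq1, sub_self]
    have hE2 : eval y (map (ι : A →+* Ω) (X i ^ M - q)) = 1 := by
      rw [map_sub, map_sub, hq2, sub_zero, map_pow, map_pow, map_X, eval_X, hyi, one_pow]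
    have hlt : O.valuation (eval y (map (ι : A →+* Ω) (X i ^ M - q))) < 1 := by
      rw [eval_map, eval₂_eq']
      refine Valuation.map_sum_lt _ one_ne_zero fun m _ => ?_
      rw [map_mul]
      have h1 : O.valuation ((ι : A →+* Ω) (coeff m (X i ^ M - q))) < 1 := by
        apply hk
        have := congrArg (coeff m) hE
        rwa [coeff_map, coeff_zero] at this
      have h2 : O.valuation (∏ i, y i ^ m i) ≤ 1 := by
        rw [O.valuation_le_one_iff]
        exact prod_mem fun j _ => pow_mem (hy j) _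
      exact lt_of_le_of_lt (mul_le_mul_right h2 _) (by rwa [mul_one])
    rw [hE2, map_one] at hlt
    exact lt_irrefl _ hlt
  intro x hx
  -- the coordinate of maximal value
  obtain ⟨i, hi0, hi⟩ : ∃ i, x i ≠ 0 ∧ ∀ j, O.valuation (x j) ≤ O.valuation (x i) := by
    rcases le_total (O.valuation (x 0)) (O.valuation (x 1)) with h | h
    · refine ⟨1, fun h1 => hx ?_, fun j => by fin_cases j <;> simp [h]⟩
      rw [h1, map_zero, le_zero_iff, map_eq_zero] at h
      funext j
      fin_cases j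
      · exact h
      · exact h1
    · refine ⟨0, fun h1 => hx ?_, fun j => by fin_cases j <;> simp [h]⟩
      rw [h1, map_zero, le_zero_iff, map_eq_zero] at h
      funext j
      fin_cases j
      · exact h1
      · exact h
  obtain ⟨k, hk0, r, hr, hne⟩ := key ((x i)⁻¹ • x) i (fun j => by
    rw [← O.valuation_le_one_iff, Pi.smul_apply, smul_eq_mul, map_mul, map_inv₀]
    have h0 : O.valuation (x i) ≠ 0 := (map_ne_zero _).2 hi0
    calc (O.valuation (x i))⁻¹ * O.valuation (x j)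
        ≤ (O.valuation (x i))⁻¹ * O.valuation (x i) := mul_le_mul_right (hi j) _
      _ = 1 := inv_mul_cancel₀ h0) (by
    rw [Pi.smul_apply, smul_eq_mul, inv_mul_cancel₀ hi0])
  refine ⟨k, hk0, r, hr, ?_⟩
  rw [aeval_eq_eval]
  change eval x (map (ι : A →+* Ω) (Φ r)) ≠ 0
  intro h0
  apply hne
  rw [eval_smul_form ((hdeg k r hr).map _), h0, mul_zero]

end Vale.Agent.P292
end

section

/-! # Q2 part I: definitions. -/

namespace Vale.Agent.P292

open MvPolynomial TensorProduct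

universe u v w

variable {R : Type u} [CommRing R] [Algebra ℂ R] {𝒜 : ℕ → Submodule ℂ R}

/-- Every degree zero derivation along `φ` comes from a derivation of the field. -/
def IsFull (𝒜 : ℕ → Submodule ℂ R) (d : ℕ) {K : Type v} [Field K] [Algebra ℂ K]
    (φ : R →ₐ[ℂ] MvPolynomial (Fin 2) K) : Prop :=
  ∀ δ, IsHDer 𝒜 d φ 0 δ → ∃ D : Derivation ℂ K K, ∀ r, mapD D (φ r) = δ r

/-- The ends `(1, 0)` and `(0, 1)` are not proportional. -/
def NonProp (𝒜 : ℕ → Submodule ℂ R) {K : Type v} [Field K] [Algebra ℂ K]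
    (φ : R →ₐ[ℂ] MvPolynomial (Fin 2) K) : Prop :=
  ∃ k, ∃ r ∈ 𝒜 k, ∃ s ∈ 𝒜 k, pt φ ![1, 0] r * pt φ ![0, 1] s ≠ pt φ ![1, 0] s * pt φ ![0, 1] r

/-- The derivation of `R` along `φ` given by a derivation of the coefficient field. -/
theorem isHDer_mapD_comp {K : Type v} [Field K] [Algebra ℂ K] {d : ℕ}
    {φ : R →ₐ[ℂ] MvPolynomial (Fin 2) K} (hφ : ∀ k, ∀ r ∈ 𝒜 k, (φ r).IsHomogeneous (d * k))
    (D : Derivation ℂ K K) :
    IsHDer 𝒜 d φ 0 ((mapD D : Derivation ℂ _ _).toLinearMap ∘ₗ φ.toLinearMap) where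
  der r s := by
    change mapD D (φ (r * s)) = φ r * mapD D (φ s) + φ s * mapD D (φ r)
    rw [map_mul, Derivation.leibniz, smul_eq_mul, smul_eq_mul]
  homog k r hr m hm := by
    obtain rfl : m = d * k := by
      have : (m : ℤ) = ((d * k : ℕ) : ℤ) := by push_cast; omega
      exact_mod_cast this
    intro e he
    refine hφ k r hr fun h0 => he ?_
    change coeff e (mapD D (φ r)) = 0
    rw [coeff_mapD, h0, map_zero]
  neg k hk := by
    exfalso
    have : (0 : ℤ) ≤ (d : ℤ) * k := by positivity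
    omega

/-- Anchored curves are free at the anchor. -/
theorem IsAnch.exists_isHDer {P : R →ₗ[ℂ] R →ₗ[ℂ] R} [GradedAlgebra 𝒜]
    (hX : IsContactFano 𝒜 P) {K : Type v} [Field K] [Algebra ℂ K] {d : ℕ}
    {φ : R →ₐ[ℂ] MvPolynomial (Fin 2) K} (hφ : IsAnch 𝒜 d φ) (v : R →ₗ[ℂ] K)
    (hv : IsDer (pt φ ![1, 0]) v) : ∃ δ, IsHDer 𝒜 d φ 0 δ ∧ evL ![1, 0] δ = v ∧
      ∃ D : Derivation ℂ K K, ∀ r, mapD D (φ r) = δ r := by
  have := hX.domain
  let _ : Algebra R K := (pt φ ![1, 0] : R →+* K).toAlgebra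
  have hst : IsScalarTower ℂ R K := IsScalarTower.of_algebraMap_eq fun c =>
    ((pt φ ![1, 0]).commutes c).symm
  have : CharZero K := charZero_of_injective_algebraMap (algebraMap ℂ K).injective
  let v' : Derivation ℂ R K := Derivation.mk' v fun r s => by
    rw [hv r s, Algebra.smul_def, Algebra.smul_def]
    rfl
  obtain ⟨D, hD⟩ := exists_derivation_extend (k := ℂ) (A := R) (E := K) hφ.inj v'
  refine ⟨_, isHDer_mapD_comp hφ.curve.degree D, ?_, D, fun r => rfl⟩
  ext r
  have h1 : D (pt φ ![1, 0] r) = v r := hD r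
  rw [evL_apply, ← h1, pt_apply]
  change eval ![1, 0] (mapD D (φ r)) = _
  -- evaluation at a rational point commutes with the derivation
  have key : ∀ p : MvPolynomial (Fin 2) K, eval ![1, 0] (mapD D p) = D (eval ![1, 0] p) := by
    intro p
    induction p using MvPolynomial.induction_on with
    | C a =>
      have : mapD D (C a) = C (D a) := by
        classical
        ext m
        rw [coeff_mapD, coeff_C, coeff_C]
        split_ifs
        · rfl
        · exact map_zero D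
      rw [this, eval_C, eval_C]
    | add p q hp hq => rw [map_add, map_add, map_add, map_add, hp, hq]
    | mul_X p i hp =>
      have hX0 : mapD D (X i : MvPolynomial (Fin 2) K) = 0 := by
        classical
        ext m
        rw [coeff_mapD, coeff_X, coeff_zero]
        split_ifs
        · exact Derivation.map_one_eq_zero D
        · exact map_zero D
      rw [Derivation.leibniz, hX0, smul_zero, zero_add, smul_eq_mul, map_mul, map_mul, hp,
        Derivation.leibniz, eval_X]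
      have h2 : D ((![1, 0] : Fin 2 → K) i) = 0 := by
        fin_cases i
        · exact Derivation.map_one_eq_zero D
        · exact map_zero D
      rw [h2, smul_zero, zero_add, smul_eq_mul]
  exact key _

end Vale.Agent.P292
end

section

/-! Closed specialisations of curves. -/

namespace Vale.Agent.P292

open MvPolynomial

universe u v

section

variable {R : Type u} [CommRing R] [Algebra ℂ R] {𝒜 : ℕ → Submodule ℂ R} {d : ℕ}
  {E : Type v} [Field E] [Algebra ℂ E] {φ : R →ₐ[ℂ] MvPolynomial (Fin 2) E}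

/-- A power of each variable lies in the ideal generated by the image of the irrelevant ideal. -/
theorem IsCurve.exists_pow [IsAlgClosed E] (hφ : IsCurve 𝒜 d φ) (i : Fin 2) :
    ∃ (N n : ℕ) (c : Fin n → MvPolynomial (Fin 2) E) (r : Fin n → R) (k : Fin n → ℕ),
      (∀ j, 0 < k j) ∧ (∀ j, r j ∈ 𝒜 (k j)) ∧
      ∑ j, c j * φ (r j) = (X i : MvPolynomial (Fin 2) E) ^ N := by
  set I : Ideal (MvPolynomial (Fin 2) E) :=
    Ideal.span {p | ∃ k, 0 < k ∧ ∃ r ∈ 𝒜 k, φ r = p} with hI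
  have h : (X i : MvPolynomial (Fin 2) E) ∈ I.radical := by
    rw [← vanishingIdeal_zeroLocus_eq_radical (K := E), mem_vanishingIdeal_iff]
    intro x hx
    by_contra hne
    have hx0 : x ≠ 0 := by
      rintro rfl
      simp at hne
    obtain ⟨k, hk, r, hr, h⟩ := hφ.bpf x hx0
    exact h (mem_zeroLocus_iff.mp hx _ (Ideal.subset_span ⟨k, hk, r, hr, rfl⟩))
  obtain ⟨N, hN⟩ := h
  obtain ⟨n, c, g, hg⟩ := Submodule.mem_span_set'.mp hN
  choose k hk r hr hrg using fun j => (g j).2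
  refine ⟨N, n, c, r, k, hk, hr, ?_⟩
  rw [← hg]
  exact Finset.sum_congr rfl fun j _ => by rw [hrg j, smul_eq_mul]

/-- Closed specialisation of a curve. Every curve over an algebraically closed field `E` is
defined over a finitely generated complex algebra `A₀ ⊆ E`, and specialises, by a complex point
`σ` of `A₀`, to a curve over the complex numbers. -/
theorem IsCurve.exists_spec [Algebra.FiniteType ℂ R] [IsAlgClosed E] (hφ : IsCurve 𝒜 d φ)
    (F : Finset E) :
    ∃ (A₀ : Subalgebra ℂ E) (σ : A₀ →ₐ[ℂ] ℂ) (φ₀ : R →ₐ[ℂ] MvPolynomial (Fin 2) A₀),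
      (↑F : Set E) ⊆ A₀ ∧ (∀ r, map (algebraMap A₀ E) (φ₀ r) = φ r) ∧
      IsCurve 𝒜 d ((mapAlgHom σ).comp φ₀) := by
  classical
  obtain ⟨G, hG⟩ := Algebra.FiniteType.out (R := ℂ) (A := R)
  obtain ⟨N0, n0, c0, r0, k0, hk0, hr0, h0⟩ := hφ.exists_pow 0
  obtain ⟨N1, n1, c1, r1, k1, hk1, hr1, h1⟩ := hφ.exists_pow 1
  set S : Finset E := F ∪ G.biUnion (fun g => (φ g).coeffs) ∪
    (Finset.univ.biUnion fun j => (c0 j).coeffs) ∪
    (Finset.univ.biUnion fun j => (c1 j).coeffs) with hS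
  set A₀ : Subalgebra ℂ E := Algebra.adjoin ℂ (S : Set E) with hA
  have hSA : (S : Set E) ⊆ A₀ := Algebra.subset_adjoin
  have : Algebra.FiniteType ℂ A₀ :=
    (Subalgebra.fg_iff_finiteType A₀).mp (Subalgebra.fg_adjoin_finset _)
  obtain ⟨σ, -⟩ := exists_point_ne_zero (1 : A₀) one_ne_zero
  set M : MvPolynomial (Fin 2) A₀ →ₐ[ℂ] MvPolynomial (Fin 2) E := mapAlgHom A₀.val with hMdef
  have hMapp : ∀ p, M p = map (algebraMap A₀ E) p := fun p => rfl
  have hM : Function.Injective M := map_injective _ Subtype.val_injective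
  have hmem : ∀ p : MvPolynomial (Fin 2) E, (p.coeffs : Set E) ⊆ A₀ → ∃ q, M q = p := by
    intro p hp
    have : p ∈ Set.range (MvPolynomial.map (algebraMap A₀ E)) := by
      rw [mem_range_map_iff_coeffs_subset]
      intro e he
      exact ⟨⟨e, hp he⟩, rfl⟩
    exact this
  have hrange : ∀ r, φ r ∈ M.range := by
    intro r
    have h2 : φ.range ≤ M.range := by
      rw [← Algebra.map_top, ← hG, AlgHom.map_adjoin, Algebra.adjoin_le_iff]
      rintro _ ⟨g, hg, rfl⟩
      obtain ⟨q, hq⟩ := hmem (φ g) (by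
        refine subset_trans ?_ hSA
        rw [hS]
        intro e he
        simp only [Finset.coe_union, Set.mem_union, Finset.mem_coe, Finset.mem_biUnion]
        exact Or.inl (Or.inl (Or.inr ⟨g, hg, he⟩)))
      exact ⟨q, hq⟩
    exact h2 ⟨r, rfl⟩
  set e := AlgEquiv.ofInjective M hM with he
  set φ₀ : R →ₐ[ℂ] MvPolynomial (Fin 2) A₀ :=
    (e.symm : M.range →ₐ[ℂ] MvPolynomial (Fin 2) A₀).comp (φ.codRestrict M.range hrange) with hφ₀
  have hφ₀M : ∀ r, M (φ₀ r) = φ r := by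
    intro r
    have : (e (φ₀ r) : MvPolynomial (Fin 2) E) = φ r := by
      rw [hφ₀]
      simp
    rw [← this]
    rfl
  refine ⟨A₀, σ, φ₀, ?_, hφ₀M, ?_, ?_⟩
  · refine subset_trans ?_ hSA
    rw [hS]
    intro e he
    simp only [Finset.coe_union, Set.mem_union]
    exact Or.inl (Or.inl (Or.inl he))
  · intro k r hr m hm
    have hm' : coeff m (φ₀ r) ≠ 0 := by
      intro h
      apply hm
      change coeff m (map (σ : A₀ →+* ℂ) (φ₀ r)) = 0
      rw [coeff_map, h, map_zero]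
    have h3 : coeff m (φ r) ≠ 0 := by
      rw [← hφ₀M r, hMapp, coeff_map]
      intro h
      apply hm'
      exact Subtype.val_injective (h.trans (map_zero (algebraMap A₀ E)).symm)
    exact hφ.degree k r hr h3
  · intro x hx
    have key : ∀ (i : Fin 2) (N n : ℕ) (c : Fin n → MvPolynomial (Fin 2) E) (r : Fin n → R)
        (k : Fin n → ℕ), (∀ j, 0 < k j) → (∀ j, r j ∈ 𝒜 (k j)) →
        ∑ j, c j * φ (r j) = (X i : MvPolynomial (Fin 2) E) ^ N →
        (∀ j, ((c j).coeffs : Set E) ⊆ A₀) → x i ≠ 0 →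
        ∃ k, 0 < k ∧ ∃ r ∈ 𝒜 k, aeval x (((mapAlgHom σ).comp φ₀) r) ≠ 0 := by
      intro i N n c r k hk hr hsum hc hxi
      choose q hq using fun j => hmem (c j) (hc j)
      have h5 : ∑ j, q j * φ₀ (r j) = X i ^ N := by
        apply hM
        rw [map_sum, map_pow]
        have : M (X i) = X i := by rw [hMapp, map_X]
        rw [this, ← hsum]
        exact Finset.sum_congr rfl fun j _ => by rw [map_mul, hq, hφ₀M]
      by_contra hcon
      push Not at hcon
      have h6 : aeval x ((mapAlgHom σ : MvPolynomial (Fin 2) A₀ →ₐ[ℂ] _)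
          (∑ j, q j * φ₀ (r j))) = 0 := by
        rw [map_sum, map_sum]
        refine Finset.sum_eq_zero fun j _ => ?_
        rw [map_mul, map_mul]
        have := hcon (k j) (hk j) (r j) (hr j)
        change aeval x ((mapAlgHom σ : MvPolynomial (Fin 2) A₀ →ₐ[ℂ] _) (φ₀ (r j))) = 0 at this
        rw [this, mul_zero]
      rw [h5, map_pow, map_pow] at h6
      have h7 : (mapAlgHom σ : MvPolynomial (Fin 2) A₀ →ₐ[ℂ] _) (X i) = X i := by
        change map (σ : A₀ →+* ℂ) (X i) = X i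
        rw [map_X]
      rw [h7, aeval_X] at h6
      exact pow_ne_zero N hxi h6
    have hx' : x 0 ≠ 0 ∨ x 1 ≠ 0 := by
      by_contra h
      push Not at h
      apply hx
      funext i
      fin_cases i
      · exact h.1
      · exact h.2
    rcases hx' with h | h
    · refine key 0 N0 n0 c0 r0 k0 hk0 hr0 h0 (fun j => ?_) h
      refine subset_trans ?_ hSA
      rw [hS]
      intro e he
      simp only [Finset.coe_union, Set.mem_union, Finset.mem_coe, Finset.mem_biUnion]
      exact Or.inl (Or.inr ⟨j, Finset.mem_univ _, he⟩)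
    · refine key 1 N1 n1 c1 r1 k1 hk1 hr1 h1 (fun j => ?_) h
      refine subset_trans ?_ hSA
      rw [hS]
      intro e he
      simp only [Finset.coe_union, Set.mem_union, Finset.mem_coe, Finset.mem_biUnion]
      exact Or.inr ⟨j, Finset.mem_univ _, he⟩

/-- Closed specialisation keeps the complex values at complex points, and a given finite set of
nonzero elements stays nonzero. -/
theorem IsCurve.exists_closed' [Algebra.FiniteType ℂ R] [IsAlgClosed E] (hφ : IsCurve 𝒜 d φ)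
    (F : Finset E) (hF : ∀ e ∈ F, e ≠ 0) :
    ∃ (A₀ : Subalgebra ℂ E) (σ : A₀ →ₐ[ℂ] ℂ) (ψ : R →ₐ[ℂ] MvPolynomial (Fin 2) ℂ),
      IsCurve 𝒜 d ψ ∧
      (∀ r m, ∃ h : coeff m (φ r) ∈ A₀, coeff m (ψ r) = σ ⟨coeff m (φ r), h⟩) ∧
      (∀ (x : Fin 2 → ℂ) (r : R) (c : ℂ),
        aeval (fun i => algebraMap ℂ E (x i)) (φ r) = algebraMap ℂ E c → aeval x (ψ r) = c) ∧
      (∀ e ∈ F, ∃ h : e ∈ A₀, σ ⟨e, h⟩ ≠ 0) := by
  classical
  obtain ⟨A₀, σ, φ₀, hFA, hφ₀, hψ⟩ := hφ.exists_spec (F ∪ F.image (fun e => e⁻¹))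
  have hcf : ∀ r m, ((coeff m (φ₀ r) : A₀) : E) = coeff m (φ r) := by
    intro r m
    rw [← hφ₀ r, coeff_map]
    rfl
  have hmap : ∀ r, ((mapAlgHom σ).comp φ₀) r = map (σ : A₀ →+* ℂ) (φ₀ r) := fun r => rfl
  refine ⟨A₀, σ, (mapAlgHom σ).comp φ₀, hψ, ?_, ?_, ?_⟩
  · intro r m
    refine ⟨by rw [← hcf r m]; exact (coeff m (φ₀ r)).2, ?_⟩
    rw [hmap, coeff_map]
    change σ _ = σ _
    congr 1
    exact Subtype.ext (hcf r m)
  · intro x r c hc
    have h1 : aeval (fun i => algebraMap ℂ A₀ (x i)) (φ₀ r) = algebraMap ℂ A₀ c := by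
      apply Subtype.val_injective
      have h2 : (aeval (fun i => algebraMap ℂ A₀ (x i)) (φ₀ r) : A₀).1 =
          aeval (fun i => algebraMap ℂ E (x i)) (φ r) := by
        rw [← hφ₀ r]
        change (algebraMap A₀ E) _ = _
        rw [aeval_def, aeval_def, eval₂_map, hom_eval₂]
        rfl
      rw [h2, hc]
      rfl
    have h3 : aeval x (((mapAlgHom σ).comp φ₀) r) =
        σ (aeval (fun i => algebraMap ℂ A₀ (x i)) (φ₀ r)) := by
      rw [hmap, aeval_def, eval₂_map, aeval_def]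
      change _ = (σ : A₀ →+* ℂ) _
      rw [hom_eval₂]
      congr 1
      funext i
      exact (σ.commutes (x i)).symm
    rw [h3, h1, σ.commutes]
    rfl
  · intro e he
    have h1 : e ∈ A₀ := hFA (by simp [he])
    have h2 : e⁻¹ ∈ A₀ := hFA (by simp [he])
    refine ⟨h1, fun h => ?_⟩
    have h3 : (⟨e, h1⟩ : A₀) * ⟨e⁻¹, h2⟩ = 1 := Subtype.ext (mul_inv_cancel₀ (hF e he))
    have h4 := congrArg σ h3
    rw [map_mul, h, zero_mul, map_one] at h4
    exact zero_ne_one h4

/-- Closed specialisation of a curve: the points with complex parameters which are complex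
points are kept. -/
theorem IsCurve.exists_closed_pt [Algebra.FiniteType ℂ R] [IsAlgClosed E] (hφ : IsCurve 𝒜 d φ) :
    ∃ ψ : R →ₐ[ℂ] MvPolynomial (Fin 2) ℂ, IsCurve 𝒜 d ψ ∧
      ∀ (x : Fin 2 → ℂ) (w : R →ₐ[ℂ] ℂ),
        (∀ r, pt φ (fun i => algebraMap ℂ E (x i)) r = algebraMap ℂ E (w r)) → pt ψ x = w := by
  obtain ⟨A₀, σ, ψ, hψ, -, h, -⟩ := hφ.exists_closed' ∅ (by simp)
  refine ⟨ψ, hψ, fun x w hw => AlgHom.ext fun r => ?_⟩
  have := h x r (w r) (by rw [← hw r, pt_apply, aeval_eq_eval])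
  rw [pt_apply, ← this, aeval_eq_eval]

/-- Closed specialisation of a curve with two given complex end points. -/
theorem IsCurve.exists_closed_two [Algebra.FiniteType ℂ R] [IsAlgClosed E] (hφ : IsCurve 𝒜 d φ)
    {w q : R →ₐ[ℂ] ℂ} (hw : ∀ r, pt φ ![1, 0] r = algebraMap ℂ E (w r))
    (hq : ∀ r, pt φ ![0, 1] r = algebraMap ℂ E (q r)) :
    ∃ ψ : R →ₐ[ℂ] MvPolynomial (Fin 2) ℂ, IsCurve 𝒜 d ψ ∧ pt ψ ![1, 0] = w ∧
      pt ψ ![0, 1] = q := by
  obtain ⟨ψ, hψ, h⟩ := hφ.exists_closed_pt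
  have h1 : (fun i => algebraMap ℂ E (![1, 0] i)) = (![1, 0] : Fin 2 → E) := by
    funext i; fin_cases i <;> simp
  have h2 : (fun i => algebraMap ℂ E (![0, 1] i)) = (![0, 1] : Fin 2 → E) := by
    funext i; fin_cases i <;> simp
  exact ⟨ψ, hψ, h _ _ (by rw [h1]; exact hw), h _ _ (by rw [h2]; exact hq)⟩

/-- Closed specialisation of a curve with a given complex end point at `(1, 0)`. -/
theorem IsCurve.exists_closed_fst [Algebra.FiniteType ℂ R] [IsAlgClosed E] (hφ : IsCurve 𝒜 d φ)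
    {w : R →ₐ[ℂ] ℂ} (hw : ∀ r, pt φ ![1, 0] r = algebraMap ℂ E (w r)) :
    ∃ ψ : R →ₐ[ℂ] MvPolynomial (Fin 2) ℂ, IsCurve 𝒜 d ψ ∧ pt ψ ![1, 0] = w := by
  obtain ⟨ψ, hψ, h⟩ := hφ.exists_closed_pt
  have h1 : (fun i => algebraMap ℂ E (![1, 0] i)) = (![1, 0] : Fin 2 → E) := by
    funext i; fin_cases i <;> simp
  exact ⟨ψ, hψ, h _ _ (by rw [h1]; exact hw)⟩

end

section

variable {R : Type u} [CommRing R] [Algebra ℂ R] {𝒜 : ℕ → Submodule ℂ R} [GradedAlgebra 𝒜]
  {P : R →ₗ[ℂ] R →ₗ[ℂ] R}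

/-- N3: lines through a closed point over fields specialise to closed lines. -/
theorem exists_closed_line (hX : IsContactFano 𝒜 P) {κ : Type v} [Field κ] [IsAlgClosed κ]
    [Algebra ℂ κ] {w : R →ₐ[ℂ] ℂ} (Ψ : R →ₐ[ℂ] MvPolynomial (Fin 2) κ) (hΨ : IsCurve 𝒜 1 Ψ)
    (h10 : ∀ r, pt Ψ ![1, 0] r = algebraMap ℂ κ (w r)) :
    ∃ ψ : R →ₐ[ℂ] MvPolynomial (Fin 2) ℂ, IsCurve 𝒜 1 ψ ∧ pt ψ ![1, 0] = w := by
  have := hX.finiteType
  exact hΨ.exists_closed_fst h10

end

end Vale.Agent.P292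
end

section

/-! # Extension of derivations from `R` to a field containing `R`. -/

namespace Vale.Agent.P292

open MvPolynomial TensorProduct

universe u v w

/-- Lifting of ring homomorphisms along square zero extensions. -/
theorem exists_lift_of_formallySmooth {R : Type u} {K : Type v} {B : Type w} [CommRing R]
    [CommRing K] [CommRing B] [Algebra R K] [Algebra.FormallySmooth R K] (g : B →+* K)
    (hg : Function.Surjective g) (hker : RingHom.ker g ^ 2 = ⊥) (h : R →+* B)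
    (hgh : g.comp h = algebraMap R K) :
    ∃ ψ : K →+* B, g.comp ψ = RingHom.id K ∧ ψ.comp (algebraMap R K) = h := by
  let _ : Algebra R B := h.toAlgebra
  obtain ⟨g', hg'⟩ : ∃ g' : B →ₐ[R] K, ∀ b, g' b = g b :=
    ⟨{ g with commutes' := fun p => RingHom.congr_fun hgh p }, fun b => rfl⟩
  have hsurj : Function.Surjective g' := fun k => by
    obtain ⟨b, hb⟩ := hg k
    exact ⟨b, (hg' b).trans hb⟩
  have hnil : IsNilpotent (RingHom.ker (g' : B →+* K)) := by
    refine ⟨2, ?_⟩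
    have : RingHom.ker (g' : B →+* K) = RingHom.ker g := by
      ext b
      rw [RingHom.mem_ker, RingHom.mem_ker]
      change g' b = 0 ↔ g b = 0
      rw [hg']
    rw [this, hker]
    rfl
  refine ⟨(Algebra.FormallySmooth.liftOfSurjective (AlgHom.id R K) g' hsurj hnil :
    K →ₐ[R] B), ?_, ?_⟩
  · ext k
    have := Algebra.FormallySmooth.liftOfSurjective_apply (AlgHom.id R K) g' hsurj hnil k
    rw [hg'] at this
    exact this
  · ext p
    exact (Algebra.FormallySmooth.liftOfSurjective (AlgHom.id R K) g' hsurj hnil).commutes p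

/-- A field of characteristic zero is formally smooth over its subrings. -/
theorem formallySmooth_of_faithful {R : Type u} {K : Type v} [CommRing R] [IsDomain R]
    [Field K] [CharZero K] [Algebra R K] [FaithfulSMul R K] : Algebra.FormallySmooth R K := by
  let _ : Algebra (FractionRing R) K := FractionRing.liftAlgebra R K
  have h0 : IsScalarTower R (FractionRing R) K := FractionRing.isScalarTower_liftAlgebra R K
  have h1 : Algebra.FormallyEtale R (FractionRing R) :=
    Algebra.FormallyEtale.of_isLocalization (nonZeroDivisors R)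
  have h2 : CharZero (FractionRing R) := (algebraMap (FractionRing R) K).charZero
  obtain ⟨s, hs⟩ := exists_isTranscendenceBasis (FractionRing R) K
  have h3 : Algebra.IsAlgebraic (IntermediateField.adjoin (FractionRing R)
      (Set.range ((↑) : s → K))) K := by
    exact hs.isAlgebraic_field
  have h4 : CharZero (IntermediateField.adjoin (FractionRing R) (Set.range ((↑) : s → K))) :=
    (algebraMap (IntermediateField.adjoin (FractionRing R) (Set.range ((↑) : s → K)))
      K).charZero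
  have h5 : Algebra.FormallySmooth (FractionRing R) K :=
    Algebra.FormallySmooth.of_algebraicIndependent_of_isSeparable hs.1
  exact Algebra.FormallySmooth.comp R (FractionRing R) K

variable {R : Type u} [CommRing R] [Algebra ℂ R]

/-- Derivations over an injective point extend to derivations of the field. -/
theorem exists_derivation_of_isDer {E : Type v} [Field E] [Algebra ℂ E] {q : R →ₐ[ℂ] E}
    (hq : Function.Injective q) {δ : R →ₗ[ℂ] E} (hδ : IsDer q δ) :
    ∃ D : Derivation ℂ E E, alongAt q D = δ := by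
  have hdom : IsDomain R := Function.Injective.isDomain q.toRingHom hq
  have hch : CharZero E := charZero_of_injective_algebraMap (algebraMap ℂ E).injective
  let _ : Algebra R E := q.toRingHom.toAlgebra
  have hmap : ∀ r, algebraMap R E r = q r := fun r => rfl
  have hfaith : FaithfulSMul R E := (faithfulSMul_iff_algebraMap_injective R E).2 hq
  have hsm : Algebra.FormallySmooth R E := formallySmooth_of_faithful
  have h10 : δ 1 = 0 := by
    have := hδ 1 1
    rw [mul_one, map_one q, one_mul] at this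
    have h2 : δ 1 + 0 = δ 1 + δ 1 := by rw [add_zero]; exact this
    exact (add_left_cancel h2).symm
  obtain ⟨h, hh⟩ : ∃ h : R →+* TrivSqZeroExt E E,
      ∀ r, h r = TrivSqZeroExt.inl (q r) + TrivSqZeroExt.inr (δ r) := by
    refine ⟨{ toFun := fun r => TrivSqZeroExt.inl (q r) + TrivSqZeroExt.inr (δ r)
              map_one' := ?_
              map_mul' := ?_
              map_zero' := ?_
              map_add' := ?_ }, fun r => rfl⟩
    · rw [map_one, h10, TrivSqZeroExt.inr_zero, add_zero, TrivSqZeroExt.inl_one]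
    · intro a b
      ext
      · simp
      · simp only [hδ a b, TrivSqZeroExt.snd_add, TrivSqZeroExt.snd_inl, TrivSqZeroExt.snd_inr,
          zero_add, TrivSqZeroExt.snd_mul, TrivSqZeroExt.fst_add, TrivSqZeroExt.fst_inl,
          TrivSqZeroExt.fst_inr, add_zero, smul_eq_mul, MulOpposite.smul_eq_mul_unop,
          MulOpposite.unop_op]
        ring
    · simp
    · intro a b
      ext
      · simp
      · simp
  obtain ⟨g, hg⟩ : ∃ g : TrivSqZeroExt E E →+* E, ∀ x, g x = x.fst :=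
    ⟨{ toFun := fun x => x.fst
       map_one' := TrivSqZeroExt.fst_one
       map_mul' := fun x y => TrivSqZeroExt.fst_mul x y
       map_zero' := TrivSqZeroExt.fst_zero
       map_add' := fun x y => TrivSqZeroExt.fst_add x y }, fun x => rfl⟩
  have hsurj : Function.Surjective g := fun x => ⟨TrivSqZeroExt.inl x, by
    rw [hg, TrivSqZeroExt.fst_inl]⟩
  have hker : RingHom.ker g ^ 2 = ⊥ := by
    rw [sq, eq_bot_iff, Ideal.mul_le]
    intro x hx y hy
    rw [RingHom.mem_ker, hg] at hx hy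
    rw [Ideal.mem_bot]
    ext
    · rw [TrivSqZeroExt.fst_mul, hx, zero_mul, TrivSqZeroExt.fst_zero]
    · rw [TrivSqZeroExt.snd_mul, hx, hy]
      simp
  have hgh : g.comp h = algebraMap R E := by
    ext r
    rw [RingHom.comp_apply, hh, hg, hmap]
    simp
  obtain ⟨ψ, hψ1, hψ2⟩ := exists_lift_of_formallySmooth g hsurj hker h hgh
  have hfst : ∀ x, (ψ x).fst = x := fun x => by
    rw [← hg]
    exact RingHom.congr_fun hψ1 x
  have hsnd : ∀ r, (ψ (q r)).snd = δ r := fun r => by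
    have h2 := RingHom.congr_fun hψ2 r
    rw [RingHom.comp_apply, hmap] at h2
    rw [h2, hh]
    simp
  have hmul : ∀ x y, (ψ (x * y)).snd = x * (ψ y).snd + y * (ψ x).snd := fun x y => by
    rw [map_mul, TrivSqZeroExt.snd_mul, hfst, hfst]
    simp only [smul_eq_mul, MulOpposite.smul_eq_mul_unop, MulOpposite.unop_op]
    ring
  have hC : ∀ c : ℂ, (ψ (algebraMap ℂ E c)).snd = 0 := fun c => by
    have h1 : algebraMap ℂ E c = q (algebraMap ℂ R c) := (q.commutes c).symm
    rw [h1, hsnd, Algebra.algebraMap_eq_smul_one, map_smul, h10, smul_zero]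
  refine ⟨Derivation.mk' { toFun := fun x => (ψ x).snd
                           map_add' := fun x y => by rw [map_add, TrivSqZeroExt.snd_add]
                           map_smul' := fun c x => ?_ } (fun x y => ?_), ?_⟩
  · rw [Algebra.smul_def, hmul, hC, mul_zero, add_zero, RingHom.id_apply, Algebra.smul_def]
  · exact hmul x y
  · ext r
    exact hsnd r

end Vale.Agent.P292
end

section

/-! # Meeting prime divisors, for Picard number one. -/

namespace Vale.Agent.P292

open MvPolynomial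

universe u v

/-- A binary form of positive degree over an algebraically closed field has a zero. -/
theorem pic_exists_zero {κ : Type v} [Field κ] [IsAlgClosed κ] [Algebra ℂ κ]
    {F : MvPolynomial (Fin 2) κ} {m : ℕ} (hm : 0 < m) (hF : F.IsHomogeneous m) :
    ∃ a : Fin 2 → κ, a ≠ 0 ∧ eval a F = 0 := by
  classical
  have h10 : (1 : Fin 2) ≠ 0 := by decide
  have hcf := nwDehom_coeff (L := κ) 1 0 h10 hF (m := Finsupp.single 0 m) (by simp)
  have hev : ∀ a : κ, (nwDehom κ 1 F).eval a = eval ![a, 1] F := by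
    intro a
    rw [nwDehom_apply 1 0 h10, Polynomial.eval_finsetSum, eval_eq']
    refine Finset.sum_congr rfl fun d _ => ?_
    rw [Polynomial.eval_mul, Polynomial.eval_C, Polynomial.eval_pow, Polynomial.eval_X,
      Fin.prod_univ_two]
    simp
  by_cases h0 : F.coeff (Finsupp.single 0 m) = 0
  · refine ⟨![1, 0], fun h => one_ne_zero (α := κ) (by simpa using congrFun h 0), ?_⟩
    rw [eval_eq']
    refine Finset.sum_eq_zero fun d hd => ?_
    have h2 := hF (mem_support_iff.1 hd)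
    rw [Finsupp.weight_apply, Finsupp.sum_fintype _ _ (by simp), Fin.sum_univ_two] at h2
    by_cases h3 : d 1 = 0
    · have h4 : d = Finsupp.single 0 m := by
        ext j
        fin_cases j
        · simp [h3] at h2 ⊢
          exact h2
        · simp [h3]
      rw [h4, h0, zero_mul]
    · rw [Fin.prod_univ_two]
      simp [h3]
  · have hne : (nwDehom κ 1 F).degree ≠ 0 := by
      intro h
      have h1 := Polynomial.natDegree_eq_zero_iff_degree_le_zero.2 h.le
      have h2 : (nwDehom κ 1 F).coeff m = 0 :=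
        Polynomial.coeff_eq_zero_of_natDegree_lt (by rw [h1]; exact hm)
      simp only [Finsupp.single_eq_same] at hcf
      rw [hcf] at h2
      exact h0 h2
    obtain ⟨a, ha⟩ := IsAlgClosed.exists_root _ hne
    refine ⟨![a, 1], fun h => one_ne_zero (α := κ) (by simpa using congrFun h 1), ?_⟩
    rw [← hev]
    exact ha

variable {R : Type u} [CommRing R] [Algebra ℂ R] {𝒜 : ℕ → Submodule ℂ R} [GradedAlgebra 𝒜]
  {P : R →ₗ[ℂ] R →ₗ[ℂ] R}

theorem meets_of_pic (hX : IsContactFano 𝒜 P) [IsDomain R] (hp : IsPicardOne 𝒜)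
    {d : ℕ} (hd : 0 < d) {κ : Type v} [Field κ] [IsAlgClosed κ] [Algebra ℂ κ]
    {φ : R →ₐ[ℂ] MvPolynomial (Fin 2) κ} (hφ : IsCurve 𝒜 d φ)
    (𝔭 : Ideal R) [h𝔭 : 𝔭.IsPrime] (hdvr : IsDiscreteValuationRing (Localization.AtPrime 𝔭))
    (hh : 𝔭.IsHomogeneous 𝒜) : ∃ a : Fin 2 → κ, a ≠ 0 ∧ ∀ r ∈ 𝔭, pt φ a r = 0 := by
  have h1 : 𝔭.height = 1 := by
    have h2 := IsLocalization.AtPrime.ringKrullDim_eq_height 𝔭 (Localization.AtPrime 𝔭)
    rw [IsDiscreteValuationRing.ringKrullDim_eq_one] at h2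
    exact_mod_cast h2.symm
  obtain ⟨k, g, hg, hgp⟩ := hp 𝔭 h𝔭 h1 hh
  have hk : 0 < k := by
    rcases Nat.eq_zero_or_pos k with rfl | h0
    · exfalso
      obtain ⟨c, rfl⟩ := hX.connected g hg
      by_cases hc : c = 0
      · -- then `𝔭 = radical 0 = 0`
        subst hc
        rw [map_zero, Ideal.span_singleton_zero] at hgp
        have h3 : (⊥ : Ideal R).radical = ⊥ := Ideal.radical_bot_of_isReduced
        rw [h3] at hgp
        rw [hgp] at h1
        simp at h1
      · have h4 : algebraMap ℂ R c ∈ 𝔭 := by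
          rw [hgp]
          exact Ideal.le_radical (Ideal.mem_span_singleton_self _)
        refine h𝔭.ne_top ((Ideal.eq_top_iff_one _).2 ?_)
        have h5 : algebraMap ℂ R c⁻¹ * algebraMap ℂ R c = 1 := by
          rw [← map_mul, inv_mul_cancel₀ hc, map_one]
        rw [← h5]
        exact 𝔭.mul_mem_left _ h4
    · exact h0
  obtain ⟨a, ha, ha0⟩ := pic_exists_zero (Nat.mul_pos hd hk) (hφ.degree k g hg)
  refine ⟨a, ha, fun r hr => ?_⟩
  rw [hgp] at hr
  obtain ⟨n, hn⟩ := hr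
  obtain ⟨c, hc⟩ := Ideal.mem_span_singleton.1 hn
  have h6 : pt φ a (r ^ n) = 0 := by
    rw [hc, map_mul, pt_apply, ha0, zero_mul]
  rw [map_pow] at h6
  exact (pow_eq_zero_iff (by
    rintro rfl
    rw [pow_zero] at h6
    exact one_ne_zero h6)).1 h6

end Vale.Agent.P292
end

section

/-! # Q2 part I, block LC: linear change of the parameter of a curve. -/

namespace Vale.Agent.P292

open MvPolynomial

universe u v w

/-- The linear substitution `x ↦ x 0 • a + x 1 • c`. -/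
noncomputable def lcSub {K : Type v} [Field K] (a c : Fin 2 → K) :
    MvPolynomial (Fin 2) K →ₐ[K] MvPolynomial (Fin 2) K :=
  aeval fun i => C (a i) * X 0 + C (c i) * X 1

theorem lcSub_isHomogeneous {K : Type v} [Field K] (a c : Fin 2 → K) {p : MvPolynomial (Fin 2) K}
    {n : ℕ} (hp : p.IsHomogeneous n) : (lcSub a c p).IsHomogeneous n := by
  have h := hp.aeval (fun i : Fin 2 => C (a i) * X 0 + C (c i) * X 1) (n := 1)
    (fun i => ((isHomogeneous_C_mul_X (a i) (0 : Fin 2)).add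
      (isHomogeneous_C_mul_X (c i) (1 : Fin 2))))
  rwa [one_mul] at h

theorem eval_lcSub {K : Type v} [Field K] (a c x : Fin 2 → K) (p : MvPolynomial (Fin 2) K) :
    eval x (lcSub a c p) = eval (x 0 • a + x 1 • c) p := by
  induction p using MvPolynomial.induction_on with
  | C r => simp [lcSub]
  | add p q hp hq => rw [map_add, map_add, hp, hq, map_add]
  | mul_X p i hp =>
    rw [map_mul, map_mul, hp, map_mul, eval_X]
    congr 1
    simp [lcSub, mul_comm]

variable {R : Type u} [CommRing R] [Algebra ℂ R] {𝒜 : ℕ → Submodule ℂ R}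

/-- LC: linear change of the parameter. -/
theorem exists_reparam {K : Type v} [Field K] [IsAlgClosed K] [Algebra ℂ K] {d : ℕ}
    {φ : R →ₐ[ℂ] MvPolynomial (Fin 2) K} (hφ : IsCurve 𝒜 d φ) (a c : Fin 2 → K)
    (hac : a 0 * c 1 - a 1 * c 0 ≠ 0) :
    ∃ ψ : R →ₐ[ℂ] MvPolynomial (Fin 2) K, IsCurve 𝒜 d ψ ∧
      (∀ (r : R) (x : Fin 2 → K), eval x (ψ r) = eval (x 0 • a + x 1 • c) (φ r)) ∧
      pt ψ ![1, 0] = pt φ a ∧ pt ψ ![0, 1] = pt φ c := by
  have hev : ∀ (r : R) (x : Fin 2 → K),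
      eval x ((((lcSub a c).restrictScalars ℂ).comp φ) r) = eval (x 0 • a + x 1 • c) (φ r) :=
    fun r x => eval_lcSub a c x (φ r)
  refine ⟨((lcSub a c).restrictScalars ℂ).comp φ, ⟨fun k r hr => ?_, fun x hx => ?_⟩, hev, ?_, ?_⟩
  · exact lcSub_isHomogeneous a c (hφ.degree k r hr)
  · have hy : x 0 • a + x 1 • c ≠ 0 := by
      intro h0
      apply hx
      have e0 : x 0 * a 0 + x 1 * c 0 = 0 := by
        have := congrFun h0 0
        simpa using this
      have e1 : x 0 * a 1 + x 1 * c 1 = 0 := by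
        have := congrFun h0 1
        simpa using this
      have f0 : x 0 * (a 0 * c 1 - a 1 * c 0) = 0 := by linear_combination c 1 * e0 - c 0 * e1
      have f1 : x 1 * (a 0 * c 1 - a 1 * c 0) = 0 := by linear_combination a 0 * e1 - a 1 * e0
      funext i
      fin_cases i
      · exact (mul_eq_zero.mp f0).resolve_right hac
      · exact (mul_eq_zero.mp f1).resolve_right hac
    obtain ⟨k, hk, r, hr, hne⟩ := hφ.bpf _ hy
    refine ⟨k, hk, r, hr, ?_⟩
    rw [aeval_eq_eval] at hne ⊢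
    rw [hev]
    exact hne
  · ext r
    rw [pt_apply, pt_apply, hev]
    simp
  · ext r
    rw [pt_apply, pt_apply, hev]
    simp

/-- A binary form of positive degree which does not vanish at `(1, 0)` vanishes at some
`(x, 1)`. -/
theorem lc_exists_zero {K : Type v} [Field K] [IsAlgClosed K] [Algebra ℂ K]
    {p : MvPolynomial (Fin 2) K} {m : ℕ}
    (hp : p.IsHomogeneous m) (hm : 0 < m) (h1 : eval ![1, 0] p ≠ 0) :
    ∃ x : K, eval ![x, 1] p = 0 := by
  by_contra hcon
  push Not at hcon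
  let q : Polynomial K := aeval ![Polynomial.X, 1] p
  have hq : ∀ x, q.eval x = eval ![x, 1] p := by
    intro x
    have h : ((Polynomial.aeval x : Polynomial K →ₐ[K] K).comp
        (aeval ![Polynomial.X, 1] : MvPolynomial (Fin 2) K →ₐ[K] Polynomial K))
        = MvPolynomial.aeval ![x, 1] := by
      refine MvPolynomial.algHom_ext fun j => ?_
      fin_cases j <;> simp
    have := AlgHom.congr_fun h p
    rw [AlgHom.comp_apply, Polynomial.coe_aeval_eq_eval, MvPolynomial.aeval_eq_eval] at this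
    exact this
  have hdeg : q.degree = 0 := by
    by_contra hne
    obtain ⟨x, hx⟩ := IsAlgClosed.exists_root q hne
    exact hcon x (by rw [← hq]; exact hx)
  obtain ⟨b, hb⟩ := Polynomial.natDegree_eq_zero.mp (Polynomial.natDegree_eq_of_degree_eq_some hdeg)
  have hb1 : ∀ x, eval ![x, 1] p = b := by
    intro x
    rw [← hq, ← hb, Polynomial.eval_C]
  let u : Polynomial K := aeval ![1, Polynomial.X] p
  have hu : ∀ x, u.eval x = eval ![1, x] p := by
    intro x
    have h : ((Polynomial.aeval x : Polynomial K →ₐ[K] K).comp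
        (aeval ![1, Polynomial.X] : MvPolynomial (Fin 2) K →ₐ[K] Polynomial K))
        = MvPolynomial.aeval ![1, x] := by
      refine MvPolynomial.algHom_ext fun j => ?_
      fin_cases j <;> simp
    have := AlgHom.congr_fun h p
    rw [AlgHom.comp_apply, Polynomial.coe_aeval_eq_eval, MvPolynomial.aeval_eq_eval] at this
    exact this
  have hz : Polynomial.X * (u - Polynomial.C b * Polynomial.X ^ m) = 0 := by
    apply Polynomial.funext
    intro s
    rw [Polynomial.eval_mul, Polynomial.eval_X, Polynomial.eval_zero]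
    rcases eq_or_ne s 0 with h0 | h0
    · rw [h0, zero_mul]
    · have h2 : (![1, s] : Fin 2 → K) = s • ![s⁻¹, 1] := by
        funext i
        fin_cases i
        · simp [h0]
        · simp
      rw [Polynomial.eval_sub, hu, h2, eval_smul_form hp, hb1, Polynomial.eval_mul,
        Polynomial.eval_C, Polynomial.eval_pow, Polynomial.eval_X]
      ring
  have hz' : u - Polynomial.C b * Polynomial.X ^ m = 0 :=
    (mul_eq_zero.mp hz).resolve_left Polynomial.X_ne_zero
  apply h1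
  rw [← hu, sub_eq_zero.mp hz']
  simp [hm.ne']

/-- LC2: every anchored curve can be reparametrised to have non-proportional ends. -/
theorem exists_nonProp {P : R →ₗ[ℂ] R →ₗ[ℂ] R} [GradedAlgebra 𝒜] (_hX : IsContactFano 𝒜 P)
    {K : Type u} [Field K]
    [IsAlgClosed K] [Algebra ℂ K] {d : ℕ} (hd : 0 < d) {φ : R →ₐ[ℂ] MvPolynomial (Fin 2) K}
    (hφ : IsAnch 𝒜 d φ) :
    ∃ ψ : R →ₐ[ℂ] MvPolynomial (Fin 2) K, IsAnch 𝒜 d ψ ∧ NonProp 𝒜 ψ := by
  have h10 : (![1, 0] : Fin 2 → K) ≠ 0 := by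
    intro h
    have := congrFun h 0
    simp at this
  obtain ⟨k, hk, r, hr, hr1⟩ := hφ.curve.bpf _ h10
  rw [aeval_eq_eval] at hr1
  obtain ⟨x, hx⟩ := lc_exists_zero (hφ.curve.degree k r hr) (Nat.mul_pos hd hk) hr1
  have hx1 : (![x, 1] : Fin 2 → K) ≠ 0 := by
    intro h
    have := congrFun h 1
    simp at this
  obtain ⟨l, hl, s, hs, hs1⟩ := hφ.curve.bpf _ hx1
  rw [aeval_eq_eval] at hs1
  obtain ⟨ψ, hψ, -, h1, h2⟩ := exists_reparam hφ.curve ![1, 0] ![x, 1] (by simp)
  refine ⟨ψ, ⟨hψ, by rw [h1]; exact hφ.inj⟩, k * l, r ^ l, ?_, s ^ k, ?_, ?_⟩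
  · have := SetLike.pow_mem_graded l hr
    rwa [smul_eq_mul, mul_comm] at this
  · have := SetLike.pow_mem_graded k hs
    rwa [smul_eq_mul] at this
  · rw [h1, h2, map_pow, map_pow, map_pow, map_pow, pt_apply, pt_apply, pt_apply, pt_apply, hx,
      zero_pow hl.ne', mul_zero]
    exact mul_ne_zero (pow_ne_zero _ hr1) (pow_ne_zero _ hs1)

end Vale.Agent.P292
end

section

/-! # The meeting property. -/

namespace Vale.Agent.P292

open MvPolynomial

universe u v

variable {R : Type u} [CommRing R] [Algebra ℂ R]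

/-- `V(𝔭)` is met by the curve `φ`. -/
def Meets {κ : Type v} [Field κ] [Algebra ℂ κ] (φ : R →ₐ[ℂ] MvPolynomial (Fin 2) κ)
    (𝔭 : Ideal R) : Prop := ∃ a : Fin 2 → κ, a ≠ 0 ∧ ∀ r ∈ 𝔭, pt φ a r = 0

/-- All homogeneous divisors are met by closed curves of degree `d` along which a given function
does not vanish. -/
def MeetsAll [IsDomain R] (𝒜 : ℕ → Submodule ℂ R) [GradedAlgebra 𝒜] (d : ℕ) : Prop :=
  ∀ D : R, D ≠ 0 → ∀ (𝔭 : Ideal R) [𝔭.IsPrime],
    IsDiscreteValuationRing (Localization.AtPrime 𝔭) → 𝔭.IsHomogeneous 𝒜 →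
    ∃ ψ : R →ₐ[ℂ] MvPolynomial (Fin 2) ℂ, IsCurve 𝒜 d ψ ∧ ψ D ≠ 0 ∧ Meets ψ 𝔭

/-- The closed points of a dense set lie on no (closed) line. -/
def NoLines (𝒜 : ℕ → Submodule ℂ R) : Prop :=
  ∃ g : R, g ≠ 0 ∧ ∀ w : R →ₐ[ℂ] ℂ, w g ≠ 0 →
    ¬ ∃ ψ : R →ₐ[ℂ] MvPolynomial (Fin 2) ℂ, IsCurve 𝒜 1 ψ ∧ pt ψ ![1, 0] = w

end Vale.Agent.P292
end

section

/-! # Chains: reduction of a conic along a valuation. -/

namespace Vale.Agent.P292

open Polynomial

universe u v w

set_option linter.all false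

/-- The residue field of a valuation ring of an algebraically closed field is algebraically
closed. -/
theorem n2_isAlgClosed_residueField {L : Type u} [Field L] [IsAlgClosed L]
    (v : ValuationSubring L) : IsAlgClosed (IsLocalRing.ResidueField v) := by
  refine IsAlgClosed.of_exists_root _ fun p hp hirr => ?_
  have hsurj : Function.Surjective (IsLocalRing.residue v) := IsLocalRing.residue_surjective
  have hlift : p ∈ Polynomial.lifts (IsLocalRing.residue v) := by
    rw [Polynomial.lifts_iff_coeff_lifts]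
    intro n
    exact hsurj _
  obtain ⟨q, hq, hdeg, hmon⟩ := Polynomial.lifts_and_degree_eq_and_monic hlift hp
  have hd : (q.map (algebraMap v L)).degree ≠ 0 := by
    rw [Polynomial.degree_map_eq_of_injective (IsFractionRing.injective v L), hdeg]
    exact hirr.degree_pos.ne'
  obtain ⟨x, hx⟩ := IsAlgClosed.exists_root (q.map (algebraMap v L)) hd
  have hint : IsIntegral v x := ⟨q, hmon, by
    have hx' : (q.map (algebraMap v L)).eval x = 0 := hx
    rwa [Polynomial.eval_map] at hx'⟩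
  obtain ⟨y, rfl⟩ := IsIntegrallyClosed.isIntegral_iff.mp hint
  refine ⟨IsLocalRing.residue v y, ?_⟩
  have h1 : q.eval y = 0 := by
    apply IsFractionRing.injective v L
    have hx' : (q.map (algebraMap v L)).eval (algebraMap v L y) = 0 := hx
    rw [Polynomial.eval_map, Polynomial.eval₂_at_apply] at hx'
    rw [hx', map_zero]
  rw [← hq, Polynomial.eval_map, Polynomial.eval₂_at_apply, h1, map_zero]

section
variable {R : Type u} [CommRing R] [Algebra ℂ R] {𝒜 : ℕ → Submodule ℂ R} [GradedAlgebra 𝒜]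
  {P : R →ₗ[ℂ] R →ₗ[ℂ] R}

/-- Reduction of a homomorphism with integral coefficients. -/
theorem n2_reduce {L : Type v} [Field L] [Algebra ℂ L] (v : ValuationSubring L)
    (hv : ∀ c : ℂ, algebraMap ℂ L c ∈ v) {κ : Type w} [Field κ] [Algebra ℂ κ] (π : v →+* κ)
    (hπ : ∀ c : ℂ, π ⟨algebraMap ℂ L c, hv c⟩ = algebraMap ℂ κ c)
    (f : R →ₐ[ℂ] L[X]) (ρ : L) (h : ∀ r i, (f r).coeff i * ρ ^ i ∈ v) :
    ∃ Ψ : R →ₐ[ℂ] κ[X], ∀ r i, (Ψ r).coeff i = π ⟨(f r).coeff i * ρ ^ i, h r i⟩ := by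
  classical
  let ι : v →+* L := v.subtype
  have hι : Function.Injective ι := Subtype.val_injective
  let f₁ : R →+* L[X] := (Polynomial.compRingHom (C ρ * X)).comp f.toRingHom
  have hf₁ : ∀ r i, (f₁ r).coeff i = (f r).coeff i * ρ ^ i := by
    intro r i
    change ((f r).comp (C ρ * X)).coeff i = _
    rw [comp_C_mul_X_coeff]
  have hmem : ∀ r, f₁ r ∈ (mapRingHom ι).range := by
    intro r
    rw [Polynomial.mem_map_range]
    intro i
    rw [hf₁]
    exact ⟨⟨(f r).coeff i * ρ ^ i, h r i⟩, rfl⟩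
  let e : v[X] ≃+* (mapRingHom ι).range := RingEquiv.ofBijective (mapRingHom ι).rangeRestrict
    ⟨by
      intro a b hab
      have h1 : mapRingHom ι a = mapRingHom ι b := congrArg Subtype.val hab
      exact Polynomial.map_injective ι hι h1, RingHom.rangeRestrict_surjective _⟩
  let F : R →+* v[X] := (e.symm : (mapRingHom ι).range →+* v[X]).comp
    (f₁.codRestrict (mapRingHom ι).range hmem)
  have hF : ∀ r, mapRingHom ι (F r) = f₁ r := by
    intro r
    have h1 : e (F r) = ⟨f₁ r, hmem r⟩ := e.apply_symm_apply _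
    exact congrArg Subtype.val h1
  have hFc : ∀ r i, (F r).coeff i = ⟨(f r).coeff i * ρ ^ i, h r i⟩ := by
    intro r i
    apply Subtype.ext
    change ι ((F r).coeff i) = (f r).coeff i * ρ ^ i
    rw [← coeff_map, ← hf₁, ← hF]
    rfl
  let Ψ₀ : R →+* κ[X] := (mapRingHom π).comp F
  have hΨc : ∀ r i, (Ψ₀ r).coeff i = π ((F r).coeff i) := by
    intro r i
    change ((F r).map π).coeff i = _
    rw [coeff_map]
  refine ⟨{ Ψ₀ with commutes' := fun c => ?_ }, fun r i => ?_⟩
  · change Ψ₀ (algebraMap ℂ R c) = _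
    have h1 : F (algebraMap ℂ R c) = C ⟨algebraMap ℂ L c, hv c⟩ := by
      apply Polynomial.map_injective ι hι
      change mapRingHom ι (F _) = _
      rw [hF, map_C]
      change (f (algebraMap ℂ R c)).comp (C ρ * X) = _
      rw [AlgHom.commutes, IsScalarTower.algebraMap_apply ℂ L L[X], Polynomial.algebraMap_eq,
        C_comp]
      rfl
    change (F (algebraMap ℂ R c)).map π = _
    rw [h1, map_C, hπ, IsScalarTower.algebraMap_apply ℂ κ κ[X]]
    rfl
  · change (Ψ₀ r).coeff i = _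
    rw [hΨc, hFc]

/-- Graded twist of a homomorphism. -/
theorem n2_twist {κ : Type v} [Field κ] [Algebra ℂ κ] (f : R →ₐ[ℂ] κ[X])
    (hf : ∀ k, ∀ r ∈ 𝒜 k, (f r).natDegree ≤ k) {B : Type w} [CommRing B] [Algebra ℂ B]
    (T : ℕ → κ[X] →ₗ[ℂ] B) (hT1 : T 0 1 = 1)
    (hTm : ∀ k l p q, natDegree p ≤ k → natDegree q ≤ l → T (k + l) (p * q) = T k p * T l q) :
    ∃ Ψ : R →ₐ[ℂ] B, ∀ k, ∀ r ∈ 𝒜 k, Ψ r = T k (f r) := by
  classical
  let F : ∀ k, (𝒜 k) →ₗ[ℂ] B := fun k => (T k) ∘ₗ f.toLinearMap ∘ₗ (𝒜 k).subtype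
  have hF : ∀ k (r : 𝒜 k), F k r = T k (f (r : R)) := fun k r => rfl
  let c₀ : (DirectSum ℕ fun k => 𝒜 k) →ₐ[ℂ] B := DirectSum.toAlgebra ℂ (fun k => 𝒜 k) F (by
      rw [hF]
      change T 0 (f (1 : R)) = 1
      rw [map_one, hT1]) (by
      intro i j a b
      rw [hF, hF, hF]
      change T (i + j) (f ((a : R) * (b : R))) = _
      rw [map_mul, hTm _ _ _ _ (hf i a a.2) (hf j b b.2)])
  refine ⟨c₀.comp (DirectSum.decomposeAlgEquiv 𝒜).toAlgHom, fun k r hr => ?_⟩
  have e2 : (DirectSum.decomposeAlgEquiv 𝒜) r = DirectSum.of (fun k => 𝒜 k) k ⟨r, hr⟩ := by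
    rw [DirectSum.decomposeAlgEquiv_apply, DirectSum.decompose_of_mem 𝒜 hr]
  change c₀ ((DirectSum.decomposeAlgEquiv 𝒜) r) = _
  rw [e2]
  change DirectSum.toModule ℂ ℕ B F (DirectSum.lof ℂ ℕ (fun k => 𝒜 k) k ⟨r, hr⟩) = _
  rw [DirectSum.toModule_lof]
  rfl

/-- A homomorphism of degree one with a base point. -/
theorem n2_base (hX : IsContactFano 𝒜 P) {κ : Type v} [Field κ] [Algebra ℂ κ]
    (f : R →ₐ[ℂ] κ[X]) (hf : ∀ k, ∀ r ∈ 𝒜 k, (f r).natDegree ≤ k) (c : κ)
    (hc : ∀ k, 0 < k → ∀ r ∈ 𝒜 k, (f r).eval c = 0) (k : ℕ) (r : R) (hr : r ∈ 𝒜 k) :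
    f r = C ((f r).coeff k) * (X - C c) ^ k := by
  classical
  -- the twisted homomorphism: coefficients with respect to `X - C c`, reversed
  let T : ℕ → κ[X] →ₗ[ℂ] κ[X] := fun k =>
    { toFun := fun p => reflect k (taylor c p)
      map_add' := fun p q => by rw [map_add, reflect_add]
      map_smul' := fun a p => by
        rw [RingHom.id_apply, algebra_compatible_smul κ a p, map_smul, algebra_compatible_smul κ a]
        ext i
        rw [coeff_reflect, coeff_smul, coeff_smul, coeff_reflect] }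
  have hT : ∀ k p, T k p = reflect k (taylor c p) := fun k p => rfl
  obtain ⟨g, hg⟩ := n2_twist f hf T (by
      rw [hT, taylor_one, ← C_1, reflect_C, pow_zero, mul_one])
    (by
      intro k l p q hp hq
      rw [hT, hT, hT, taylor_mul, reflect_mul _ _ (by rwa [natDegree_taylor])
        (by rwa [natDegree_taylor])])
  have hdeg : ∀ k, 0 < k → ∀ r ∈ 𝒜 k, (g r).natDegree < k := by
    intro k hk r hr
    have h2 : (g r).natDegree ≤ k - 1 := by
      rw [natDegree_le_iff_coeff_eq_zero]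
      intro i hi
      rw [hg k r hr, hT, coeff_reflect]
      rcases Nat.lt_or_ge k i with h | h
      · rw [revAt_eq_self_of_lt h]
        apply coeff_eq_zero_of_natDegree_lt
        rw [natDegree_taylor]
        exact lt_of_le_of_lt (hf k r hr) h
      · rw [revAt_le h, show k - i = 0 by omega, taylor_coeff_zero]
        exact hc k hk r hr
    omega
  have h1 := nw_const hX g hdeg r
  have h2 : taylor c (f r) = C ((taylor c (f r)).coeff k) * X ^ k := by
    ext j
    rw [coeff_C_mul_X_pow]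
    split_ifs with hj
    · rw [hj]
    · rcases Nat.lt_or_ge k j with h | h
      · apply coeff_eq_zero_of_natDegree_lt
        rw [natDegree_taylor]
        exact lt_of_le_of_lt (hf k r hr) h
      · have h3 : (g r).coeff (k - j) = 0 := coeff_eq_zero_of_natDegree_lt (by omega)
        rw [hg k r hr, hT, coeff_reflect, revAt_le (by omega), show k - (k - j) = j by omega] at h3
        exact h3
  set e := (taylor c (f r)).coeff k with he
  have h4 : f r = C e * (X - C c) ^ k := by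
    have h5 := congrArg (taylor (-c)) h2
    rw [taylor_taylor, neg_add_cancel, taylor_zero, taylor_mul, taylor_C, taylor_pow, taylor_X,
      C_neg, ← sub_eq_add_neg] at h5
    exact h5
  have h6 : (f r).coeff k = e := by
    rw [h4, coeff_C_mul]
    have h7 : ((X - C c) ^ k : κ[X]).coeff k = 1 := by
      have h8 : ((X - C c) ^ k : κ[X]).Monic := (monic_X_sub_C c).pow k
      have h9 : ((X - C c) ^ k : κ[X]).natDegree = k := by
        rw [natDegree_pow, natDegree_X_sub_C, mul_one]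
      have h10 := h8.coeff_natDegree
      rwa [h9] at h10
    rw [h7, mul_one]
  rw [h6]
  exact h4

/-- Homogenisation of a homomorphism of degree one. -/
theorem n2_curve {κ : Type v} [Field κ] [Algebra ℂ κ] (f : R →ₐ[ℂ] κ[X])
    (hf : ∀ k, ∀ r ∈ 𝒜 k, (f r).natDegree ≤ k)
    (h0 : ∃ k, 0 < k ∧ ∃ r ∈ 𝒜 k, (f r).coeff 0 ≠ 0)
    (h1 : ∃ k, 0 < k ∧ ∃ r ∈ 𝒜 k, (f r).coeff k ≠ 0)
    (hc : ∀ c : κ, c ≠ 0 → ∃ k, 0 < k ∧ ∃ r ∈ 𝒜 k, (f r).eval c ≠ 0) :
    ∃ Ψ : R →ₐ[ℂ] MvPolynomial (Fin 2) κ, IsCurve 𝒜 1 Ψ ∧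
      (∀ k, ∀ r ∈ 𝒜 k, ∀ x : κ, MvPolynomial.eval ![x, 0] (Ψ r) = (f r).coeff 0 * x ^ k) ∧
      (∀ k, ∀ r ∈ 𝒜 k, ∀ x : κ, MvPolynomial.eval ![0, x] (Ψ r) = (f r).coeff k * x ^ k) := by
  classical
  let T : ℕ → κ[X] →ₗ[ℂ] MvPolynomial (Fin 2) κ := fun k =>
    { toFun := fun p => MvPolynomial.rename (Equiv.swap (0 : Fin 2) 1) (homogenize p k)
      map_add' := fun p q => by rw [homogenize_add, map_add]
      map_smul' := fun a p => by
        rw [RingHom.id_apply, algebra_compatible_smul κ a p, homogenize_smul, map_smul,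
          algebra_compatible_smul κ a] }
  have hT : ∀ k p, T k p = MvPolynomial.rename (Equiv.swap (0 : Fin 2) 1) (homogenize p k) :=
    fun k p => rfl
  obtain ⟨Ψ, hΨ⟩ := n2_twist f hf T (by
      rw [hT, homogenize_one, pow_zero, map_one])
    (by
      intro k l p q hp hq
      rw [hT, hT, hT, homogenize_mul _ _ hp hq, map_mul])
  have hev : ∀ k, ∀ r ∈ 𝒜 k, ∀ a : Fin 2 → κ, MvPolynomial.eval a (Ψ r) =
      ∑ ij ∈ Finset.HasAntidiagonal.antidiagonal k,
        (f r).coeff ij.1 * (a 1 ^ ij.1 * a 0 ^ ij.2) := by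
    intro k r hr a
    rw [hΨ k r hr, hT, MvPolynomial.eval_rename, homogenize, map_sum]
    refine Finset.sum_congr rfl fun ij _ => ?_
    rw [MvPolynomial.eval_monomial]
    congr 1
    rw [Finsupp.prod_fintype _ _ (by simp), Fin.prod_univ_two]
    simp
  have e0 : ∀ k, ∀ r ∈ 𝒜 k, ∀ x : κ, MvPolynomial.eval ![x, 0] (Ψ r) = (f r).coeff 0 * x ^ k := by
    intro k r hr x
    rw [hev k r hr, Finset.sum_eq_single (0, k)]
    · simp
    · rintro ⟨i, j⟩ hij hne
      rw [Finset.HasAntidiagonal.mem_antidiagonal] at hij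
      have hi : i ≠ 0 := by
        rintro rfl
        apply hne
        rw [zero_add] at hij
        exact congrArg (fun z => ((0 : ℕ), z)) hij
      simp [hi]
    · intro hnot
      exact absurd (Finset.HasAntidiagonal.mem_antidiagonal.mpr (zero_add k)) hnot
  have e1 : ∀ k, ∀ r ∈ 𝒜 k, ∀ x : κ, MvPolynomial.eval ![0, x] (Ψ r) = (f r).coeff k * x ^ k := by
    intro k r hr x
    rw [hev k r hr, Finset.sum_eq_single (k, 0)]
    · simp
    · rintro ⟨i, j⟩ hij hne
      rw [Finset.HasAntidiagonal.mem_antidiagonal] at hij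
      have hi : j ≠ 0 := by
        rintro rfl
        apply hne
        rw [add_zero] at hij
        exact congrArg (fun z => (z, (0 : ℕ))) hij
      simp [hi]
    · intro hnot
      exact absurd (Finset.HasAntidiagonal.mem_antidiagonal.mpr (add_zero k)) hnot
  have e2 : ∀ k, ∀ r ∈ 𝒜 k, ∀ x y : κ, x ≠ 0 →
      MvPolynomial.eval ![x, y] (Ψ r) = (f r).eval (y / x) * x ^ k := by
    intro k r hr x y hx
    rw [hev k r hr, eval_eq_sum_range' (Nat.lt_succ_of_le (hf k r hr)),
      Finset.Nat.sum_antidiagonal_eq_sum_range_succ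
        (fun i j => (f r).coeff i * ((![x, y] : Fin 2 → κ) 1 ^ i * (![x, y] : Fin 2 → κ) 0 ^ j)),
      Finset.sum_mul]
    refine Finset.sum_congr rfl fun i hi => ?_
    have hi' : i ≤ k := by
      have := Finset.mem_range.mp hi
      omega
    simp only [Matrix.cons_val_zero, Matrix.cons_val_one]
    have h3 : x ^ k = x ^ i * x ^ (k - i) := by rw [← pow_add, Nat.add_sub_cancel' hi']
    rw [h3, div_pow]
    field_simp
  refine ⟨Ψ, ⟨fun k r hr => ?_, fun x hx => ?_⟩, e0, e1⟩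
  · rw [hΨ k r hr, hT, one_mul]
    exact (isHomogeneous_homogenize _).rename_isHomogeneous
  · have hx' : x = ![x 0, x 1] := by
      ext i; fin_cases i <;> rfl
    by_cases hx0 : x 0 = 0
    · have hx1 : x 1 ≠ 0 := by
        intro h
        apply hx
        rw [hx', hx0, h]
        ext i; fin_cases i <;> rfl
      obtain ⟨k, hk, r, hr, h⟩ := h1
      refine ⟨k, hk, r, hr, ?_⟩
      rw [hx', hx0, MvPolynomial.aeval_eq_eval, e1 k r hr]
      exact mul_ne_zero h (pow_ne_zero _ hx1)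
    · by_cases hx1 : x 1 = 0
      · obtain ⟨k, hk, r, hr, h⟩ := h0
        refine ⟨k, hk, r, hr, ?_⟩
        rw [hx', hx1, MvPolynomial.aeval_eq_eval, e0 k r hr]
        exact mul_ne_zero h (pow_ne_zero _ hx0)
      · obtain ⟨k, hk, r, hr, h⟩ := hc (x 1 / x 0) (div_ne_zero hx1 hx0)
        refine ⟨k, hk, r, hr, ?_⟩
        rw [hx', MvPolynomial.aeval_eq_eval, e2 k r hr _ _ hx0]
        exact mul_ne_zero h (pow_ne_zero _ hx0)

end

end Vale.Agent.P292
end

section

/-! # Chains: a conic which breaks gives a line through `w`. -/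

namespace Vale.Agent.P292

open Polynomial

universe u v w

set_option linter.all false

variable {R : Type u} [CommRing R] [Algebra ℂ R] {𝒜 : ℕ → Submodule ℂ R} [GradedAlgebra 𝒜]
  {P : R →ₗ[ℂ] R →ₗ[ℂ] R}

theorem n2_dehom_eval {L : Type v} [Field L] [Algebra ℂ L] (x : L) (p : MvPolynomial (Fin 2) L) :
    (nwDehom L 0 p).eval x = MvPolynomial.eval ![1, x] p ∧
      (nwDehom L 1 p).eval x = MvPolynomial.eval ![x, 1] p := by
  constructor
  · change (Polynomial.aeval x : L[X] →ₐ[L] L) (MvPolynomial.aeval _ p) = _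
    rw [MvPolynomial.comp_aeval_apply, ← MvPolynomial.aeval_eq_eval]
    congr 2
    ext i
    fin_cases i <;> simp
  · change (Polynomial.aeval x : L[X] →ₐ[L] L) (MvPolynomial.aeval _ p) = _
    rw [MvPolynomial.comp_aeval_apply, ← MvPolynomial.aeval_eq_eval]
    congr 2
    ext i
    fin_cases i <;> simp

/-- After the middle the coefficients are small. -/
theorem n2_small {L : Type v} [Field L] [Algebra ℂ L] (v : ValuationSubring L) {ρ : L}
    (hρ : v.valuation ρ < 1) (f g : R →ₐ[ℂ] L[X]) (hf : ∀ k, ∀ r ∈ 𝒜 k, (f r).natDegree ≤ 2 * k)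
    (hfg : ∀ k, ∀ r ∈ 𝒜 k, ∀ i j, i + j = 2 * k → (f r).coeff i = (g r).coeff j)
    (hg : ∀ r i, v.valuation ((g r).coeff i * ρ ^ i) ≤ 1) (k : ℕ) (r : R) (hr : r ∈ 𝒜 k) (i : ℕ)
    (hi : k < i) : v.valuation ((f r).coeff i * ρ ^ i) < 1 := by
  rcases Nat.lt_or_ge (2 * k) i with h | h
  · rw [coeff_eq_zero_of_natDegree_lt (by have := hf k r hr; omega), zero_mul, map_zero]
    exact zero_lt_one
  · have h1 := hg r (2 * k - i)
    rw [← hfg k r hr i (2 * k - i) (by omega)] at h1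
    have e1 : (f r).coeff i * ρ ^ i
        = ((f r).coeff i * ρ ^ (2 * k - i)) * ρ ^ (2 * i - 2 * k) := by
      have e2 : ρ ^ i = ρ ^ (2 * k - i) * ρ ^ (2 * i - 2 * k) := by
        rw [← pow_add]; congr 1; omega
      rw [e2]; ring
    rw [e1, map_mul, map_pow v.valuation ρ (2 * i - 2 * k)]
    exact mul_lt_one_of_nonneg_of_lt_one_right h1 zero_le
      (pow_lt_one₀ zero_le hρ (by omega))

/-- A conic through a closed point `w` with integral other end point, some coefficient of which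
is not integral, breaks into a chain: either this gives a line through `w`, or the centre of the
valuation lies on the ray of `w`. -/
theorem exists_line_or_le {Ω : Type v} [Field Ω] [IsAlgClosed Ω] [Algebra ℂ Ω]
    {w : R →ₐ[ℂ] ℂ} {φ : R →ₐ[ℂ] MvPolynomial (Fin 2) Ω} (hX : IsContactFano 𝒜 P)
    (hφ : IsCurve 𝒜 2 φ) (hleft : ∀ r, pt φ ![1, 0] r = algebraMap ℂ Ω (w r))
    (v : ValuationSubring Ω)
    (hv : ∀ c : ℂ, algebraMap ℂ Ω c ∈ v) (h01 : ∀ r, pt φ ![0, 1] r ∈ v)
    (k : ℕ) (r : R) (hr : r ∈ 𝒜 k) (i : ℕ) (hi : i ≤ 2 * k) (hn : cf (φ r) i (2 * k - i) ∉ v) :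
    (∃ (κ : Type v) (_ : Field κ) (_ : IsAlgClosed κ) (_ : Algebra ℂ κ)
      (Ψ : R →ₐ[ℂ] MvPolynomial (Fin 2) κ), IsCurve 𝒜 1 Ψ ∧
      ∀ r, pt Ψ ![1, 0] r = algebraMap ℂ κ (w r)) ∨
    (∀ k, ∀ r ∈ 𝒜 k, w r = 0 → v.valuation (pt φ ![0, 1] r) < 1) := by
  classical
  have h01' : (0 : Fin 2) ≠ 1 := by decide
  have hdeg := hφ.degree
  let F1 : R →ₐ[ℂ] Polynomial Ω := (nwDehom Ω 0).comp φ
  let F2 : R →ₐ[ℂ] Polynomial Ω := (nwDehom Ω 1).comp φ
  have c1 : ∀ k, ∀ r ∈ 𝒜 k, ∀ i j, i + j = 2 * k → (F1 r).coeff j = cf (φ r) i j := by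
    intro k r hr i j hij
    have e1 := nwDehom_coeff 0 1 h01' (hdeg k r hr)
      (m := Finsupp.single 0 i + Finsupp.single 1 j) (by simp; omega)
    simp only [Finsupp.coe_add, Pi.add_apply, Finsupp.single_eq_same, ne_eq, h01',
      not_false_eq_true, Finsupp.single_eq_of_ne, zero_add, h01'.symm, add_zero] at e1
    exact e1
  have c2 : ∀ k, ∀ r ∈ 𝒜 k, ∀ i j, i + j = 2 * k → (F2 r).coeff i = cf (φ r) i j := by
    intro k r hr i j hij
    have e1 := nwDehom_coeff 1 0 h01'.symm (hdeg k r hr)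
      (m := Finsupp.single 0 i + Finsupp.single 1 j) (by simp; omega)
    simp only [Finsupp.coe_add, Pi.add_apply, Finsupp.single_eq_same, ne_eq, h01',
      not_false_eq_true, Finsupp.single_eq_of_ne, zero_add, h01'.symm, add_zero] at e1
    exact e1
  have d1 : ∀ r, (F1 r).coeff 0 = algebraMap ℂ Ω (w r) := by
    intro r
    rw [coeff_zero_eq_eval_zero, ← hleft r, pt_apply]
    exact (n2_dehom_eval 0 (φ r)).1
  have d2 : ∀ r, (F2 r).coeff 0 = pt φ ![0, 1] r := by
    intro r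
    rw [coeff_zero_eq_eval_zero, pt_apply]
    exact (n2_dehom_eval 0 (φ r)).2
  have deg1 : ∀ k, ∀ r ∈ 𝒜 k, (F1 r).natDegree ≤ 2 * k :=
    fun k r hr => nwDehom_natDegree_le 0 1 h01' (hdeg k r hr)
  have deg2 : ∀ k, ∀ r ∈ 𝒜 k, (F2 r).natDegree ≤ 2 * k :=
    fun k r hr => nwDehom_natDegree_le 1 0 h01'.symm (hdeg k r hr)
  have h12 : ∀ k, ∀ r ∈ 𝒜 k, ∀ i j, i + j = 2 * k → (F1 r).coeff i = (F2 r).coeff j := by
    intro k r hr i j hij
    rw [c1 k r hr j i (by omega), c2 k r hr j i (by omega)]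
  have h21 : ∀ k, ∀ r ∈ 𝒜 k, ∀ i j, i + j = 2 * k → (F2 r).coeff i = (F1 r).coeff j :=
    fun k r hr i j hij => (h12 k r hr j i (by omega)).symm
  obtain ⟨ρ, hρ0, hρ1, b1, b2, hnode⟩ := nw_main v.valuation hX
    (fun c => (v.valuation_le_one_iff _).mpr (hv c)) F1 F2 deg1 deg2 h12
    (fun k r hr => by rw [d1]; exact (v.valuation_le_one_iff _).mpr (hv _))
    (fun k r hr => by rw [d2]; exact (v.valuation_le_one_iff _).mpr (h01 _))
  have hlt : v.valuation ρ < 1 := by
    refine lt_of_le_of_ne hρ1 fun h1 => hn ?_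
    have h2 := b2 r i
    rw [map_mul, map_pow, h1, one_pow, mul_one, c2 k r hr i (2 * k - i) (by omega)] at h2
    exact (v.valuation_le_one_iff _).mp h2
  rcases hnode with h1 | ⟨kn, hkn, rn, hrn, hnode⟩
  · exact absurd h1 hlt.ne
  have s1 := n2_small (𝒜 := 𝒜) v hlt F1 F2 deg1 h12 b2
  have s2 := n2_small (𝒜 := 𝒜) v hlt F2 F1 deg2 h21 b1
  -- the residue field
  let κ := IsLocalRing.ResidueField v
  have : IsAlgClosed κ := n2_isAlgClosed_residueField v
  let π : v →+* κ := IsLocalRing.residue v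
  let c₀ : ℂ →+* v := (algebraMap ℂ Ω).codRestrict v.toSubring hv
  letI : Algebra ℂ κ := (π.comp c₀).toAlgebra
  have hπ : ∀ c : ℂ, π ⟨algebraMap ℂ Ω c, hv c⟩ = algebraMap ℂ κ c := fun c => rfl
  have hπ0 : ∀ (x : Ω) (hx : x ∈ v), π ⟨x, hx⟩ = 0 ↔ v.valuation x < 1 := by
    intro x hx
    change IsLocalRing.residue v _ = 0 ↔ _
    rw [IsLocalRing.residue_eq_zero_iff]
    exact (v.valuation_lt_one_iff ⟨x, hx⟩)
  obtain ⟨f1, hf1⟩ := n2_reduce v hv π hπ F1 ρ (fun r i => (v.valuation_le_one_iff _).mp (b1 r i))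
  obtain ⟨f2, hf2⟩ := n2_reduce v hv π hπ F2 ρ (fun r i => (v.valuation_le_one_iff _).mp (b2 r i))
  have deg1' : ∀ k, ∀ r ∈ 𝒜 k, (f1 r).natDegree ≤ k := by
    intro k r hr
    rw [natDegree_le_iff_coeff_eq_zero]
    intro i hi
    rw [hf1, hπ0]
    exact s1 k r hr i hi
  have deg2' : ∀ k, ∀ r ∈ 𝒜 k, (f2 r).natDegree ≤ k := by
    intro k r hr
    rw [natDegree_le_iff_coeff_eq_zero]
    intro i hi
    rw [hf2, hπ0]
    exact s2 k r hr i hi
  have w1 : ∀ r, (f1 r).coeff 0 = algebraMap ℂ κ (w r) := by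
    intro r
    rw [hf1, ← hπ]
    congr 1
    apply Subtype.ext
    change (F1 r).coeff 0 * ρ ^ 0 = algebraMap ℂ Ω (w r)
    rw [pow_zero, mul_one, d1]
  have w2 : ∀ r, (f2 r).coeff 0 = 0 ↔ v.valuation (pt φ ![0, 1] r) < 1 := by
    intro r
    rw [hf2, hπ0, pow_zero, mul_one, d2]
  have hnu : ∀ k, ∀ r ∈ 𝒜 k, (f1 r).coeff k = (f2 r).coeff k := by
    intro k r hr
    rw [hf1, hf2]
    congr 1
    apply Subtype.ext
    change (F1 r).coeff k * ρ ^ k = (F2 r).coeff k * ρ ^ k
    rw [h12 k r hr k k (by omega)]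
  have hnu0 : ∃ k, 0 < k ∧ ∃ r ∈ 𝒜 k, (f1 r).coeff k ≠ 0 := by
    refine ⟨kn, hkn, rn, hrn, ?_⟩
    rw [hf1, ne_eq, hπ0, hnode]
    exact lt_irrefl 1
  -- `w` is not the vertex
  have hw0 : ∃ k, 0 < k ∧ ∃ r ∈ 𝒜 k, w r ≠ 0 := by
    obtain ⟨k, hk, r, hr, h⟩ := hφ.bpf ![1, 0] (by
      intro h
      have := congrFun h 0
      simp at this)
    refine ⟨k, hk, r, hr, fun h0 => h ?_⟩
    rw [MvPolynomial.aeval_eq_eval, ← pt_apply, hleft, h0, map_zero]
  have hw0' : ∃ k, 0 < k ∧ ∃ r ∈ 𝒜 k, (f1 r).coeff 0 ≠ 0 := by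
    obtain ⟨k, hk, r, hr, h1⟩ := hw0
    refine ⟨k, hk, r, hr, ?_⟩
    rw [w1]
    exact (_root_.map_ne_zero _).mpr h1
  by_cases hb1 : ∀ c : κ, c ≠ 0 → ∃ k, 0 < k ∧ ∃ r ∈ 𝒜 k, (f1 r).eval c ≠ 0
  · obtain ⟨Ψ, hΨ, hΨ0, -⟩ := n2_curve f1 deg1' hw0' hnu0 hb1
    refine Or.inl ⟨κ, inferInstance, inferInstance, inferInstance, Ψ, hΨ, fun r => ?_⟩
    refine forall_of_homogeneous' (𝒜 := 𝒜) (pt Ψ ![1, 0]).toLinearMap
      ((Algebra.linearMap ℂ κ) ∘ₗ w.toLinearMap) (fun k r hr => ?_) r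
    change pt Ψ ![1, 0] r = algebraMap ℂ κ (w r)
    rw [pt_apply, hΨ0 k r hr, w1, one_pow, mul_one]
  · push Not at hb1
    obtain ⟨c, hc0, hc⟩ := hb1
    have hb := n2_base hX f1 deg1' c hc
    have hw' : ∀ k, ∀ r ∈ 𝒜 k, algebraMap ℂ κ (w r) = (f1 r).coeff k * (-c) ^ k := by
      intro k r hr
      rw [← w1 r]
      conv_lhs => rw [hb k r hr]
      rw [coeff_C_mul, coeff_zero_eq_eval_zero]
      simp
    by_cases hb2 : ∀ c : κ, ∃ k, 0 < k ∧ ∃ r ∈ 𝒜 k, (f2 r).eval c ≠ 0
    · have hnu0' : ∃ k, 0 < k ∧ ∃ r ∈ 𝒜 k, (f2 r).coeff k ≠ 0 := by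
        obtain ⟨k, hk, r, hr, h⟩ := hnu0
        exact ⟨k, hk, r, hr, by rw [← hnu k r hr]; exact h⟩
      have he0 : ∃ k, 0 < k ∧ ∃ r ∈ 𝒜 k, (f2 r).coeff 0 ≠ 0 := by
        obtain ⟨k, hk, r, hr, h⟩ := hb2 0
        exact ⟨k, hk, r, hr, by rw [coeff_zero_eq_eval_zero]; exact h⟩
      obtain ⟨Ψ, hΨ, -, hΨ1⟩ := n2_curve f2 deg2' he0 hnu0' (fun c _ => hb2 c)
      let τ : Fin 2 → MvPolynomial (Fin 2) κ := ![MvPolynomial.X 1, MvPolynomial.C (-c) *
        MvPolynomial.X 0]
      let S : MvPolynomial (Fin 2) κ →ₐ[ℂ] MvPolynomial (Fin 2) κ :=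
        (MvPolynomial.aeval τ).restrictScalars ℂ
      have hS : ∀ p a, MvPolynomial.eval a (S p) = MvPolynomial.eval ![a 1, -c * a 0] p := by
        intro p a
        change MvPolynomial.eval a (MvPolynomial.aeval τ p) = _
        rw [← MvPolynomial.aeval_eq_eval, MvPolynomial.comp_aeval_apply,
          ← MvPolynomial.aeval_eq_eval]
        congr 2
        ext i
        fin_cases i
        · simp [τ]
        · simp only [τ]
          simp [neg_mul]
          exact (neg_mul _ _).symm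
      refine Or.inl ⟨κ, inferInstance, inferInstance, inferInstance, S.comp Ψ, ⟨fun k r hr => ?_,
        fun x hx => ?_⟩, fun r => ?_⟩
      · have h1 := (hΨ.degree k r hr).aeval τ (n := 1) (by
          intro i
          fin_cases i
          · exact MvPolynomial.isHomogeneous_X κ 1
          · exact (MvPolynomial.isHomogeneous_C_mul_X (-c) 0))
        rw [one_mul] at h1
        exact h1
      · obtain ⟨k, hk, r, hr, h⟩ := hΨ.bpf ![x 1, -c * x 0] (by
          intro h
          apply hx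
          have h0 := congrFun h 0
          have h1 := congrFun h 1
          simp at h0 h1
          ext i
          fin_cases i
          · exact h1.resolve_left hc0
          · exact h0)
        refine ⟨k, hk, r, hr, ?_⟩
        rw [MvPolynomial.aeval_eq_eval] at h ⊢
        rw [AlgHom.comp_apply, hS]
        exact h
      · refine forall_of_homogeneous' (𝒜 := 𝒜) (pt (S.comp Ψ) ![1, 0]).toLinearMap
          ((Algebra.linearMap ℂ κ) ∘ₗ w.toLinearMap) (fun k r hr => ?_) r
        change pt (S.comp Ψ) ![1, 0] r = algebraMap ℂ κ (w r)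
        rw [pt_apply, AlgHom.comp_apply, hS, hw' k r hr, hnu k r hr]
        have h1 := hΨ1 k r hr (-c * 1)
        have h2 : (![(![1, 0] : Fin 2 → κ) 1, -c * (![1, 0] : Fin 2 → κ) 0] : Fin 2 → κ) =
            ![0, -c * 1] := by
          ext i; fin_cases i <;> rfl
        rw [h2, h1, mul_one]
    · push Not at hb2
      obtain ⟨c', hc'⟩ := hb2
      have hb' := n2_base hX f2 deg2' c' hc'
      refine Or.inr fun k r hr hwr => ?_
      rw [← w2, hb' k r hr, ← hnu k r hr]
      have h1 := hw' k r hr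
      rw [hwr, map_zero] at h1
      have h2 : (f1 r).coeff k = 0 := by
        rcases mul_eq_zero.mp h1.symm with h | h
        · exact h
        · exact absurd h (pow_ne_zero _ (neg_ne_zero.mpr hc0))
      rw [h2, map_zero, zero_mul, coeff_zero]

end Vale.Agent.P292
end

section

/-! # Extension of derivations to arbitrary field extensions in characteristic zero. -/

namespace Vale.Agent.P292

open TensorProduct

universe u v

/-- In characteristic zero every field extension is formally smooth. -/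
theorem f0_formallySmooth (K : Type u) (Ω : Type v) [Field K] [Field Ω] [CharZero K]
    [Algebra K Ω] : Algebra.FormallySmooth K Ω := by
  obtain ⟨ι, v, hv⟩ := exists_isTranscendenceBasis' K Ω
  have h1 : Algebra.IsAlgebraic (IntermediateField.adjoin K (Set.range v)) Ω :=
    hv.isAlgebraic_field
  have h2 : CharZero (IntermediateField.adjoin K (Set.range v)) :=
    charZero_of_injective_algebraMap
      (algebraMap K (IntermediateField.adjoin K (Set.range v))).injective
  have h3 : Algebra.IsSeparable (IntermediateField.adjoin K (Set.range v)) Ω := inferInstance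
  exact Algebra.FormallySmooth.of_algebraicIndependent_of_isSeparable hv.1

/-- Derivations extend to arbitrary field extensions in characteristic zero. -/
theorem exists_derivation_extension_field {k : Type*} {K : Type u} {Ω : Type v} [CommRing k]
    [Field K] [Field Ω] [CharZero K] [Algebra k K] [Algebra K Ω] [Algebra k Ω]
    [IsScalarTower k K Ω] (d : Derivation k K Ω) :
    ∃ D : Derivation k Ω Ω, ∀ x, D (algebraMap K Ω x) = d x := by
  have h1 : Algebra.FormallySmooth K Ω := f0_formallySmooth K Ω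
  have h2 : Function.Injective (KaehlerDifferential.mapBaseChange k K Ω) := by
    rw [injective_iff_map_eq_zero]
    intro x hx
    obtain ⟨x, rfl⟩ := (Algebra.H1Cotangent.exact_δ_mapBaseChange k K Ω x).mp hx
    rw [Subsingleton.elim x 0, map_zero]
  obtain ⟨g, hg⟩ := LinearMap.exists_leftInverse_of_injective
    (KaehlerDifferential.mapBaseChange k K Ω) (LinearMap.ker_eq_bot.mpr h2)
  refine ⟨((LinearMap.liftBaseChange Ω d.liftKaehlerDifferential).comp g).compDer
    (KaehlerDifferential.D k Ω), fun x => ?_⟩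
  rw [Derivation.coe_comp]
  change LinearMap.liftBaseChange Ω d.liftKaehlerDifferential
    (g (KaehlerDifferential.D k Ω (algebraMap K Ω x))) = d x
  have h3 : g (KaehlerDifferential.D k Ω (algebraMap K Ω x)) =
      (1 : Ω) ⊗ₜ[K] KaehlerDifferential.D k K x := by
    have h4 := LinearMap.congr_fun hg ((1 : Ω) ⊗ₜ[K] KaehlerDifferential.D k K x)
    rw [LinearMap.comp_apply, KaehlerDifferential.mapBaseChange_tmul, one_smul,
      KaehlerDifferential.map_D] at h4
    exact h4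
  rw [h3, LinearMap.liftBaseChange_tmul, one_smul, Derivation.liftKaehlerDifferential_comp_D]

/-- A derivation over an injective point `ι : R → Ω` with values in a field is induced by a
derivation of the field. -/
theorem exists_der_ext {R : Type u} [CommRing R] [Algebra ℂ R] {Ω : Type v} [Field Ω]
    [Algebra ℂ Ω] (ι : R →ₐ[ℂ] Ω) (hι : Function.Injective ι) (δ : R →ₗ[ℂ] Ω)
    (hδ : IsDer ι δ) : ∃ D : Derivation ℂ Ω Ω, ∀ r, D (ι r) = δ r := by
  have hdom : IsDomain R := hι.isDomain ι.toRingHom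
  let : Algebra R Ω := (ι : R →+* Ω).toAlgebra
  have hmap : ∀ r, algebraMap R Ω r = ι r := fun _ => rfl
  have : IsScalarTower ℂ R Ω := IsScalarTower.of_algebraMap_eq fun c => by
    rw [hmap, AlgHom.commutes]
  have : FaithfulSMul R Ω := (faithfulSMul_iff_algebraMap_injective R Ω).mpr hι
  let : Algebra (FractionRing R) Ω := FractionRing.liftAlgebra R Ω
  have : IsScalarTower R (FractionRing R) Ω := inferInstance
  have : IsScalarTower ℂ (FractionRing R) Ω := IsScalarTower.of_algebraMap_eq fun c => by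
    rw [IsScalarTower.algebraMap_apply ℂ R Ω, IsScalarTower.algebraMap_apply ℂ R (FractionRing R),
      ← IsScalarTower.algebraMap_apply R (FractionRing R) Ω]
  have hch : CharZero (FractionRing R) :=
    charZero_of_injective_algebraMap (algebraMap ℂ (FractionRing R)).injective
  -- first extend to the fraction field
  let d : Derivation ℂ R Ω := Derivation.mk' δ (fun r s => by
    rw [hδ r s, Algebra.smul_def, Algebra.smul_def, hmap, hmap])
  have het : Algebra.FormallyEtale R (FractionRing R) :=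
    Algebra.FormallyEtale.of_isLocalization (nonZeroDivisors R)
  obtain ⟨d1, hd1⟩ : ∃ d1 : Derivation ℂ (FractionRing R) Ω,
      ∀ r, d1 (algebraMap R (FractionRing R) r) = d r := by
    refine ⟨((LinearMap.liftBaseChange (FractionRing R) d.liftKaehlerDifferential).comp
      (KaehlerDifferential.tensorKaehlerEquivOfFormallyEtale ℂ R
        (FractionRing R)).symm.toLinearMap).compDer
      (KaehlerDifferential.D ℂ (FractionRing R)), fun x => ?_⟩
    rw [Derivation.coe_comp]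
    change LinearMap.liftBaseChange (FractionRing R) d.liftKaehlerDifferential
      ((KaehlerDifferential.tensorKaehlerEquivOfFormallyEtale ℂ R (FractionRing R)).symm
        (KaehlerDifferential.D ℂ (FractionRing R) (algebraMap R (FractionRing R) x))) = d x
    rw [KaehlerDifferential.tensorKaehlerEquivOfFormallyEtale_symm_D_algebraMap,
      LinearMap.liftBaseChange_tmul, one_smul, Derivation.liftKaehlerDifferential_comp_D]
  obtain ⟨D, hD⟩ := exists_derivation_extension_field d1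
  refine ⟨D, fun r => ?_⟩
  have h5 := hD (algebraMap R (FractionRing R) r)
  rw [hd1, ← IsScalarTower.algebraMap_apply] at h5
  exact h5

end Vale.Agent.P292
end

section

/-! # Points where the generic conic has good reduction over all divisors. -/

namespace Vale.Agent.P292

open MvPolynomial

universe u v

variable {R : Type u} [CommRing R] [Algebra ℂ R]

/-- The generic conic through the closed point `w` has good reduction at all valuations whose
centre is a divisor. -/
def GoodAt [IsDomain R] (𝒜 : ℕ → Submodule ℂ R) [GradedAlgebra 𝒜] (w : R →ₐ[ℂ] ℂ) : Prop :=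
  ∀ (Ω : Type u) [Field Ω] [IsAlgClosed Ω] [Algebra ℂ Ω] (φ : R →ₐ[ℂ] MvPolynomial (Fin 2) Ω),
    GenConicAt 𝒜 w φ → ∀ v : ValuationSubring Ω, (∀ c : ℂ, algebraMap ℂ Ω c ∈ v) →
    (∀ r, pt φ ![0, 1] r ∈ v) → ∀ (𝔭 : Ideal R) [𝔭.IsPrime],
    (∀ r, r ∈ 𝔭 ↔ v.valuation (pt φ ![0, 1] r) < 1) →
    IsDiscreteValuationRing (Localization.AtPrime 𝔭) →
    ∀ k : ℕ, ∀ r ∈ 𝒜 k, ∀ i ≤ 2 * k, cf (φ r) i (2 * k - i) ∈ v

/-- The closed points with good reduction are dense. -/
def FreeAt [IsDomain R] (𝒜 : ℕ → Submodule ℂ R) [GradedAlgebra 𝒜] : Prop :=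
  ∀ g : R, g ≠ 0 → ∃ w : R →ₐ[ℂ] ℂ, w g ≠ 0 ∧ GoodAt 𝒜 w

end Vale.Agent.P292
end
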