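import Mathlib
import Vale.Agent.P292.Bn.N6
import Vale.Agent.P292.Bdl.B1
import Vale.Agent.P292.Bn.N4
import Vale.Agent.P292.Bn.N2
import Vale.Agent.P292.Bn.N3
import Vale.Agent.P292.Bn.N1
import Vale.Agent.P292.Bn.N5

set_option linter.all false

section

/-! # Block I-1, I-2: specialisation of curves to an algebraically closed subfield -/

namespace Vale.Agent.P292

open MvPolynomial

universe u v w

variable {R : Type u} [CommRing R] [Algebra ℂ R] {𝒜 : ℕ → Submodule ℂ R}

/-- Every curve over an algebraically closed field `E` has a finite set of elements of `E` such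
that it specialises to a curve by every point of every subalgebra containing this set. -/
theorem nic_exists_finset {E : Type w} [Field E] [Algebra ℂ E] {k : Type v} [Field k]
    [Algebra ℂ k] [Algebra.FiniteType ℂ R] [IsAlgClosed E] {d : ℕ}
    {φ : R →ₐ[ℂ] MvPolynomial (Fin 2) E} (hφ : IsCurve 𝒜 d φ) :
    ∃ S : Finset E, ∀ A₀ : Subalgebra ℂ E, (S : Set E) ⊆ A₀ → ∀ σ : A₀ →ₐ[ℂ] k,
      ∃ ψ : R →ₐ[ℂ] MvPolynomial (Fin 2) k, IsCurve 𝒜 d ψ ∧
        ∀ r m, ∃ h : coeff m (φ r) ∈ A₀, coeff m (ψ r) = σ ⟨coeff m (φ r), h⟩ := by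
  classical
  obtain ⟨G, hG⟩ := Algebra.FiniteType.out (R := ℂ) (A := R)
  obtain ⟨N0, n0, c0, r0, k0, hk0, hr0, h0⟩ := hφ.exists_pow 0
  obtain ⟨N1, n1, c1, r1, k1, hk1, hr1, h1⟩ := hφ.exists_pow 1
  set S : Finset E := G.biUnion (fun g => (φ g).coeffs) ∪
    (Finset.univ.biUnion fun j => (c0 j).coeffs) ∪
    (Finset.univ.biUnion fun j => (c1 j).coeffs) with hS
  refine ⟨S, fun A₀ hSA σ => ?_⟩
  set M : MvPolynomial (Fin 2) A₀ →ₐ[ℂ] MvPolynomial (Fin 2) E := mapAlgHom A₀.val with hMdef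
  have hMapp : ∀ p, M p = map (algebraMap A₀ E) p := fun p => rfl
  have hM : Function.Injective M := MvPolynomial.map_injective _ Subtype.val_injective
  have hmem : ∀ p : MvPolynomial (Fin 2) E, (p.coeffs : Set E) ⊆ A₀ → ∃ q, M q = p := by
    intro p hp
    have : p ∈ Set.range (MvPolynomial.map (algebraMap A₀ E)) := by
      rw [mem_range_map_iff_coeffs_subset]
      intro e he
      exact ⟨⟨e, hp he⟩, rfl⟩
    exact this
  have hrange : ∀ r, φ r ∈ M.range := by
    intro r
    have h2 : φ.range ≤ M.range := by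
      rw [← Algebra.map_top, ← hG, AlgHom.map_adjoin, Algebra.adjoin_le_iff]
      rintro _ ⟨g, hg, rfl⟩
      obtain ⟨q, hq⟩ := hmem (φ g) (by
        refine subset_trans ?_ hSA
        rw [hS]
        intro e he
        simp only [Finset.coe_union, Set.mem_union, Finset.mem_coe, Finset.mem_biUnion]
        exact Or.inl (Or.inl ⟨g, hg, he⟩))
      exact ⟨q, hq⟩
    exact h2 ⟨r, rfl⟩
  set e := AlgEquiv.ofInjective M hM with he
  set φ₀ : R →ₐ[ℂ] MvPolynomial (Fin 2) A₀ :=
    (e.symm : M.range →ₐ[ℂ] MvPolynomial (Fin 2) A₀).comp (φ.codRestrict M.range hrange) with hφ₀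
  have hφ₀M : ∀ r, M (φ₀ r) = φ r := by
    intro r
    have : (e (φ₀ r) : MvPolynomial (Fin 2) E) = φ r := by
      rw [hφ₀]
      simp
    rw [← this]
    rfl
  have hcf : ∀ r m, ((coeff m (φ₀ r) : A₀) : E) = coeff m (φ r) := by
    intro r m
    rw [← hφ₀M r, hMapp, coeff_map]
    rfl
  have hmap : ∀ r, ((mapAlgHom σ).comp φ₀) r = map (σ : A₀ →+* k) (φ₀ r) := fun r => rfl
  refine ⟨(mapAlgHom σ).comp φ₀, ⟨?_, ?_⟩, ?_⟩
  · intro k r hr m hm
    have hm' : coeff m (φ₀ r) ≠ 0 := by
      intro h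
      apply hm
      rw [hmap, coeff_map, h, map_zero]
    have h3 : coeff m (φ r) ≠ 0 := by
      rw [← hφ₀M r, hMapp, coeff_map]
      intro h
      apply hm'
      exact Subtype.val_injective (h.trans (map_zero (algebraMap A₀ E)).symm)
    exact hφ.degree k r hr h3
  · intro x hx
    have key : ∀ (i : Fin 2) (N n : ℕ) (c : Fin n → MvPolynomial (Fin 2) E) (r : Fin n → R)
        (k : Fin n → ℕ), (∀ j, 0 < k j) → (∀ j, r j ∈ 𝒜 (k j)) →
        ∑ j, c j * φ (r j) = (X i : MvPolynomial (Fin 2) E) ^ N →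
        (∀ j, ((c j).coeffs : Set E) ⊆ A₀) → x i ≠ 0 →
        ∃ k, 0 < k ∧ ∃ r ∈ 𝒜 k, aeval x (((mapAlgHom σ).comp φ₀) r) ≠ 0 := by
      intro i N n c r k' hk hr hsum hc hxi
      choose q hq using fun j => hmem (c j) (hc j)
      have h5 : ∑ j, q j * φ₀ (r j) = X i ^ N := by
        apply hM
        rw [map_sum, map_pow]
        have : M (X i) = X i := by rw [hMapp, map_X]
        rw [this, ← hsum]
        exact Finset.sum_congr rfl fun j _ => by rw [map_mul, hq, hφ₀M]
      by_contra hcon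
      push Not at hcon
      have h6 : aeval x ((mapAlgHom σ : MvPolynomial (Fin 2) A₀ →ₐ[ℂ] MvPolynomial (Fin 2) k)
          (∑ j, q j * φ₀ (r j))) = 0 := by
        rw [map_sum, map_sum]
        refine Finset.sum_eq_zero fun j _ => ?_
        rw [map_mul, map_mul]
        have := hcon (k' j) (hk j) (r j) (hr j)
        change aeval x ((mapAlgHom σ : MvPolynomial (Fin 2) A₀ →ₐ[ℂ] MvPolynomial (Fin 2) k)
          (φ₀ (r j))) = 0 at this
        rw [this, mul_zero]
      rw [h5, map_pow, map_pow] at h6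
      have h7 : (mapAlgHom σ : MvPolynomial (Fin 2) A₀ →ₐ[ℂ] MvPolynomial (Fin 2) k) (X i) =
          X i := by
        change map (σ : A₀ →+* k) (X i) = X i
        rw [map_X]
      rw [h7, aeval_X] at h6
      exact pow_ne_zero N hxi h6
    have hx' : x 0 ≠ 0 ∨ x 1 ≠ 0 := by
      by_contra h
      push Not at h
      apply hx
      funext i
      fin_cases i
      · exact h.1
      · exact h.2
    rcases hx' with h | h
    · refine key 0 N0 n0 c0 r0 k0 hk0 hr0 h0 (fun j => ?_) h
      refine subset_trans ?_ hSA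
      rw [hS]
      intro e he
      simp only [Finset.coe_union, Set.mem_union, Finset.mem_coe, Finset.mem_biUnion]
      exact Or.inl (Or.inr ⟨j, Finset.mem_univ _, he⟩)
    · refine key 1 N1 n1 c1 r1 k1 hk1 hr1 h1 (fun j => ?_) h
      refine subset_trans ?_ hSA
      rw [hS]
      intro e he
      simp only [Finset.coe_union, Set.mem_union, Finset.mem_coe, Finset.mem_biUnion]
      exact Or.inr ⟨j, Finset.mem_univ _, he⟩
  · intro r m
    refine ⟨by rw [← hcf r m]; exact (coeff m (φ₀ r)).2, ?_⟩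
    rw [hmap, coeff_map]
    change σ _ = σ _
    congr 1
    exact Subtype.ext (hcf r m)

/-- Points of finitely generated algebras over an algebraically closed field. -/
theorem nic_exists_point {k : Type v} [Field k] [IsAlgClosed k] {A : Type w} [CommRing A]
    [Nontrivial A] [Algebra k A] [Algebra.FiniteType k A] : Nonempty (A →ₐ[k] k) := by
  obtain ⟨𝔪, h𝔪⟩ := Ideal.exists_maximal A
  let _ : Field (A ⧸ 𝔪) := Ideal.Quotient.field 𝔪
  have : Algebra.FiniteType k (A ⧸ 𝔪) := inferInstance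
  have hfin : Module.Finite k (A ⧸ 𝔪) := finite_of_finite_type_of_isJacobsonRing k (A ⧸ 𝔪)
  have hbij : Function.Bijective (algebraMap k (A ⧸ 𝔪)) :=
    IsAlgClosed.algebraMap_bijective_of_isIntegral
  let e : k ≃ₐ[k] A ⧸ 𝔪 := AlgEquiv.ofBijective (Algebra.ofId k (A ⧸ 𝔪)) hbij
  exact ⟨(e.symm : A ⧸ 𝔪 →ₐ[k] k).comp (Ideal.Quotient.mkₐ k 𝔪)⟩

/-- I-1 specialisation of a curve to an algebraically closed subfield -/
theorem ni_closed [Algebra.FiniteType ℂ R] {k : Type v} {E : Type w} [Field k] [IsAlgClosed k]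
    [Field E] [IsAlgClosed E]
    [Algebra ℂ k] [Algebra ℂ E] [Algebra k E] [IsScalarTower ℂ k E] {d : ℕ}
    {φ : R →ₐ[ℂ] MvPolynomial (Fin 2) E} (hφ : IsCurve 𝒜 d φ)
    (F : Finset E) (hF : ∀ e ∈ F, e ≠ 0) :
    ∃ (A₀ : Subalgebra k E) (σ : A₀ →ₐ[k] k) (ψ : R →ₐ[ℂ] MvPolynomial (Fin 2) k),
      IsCurve 𝒜 d ψ ∧
      (∀ r m, ∃ h : coeff m (φ r) ∈ A₀, coeff m (ψ r) = σ ⟨coeff m (φ r), h⟩) ∧
      (∀ e ∈ F, ∃ h : e ∈ A₀, σ ⟨e, h⟩ ≠ 0) := by
  classical
  obtain ⟨S, hS⟩ := nic_exists_finset (k := k) hφ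
  set T : Finset E := S ∪ (F ∪ F.image (fun e => e⁻¹)) with hT
  set A₀ : Subalgebra k E := Algebra.adjoin k (T : Set E) with hA
  have hTA : (T : Set E) ⊆ A₀ := Algebra.subset_adjoin
  have : Algebra.FiniteType k A₀ :=
    (Subalgebra.fg_iff_finiteType A₀).mp (Subalgebra.fg_adjoin_finset _)
  obtain ⟨σ⟩ := nic_exists_point (k := k) (A := A₀)
  let A₁ : Subalgebra ℂ E := A₀.restrictScalars ℂ
  let σ₁ : A₁ →ₐ[ℂ] k :=
    { (σ : A₀ →+* k) with
      commutes' := fun c => by
        change σ (algebraMap ℂ A₁ c) = _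
        have h1 : (algebraMap ℂ A₁ c : A₀) = algebraMap k A₀ (algebraMap ℂ k c) := by
          apply Subtype.ext
          change algebraMap ℂ E c = algebraMap k E (algebraMap ℂ k c)
          exact IsScalarTower.algebraMap_apply ℂ k E c
        rw [h1, σ.commutes]
        rfl }
  obtain ⟨ψ, hψ, hc⟩ := hS A₁ (fun e he => hTA (by
    rw [hT]
    exact Finset.mem_coe.2 (Finset.mem_union_left _ he))) σ₁
  refine ⟨A₀, σ, ψ, hψ, fun r m => ?_, fun e he => ?_⟩
  · obtain ⟨h1, h2⟩ := hc r m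
    exact ⟨h1, h2⟩
  · have he1 : e ∈ A₀ := hTA (by
      rw [hT]
      exact Finset.mem_coe.2 (Finset.mem_union_right _ (Finset.mem_union_left _ he)))
    have he2 : e⁻¹ ∈ A₀ := hTA (by
      rw [hT]
      exact Finset.mem_coe.2 (Finset.mem_union_right _ (Finset.mem_union_right _
        (Finset.mem_image_of_mem _ he))))
    refine ⟨he1, fun h => ?_⟩
    have h3 : (⟨e, he1⟩ : A₀) * ⟨e⁻¹, he2⟩ = 1 := Subtype.ext (mul_inv_cancel₀ (hF e he))
    have h4 := congrArg σ h3
    rw [map_mul, h, zero_mul, map_one] at h4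
    exact zero_ne_one h4

/-- specialisation of values. -/
theorem nic_eval_spec {k : Type v} {E : Type w} [Field k] [Field E] [Algebra k E]
    (A₀ : Subalgebra k E) (σ : A₀ →ₐ[k] k) (p : MvPolynomial (Fin 2) E)
    (q : MvPolynomial (Fin 2) k)
    (h : ∀ m, ∃ h : coeff m p ∈ A₀, coeff m q = σ ⟨coeff m p, h⟩)
    (a : Fin 2 → E) (ha : ∀ i, a i ∈ A₀) (b : Fin 2 → k) (hb : ∀ i, b i = σ ⟨a i, ha i⟩) :
    ∃ h : eval a p ∈ A₀, eval b q = σ ⟨eval a p, h⟩ := by
  classical
  choose h1 h2 using h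
  let p₀ : MvPolynomial (Fin 2) A₀ := ∑ m ∈ p.support, monomial m ⟨coeff m p, h1 m⟩
  have hp₀ : ∀ m, coeff m p₀ = ⟨coeff m p, h1 m⟩ := by
    intro m
    rw [show coeff m p₀ = ∑ n ∈ p.support, coeff m (monomial n (⟨coeff n p, h1 n⟩ : A₀)) from
      coeff_sum _ _ _]
    simp only [coeff_monomial]
    rw [Finset.sum_ite_eq' p.support m]
    split_ifs with hm
    · rfl
    · rw [notMem_support_iff] at hm
      exact Subtype.ext hm.symm
  have hp : map (algebraMap A₀ E) p₀ = p := by
    ext m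
    rw [coeff_map, hp₀]
    rfl
  have hq : map (σ : A₀ →+* k) p₀ = q := by
    ext m
    rw [coeff_map, hp₀, h2]
    rfl
  have h3 : ((eval (fun i => (⟨a i, ha i⟩ : A₀)) p₀ : A₀) : E) = eval a p := by
    rw [← hp, eval_map]
    have := eval₂_comp_left (algebraMap A₀ E) (RingHom.id A₀) (fun i => (⟨a i, ha i⟩ : A₀)) p₀
    rw [RingHom.comp_id] at this
    exact this
  have hmem : eval a p ∈ A₀ := by
    rw [← h3]
    exact SetLike.coe_mem _
  refine ⟨hmem, ?_⟩
  have h4 : (⟨eval a p, hmem⟩ : A₀) = eval (fun i => (⟨a i, ha i⟩ : A₀)) p₀ := Subtype.ext h3.symm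
  rw [h4, ← hq, eval_map]
  have h5 := eval₂_comp_left (σ : A₀ →+* k) (RingHom.id A₀) (fun i => (⟨a i, ha i⟩ : A₀)) p₀
  rw [RingHom.comp_id] at h5
  have h6 : b = (σ : A₀ →+* k) ∘ fun i => (⟨a i, ha i⟩ : A₀) := by
    funext i
    rw [hb]
    rfl
  rw [h6]
  exact h5.symm

/-- I-2 a linear condition on the tangents of the lines through `η₀` over `k` holds for the lines
over `E`. -/
theorem ni_linear [Algebra.FiniteType ℂ R] {k : Type v} {E : Type w} [Field k] [IsAlgClosed k]
    [Field E] [IsAlgClosed E]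
    [Algebra ℂ k] [Algebra ℂ E] [Algebra k E] [IsScalarTower ℂ k E] (η₀ : R →ₐ[ℂ] k)
    {n : ℕ} (x : Fin n → R) (a : Fin n → k)
    (h : ∀ ψ₀ : R →ₐ[ℂ] MvPolynomial (Fin 2) k, IsCurve 𝒜 1 ψ₀ → pt ψ₀ ![1, 0] = η₀ →
      ∑ i, a i * evL ![1, 0] (pd ψ₀ 1) (x i) = 0)
    {φ : R →ₐ[ℂ] MvPolynomial (Fin 2) E} (hφ : IsCurve 𝒜 1 φ)
    (h0 : ∀ r, pt φ ![1, 0] r = algebraMap k E (η₀ r)) :
    ∑ i, algebraMap k E (a i) * evL ![1, 0] (pd φ 1) (x i) = 0 := by
  classical
  by_contra hne
  obtain ⟨A₀, σ, ψ, hψ, hc, hF⟩ := ni_closed (k := k) hφ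
    ({∑ i, algebraMap k E (a i) * evL ![1, 0] (pd φ 1) (x i)} : Finset E) (fun e he => by
      rw [Finset.mem_singleton] at he
      rwa [he])
  have hm : ∀ i, (![1, 0] : Fin 2 → E) i ∈ A₀ := by
    intro i
    fin_cases i
    · exact one_mem _
    · exact zero_mem _
  have h10 : ∀ i, (![1, 0] : Fin 2 → k) i = σ ⟨(![1, 0] : Fin 2 → E) i, hm i⟩ := by
    intro i
    fin_cases i
    · exact (map_one σ).symm
    · exact (map_zero σ).symm
  have hpt : pt ψ ![1, 0] = η₀ := by
    ext r
    rw [pt_apply]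
    obtain ⟨m1, e1⟩ := nic_eval_spec A₀ σ (φ r) (ψ r) (hc r) ![1, 0] hm ![1, 0] h10
    rw [e1]
    have h3 := h0 r
    rw [pt_apply] at h3
    have h4 : (⟨eval ![1, 0] (φ r), m1⟩ : A₀) = algebraMap k A₀ (η₀ r) := Subtype.ext h3
    rw [h4, AlgHom.commutes]
    rfl
  have hd : ∀ r, ∃ hr : evL ![1, 0] (pd φ 1) r ∈ A₀,
      evL ![1, 0] (pd ψ 1) r = σ ⟨evL ![1, 0] (pd φ 1) r, hr⟩ := by
    intro r
    refine nic_eval_spec A₀ σ (pderiv 1 (φ r)) (pderiv 1 (ψ r)) (fun m => ?_) ![1, 0] hm ![1, 0] h10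
    obtain ⟨m1, e1⟩ := hc r (m + Finsupp.single 1 1)
    have hmem : coeff m (pderiv 1 (φ r)) ∈ A₀ := by
      rw [coeff_pderiv]
      refine mul_mem m1 ?_
      have : ((m 1 : E) + 1) = ((m 1 + 1 : ℕ) : E) := by push_cast; ring
      rw [this]
      exact natCast_mem _ _
    refine ⟨hmem, ?_⟩
    have h5 : (⟨coeff m (pderiv 1 (φ r)), hmem⟩ : A₀) =
        ⟨coeff (m + Finsupp.single 1 1) (φ r), m1⟩ * ((m 1 : A₀) + 1) := by
      apply Subtype.ext
      change coeff m (pderiv 1 (φ r)) = coeff (m + Finsupp.single 1 1) (φ r) * _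
      rw [coeff_pderiv]
      push_cast
      rfl
    rw [h5, map_mul, ← e1, coeff_pderiv, map_add, map_natCast, map_one σ]
  choose hr hr' using hd
  obtain ⟨m3, e3⟩ := hF _ (Finset.mem_singleton_self _)
  apply e3
  have h6 := h ψ hψ hpt
  rw [← h6]
  have h7 : (⟨∑ i, algebraMap k E (a i) * evL ![1, 0] (pd φ 1) (x i), m3⟩ : A₀) =
      ∑ i, algebraMap k A₀ (a i) * ⟨evL ![1, 0] (pd φ 1) (x i), hr (x i)⟩ := by
    apply Subtype.ext
    rw [AddSubmonoidClass.coe_finsetSum]
    rfl
  rw [h7, map_sum]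
  refine Finset.sum_congr rfl fun i _ => ?_
  rw [map_mul, AlgHom.commutes, ← hr']
  rfl

end Vale.Agent.P292
end

section

/-! # Block I-6: homogeneous coprime representation of an Euler invariant -/

namespace Vale.Agent.P292

open DirectSum

universe u

section
variable {R : Type u} [CommRing R] [Algebra ℂ R] {𝒜 : ℕ → Submodule ℂ R} [GradedAlgebra 𝒜]
  {P : R →ₗ[ℂ] R →ₗ[ℂ] R}

/-- the leading components multiply. -/
theorem ni6_top [IsDomain R] (q g : R) (m n : ℕ)
    (hm : ∀ i, m < i → (decompose 𝒜 q i : R) = 0) (hn : ∀ i, n < i → (decompose 𝒜 g i : R) = 0) :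
    (decompose 𝒜 (q * g) (m + n) : R) = decompose 𝒜 q m * decompose 𝒜 g n := by
  classical
  rw [decompose_mul, coe_mul_apply]
  have h1 : ∀ ij ∈ (decompose 𝒜 q).support ×ˢ (decompose 𝒜 g).support,
      ij.1 + ij.2 = m + n → ij = (m, n) := by
    rintro ⟨i, j⟩ hij h
    rw [Finset.mem_product, DFinsupp.mem_support_iff, DFinsupp.mem_support_iff] at hij
    have hi : i ≤ m := by
      by_contra hlt
      exact hij.1 (Subtype.ext (hm i (not_le.1 hlt)))
    have hj : j ≤ n := by
      by_contra hlt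
      exact hij.2 (Subtype.ext (hn j (not_le.1 hlt)))
    simp only at h
    ext <;> simp <;> omega
  by_cases hmem : (m, n) ∈ (decompose 𝒜 q).support ×ˢ (decompose 𝒜 g).support
  · rw [Finset.sum_eq_single (m, n)]
    · intro ij hij hne
      rw [Finset.mem_filter] at hij
      exact absurd (h1 ij hij.1 hij.2) hne
    · intro hnot
      refine absurd ?_ hnot
      rw [Finset.mem_filter]
      exact ⟨hmem, rfl⟩
  · rw [Finset.sum_eq_zero]
    · rw [Finset.mem_product, not_and_or, DFinsupp.notMem_support_iff,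
        DFinsupp.notMem_support_iff] at hmem
      rcases hmem with h | h
      · simp only at h
        rw [h, ZeroMemClass.coe_zero, zero_mul]
      · simp only at h
        rw [h, ZeroMemClass.coe_zero, mul_zero]
    · intro ij hij
      rw [Finset.mem_filter] at hij
      exact absurd ((h1 ij hij.1 hij.2) ▸ hij.1) hmem

/-- an element dividing its Euler derivative is homogeneous. -/
theorem ni6_homog [IsDomain R] (h0 : ∀ r ∈ 𝒜 0, ∃ c : ℂ, r = algebraMap ℂ R c) {q g : R}
    (hg : g ≠ 0) (h : euler 𝒜 g = q * g) :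
    ∃ k : ℕ, g ∈ 𝒜 k ∧ q = algebraMap ℂ R k := by
  classical
  have heu : ∀ (x : R) (i : ℕ), (decompose 𝒜 (euler 𝒜 x) i : R) = (i : ℂ) • (decompose 𝒜 x i : R) := by
    intro x i
    refine forall_of_homogeneous' (𝒜 := 𝒜)
      ((𝒜 i).subtype ∘ₗ (DirectSum.component ℂ ℕ (fun i => 𝒜 i) i) ∘ₗ
          (decomposeLinearEquiv 𝒜).toLinearMap ∘ₗ euler 𝒜)
      ((i : ℂ) • ((𝒜 i).subtype ∘ₗ (DirectSum.component ℂ ℕ (fun i => 𝒜 i) i) ∘ₗ
          (decomposeLinearEquiv 𝒜).toLinearMap)) (fun k r hr => ?_) x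
    change (decompose 𝒜 (euler 𝒜 r) i : R) = (i : ℂ) • (decompose 𝒜 r i : R)
    rw [euler_apply k r hr, decompose_smul, DirectSum.smul_apply]
    by_cases hik : k = i
    · subst hik
      rfl
    · have : (decompose 𝒜 r i : R) = 0 := decompose_of_mem_ne 𝒜 hr hik
      rw [Submodule.coe_smul, this, smul_zero, smul_zero]
  have hsup : ∀ x : R, x ≠ 0 → ∃ m, (decompose 𝒜 x m : R) ≠ 0 ∧
      ∀ i, m < i → (decompose 𝒜 x i : R) = 0 := by
    intro x hx
    have hne : (decompose 𝒜 x).support.Nonempty := by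
      rw [Finset.nonempty_iff_ne_empty]
      intro he
      apply hx
      rw [← DirectSum.sum_support_decompose 𝒜 x, he, Finset.sum_empty]
    refine ⟨(decompose 𝒜 x).support.max' hne, ?_, fun i hi => ?_⟩
    · have := Finset.max'_mem _ hne
      rw [DFinsupp.mem_support_iff] at this
      intro h0
      exact this (Subtype.ext h0)
    · by_contra hnot
      have : i ∈ (decompose 𝒜 x).support := by
        rw [DFinsupp.mem_support_iff]
        intro h0
        exact hnot (by rw [h0]; rfl)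
      exact absurd (Finset.le_max' _ i this) (not_le.2 hi)
  obtain ⟨n, hn, hn'⟩ := hsup g hg
  -- `q` is a constant
  have hq : q ∈ 𝒜 0 := by
    by_cases hq0 : q = 0
    · rw [hq0]; exact zero_mem _
    obtain ⟨m, hm, hm'⟩ := hsup q hq0
    have h1 := ni6_top q g m n hm' hn'
    rw [← h, heu] at h1
    have hm0 : m = 0 := by
      by_contra hpos
      rw [hn' (m + n) (by omega), smul_zero] at h1
      exact mul_ne_zero hm hn h1.symm
    subst hm0
    have h2 : q = (decompose 𝒜 q 0 : R) := by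
      conv_lhs => rw [← DirectSum.sum_support_decompose 𝒜 q]
      refine Finset.sum_eq_single 0 (fun i _ hi => hm' i (Nat.pos_of_ne_zero hi)) fun h0 => ?_
      rw [DFinsupp.notMem_support_iff] at h0
      rw [h0]; rfl
    rw [h2]
    exact SetLike.coe_mem _
  obtain ⟨c, rfl⟩ := h0 q hq
  have hcomp : ∀ i, (decompose 𝒜 g i : R) ≠ 0 → (i : ℂ) = c := by
    intro i hi
    have h1 := heu g i
    rw [h, ← Algebra.smul_def, decompose_smul, DirectSum.smul_apply, Submodule.coe_smul] at h1
    have h2 : (c - (i : ℂ)) • (decompose 𝒜 g i : R) = 0 := by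
      rw [sub_smul, h1, sub_self]
    rcases smul_eq_zero.1 h2 with h3 | h3
    · exact (sub_eq_zero.1 h3).symm
    · exact absurd h3 hi
  have hnc := hcomp n hn
  refine ⟨n, ?_, by rw [hnc]⟩
  have h2 : g = (decompose 𝒜 g n : R) := by
    conv_lhs => rw [← DirectSum.sum_support_decompose 𝒜 g]
    refine Finset.sum_eq_single n (fun i _ hi => ?_) fun h0 => ?_
    · by_contra hne
      have := hcomp i hne
      rw [← hnc] at this
      exact hi (by exact_mod_cast this)
    · rw [DFinsupp.notMem_support_iff] at h0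
      rw [h0]; rfl
  rw [h2]
  exact SetLike.coe_mem _

/-- I-6 homogeneous coprime representation of an Euler invariant of the fraction field -/
theorem ni_exists_homog (hX : IsContactFano 𝒜 P) [IsDomain R] [UniqueFactorizationMonoid R]
    (E : Derivation ℂ (FractionRing R) (FractionRing R))
    (hE : ∀ k, ∀ r ∈ 𝒜 k, E (algebraMap R _ r) = (k : FractionRing R) * algebraMap R _ r)
    {f : FractionRing R} (hf : E f = 0)
    (hf' : ∀ c : ℂ, f ≠ algebraMap ℂ (FractionRing R) c) :
    ∃ k, 0 < k ∧ ∃ g ∈ 𝒜 k, ∃ h ∈ 𝒜 k, h ≠ 0 ∧ IsRelPrime g h ∧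
      f * algebraMap R _ h = algebraMap R _ g := by
  classical
  have hinj : Function.Injective (algebraMap R (FractionRing R)) :=
    IsFractionRing.injective R (FractionRing R)
  have hEu : ∀ r, E (algebraMap R _ r) = algebraMap R _ (euler 𝒜 r) := by
    intro r
    refine forall_of_homogeneous' (𝒜 := 𝒜)
      ((E : FractionRing R →ₗ[ℂ] FractionRing R) ∘ₗ
        (IsScalarTower.toAlgHom ℂ R (FractionRing R)).toLinearMap)
      ((IsScalarTower.toAlgHom ℂ R (FractionRing R)).toLinearMap ∘ₗ euler 𝒜)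
      (fun k r hr => ?_) r
    change E (algebraMap R _ r) = algebraMap R _ (euler 𝒜 r)
    rw [hE k r hr, euler_apply k r hr, Algebra.smul_def, map_mul, ← IsScalarTower.algebraMap_apply]
    simp
  set g := IsFractionRing.num R f with hgdef
  set h : R := (IsFractionRing.den R f : R) with hhdef
  have hh0 : h ≠ 0 := nonZeroDivisors.ne_zero (IsFractionRing.den R f).2
  have hrel : IsRelPrime g h := IsFractionRing.num_den_reduced R f
  have hfg : f * algebraMap R _ h = algebraMap R _ g := by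
    have := IsFractionRing.mk'_num_den R f
    rw [IsLocalization.mk'_eq_iff_eq_mul] at this
    exact this.symm
  have hg0 : g ≠ 0 := by
    intro h0
    rw [h0, map_zero] at hfg
    rcases mul_eq_zero.1 hfg with h1 | h1
    · exact hf' 0 (by rw [h1, map_zero])
    · exact hh0 (hinj (by rw [h1, map_zero]))
  have hkey : h * euler 𝒜 g = g * euler 𝒜 h := by
    apply hinj
    rw [map_mul, map_mul, ← hEu, ← hEu]
    have h1 := congrArg E hfg
    rw [Derivation.leibniz, hf, smul_zero, add_zero, smul_eq_mul] at h1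
    rw [← h1, ← hfg]
    ring
  have hd1 : g ∣ euler 𝒜 g := by
    have : g ∣ h * euler 𝒜 g := ⟨_, hkey⟩
    exact hrel.dvd_of_dvd_mul_left this
  obtain ⟨q, hq⟩ := hd1
  have hq' : euler 𝒜 h = q * h := by
    rw [hq] at hkey
    apply mul_left_cancel₀ hg0
    rw [← hkey]
    ring
  rw [mul_comm] at hq
  obtain ⟨k, hgk, hqk⟩ := ni6_homog hX.connected hg0 hq
  obtain ⟨l, hhl, hql⟩ := ni6_homog hX.connected hh0 hq'
  have hkl : k = l := by
    have h1 : algebraMap ℂ R k = algebraMap ℂ R l := hqk.symm.trans hql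
    have h2 := (algebraMap ℂ R).injective h1
    exact_mod_cast h2
  subst hkl
  refine ⟨k, ?_, g, hgk, h, hhl, hh0, hrel, hfg⟩
  by_contra hk
  obtain rfl : k = 0 := by omega
  obtain ⟨c, hc⟩ := hX.connected g hgk
  obtain ⟨d, hd⟩ := hX.connected h hhl
  have hd0 : d ≠ 0 := by
    rintro rfl
    exact hh0 (by rw [hd, map_zero])
  refine hf' (c / d) ?_
  have hd0' : algebraMap ℂ (FractionRing R) d ≠ 0 := by
    rw [Ne, map_eq_zero_iff _ (algebraMap ℂ (FractionRing R)).injective]
    exact hd0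
  rw [hc, hd, ← IsScalarTower.algebraMap_apply, ← IsScalarTower.algebraMap_apply] at hfg
  rw [map_div₀, eq_div_iff hd0', hfg]

end

end Vale.Agent.P292
end

section

/-! # Forms with vanishing Wronskian are proportional. -/

namespace Vale.Agent.P292

open MvPolynomial

universe u v

/-- Polynomials with vanishing Wronskian have the same degree. -/
theorem niw_natDegree {K : Type v} [Field K] [CharZero K] {g h : Polynomial K} (hg : g ≠ 0)
    (hh : h ≠ 0) (hW : Polynomial.derivative g * h = g * Polynomial.derivative h) :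
    g.natDegree = h.natDegree := by
  by_contra hne
  have h1 := congrArg (fun p => Polynomial.coeff p (g.natDegree + h.natDegree - 1)) hW
  have key : ∀ a b : Polynomial K, a ≠ 0 → b ≠ 0 → 0 < a.natDegree + b.natDegree →
      (Polynomial.derivative a * b).coeff (a.natDegree + b.natDegree - 1) =
      a.natDegree * (a.leadingCoeff * b.leadingCoeff) := by
    intro a b ha hb hab
    rcases Nat.eq_zero_or_pos a.natDegree with h0 | h0
    · rw [Polynomial.eq_C_of_natDegree_eq_zero h0]
      simp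
    · have h2 : a.natDegree + b.natDegree - 1 = (a.natDegree - 1) + b.natDegree := by omega
      rw [h2, Polynomial.coeff_mul_add_eq_of_natDegree_le (Polynomial.natDegree_derivative_le a) le_rfl,
        Polynomial.coeff_derivative, Nat.sub_add_cancel h0]
      push_cast [Nat.cast_sub h0]
      rw [Polynomial.leadingCoeff, Polynomial.leadingCoeff]
      ring
  have hpos : 0 < g.natDegree + h.natDegree := by omega
  rw [key g h hg hh hpos, mul_comm g, add_comm g.natDegree,
    key h g hh hg (by omega), mul_comm h.leadingCoeff] at h1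
  have h2 : g.leadingCoeff * h.leadingCoeff ≠ 0 :=
    mul_ne_zero (Polynomial.leadingCoeff_ne_zero.2 hg) (Polynomial.leadingCoeff_ne_zero.2 hh)
  have h3 := mul_right_cancel₀ h2 h1
  exact hne (by exact_mod_cast h3)

/-- Polynomials with vanishing Wronskian are proportional. -/
theorem niw_poly {K : Type v} [Field K] [CharZero K] {g h : Polynomial K} (hg : g ≠ 0)
    (hh : h ≠ 0) (hW : Polynomial.derivative g * h = g * Polynomial.derivative h) :
    ∃ c : K, g = Polynomial.C c * h := by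
  refine ⟨g.leadingCoeff / h.leadingCoeff, ?_⟩
  by_contra hne
  set c := g.leadingCoeff / h.leadingCoeff with hc
  have hl : h.leadingCoeff ≠ 0 := Polynomial.leadingCoeff_ne_zero.2 hh
  have h0 : g - Polynomial.C c * h ≠ 0 := sub_ne_zero.2 hne
  have h1 : Polynomial.derivative (g - Polynomial.C c * h) * h =
      (g - Polynomial.C c * h) * Polynomial.derivative h := by
    rw [Polynomial.derivative_sub, Polynomial.derivative_C_mul, sub_mul, hW]
    ring
  have h2 := niw_natDegree h0 hh h1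
  have h3 := niw_natDegree hg hh hW
  have h4 : (g - Polynomial.C c * h).coeff h.natDegree = 0 := by
    rw [Polynomial.coeff_sub, Polynomial.coeff_C_mul]
    change _ - _ * h.leadingCoeff = 0
    rw [← h3]
    change g.leadingCoeff - _ = 0
    rw [hc, div_mul_cancel₀ _ hl, sub_self]
  rw [← h2] at h4
  exact h0 (Polynomial.leadingCoeff_eq_zero.1 h4)

/-- Forms with vanishing Wronskian are proportional. -/
theorem niw_forms {K : Type v} [Field K] [CharZero K] {k : ℕ} {G H : MvPolynomial (Fin 2) K}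
    (hG : G.IsHomogeneous k) (hH : H.IsHomogeneous k) (hG0 : G ≠ 0) (hH0 : H ≠ 0)
    (hW : pderiv 1 G * H = G * pderiv 1 H) : ∃ c : K, c ≠ 0 ∧ G = C c * H := by
  have hg := ni7D_ne hG hG0 (one_ne_zero (α := K))
  have hh := ni7D_ne hH hH0 (one_ne_zero (α := K))
  obtain ⟨c, hc⟩ := niw_poly hg hh (by
    rw [ni7D_derivative, ni7D_derivative, ← map_mul, ← map_mul, hW])
  have hGH : G = C c * H := by
    by_contra hne
    have h1 : (G - C c * H).IsHomogeneous k := by
      have := (isHomogeneous_C (Fin 2) c).mul hH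
      rw [zero_add] at this
      exact hG.sub this
    refine ni7D_ne h1 (sub_ne_zero.2 hne) (one_ne_zero (α := K)) ?_
    have h2 : ni7D (1 : K) (C c) = Polynomial.C c := (ni7D 1).commutes c
    rw [map_sub, map_mul, h2, hc, sub_self]
  refine ⟨c, ?_, hGH⟩
  rintro rfl
  rw [map_zero, zero_mul] at hGH
  exact hG0 hGH

end Vale.Agent.P292
end

section

set_option linter.all false

/-! # Q2 part I, block H: spreading out of a conic with jointly generic ends. -/

namespace Vale.Agent.P292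

open MvPolynomial TensorProduct

universe u v

theorem h_eval_nat {A : Type*} {B : Type*} [CommRing A] [CommRing B] (f : A →+* B)
    (a : Fin 2 → ℕ) (p : MvPolynomial (Fin 2) A) :
    eval (fun i => (a i : B)) (map f p) = f (eval (fun i => (a i : A)) p) := by
  rw [eval_map, ← eval₂_id, hom_eval₂]
  congr 1
  funext i
  exact (map_natCast _ _).symm

section

variable {R : Type u} [CommRing R] [Algebra ℂ R] {𝒜 : ℕ → Submodule ℂ R} {d : ℕ}
  {E : Type v} [Field E] [Algebra ℂ E] {φ : R →ₐ[ℂ] MvPolynomial (Fin 2) E}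

/-- A model of a curve over a finitely generated algebra, all of whose closed members are
curves. -/
theorem IsCurve.h_exists_model [Algebra.FiniteType ℂ R] [IsAlgClosed E] (hφ : IsCurve 𝒜 d φ)
    (F : Finset E) :
    ∃ (A₀ : Subalgebra ℂ E) (_ : Algebra.FiniteType ℂ A₀)
      (φ₀ : R →ₐ[ℂ] MvPolynomial (Fin 2) A₀),
      (↑F : Set E) ⊆ A₀ ∧ (∀ r, map (algebraMap A₀ E) (φ₀ r) = φ r) ∧
      ∀ σ : A₀ →ₐ[ℂ] ℂ, IsCurve 𝒜 d ((mapAlgHom σ).comp φ₀) := by
  classical
  obtain ⟨G, hG⟩ := Algebra.FiniteType.out (R := ℂ) (A := R)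
  obtain ⟨N0, n0, c0, r0, k0, hk0, hr0, h0⟩ := hφ.exists_pow 0
  obtain ⟨N1, n1, c1, r1, k1, hk1, hr1, h1⟩ := hφ.exists_pow 1
  set S : Finset E := F ∪ G.biUnion (fun g => (φ g).coeffs) ∪
    (Finset.univ.biUnion fun j => (c0 j).coeffs) ∪
    (Finset.univ.biUnion fun j => (c1 j).coeffs) with hS
  set A₀ : Subalgebra ℂ E := Algebra.adjoin ℂ (S : Set E) with hA
  have hSA : (S : Set E) ⊆ A₀ := Algebra.subset_adjoin
  have : Algebra.FiniteType ℂ A₀ :=
    (Subalgebra.fg_iff_finiteType A₀).mp (Subalgebra.fg_adjoin_finset _)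
  set M : MvPolynomial (Fin 2) A₀ →ₐ[ℂ] MvPolynomial (Fin 2) E := mapAlgHom A₀.val with hMdef
  have hMapp : ∀ p, M p = map (algebraMap A₀ E) p := fun p => rfl
  have hM : Function.Injective M := map_injective _ Subtype.val_injective
  have hmem : ∀ p : MvPolynomial (Fin 2) E, (p.coeffs : Set E) ⊆ A₀ → ∃ q, M q = p := by
    intro p hp
    have : p ∈ Set.range (MvPolynomial.map (algebraMap A₀ E)) := by
      rw [mem_range_map_iff_coeffs_subset]
      intro e he
      exact ⟨⟨e, hp he⟩, rfl⟩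
    exact this
  have hrange : ∀ r, φ r ∈ M.range := by
    intro r
    have h2 : φ.range ≤ M.range := by
      rw [← Algebra.map_top, ← hG, AlgHom.map_adjoin, Algebra.adjoin_le_iff]
      rintro _ ⟨g, hg, rfl⟩
      obtain ⟨q, hq⟩ := hmem (φ g) (by
        refine subset_trans ?_ hSA
        rw [hS]
        intro e he
        simp only [Finset.coe_union, Set.mem_union, Finset.mem_coe, Finset.mem_biUnion]
        exact Or.inl (Or.inl (Or.inr ⟨g, hg, he⟩)))
      exact ⟨q, hq⟩
    exact h2 ⟨r, rfl⟩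
  set e := AlgEquiv.ofInjective M hM with he
  set φ₀ : R →ₐ[ℂ] MvPolynomial (Fin 2) A₀ :=
    (e.symm : M.range →ₐ[ℂ] MvPolynomial (Fin 2) A₀).comp (φ.codRestrict M.range hrange) with hφ₀
  have hφ₀M : ∀ r, M (φ₀ r) = φ r := by
    intro r
    have : (e (φ₀ r) : MvPolynomial (Fin 2) E) = φ r := by
      rw [hφ₀]
      simp
    rw [← this]
    rfl
  refine ⟨A₀, this, φ₀, ?_, hφ₀M, fun σ => ⟨?_, ?_⟩⟩
  · refine subset_trans ?_ hSA
    rw [hS]
    intro e he
    simp only [Finset.coe_union, Set.mem_union]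
    exact Or.inl (Or.inl (Or.inl he))
  · intro k r hr m hm
    have hm' : coeff m (φ₀ r) ≠ 0 := by
      intro h
      apply hm
      change coeff m (map (σ : A₀ →+* ℂ) (φ₀ r)) = 0
      rw [coeff_map, h, map_zero]
    have h3 : coeff m (φ r) ≠ 0 := by
      rw [← hφ₀M r, hMapp, coeff_map]
      intro h
      apply hm'
      exact Subtype.val_injective (h.trans (map_zero (algebraMap A₀ E)).symm)
    exact hφ.degree k r hr h3
  · intro x hx
    have key : ∀ (i : Fin 2) (N n : ℕ) (c : Fin n → MvPolynomial (Fin 2) E) (r : Fin n → R)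
        (k : Fin n → ℕ), (∀ j, 0 < k j) → (∀ j, r j ∈ 𝒜 (k j)) →
        ∑ j, c j * φ (r j) = (X i : MvPolynomial (Fin 2) E) ^ N →
        (∀ j, ((c j).coeffs : Set E) ⊆ A₀) → x i ≠ 0 →
        ∃ k, 0 < k ∧ ∃ r ∈ 𝒜 k, aeval x (((mapAlgHom σ).comp φ₀) r) ≠ 0 := by
      intro i N n c r k hk hr hsum hc hxi
      choose q hq using fun j => hmem (c j) (hc j)
      have h5 : ∑ j, q j * φ₀ (r j) = X i ^ N := by
        apply hM
        rw [map_sum, map_pow]
        have : M (X i) = X i := by rw [hMapp, map_X]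
        rw [this, ← hsum]
        exact Finset.sum_congr rfl fun j _ => by rw [map_mul, hq, hφ₀M]
      by_contra hcon
      push Not at hcon
      have h6 : aeval x ((mapAlgHom σ : MvPolynomial (Fin 2) A₀ →ₐ[ℂ] _)
          (∑ j, q j * φ₀ (r j))) = 0 := by
        rw [map_sum, map_sum]
        refine Finset.sum_eq_zero fun j _ => ?_
        rw [map_mul, map_mul]
        have := hcon (k j) (hk j) (r j) (hr j)
        change aeval x ((mapAlgHom σ : MvPolynomial (Fin 2) A₀ →ₐ[ℂ] _) (φ₀ (r j))) = 0 at this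
        rw [this, mul_zero]
      rw [h5, map_pow, map_pow] at h6
      have h7 : (mapAlgHom σ : MvPolynomial (Fin 2) A₀ →ₐ[ℂ] _) (X i) = X i := by
        change map (σ : A₀ →+* ℂ) (X i) = X i
        rw [map_X]
      rw [h7, aeval_X] at h6
      exact pow_ne_zero N hxi h6
    have hx' : x 0 ≠ 0 ∨ x 1 ≠ 0 := by
      by_contra h
      push Not at h
      apply hx
      funext i
      fin_cases i
      · exact h.1
      · exact h.2
    rcases hx' with h | h
    · refine key 0 N0 n0 c0 r0 k0 hk0 hr0 h0 (fun j => ?_) h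
      refine subset_trans ?_ hSA
      rw [hS]
      intro e he
      simp only [Finset.coe_union, Set.mem_union, Finset.mem_coe, Finset.mem_biUnion]
      exact Or.inl (Or.inr ⟨j, Finset.mem_univ _, he⟩)
    · refine key 1 N1 n1 c1 r1 k1 hk1 hr1 h1 (fun j => ?_) h
      refine subset_trans ?_ hSA
      rw [hS]
      intro e he
      simp only [Finset.coe_union, Set.mem_union, Finset.mem_coe, Finset.mem_biUnion]
      exact Or.inr ⟨j, Finset.mem_univ _, he⟩


end

section

variable {R : Type u} [CommRing R] [Algebra ℂ R] {𝒜 : ℕ → Submodule ℂ R} [GradedAlgebra 𝒜]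
  {P : R →ₗ[ℂ] R →ₗ[ℂ] R}

/-- H: spreading out. -/
theorem isConicConnected_of_generic (hX : IsContactFano 𝒜 P) {K : Type v} [Field K]
    [IsAlgClosed K] [Algebra ℂ K] {φ : R →ₐ[ℂ] MvPolynomial (Fin 2) K} (hφ : IsCurve 𝒜 2 φ)
    (hinj : Function.Injective (Algebra.TensorProduct.lift (pt φ ![1, 0]) (pt φ ![0, 1])
      (fun _ _ => Commute.all _ _))) : IsConicConnected 𝒜 := by
  classical
  have := hX.domain
  have := hX.finiteType
  have hft2 : Algebra.FiniteType ℂ (R ⊗[ℂ] R) :=
    Algebra.FiniteType.trans (S := R) inferInstance inferInstance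
  have hdom : IsDomain (R ⊗[ℂ] R) := VF.isDomain_tensor
  obtain ⟨A₀, hA₀, φ₀, -, hφ₀, hσ⟩ := hφ.h_exists_model ∅
  let ev : (Fin 2 → ℕ) → R →ₐ[ℂ] A₀ := fun a =>
    ((aeval (fun i => (a i : A₀)) : MvPolynomial (Fin 2) A₀ →ₐ[A₀] A₀).restrictScalars ℂ).comp φ₀
  have hev : ∀ (a : Fin 2 → ℕ) r, ((ev a r : A₀) : K) = eval (fun i => (a i : K)) (φ r) := by
    intro a r
    rw [← hφ₀ r, h_eval_nat]
    change (algebraMap A₀ K) (aeval (fun i => (a i : A₀)) (φ₀ r)) = _
    rw [aeval_eq_eval]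
  let f : R ⊗[ℂ] R →ₐ[ℂ] A₀ := Algebra.TensorProduct.lift (ev ![1, 0]) (ev ![0, 1])
    (fun _ _ => Commute.all _ _)
  have hf : A₀.val.comp f = Algebra.TensorProduct.lift (pt φ ![1, 0]) (pt φ ![0, 1])
      (fun _ _ => Commute.all _ _) := by
    apply Algebra.TensorProduct.ext
    · ext r
      have h1 := hev ![1, 0] r
      simp only [f, AlgHom.comp_apply, Algebra.TensorProduct.includeLeft_apply,
        Algebra.TensorProduct.lift_tmul, map_one, mul_one, pt_apply]
      rw [Subalgebra.coe_val, h1]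
      congr 2
      funext i
      fin_cases i <;> simp
    · ext r
      have h1 := hev ![0, 1] r
      simp only [f, AlgHom.comp_apply, AlgHom.restrictScalars_apply,
        Algebra.TensorProduct.includeRight_apply,
        Algebra.TensorProduct.lift_tmul, map_one, one_mul, pt_apply]
      rw [Subalgebra.coe_val, h1]
      congr 2
      funext i
      fin_cases i <;> simp
  have hfinj : Function.Injective f := by
    have h1 : Function.Injective (A₀.val.comp f) := by rw [hf]; exact hinj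
    intro x y hxy
    apply h1
    rw [AlgHom.comp_apply, AlgHom.comp_apply, hxy]
  obtain ⟨G, hG, h⟩ := VF.exists_generic_lift f hfinj
  refine ⟨G, hG, fun p q hpq => ?_⟩
  obtain ⟨c, hc⟩ := h _ hpq
  refine ⟨(mapAlgHom c).comp φ₀, hσ c, ?_, ?_⟩
  · ext r
    have h1 : c (f (r ⊗ₜ 1)) = p r := by
      have := congrArg (fun g => g (r ⊗ₜ[ℂ] (1 : R))) hc
      simpa using this
    have h2 : f (r ⊗ₜ 1) = ev ![1, 0] r := by simp [f]
    rw [← h1, h2, pt_apply]
    have h3 : (fun i => ((![1, 0] : Fin 2 → ℕ) i : ℂ)) = ![1, 0] := by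
      funext i
      fin_cases i <;> simp
    change eval ![1, 0] (map (c : A₀ →+* ℂ) (φ₀ r)) = (c : A₀ →+* ℂ) (aeval _ (φ₀ r))
    rw [aeval_eq_eval, ← h3]
    exact h_eval_nat (c : A₀ →+* ℂ) ![1, 0] (φ₀ r)
  · ext r
    have h1 : c (f (1 ⊗ₜ r)) = q r := by
      have := congrArg (fun g => g ((1 : R) ⊗ₜ[ℂ] r)) hc
      simpa using this
    have h2 : f (1 ⊗ₜ r) = ev ![0, 1] r := by simp [f]
    rw [← h1, h2, pt_apply]
    have h3 : (fun i => ((![0, 1] : Fin 2 → ℕ) i : ℂ)) = ![0, 1] := by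
      funext i
      fin_cases i <;> simp
    change eval ![0, 1] (map (c : A₀ →+* ℂ) (φ₀ r)) = (c : A₀ →+* ℂ) (aeval _ (φ₀ r))
    rw [aeval_eq_eval, ← h3]
    exact h_eval_nat (c : A₀ →+* ℂ) ![0, 1] (φ₀ r)

end

end Vale.Agent.P292
end

section

/-! # P292, Mori step, F6: the Frobenius twist of a curve. -/

namespace Vale.Agent.P292.Mo

open Module

universe u v w

/-- `τ` is semilinear with respect to `σ`. -/
structure IsSl {k : Type u} [Field k] {K L : Type w} [Field K] [Algebra k K] [Field L] [Algebra k L]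
    (σ : k ≃+* k) (τ : L ≃+* K) : Prop where
  al : ∀ c, τ (algebraMap k L c) = algebraMap k K (σ c)

section tw

variable {k : Type u} [Field k] {K L : Type w} [Field K] [Algebra k K] [Field L] [Algebra k L]
  {σ : k ≃+* k} {τ : L ≃+* K} (hτ : IsSl σ τ)

include hτ

theorem IsSl.smul (c : k) (x : L) : τ (c • x) = σ c • τ x := by
  rw [Algebra.smul_def, Algebra.smul_def, map_mul, hτ.al]

theorem IsSl.sm (c : k) : τ.symm (algebraMap k K (σ c)) = algebraMap k L c := by
  rw [← hτ.al, τ.symm_apply_apply]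

/-- The twisted subspace. -/
def IsSl.S (U : Submodule k K) : Submodule k L where
  carrier := {x : L | τ x ∈ U}
  add_mem' := fun {a b} ha hb => by
    simp only [Set.mem_ofPred_eq, map_add] at ha hb ⊢
    exact U.add_mem ha hb
  zero_mem' := by
    simp only [Set.mem_ofPred_eq, map_zero]
    exact U.zero_mem
  smul_mem' := fun c x hx => by
    simp only [Set.mem_ofPred_eq, hτ.smul] at hx ⊢
    exact U.smul_mem _ hx

/-- The twisted subalgebra. -/
def IsSl.A (B : Subalgebra k K) : Subalgebra k L where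
  carrier := {x : L | τ x ∈ B}
  add_mem' := fun {a b} ha hb => by
    simp only [Set.mem_ofPred_eq, map_add] at ha hb ⊢
    exact B.add_mem ha hb
  mul_mem' := fun {a b} ha hb => by
    simp only [Set.mem_ofPred_eq, map_mul] at ha hb ⊢
    exact B.mul_mem ha hb
  algebraMap_mem' := fun c => by
    simp only [Set.mem_ofPred_eq, hτ.al]
    exact B.algebraMap_mem _

theorem IsSl.mem_S {U : Submodule k K} {x : L} : x ∈ hτ.S U ↔ τ x ∈ U := Iff.rfl

theorem IsSl.mem_A {B : Subalgebra k K} {x : L} : x ∈ hτ.A B ↔ τ x ∈ B := Iff.rfl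

theorem IsSl.toS_A (B : Subalgebra k K) :
    Subalgebra.toSubmodule (hτ.A B) = hτ.S (Subalgebra.toSubmodule B) := by
  ext x
  rfl

theorem IsSl.S_inf (U W : Submodule k K) : hτ.S U ⊓ hτ.S W = hτ.S (U ⊓ W) := by
  ext x
  rfl

theorem IsSl.S_sup (U W : Submodule k K) : hτ.S U ⊔ hτ.S W = hτ.S (U ⊔ W) := by
  ext x
  rw [hτ.mem_S, Submodule.mem_sup, Submodule.mem_sup]
  constructor
  · rintro ⟨y, hy, z, hz, rfl⟩
    exact ⟨τ y, hy, τ z, hz, (map_add τ y z).symm⟩
  · rintro ⟨y, hy, z, hz, h⟩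
    refine ⟨τ.symm y, ?_, τ.symm z, ?_, ?_⟩
    · rw [hτ.mem_S, τ.apply_symm_apply]
      exact hy
    · rw [hτ.mem_S, τ.apply_symm_apply]
      exact hz
    · apply τ.injective
      rw [map_add, τ.apply_symm_apply, τ.apply_symm_apply, h]

theorem IsSl.S_map (U : Submodule k K) (a : L) :
    (hτ.S U).map (LinearMap.mulLeft k a) = hτ.S (U.map (LinearMap.mulLeft k (τ a))) := by
  ext x
  rw [hτ.mem_S, Submodule.mem_map, Submodule.mem_map]
  constructor
  · rintro ⟨y, hy, rfl⟩
    exact ⟨τ y, hy, by rw [LinearMap.mulLeft_apply, LinearMap.mulLeft_apply, map_mul]⟩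
  · rintro ⟨y, hy, h⟩
    refine ⟨τ.symm y, ?_, ?_⟩
    · rw [hτ.mem_S, τ.apply_symm_apply]
      exact hy
    · apply τ.injective
      rw [LinearMap.mulLeft_apply, map_mul, τ.apply_symm_apply, ← h, LinearMap.mulLeft_apply]

omit hτ in
theorem sl_fin {M M' : Type w} [AddCommGroup M] [Module k M] [AddCommGroup M']
    [Module k M'] (e : M ≃+ M') (he : ∀ (c : k) x, e (c • x) = σ c • e x) :
    finrank k M = finrank k M' ∧ (FiniteDimensional k M' → FiniteDimensional k M) := by
  have h : Module.rank k M = Module.rank k M' := rank_eq_of_equiv_equiv _ e σ.bijective he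
  refine ⟨by rw [finrank, finrank, h], fun h' => ?_⟩
  rw [FiniteDimensional, ← Module.rank_lt_aleph0_iff, h, Module.rank_lt_aleph0_iff]
  exact h'

/-- identity on a subspace -/
def IsSl.E (U : Submodule k K) : ↥(hτ.S U) ≃+ ↥U where
  toFun x := ⟨τ x.1, x.2⟩
  invFun x := ⟨τ.symm x.1, by rw [hτ.mem_S, τ.apply_symm_apply]; exact x.2⟩
  left_inv x := Subtype.ext (τ.symm_apply_apply _)
  right_inv x := Subtype.ext (τ.apply_symm_apply _)
  map_add' x y := Subtype.ext (map_add τ _ _)

theorem IsSl.E_smul (U : Submodule k K) (c : k) (x : ↥(hτ.S U)) :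
    hτ.E U (c • x) = σ c • hτ.E U x :=
  Subtype.ext (hτ.smul c x.1)

theorem IsSl.fin_sub (U : Submodule k K) :
    finrank k ↥(hτ.S U) = finrank k ↥U ∧ (FiniteDimensional k ↥U → FiniteDimensional k ↥(hτ.S U)) :=
  sl_fin (hτ.E U) (hτ.E_smul U)

/-- identity on a quotient of a subspace -/
def IsSl.Q (U W : Submodule k K) :
    (↥(hτ.S U) ⧸ (hτ.S W).comap (hτ.S U).subtype) ≃+ (↥U ⧸ W.comap U.subtype) :=
  QuotientAddGroup.congr ((hτ.S W).comap (hτ.S U).subtype).toAddSubgroup
    (W.comap U.subtype).toAddSubgroup (hτ.E U) (by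
      ext x
      constructor
      · rintro ⟨y, hy, rfl⟩
        exact hy
      · intro hx
        refine ⟨(hτ.E U).symm x, ?_, (hτ.E U).apply_symm_apply x⟩
        change τ (τ.symm x.1) ∈ W
        rw [τ.apply_symm_apply]
        exact hx)

theorem IsSl.fin_quot (U W : Submodule k K) :
    finrank k (↥(hτ.S U) ⧸ (hτ.S W).comap (hτ.S U).subtype) =
      finrank k (↥U ⧸ W.comap U.subtype) ∧
    (FiniteDimensional k (↥U ⧸ W.comap U.subtype) →
      FiniteDimensional k (↥(hτ.S U) ⧸ (hτ.S W).comap (hτ.S U).subtype)) := by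
  refine sl_fin (σ := σ) (hτ.Q U W) fun c x => ?_
  obtain ⟨x, rfl⟩ := Submodule.Quotient.mk_surjective _ x
  change Submodule.Quotient.mk (hτ.E U (c • x)) = _
  rw [hτ.E_smul]
  rfl

/-- identity on the quotient of the whole space -/
def IsSl.T (W : Submodule k K) : (L ⧸ hτ.S W) ≃+ (K ⧸ W) :=
  QuotientAddGroup.congr (hτ.S W).toAddSubgroup W.toAddSubgroup τ.toAddEquiv (by
      ext x
      constructor
      · rintro ⟨y, hy, rfl⟩
        exact hy
      · intro hx
        refine ⟨τ.symm x, ?_, τ.apply_symm_apply x⟩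
        change τ (τ.symm x) ∈ W
        rw [τ.apply_symm_apply]
        exact hx)

theorem IsSl.fin_top (W : Submodule k K) :
    finrank k (L ⧸ hτ.S W) = finrank k (K ⧸ W) ∧
    (FiniteDimensional k (K ⧸ W) → FiniteDimensional k (L ⧸ hτ.S W)) := by
  refine sl_fin (σ := σ) (hτ.T W) fun c x => ?_
  obtain ⟨x, rfl⟩ := Submodule.Quotient.mk_surjective _ x
  change Submodule.Quotient.mk (τ (c • x)) = _
  rw [hτ.smul]
  rfl

theorem IsSl.relIdx (U W : Submodule k K) : relIdx (hτ.S U) (hτ.S W) = relIdx U W := by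
  rw [Mo.relIdx, Mo.relIdx, (hτ.fin_quot U W).1, (hτ.fin_quot W U).1]

theorem IsSl.idx (B : Subalgebra k K) (x : L) : idx (hτ.A B) x = idx B (τ x) := by
  rw [Mo.idx, Mo.idx, hτ.toS_A, hτ.S_map, hτ.relIdx]

theorem IsSl.chi0 (A₀ A₁ : Subalgebra k K) : chi0 (hτ.A A₀) (hτ.A A₁) = chi0 A₀ A₁ := by
  rw [Mo.chi0, Mo.chi0, hτ.toS_A, hτ.toS_A, hτ.S_inf, hτ.S_sup, (hτ.fin_sub _).1, (hτ.fin_top _).1]

theorem IsSl.cd {A₀ A₁ : Subalgebra k K} (h : IsCD A₀ A₁) : IsCD (hτ.A A₀) (hτ.A A₁) where
  fin0 := by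
    rw [hτ.toS_A, hτ.toS_A, hτ.S_inf]
    exact (hτ.fin_sub _).2 h.fin0
  fin1 := by
    rw [hτ.toS_A, hτ.toS_A, hτ.S_sup]
    exact (hτ.fin_top _).2 h.fin1
  finQ := by
    intro a ha ha0
    rw [hτ.toS_A, hτ.S_map]
    exact (hτ.fin_quot _ _).2 (h.finQ (τ a) ha ((map_ne_zero τ).2 ha0))
  frac := by
    intro x
    obtain ⟨a, ha, b, hb, hb0, hx⟩ := h.frac (τ x)
    refine ⟨τ.symm a, ?_, τ.symm b, ?_, (map_ne_zero τ.symm).2 hb0, ?_⟩
    · rw [hτ.mem_A, τ.apply_symm_apply]
      exact ha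
    · rw [hτ.mem_A, τ.apply_symm_apply]
      exact hb
    · apply τ.injective
      rw [map_div₀, τ.apply_symm_apply, τ.apply_symm_apply, hx]

/-- The ring isomorphism between a subalgebra and its twist. -/
def IsSl.R (B : Subalgebra k K) : ↥(hτ.A B) ≃+* ↥B where
  toFun x := ⟨τ x.1, x.2⟩
  invFun x := ⟨τ.symm x.1, by rw [hτ.mem_A, τ.apply_symm_apply]; exact x.2⟩
  left_inv x := Subtype.ext (τ.symm_apply_apply _)
  right_inv x := Subtype.ext (τ.apply_symm_apply _)
  map_add' x y := Subtype.ext (map_add τ _ _)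
  map_mul' x y := Subtype.ext (map_mul τ _ _)

theorem IsSl.R_algebraMap (B : Subalgebra k K) (c : k) :
    hτ.R B (algebraMap k _ c) = algebraMap k _ (σ c) := Subtype.ext (hτ.al c)

/-- Closed points of the twist. -/
noncomputable def IsSl.pt (B : Subalgebra k K) (c : B →ₐ[k] k) : hτ.A B →ₐ[k] k where
  toRingHom := (σ.symm.toRingHom.comp c.toRingHom).comp (hτ.R B).toRingHom
  commutes' r := by
    change σ.symm (c (hτ.R B (algebraMap k _ r))) = _
    rw [hτ.R_algebraMap, AlgHom.commutes]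
    exact σ.symm_apply_apply r

theorem IsSl.pt_apply (B : Subalgebra k K) (c : B →ₐ[k] k) (x : hτ.A B) :
    hτ.pt B c x = σ.symm (c (hτ.R B x)) := rfl

/-- Closed points of the curve from closed points of the twist. -/
noncomputable def IsSl.pt' (B : Subalgebra k K) (c : hτ.A B →ₐ[k] k) : B →ₐ[k] k where
  toRingHom := (σ.toRingHom.comp c.toRingHom).comp (hτ.R B).symm.toRingHom
  commutes' r := by
    change σ (c ((hτ.R B).symm (algebraMap k _ r))) = _
    have : (hτ.R B).symm (algebraMap k _ r) = algebraMap k _ (σ.symm r) := by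
      apply (hτ.R B).injective
      rw [hτ.R_algebraMap, RingEquiv.apply_symm_apply, RingEquiv.apply_symm_apply]
    rw [this, AlgHom.commutes]
    exact σ.apply_symm_apply r

theorem IsSl.pt'_apply (B : Subalgebra k K) (c : hτ.A B →ₐ[k] k) (x : B) :
    hτ.pt' B c x = σ (c ((hτ.R B).symm x)) := rfl

end tw

section main

variable {k : Type u} [Field k] {K : Type w} [Field K] [Algebra k K]

theorem map_mem_A₀ {R : Type v} [CommRing R] [Algebra k R] {𝒜 : ℕ → Submodule k R}
    [GradedAlgebra 𝒜] {A₀ A₁ : Subalgebra k K} {u : K} {φ : R →ₐ[k] K} (h : IsMp 𝒜 A₀ A₁ u φ)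
    (r : R) : φ r ∈ A₀ := by
  classical
  rw [← DirectSum.sum_support_decompose 𝒜 r, map_sum]
  exact sum_mem fun n _ => (h.sec n _ (SetLike.coe_mem _)).1

theorem exists_twist {R : Type v} [CommRing R] [Algebra k R] {𝒜 : ℕ → Submodule k R}
    [GradedAlgebra 𝒜] {P : R →ₗ[k] R →ₗ[k] R} [IsAlgClosed k] (p : ℕ) [Fact p.Prime] [CharP k p]
    (j : ℕ) (hP : IsPM 𝒜 P) {A₀ A₁ : Subalgebra k K} {u : K} {φ : R →ₐ[k] K} {f : R}
    (h : IsGC 𝒜 P A₀ A₁ u φ f) :
    ∃ (A₀' A₁' : Subalgebra k (Tw p j K)) (u' : Tw p j K) (φ' : R →ₐ[k] Tw p j K),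
      IsGC 𝒜 P A₀' A₁' u' φ' f ∧ chi0 A₀' A₁' = chi0 A₀ A₁ ∧
      idx A₁' u' = p ^ j * idx A₁ u := by
  have hpp : p.Prime := Fact.out
  set q : ℕ := p ^ j with hq
  have hq0 : 0 < q := pow_pos hpp.pos j
  have hs : Function.Surjective (iterateFrobenius k p j) := by
    intro c
    obtain ⟨z, hz⟩ := IsAlgClosed.exists_pow_nat_eq c hq0
    exact ⟨z, by rw [iterateFrobenius_def, hz]⟩
  have : CharP K p := charP_of_injective_algebraMap (algebraMap k K).injective p
  let σ : k ≃+* k := RingEquiv.ofBijective (iterateFrobenius k p j)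
    ⟨(iterateFrobenius k p j).injective, hs⟩
  have hσ : ∀ c, σ c = c ^ q := fun c => iterateFrobenius_def p j c
  let τ : Tw p j K ≃+* K := RingEquiv.refl K
  have hτ : IsSl σ τ := ⟨fun c => rfl⟩
  have hadd : ∀ x y : K, (x + y) ^ q = x ^ q + y ^ q := by
    intro x y
    have := map_add (iterateFrobenius K p j) x y
    simpa only [iterateFrobenius_def] using this
  let φ' : R →ₐ[k] Tw p j K :=
    { toFun := fun r => τ.symm (φ r ^ q)
      map_one' := by rw [map_one, one_pow, map_one]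
      map_mul' := fun x y => by rw [map_mul, mul_pow, map_mul]
      map_zero' := by rw [map_zero, zero_pow hq0.ne', map_zero]
      map_add' := fun x y => by rw [map_add, hadd, map_add]
      commutes' := fun c => by
        rw [AlgHom.commutes, ← map_pow, ← hσ, hτ.sm] }
  have hφ' : ∀ r, τ (φ' r) = φ r ^ q := fun r => τ.apply_symm_apply _
  have hne : ∀ r, φ r ≠ 0 → φ' r ≠ 0 := by
    intro r hr h0
    have := hφ' r
    rw [h0, map_zero] at this
    exact pow_ne_zero q hr this.symm
  set u' : Tw p j K := τ.symm (u ^ q) with hu'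
  have hτu : τ u' = u ^ q := τ.apply_symm_apply _
  have hidx : idx (hτ.A A₁) u' = p ^ j * idx A₁ u := by
    rw [hτ.idx, hτu, h.cd.idx_pow h.mp.u_ne, hq]
    push_cast
    rfl
  refine ⟨hτ.A A₀, hτ.A A₁, u', φ', ?_, hτ.chi0 A₀ A₁, hidx⟩
  refine
    { cd := hτ.cd h.cd
      mp := ?_
      idx_pos := ?_
      P1 := ?_
      P2 := ?_
      frames := ?_
      exp := ?_
      inf := ?_
      frac0 := fun x => by
        obtain ⟨a, ha, b, hb, hb0, hx⟩ := h.frac0 (τ x)
        refine ⟨τ.symm a, ?_, τ.symm b, ?_, (map_ne_zero τ.symm).2 hb0, ?_⟩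
        · rw [hτ.mem_A, τ.apply_symm_apply]
          exact ha
        · rw [hτ.mem_A, τ.apply_symm_apply]
          exact hb
        · rw [← map_div₀, ← hx, τ.symm_apply_apply] }
  · refine ⟨?_, ?_, ?_, ?_⟩
    · rw [hu']
      exact (map_ne_zero τ.symm).2 (pow_ne_zero q h.mp.u_ne)
    · intro n r hr
      obtain ⟨h1, h2⟩ := mem_Sec.1 (h.mp.sec n r hr)
      refine mem_Sec.2 ⟨?_, ?_⟩
      · rw [hτ.mem_A, hφ']
        exact pow_mem h1 q
      · rw [hτ.mem_A, map_mul, map_pow, hφ', hτu, ← pow_mul, mul_comm q n, pow_mul, ← mul_pow]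
        exact pow_mem h2 q
    · obtain ⟨n, hn, r, hr, h1, h2⟩ := h.mp.unit0
      refine ⟨n, hn, r, hr, hne r h1, ?_⟩
      rw [hτ.mem_A, map_inv₀, hφ', ← inv_pow]
      exact pow_mem h2 q
    · obtain ⟨n, hn, r, hr, h1, h2⟩ := h.mp.unit1
      refine ⟨n, hn, r, hr, hne r h1, ?_⟩
      rw [hτ.mem_A, map_inv₀, map_mul, map_pow, hφ', hτu, ← pow_mul, mul_comm q n, pow_mul, ← mul_pow,
        ← inv_pow]
      exact pow_mem h2 q
  · rw [hidx]
    exact mul_pos (pow_pos (by exact_mod_cast hpp.pos) j) h.idx_pos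
  · intro V hV
    let V' : ValuationSubring K := V.comap τ.symm.toRingHom
    have hV' : ∀ x : K, x ∈ V' ↔ τ.symm x ∈ V := fun x => Iff.rfl
    rcases h.P1 V' (fun c => by
      rw [hV']
      have := hτ.sm (σ.symm c)
      rw [σ.apply_symm_apply] at this
      rw [this]
      exact hV _) with h1 | h1
    · refine Or.inl fun a ha => ?_
      have := h1 (τ a) ha
      rw [hV', τ.symm_apply_apply] at this
      exact this
    · refine Or.inr fun a ha => ?_
      have := h1 (τ a) ha
      rw [hV', τ.symm_apply_apply] at this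
      exact this
  · intro 𝔭 h𝔭 h0 y
    obtain ⟨a, rfl⟩ := Ideal.Quotient.mk_surjective y
    let e := (hτ.R A₀)
    have hp' : (𝔭.comap e.symm.toRingHom).IsPrime := Ideal.IsPrime.comap _
    have h0' : 𝔭.comap e.symm.toRingHom ≠ ⊥ := by
      intro hb
      apply h0
      rw [eq_bot_iff]
      intro x hx
      have : e x ∈ 𝔭.comap e.symm.toRingHom := by
        rw [Ideal.mem_comap]
        change e.symm (e x) ∈ 𝔭
        rwa [e.symm_apply_apply]
      rw [hb, Ideal.mem_bot] at this
      rw [Ideal.mem_bot]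
      exact (map_eq_zero_iff e e.injective).1 this
    obtain ⟨c, hc⟩ := h.P2 _ hp' h0' (Ideal.Quotient.mk _ (e a))
    refine ⟨σ.symm c, ?_⟩
    have hc' : algebraMap k A₀ c - e a ∈ 𝔭.comap e.symm.toRingHom := by
      rw [← Ideal.Quotient.eq]
      exact hc
    rw [Ideal.mem_comap] at hc'
    change e.symm (algebraMap k A₀ c - e a) ∈ 𝔭 at hc'
    have h2 : e.symm (algebraMap k A₀ c) = algebraMap k _ (σ.symm c) := by
      apply e.injective
      rw [e.apply_symm_apply]
      have := hτ.R_algebraMap A₀ (σ.symm c)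
      rw [σ.apply_symm_apply] at this
      exact this.symm
    rw [map_sub, e.symm_apply_apply, h2] at hc'
    exact Ideal.Quotient.eq.2 hc'
  · obtain ⟨N, hN, x, d, g, x', d', g', h1, h2⟩ := h.frames
    refine ⟨N, hN, x, d, g, x', d', g', ⟨h1.fr, hne _ h1.g_ne, hne _ h1.det_ne, ?_⟩,
      ⟨h2.fr, hne _ h2.g_ne, hne _ h2.det_ne, ?_⟩⟩
    · rw [hτ.mem_A, map_inv₀, hφ', ← inv_pow]
      exact pow_mem h1.unit q
    · rw [hτ.mem_A, map_inv₀, map_mul, map_zpow₀, hφ', hτu]
      have : ∀ m : ℤ, (u ^ q) ^ m = (u ^ m) ^ q := by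
        intro m
        rw [← zpow_natCast, ← zpow_natCast, ← zpow_mul, ← zpow_mul, mul_comm]
      rw [this, ← mul_pow, ← inv_pow]
      exact pow_mem h2.unit q
  · intro c
    obtain ⟨ex, he1, he2, he3⟩ := h.exp (hτ.pt' A₀ c)
    let e := (hτ.R A₀)
    let ex' : hτ.A A₀ →ₐ[k] PowerSeries k :=
      { toRingHom := ((PowerSeries.map σ.symm.toRingHom).comp ex.toRingHom).comp e.toRingHom
        commutes' := fun r => by
          change PowerSeries.map σ.symm.toRingHom (ex (e (algebraMap k _ r))) = _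
          rw [hτ.R_algebraMap, AlgHom.commutes, PowerSeries.algebraMap_apply,
            PowerSeries.algebraMap_apply, PowerSeries.map_C]
          congr 1
          exact σ.symm_apply_apply r }
    have hex' : ∀ x, ex' x = PowerSeries.map σ.symm.toRingHom (ex (e x)) := fun x => rfl
    refine ⟨ex', ?_, ?_, ?_⟩
    · intro x y hxy
      rw [hex', hex'] at hxy
      have h1 : Function.Injective (PowerSeries.map σ.symm.toRingHom) := by
        intro s t hst
        ext n
        have := congrArg (PowerSeries.coeff n) hst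
        rw [PowerSeries.coeff_map, PowerSeries.coeff_map] at this
        exact σ.symm.injective this
      exact e.injective (he1 (h1 hxy))
    · intro a
      rw [hex']
      have h1 := he2 (e a)
      rw [hτ.pt'_apply] at h1
      change _ = σ (c (e.symm (e a))) at h1
      rw [e.symm_apply_apply] at h1
      rw [← PowerSeries.coeff_zero_eq_constantCoeff_apply, PowerSeries.coeff_map,
        PowerSeries.coeff_zero_eq_constantCoeff_apply, h1]
      exact σ.symm_apply_apply _
    · intro n s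
      obtain ⟨a, ha⟩ := he3 n (PowerSeries.map σ.toRingHom s)
      refine ⟨e.symm a, ?_⟩
      rw [hex', e.apply_symm_apply]
      have h1 := map_dvd (PowerSeries.map σ.symm.toRingHom) ha
      rw [map_pow, PowerSeries.map_X, map_sub] at h1
      have h2 : PowerSeries.map σ.symm.toRingHom (PowerSeries.map σ.toRingHom s) = s := by
        ext m
        rw [PowerSeries.coeff_map, PowerSeries.coeff_map]
        exact σ.symm_apply_apply _
      rwa [h2] at h1
  · have hf : φ f ∈ A₀ := map_mem_A₀ h.mp f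
    refine (h.inf.image (f := fun c => hτ.pt A₀ c) ?_).mono ?_
    · intro c _ c' _ hcc
      refine AlgHom.ext fun x => ?_
      have h1 := DFunLike.congr_fun hcc ((hτ.R A₀).symm x)
      change hτ.pt A₀ c _ = hτ.pt A₀ c' _ at h1
      rw [hτ.pt_apply, hτ.pt_apply, RingEquiv.apply_symm_apply] at h1
      exact σ.symm.injective h1
    · rintro _ ⟨c, hc, rfl⟩ hm
      change hτ.pt A₀ c _ ≠ 0
      rw [hτ.pt_apply]
      have h1 : hτ.R A₀ ⟨φ' f, hm⟩ = (⟨φ f, hf⟩ : A₀) ^ q := Subtype.ext (hφ' f)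
      rw [h1, map_pow, ← hσ, σ.symm_apply_apply]
      exact hc hf

end main

end Vale.Agent.P292.Mo
end

section

/-! Block II.c: from a family over an affine parameter scheme to a Laurent series family. -/

namespace Vale.Agent.P292.Mo.Fm

open TensorProduct
open Vale.Agent.P292.Mo.Sc

section mapL

variable {k : Type*} [Field k]

lemma algebraMap_laurent {B : Type*} [CommRing B] [Algebra k B] (c : k) :
    algebraMap k (LaurentSeries B) c = HahnSeries.C (algebraMap k B c) := by
  rw [HahnSeries.algebraMap_apply', PowerSeries.algebraMap_apply, HahnSeries.ofPowerSeries_C]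

lemma C_mul_coeff {B : Type*} [CommRing B] (c : B) (x : LaurentSeries B) (i : ℤ) :
    (HahnSeries.C c * x).coeff i = c * x.coeff i := by
  rw [HahnSeries.C_mul_eq_smul, HahnSeries.coeff_smul, smul_eq_mul]

/-- extension of coefficients of Laurent series -/
noncomputable def mapR (k B : Type*) [Field k] [CommRing B] [Algebra k B] :
    LaurentSeries k →+* LaurentSeries B where
  toFun x := HahnSeries.map x (algebraMap k B)
  map_one' := HahnSeries.map_one (algebraMap k B).toMonoidWithZeroHom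
  map_mul' x y := HahnSeries.map_mul (algebraMap k B).toNonUnitalRingHom
  map_zero' := by
    ext i
    exact map_zero (algebraMap k B)
  map_add' x y := by
    ext i
    exact map_add (algebraMap k B) (x.coeff i) (y.coeff i)

lemma mapR_coeff {B : Type*} [CommRing B] [Algebra k B] (x : LaurentSeries k) (i : ℤ) :
    (mapR k B x).coeff i = algebraMap k B (x.coeff i) := rfl

/-- extension of coefficients of Laurent series -/
noncomputable def mapL (k B : Type*) [Field k] [CommRing B] [Algebra k B] :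
    LaurentSeries k →ₐ[k] LaurentSeries B :=
  { mapR k B with
    commutes' := fun c => by
      rw [algebraMap_laurent, algebraMap_laurent]
      change mapR k B (HahnSeries.C c) = _
      ext i
      rw [mapR_coeff, HahnSeries.C_apply, HahnSeries.C_apply]
      by_cases hi : i = 0
      · rw [hi, HahnSeries.coeff_single_same, HahnSeries.coeff_single_same]
      · rw [HahnSeries.coeff_single_of_ne hi, HahnSeries.coeff_single_of_ne hi, map_zero] }

lemma mapL_coeff {B : Type*} [CommRing B] [Algebra k B] (x : LaurentSeries k) (i : ℤ) :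
    (mapL k B x).coeff i = algebraMap k B (x.coeff i) := rfl

/-- constant Laurent series -/
noncomputable def constL (k B : Type*) [Field k] [CommRing B] [Algebra k B] :
    B →ₐ[k] LaurentSeries B :=
  { (HahnSeries.C : B →+* LaurentSeries B) with
    commutes' := fun c => (algebraMap_laurent c).symm }

lemma constL_apply {B : Type*} [CommRing B] [Algebra k B] (b : B) :
    constL k B b = HahnSeries.C b := rfl

variable {D : Type*} [CommRing D] [Algebra k D] (f : D →ₐ[k] LaurentSeries k)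

/-- specialisation of the parameters to Laurent series -/
noncomputable def Lam (B : Type*) [CommRing B] [Algebra k B] : D ⊗[k] B →ₐ[k] LaurentSeries B :=
  Algebra.TensorProduct.productMap ((mapL k B).comp f) (constL k B)

lemma Lam_tmul {B : Type*} [CommRing B] [Algebra k B] (d : D) (b : B) :
    Lam f B (d ⊗ₜ b) = mapL k B (f d) * HahnSeries.C b := by
  rw [Lam, Algebra.TensorProduct.productMap_apply_tmul]
  rfl

lemma Lam_coeff_tmul {B : Type*} [CommRing B] [Algebra k B] (d : D) (b : B) (i : ℤ) :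
    (Lam f B (d ⊗ₜ b)).coeff i = (f d).coeff i • b := by
  rw [Lam_tmul, mul_comm, C_mul_coeff, mapL_coeff, Algebra.smul_def, mul_comm]

lemma lamB_coeff {K : Type*} [CommRing K] [Algebra k K] (l : K →ₗ[k] k) (y : D ⊗[k] K) (i : ℤ) :
    (f (lamB D l y)).coeff i = l ((Lam f K y).coeff i) := by
  induction y using TensorProduct.induction_on with
  | zero => simp
  | tmul d b =>
    rw [lamB_tmul, Lam_coeff_tmul, LinearMap.map_smul, smul_eq_mul, Algebra.smul_def, map_mul,
      AlgHom.commutes, algebraMap_laurent, C_mul_coeff, mul_comm]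
    rfl
  | add x y hx hy =>
    rw [map_add, map_add, map_add, HahnSeries.coeff_add, HahnSeries.coeff_add, map_add, hx, hy]

lemma Lam_coeff_mem {K : Type*} [CommRing K] [Algebra k K] {V : Submodule k K} {y : D ⊗[k] K}
    (hy : y ∈ InB D V) (i : ℤ) : (Lam f K y).coeff i ∈ V := by
  refine InB_induction D (p := fun y => (Lam f K y).coeff i ∈ V) ?_ ?_ ?_ hy
  · rw [map_zero]; exact zero_mem _
  · intro d v hv
    rw [Lam_coeff_tmul]
    exact V.smul_mem _ hv
  · intro x y hx hy
    rw [map_add, HahnSeries.coeff_add]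
    exact add_mem hx hy

lemma Lam_incB {K : Type*} [CommRing K] [Algebra k K] (S : Subalgebra k K) (y : D ⊗[k] S)
    (i : ℤ) : (Lam f K (incB D S y)).coeff i = (((Lam f S y).coeff i : S) : K) := by
  induction y using TensorProduct.induction_on with
  | zero => simp
  | tmul d b =>
    rw [incB_tmul, Lam_coeff_tmul, Lam_coeff_tmul]
    rfl
  | add x y hx hy =>
    rw [map_add, map_add, map_add, HahnSeries.coeff_add, HahnSeries.coeff_add, hx, hy]
    rfl

/-- a pole of the parameters gives a pole of the family -/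
lemma exists_pole_family {K : Type*} [CommRing K] [Algebra k K] {R : Type*} [CommRing R]
    [Algebra k R] (Ψ : R →ₐ[k] D ⊗[k] K)
    (hD : Algebra.adjoin k {d : D | ∃ r, ∃ l : K →ₗ[k] k, lamB D l (Ψ r) = d} = ⊤)
    (hf : ∃ a : D, f a ∉ Set.range (HahnSeries.ofPowerSeries ℤ k)) :
    ∃ r, ∃ i : ℤ, i < 0 ∧ (Lam f K (Ψ r)).coeff i ≠ 0 := by
  by_contra hcon
  push Not at hcon
  obtain ⟨a, ha⟩ := hf
  apply ha
  have h : f a ∈ (ofPS k k).range := by
    refine forall_mem_of_adjoin f _ hD _ ?_ a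
    rintro _ ⟨r, l, rfl⟩
    rw [mem_range_ofPS]
    intro i hi
    rw [lamB_coeff, hcon r i hi, map_zero]
  exact h

end mapL

section gens

variable {k : Type*} [Field k] {R : Type*} [CommRing R] [Algebra k R] (𝒜 : ℕ → Submodule k R)
  [GradedAlgebra 𝒜]

/-- homogeneous generators of positive degree -/
lemma exists_generators [hft : Algebra.FiniteType k R]
    (hconn : ∀ r ∈ 𝒜 0, ∃ c : k, r = algebraMap k R c) :
    ∃ s : Finset R, Algebra.adjoin k (s : Set R) = ⊤ ∧ ∀ x ∈ s, ∃ n, 0 < n ∧ x ∈ 𝒜 n := by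
  classical
  obtain ⟨t, ht⟩ := hft.out
  let s : Finset R := t.biUnion fun x =>
    ((DirectSum.decompose 𝒜 x).support.filter fun n => 0 < n).image
      fun n => ((DirectSum.decompose 𝒜 x n : 𝒜 n) : R)
  refine ⟨s, ?_, ?_⟩
  · rw [eq_top_iff, ← ht]
    refine Algebra.adjoin_le fun x hx => ?_
    rw [← DirectSum.sum_support_decompose 𝒜 x]
    refine Subalgebra.sum_mem _ fun n hn => ?_
    rcases Nat.eq_zero_or_pos n with h0 | h0
    · subst h0
      obtain ⟨c, hc⟩ := hconn _ (DirectSum.decompose 𝒜 x 0).2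
      rw [hc]
      exact Subalgebra.algebraMap_mem _ c
    · refine Algebra.subset_adjoin ?_
      rw [Finset.mem_coe, Finset.mem_biUnion]
      refine ⟨x, hx, ?_⟩
      rw [Finset.mem_image]
      exact ⟨n, Finset.mem_filter.mpr ⟨hn, h0⟩, rfl⟩
  · intro x hx
    rw [Finset.mem_biUnion] at hx
    obtain ⟨y, _, hy⟩ := hx
    rw [Finset.mem_image] at hy
    obtain ⟨n, hn, rfl⟩ := hy
    exact ⟨n, (Finset.mem_filter.mp hn).2, (DirectSum.decompose 𝒜 y n).2⟩

end gens

section unit

variable {k : Type*} [Field k] {R : Type*} [CommRing R] [Algebra k R] (𝒜 : ℕ → Submodule k R)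
  [GradedAlgebra 𝒜] {B : Type*} [CommRing B] [Algebra k B]

lemma isUnit_single (a : ℤ) : IsUnit (HahnSeries.single a (1 : B) : LaurentSeries B) := by
  refine IsUnit.of_mul_eq_one (HahnSeries.single (-a) (1 : B)) ?_
  rw [HahnSeries.single_mul_single, add_neg_cancel, mul_one]
  rfl

omit [GradedAlgebra 𝒜] in
/-- base point freeness over Laurent series gives a power of the parameter in the ideal -/
lemma exists_pow_mem {φ : R →ₐ[k] LaurentSeries B} {e : ℕ} {he : 0 < e} {a : ℤ}
    {φ' : R →ₐ[k] PowerSeries B}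
    (h : ∀ n, ∀ r ∈ 𝒜 n, ofPS k B (φ' r) = HahnSeries.single (a * n) 1 * expand k e he (φ r))
    (hb : Ideal.span {y | ∃ j : ℕ, 0 < j ∧ ∃ r ∈ 𝒜 j, y = φ r} = ⊤) :
    ∃ L : ℕ, (PowerSeries.X : PowerSeries B) ^ L ∈
      Ideal.span {y | ∃ j : ℕ, 0 < j ∧ ∃ r ∈ 𝒜 j, y = φ' r} := by
  have h1 : (Ideal.span {y | ∃ j : ℕ, 0 < j ∧ ∃ r ∈ 𝒜 j, y = φ' r}).map
      (algebraMap (PowerSeries B) (LaurentSeries B)) = ⊤ := by
    rw [Ideal.eq_top_iff_one]
    have h2 : (1 : LaurentSeries B) ∈ (Ideal.span {y | ∃ j : ℕ, 0 < j ∧ ∃ r ∈ 𝒜 j, y = φ r}).map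
        (expand k e he).toRingHom := by
      rw [hb, Ideal.map_top]
      trivial
    have h3 : (Ideal.span {y | ∃ j : ℕ, 0 < j ∧ ∃ r ∈ 𝒜 j, y = φ r}).map
        (expand k e he).toRingHom ≤
        (Ideal.span {y | ∃ j : ℕ, 0 < j ∧ ∃ r ∈ 𝒜 j, y = φ' r}).map
        (algebraMap (PowerSeries B) (LaurentSeries B)) := by
      rw [Ideal.map_span, Ideal.span_le]
      rintro _ ⟨_, ⟨j, hj, r, hr, rfl⟩, rfl⟩
      have h4 := h j r hr
      have h5 : (expand k e he).toRingHom (φ r) =
          HahnSeries.single (-(a * j)) (1 : B) * ofPS k B (φ' r) := by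
        rw [h4, ← mul_assoc, HahnSeries.single_mul_single, neg_add_cancel, mul_one]
        exact (one_mul _).symm
      rw [SetLike.mem_coe, h5]
      refine Ideal.mul_mem_left _ _ ?_
      exact Ideal.mem_map_of_mem (algebraMap (PowerSeries B) (LaurentSeries B))
        (Ideal.subset_span ⟨j, hj, r, hr, rfl⟩)
    exact h3 h2
  have h6 : (1 : LaurentSeries B) ∈ (Ideal.span {y | ∃ j : ℕ, 0 < j ∧ ∃ r ∈ 𝒜 j, y = φ' r}).map
      (algebraMap (PowerSeries B) (LaurentSeries B)) := by
    rw [h1]; trivial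
  rw [IsLocalization.mem_map_algebraMap_iff (Submonoid.powers (PowerSeries.X : PowerSeries B))]
    at h6
  obtain ⟨⟨y, ⟨_, L, rfl⟩⟩, hy⟩ := h6
  refine ⟨L, ?_⟩
  rw [one_mul] at hy
  have h7 : (PowerSeries.X : PowerSeries B) ^ L = y :=
    HahnSeries.ofPowerSeries_injective hy
  rw [h7]
  exact y.2

end unit

end Vale.Agent.P292.Mo.Fm
end

section

/-! # P292 Part II: the morphism part of the curve (F5a) -/

namespace Vale.Agent.P292.Mo

open MvPolynomial

universe u v w

variable {k : Type u} [Field k] {K : Type w} [Field K] [Algebra k K]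

theorem F5a_isIntegral_of_eq {A : Type*} [CommRing A] [Nontrivial A] [Algebra A K] {x : K} {m : ℕ}
    (c : ℕ → A)
    (h : x ^ m + ∑ i ∈ Finset.range m, algebraMap A K (c (i + 1)) * x ^ (m - (i + 1)) = 0) :
    IsIntegral A x := by
  refine ⟨Polynomial.X ^ m + ∑ i ∈ Finset.range m,
    Polynomial.C (c (i + 1)) * Polynomial.X ^ (m - (i + 1)), ?_, ?_⟩
  · refine Polynomial.monic_X_pow_add ?_
    refine Polynomial.mem_degreeLT.1 (Submodule.sum_mem _ fun i hi => Polynomial.mem_degreeLT.2 ?_)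
    have hi := Finset.mem_range.1 hi
    refine lt_of_le_of_lt (Polynomial.degree_C_mul_X_pow_le _ _) ?_
    exact_mod_cast (by omega : m - (i + 1) < m)
  · rw [← h]
    simp [Polynomial.eval₂_finsetSum, Polynomial.eval₂_add]

theorem mem_IC {B : Subalgebra k K} {x : K} : x ∈ IC B ↔ IsIntegral B x := Iff.rfl

theorem le_IC (B : Subalgebra k K) : B ≤ IC B := fun x hx =>
  mem_IC.2 (isIntegral_algebraMap (R := B) (A := K) (x := ⟨x, hx⟩))

theorem F5a_aeval_mem {B : Subalgebra k K} {t : K} (ht : t ∈ B) (p : Polynomial k) :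
    Polynomial.aeval t p ∈ B := by
  have := Subalgebra.aeval_coe B (⟨t, ht⟩ : B) p
  change Polynomial.aeval t p = _ at this
  rw [this]
  exact SetLike.coe_mem _

theorem t_mem_B0 (t : K) (g : Polynomial k) : t ∈ B0 t g := Algebra.subset_adjoin (Or.inl rfl)

theorem aeval_mem_B0 (t : K) (g p : Polynomial k) : Polynomial.aeval t p ∈ B0 t g :=
  F5a_aeval_mem (t_mem_B0 t g) p

theorem F5a_aeval_ne {t : K} (ht : Transcendental k t) {p : Polynomial k} (hp : p ≠ 0) :
    Polynomial.aeval t p ≠ 0 := fun h => hp (by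
  by_contra h0
  exact ht ⟨p, h0, h⟩)

theorem F5a_coprime {g : Polynomial k} {l : k} (hl : g.eval l ≠ 0) (m : ℕ) :
    IsCoprime ((Polynomial.X - Polynomial.C l) ^ m) g := by
  refine IsCoprime.pow_left ?_
  refine ((Polynomial.irreducible_X_sub_C l).coprime_iff_not_dvd).2 fun h => hl ?_
  exact Polynomial.dvd_iff_isRoot.1 h

theorem F5a_aeval_pow (t : K) (l : k) (m : ℕ) :
    Polynomial.aeval t ((Polynomial.X - Polynomial.C l) ^ m) = (t - algebraMap k K l) ^ m := by
  simp

/-- `c(t) / (t - l)^m` lies in `B1` for `deg c ≤ m`. -/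
theorem F5a_mem_B1 {t : K} (ht : Transcendental k t) {g : Polynomial k} {l : k}
    (hl : g.eval l ≠ 0) (c : Polynomial k) {m : ℕ} (hc : c.natDegree ≤ m) :
    ((t - algebraMap k K l)⁻¹) ^ m * Polynomial.aeval t c ∈ B1 t g := by
  refine ⟨c, (Polynomial.X - Polynomial.C l) ^ m, ?_, F5a_coprime hl m, ?_, ?_⟩
  · exact F5a_aeval_ne ht (pow_ne_zero _ (Polynomial.X_sub_C_ne_zero l))
  · rw [Polynomial.natDegree_pow, Polynomial.natDegree_X_sub_C, mul_one]
    exact hc
  · rw [F5a_aeval_pow, inv_pow, mul_comm, div_eq_mul_inv]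

/-- a linear combination with prescribed values -/
theorem F5a_exists_comb {n : ℕ} {a b : Fin n → k} (hab : LinearIndependent k ![a, b]) (c₀ c₁ : k) :
    ∃ α : Fin n → k, ∑ i, α i * a i = c₀ ∧ ∑ i, α i * b i = c₁ := by
  obtain ⟨f, hf⟩ := LinearMap.exists_extend ((Module.Basis.span hab).constr k ![c₀, c₁])
  have h : ∀ j, f (![a, b] j) = ![c₀, c₁] j := by
    intro j
    rw [← (Module.Basis.span hab).constr_basis k ![c₀, c₁] j, ← hf, LinearMap.comp_apply,
      Submodule.subtype_apply, Module.Basis.span_apply]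
  refine ⟨fun i => f (fun j => if i = j then 1 else 0), ?_, ?_⟩
  · have := h 0
    rw [Matrix.cons_val_zero, Matrix.cons_val_zero, LinearMap.pi_apply_eq_sum_univ] at this
    rw [← this]
    exact Finset.sum_congr rfl fun i _ => by rw [smul_eq_mul, mul_comm]
  · have := h 1
    rw [Matrix.cons_val_one, Matrix.cons_val_one, LinearMap.pi_apply_eq_sum_univ] at this
    simp only [Matrix.cons_val_zero] at this
    rw [← this]
    exact Finset.sum_congr rfl fun i _ => by rw [smul_eq_mul, mul_comm]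

variable {R : Type v} [CommRing R] [Algebra k R] {𝒜 : ℕ → Submodule k R}

/-- an element of degree `e` with value `c₀ + c₁ t^e` -/
theorem F5a_exists_elem {p e n : ℕ} {y : Fin n → R} (hN : IsNoe 𝒜 p e y) {t : K}
    {φ : R →ₐ[k] K} {a b : Fin n → k} (h : IsFF e y t φ a b) (c₀ c₁ : k) :
    ∃ r ∈ 𝒜 e, φ r = algebraMap k K c₀ + algebraMap k K c₁ * t ^ e := by
  obtain ⟨α, h0, h1⟩ := F5a_exists_comb h.li c₀ c₁
  refine ⟨∑ i, α i • y i, Submodule.sum_mem _ fun i _ => Submodule.smul_mem _ _ (hN.hom i), ?_⟩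
  rw [map_sum, ← h0, ← h1, map_sum, map_sum, Finset.sum_mul, ← Finset.sum_add_distrib]
  refine Finset.sum_congr rfl fun i _ => ?_
  rw [map_smul, h.val, Algebra.smul_def, map_mul, map_mul]
  ring

/-- **F5a**: the morphism. -/
theorem mp_IC_of [IsAlgClosed k] {p e n : ℕ} {y : Fin n → R} (hN : IsNoe 𝒜 p e y) {t : K}
    {φ : R →ₐ[k] K} {a b : Fin n → k} (h : IsFF e y t φ a b)
    (hF2 : ∀ (j : ℕ) (r : R), r ∈ 𝒜 j → ∃ (m : ℕ) (c : ℕ → Polynomial k),
      (∀ i, (c i).natDegree ≤ j * i) ∧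
      φ r ^ m + ∑ i ∈ Finset.range m, Polynomial.aeval t (c (i + 1)) * φ r ^ (m - (i + 1)) = 0)
    {g : Polynomial k} (hg : g ≠ 0) (l : k) (hl : g.eval l ≠ 0) :
    IsMp 𝒜 (IC (B0 t g)) (IC (B1 t g)) (t - algebraMap k K l)⁻¹ φ where
  u_ne := by
    refine inv_ne_zero ?_
    have := F5a_aeval_ne h.transc (Polynomial.X_sub_C_ne_zero l)
    simpa using this
  sec := by
    intro j r hr
    obtain ⟨m, c, hc, heq⟩ := hF2 j r hr
    rw [mem_Sec]
    constructor
    · exact F5a_isIntegral_of_eq (A := B0 t g) (fun i => ⟨_, aeval_mem_B0 t g (c i)⟩) heq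
    · refine F5a_isIntegral_of_eq (A := B1 t g) (m := m)
        (fun i => ⟨_, F5a_mem_B1 h.transc hl (c i) (hc i)⟩) ?_
      set v := (t - algebraMap k K l)⁻¹ with hv
      have h2 : v ^ (j * m) * (φ r ^ m + ∑ i ∈ Finset.range m,
          Polynomial.aeval t (c (i + 1)) * φ r ^ (m - (i + 1))) = 0 := by rw [heq, mul_zero]
      rw [← h2, mul_add, Finset.mul_sum]
      congr 1
      · rw [mul_pow, ← pow_mul]
      · refine Finset.sum_congr rfl fun i hi => ?_
        have hi := Finset.mem_range.1 hi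
        have h3 : j * m = j * (i + 1) + j * (m - (i + 1)) := by
          rw [← mul_add]
          congr 1
          omega
        have h4 : (algebraMap (B1 t g) K) ⟨_, F5a_mem_B1 h.transc hl (c (i + 1)) (hc (i + 1))⟩ =
          v ^ (j * (i + 1)) * Polynomial.aeval t (c (i + 1)) := rfl
        rw [h4, h3, pow_add, mul_pow, ← pow_mul]
        ring
  unit0 := by
    obtain ⟨r, hr, hr1⟩ := F5a_exists_elem hN h 1 0
    have h1 : φ r = 1 := by rw [hr1]; simp
    refine ⟨e, hN.e_pos, r, hr, ?_, ?_⟩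
    · rw [h1]
      exact one_ne_zero
    · rw [h1, inv_one]
      exact Subalgebra.one_mem _
  unit1 := by
    classical
    obtain ⟨c₀, hc₀⟩ := Infinite.exists_notMem_finset (g.roots.toFinset.image fun ρ => -ρ ^ e)
    obtain ⟨r, hr, hr1⟩ := F5a_exists_elem hN h c₀ 1
    have h1 : φ r = Polynomial.aeval t (Polynomial.X ^ e + Polynomial.C c₀) := by
      rw [hr1]
      simp [add_comm]
    have hb0 : (Polynomial.X ^ e + Polynomial.C c₀ : Polynomial k) ≠ 0 :=
      Polynomial.X_pow_add_C_ne_zero hN.e_pos c₀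
    have hne := F5a_aeval_ne h.transc hb0
    refine ⟨e, hN.e_pos, r, hr, ?_, ?_⟩
    · rw [h1]
      exact hne
    · refine le_IC _ ⟨(Polynomial.X - Polynomial.C l) ^ e, Polynomial.X ^ e + Polynomial.C c₀,
        hne, ?_, ?_, ?_⟩
      · refine (Polynomial.isCoprime_iff_aeval_ne_zero_of_isAlgClosed k k _ _).2 fun ρ => ?_
        by_contra hcon
        push Not at hcon
        obtain ⟨h2, h3⟩ := hcon
        apply hc₀
        rw [Finset.mem_image]
        refine ⟨ρ, ?_, ?_⟩
        · rw [Multiset.mem_toFinset, Polynomial.mem_roots hg]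
          simpa using h3
        · have h4 : ρ ^ e + c₀ = 0 := by simpa using h2
          linear_combination -h4
      · rw [Polynomial.natDegree_X_pow_add_C, Polynomial.natDegree_pow,
          Polynomial.natDegree_X_sub_C, mul_one]
      · rw [h1, F5a_aeval_pow, mul_inv, inv_pow, inv_inv, div_eq_mul_inv]

end Vale.Agent.P292.Mo
end

section

/-! # P292 Part II: frames along the curve (F5b) -/

namespace Vale.Agent.P292.Mo

universe u v w

variable {k : Type u} [Field k] {K : Type w} [Field K] [Algebra k K]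
  {R : Type v} [CommRing R] [Algebra k R] {𝒜 : ℕ → Submodule k R} [GradedAlgebra 𝒜]
  {P : R →ₗ[k] R →ₗ[k] R}

theorem F5b_P_one (hP : IsPM 𝒜 P) (a : R) : P a 1 = 0 := by
  have h := hP.leibniz a 1 1
  simp only [mul_one, one_mul] at h
  have h2 : P a 1 + P a 1 = P a 1 := h.symm
  simpa using h2

theorem F5b_P_zero (hP : IsPM 𝒜 P) (a : R) {b : R} (hb : b ∈ 𝒜 0) : P a b = 0 := by
  obtain ⟨c, rfl⟩ := hP.connected b hb
  rw [Algebra.algebraMap_eq_smul_one, map_smul, F5b_P_one hP, smul_zero]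

/-- a bracket of homogeneous elements is homogeneous of the expected integral degree -/
theorem F5b_br (hP : IsPM 𝒜 P) {i j : ℕ} {a b : R} (ha : a ∈ 𝒜 i) (hb : b ∈ 𝒜 j) :
    P a b = 0 ∨ ∃ n : ℕ, (n : ℤ) = i + j - 1 ∧ P a b ∈ 𝒜 n := by
  rcases Nat.eq_zero_or_pos j with hj | hj
  · subst hj
    exact Or.inl (F5b_P_zero hP a hb)
  · refine Or.inr ⟨i + j - 1, by omega, hP.degree i j _ (by omega) a ha b hb⟩

/-- the determinant is homogeneous of degree `2 ∑ d - N` -/
theorem F5b_det (hP : IsPM 𝒜 P) {N : ℕ} {x : Fin N → R} {d : Fin N → ℕ} (hx : ∀ i, x i ∈ 𝒜 (d i))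
    (h0 : (brM P x).det ≠ 0) :
    ∃ m : ℕ, (m : ℤ) = 2 * (∑ i, (d i : ℤ)) - N ∧ (brM P x).det ∈ 𝒜 m := by
  classical
  have hterm : ∀ σ : Equiv.Perm (Fin N), (∏ i, brM P x (σ i) i) = 0 ∨
      ∃ m : ℕ, (m : ℤ) = 2 * (∑ i, (d i : ℤ)) - N ∧ (∏ i, brM P x (σ i) i) ∈ 𝒜 m := by
    intro σ
    by_cases hz : ∃ i, P (x (σ i)) (x i) = 0
    · obtain ⟨i, hi⟩ := hz
      exact Or.inl (Finset.prod_eq_zero (Finset.mem_univ i) hi)
    · push Not at hz
      have h1 : ∀ i, ∃ n : ℕ, (n : ℤ) = d (σ i) + d i - 1 ∧ P (x (σ i)) (x i) ∈ 𝒜 n := fun i =>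
        (F5b_br hP (hx (σ i)) (hx i)).resolve_left (hz i)
      choose n hn hmem using h1
      refine Or.inr ⟨∑ i, n i, ?_, ?_⟩
      · push_cast
        simp only [hn]
        rw [Finset.sum_sub_distrib, Finset.sum_add_distrib, Equiv.sum_comp σ (fun i => (d i : ℤ))]
        simp
        ring
      · exact SetLike.prod_mem_graded _ _ _ fun i _ => hmem i
  rw [Matrix.det_apply] at h0 ⊢
  obtain ⟨σ, _, hσ⟩ := Finset.exists_ne_zero_of_sum_ne_zero h0
  have hσ' : (∏ i, brM P x (σ i) i) ≠ 0 := fun h => hσ (by rw [h, smul_zero])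
  obtain ⟨m, hm, _⟩ := (hterm σ).resolve_left hσ'
  refine ⟨m, hm, Submodule.sum_mem _ fun τ _ => ?_⟩
  rcases hterm τ with h | ⟨m', hm', h⟩
  · rw [h, smul_zero]
    exact Submodule.zero_mem _
  · have : m' = m := by exact_mod_cast hm'.trans hm.symm
    subst this
    rw [Units.smul_def]
    exact (𝒜 m').toAddSubgroup.zsmul_mem h _

/-- the morphism to the second chart -/
theorem F5b_twist_mem {A₀ A₁ : Subalgebra k K} {u : K} {φ : R →ₐ[k] K}
    (h : IsMp 𝒜 A₀ A₁ u φ) (r : R) : Sc.twist 𝒜 φ u r ∈ A₁ := by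
  classical
  rw [← DirectSum.sum_support_decompose 𝒜 r, map_sum]
  refine Subalgebra.sum_mem _ fun i _ => ?_
  rw [Sc.twist_apply 𝒜 φ u (SetLike.coe_mem _)]
  exact (mem_Sec.1 (h.sec i _ (SetLike.coe_mem _))).2

/-- the point of the variety attached to a closed point of the second chart -/
noncomputable def pt1 {A₀ A₁ : Subalgebra k K} {u : K} {φ : R →ₐ[k] K}
    (h : IsMp 𝒜 A₀ A₁ u φ) (σ : A₁ →ₐ[k] k) : R →ₐ[k] k :=
  σ.comp ((Sc.twist 𝒜 φ u).codRestrict A₁ (F5b_twist_mem h))

theorem pt1_apply {A₀ A₁ : Subalgebra k K} {u : K} {φ : R →ₐ[k] K}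
    (h : IsMp 𝒜 A₀ A₁ u φ) (σ : A₁ →ₐ[k] k) (r : R) :
    pt1 h σ r = σ ⟨Sc.twist 𝒜 φ u r, F5b_twist_mem h r⟩ := rfl

theorem pt1_ne {A₀ A₁ : Subalgebra k K} {u : K} {φ : R →ₐ[k] K}
    (h : IsMp 𝒜 A₀ A₁ u φ) (σ : A₁ →ₐ[k] k) {r : R} (hr : pt1 h σ r ≠ 0) :
    Sc.twist 𝒜 φ u r ≠ 0 := by
  intro h0
  apply hr
  rw [pt1_apply]
  have : (⟨Sc.twist 𝒜 φ u r, F5b_twist_mem h r⟩ : A₁) = 0 := Subtype.ext h0
  rw [this, map_zero]

theorem pt1_NV {A₀ A₁ : Subalgebra k K} {u : K} {φ : R →ₐ[k] K}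
    (h : IsMp 𝒜 A₀ A₁ u φ) (σ : A₁ →ₐ[k] k) : NV 𝒜 (pt1 h σ) := by
  obtain ⟨n, hn, r, hr, h0, hinv⟩ := h.unit1
  refine ⟨n, hn, r, hr, fun h1 => ?_⟩
  have hne : u ^ n * φ r ≠ 0 := mul_ne_zero (pow_ne_zero _ h.u_ne) h0
  have h2 : (⟨Sc.twist 𝒜 φ u r, F5b_twist_mem h r⟩ : A₁) * ⟨(u ^ n * φ r)⁻¹, hinv⟩ = 1 := by
    apply Subtype.ext
    change Sc.twist 𝒜 φ u r * (u ^ n * φ r)⁻¹ = 1
    rw [Sc.twist_apply 𝒜 φ u hr, mul_inv_cancel₀ hne]
  have h3 := congrArg σ h2
  rw [map_mul, map_one] at h3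
  rw [pt1_apply] at h1
  rw [h1, zero_mul] at h3
  exact zero_ne_one h3

/-- the ranks at the closed points of the second chart agree with the generic rank -/
theorem pt1_rk {A₀ A₁ : Subalgebra k K} {u : K} {φ : R →ₐ[k] K} (hP : IsPM 𝒜 P)
    (h : IsMp 𝒜 A₀ A₁ u φ) (σ : A₁ →ₐ[k] k) {N : ℕ} {x : Fin N → R} {d : Fin N → ℕ} {g : R}
    (hx : IsFr 𝒜 x d g) (h0 : φ (g * (brM P x).det) ≠ 0) : HasRk 𝒜 P (pt1 h σ) N := by
  obtain ⟨N', x', d', g', hx', h0'⟩ := hP.frame _ (pt1_NV h σ)
  have h1 : Sc.twist 𝒜 φ u (g' * (brM P x').det) ≠ 0 := pt1_ne h σ h0'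
  have hdet : (brM P x).det ≠ 0 := fun h2 => h0 (by rw [h2, mul_zero, map_zero])
  obtain ⟨m, _, hm⟩ := F5b_det hP hx.hom hdet
  obtain ⟨l, hl⟩ := hx.ghom
  have h2 : Sc.twist 𝒜 φ u (g * (brM P x).det) ≠ 0 := by
    rw [Sc.twist_apply 𝒜 φ u (SetLike.mul_mem_graded hl hm)]
    exact mul_ne_zero (pow_ne_zero _ h.u_ne) h0
  obtain rfl := frame_card_eq hP (Sc.twist 𝒜 φ u) hx h2 hx' h1
  exact ⟨x', d', g', hx', h0'⟩

/-- **F5b**: a frame which is nondegenerate on the second chart. `hF4b` is the conclusion of F4b. -/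
theorem fr1_of_mp {A₀ A₁ : Subalgebra k K} {u : K} {φ : R →ₐ[k] K} (hP : IsPM 𝒜 P)
    (h : IsMp 𝒜 A₀ A₁ u φ) (hfin : Finite (A₁ →ₐ[k] k))
    (hunit : ∀ a : A₁, (∀ c : A₁ →ₐ[k] k, c a ≠ 0) → IsUnit a)
    {N : ℕ} {x : Fin N → R} {d : Fin N → ℕ} {g : R}
    (hx : IsFr 𝒜 x d g) (h0 : φ (g * (brM P x).det) ≠ 0)
    (hF4b : ∀ Y : Set (R →ₐ[k] k), Y.Finite → (∀ y ∈ Y, NV 𝒜 y) → (∀ y ∈ Y, HasRk 𝒜 P y N) →
      ∃ (x : Fin N → R) (d : Fin N → ℕ) (g : R), IsFr 𝒜 x d g ∧
        ∀ y ∈ Y, y (g * (brM P x).det) ≠ 0) :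
    ∃ (x' : Fin N → R) (d' : Fin N → ℕ) (g' : R), IsFr1 𝒜 P A₁ u φ x' d' g' := by
  obtain ⟨x', d', g', hx', h0'⟩ := hF4b (Set.range (pt1 h)) (Set.finite_range _)
    (by rintro _ ⟨σ, rfl⟩; exact pt1_NV h σ) (by rintro _ ⟨σ, rfl⟩; exact pt1_rk hP h σ hx h0)
  obtain ⟨σ₀⟩ : Nonempty (A₁ →ₐ[k] k) := by
    by_contra hne
    rw [not_nonempty_iff] at hne
    exact not_isUnit_zero (hunit 0 fun c => (hne.false c).elim)
  have h1 := h0' _ ⟨σ₀, rfl⟩
  rw [map_mul] at h1
  have hdet : (brM P x').det ≠ 0 := fun h2 => h1 (by rw [h2, map_zero, mul_zero])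
  obtain ⟨m, hm, hmem⟩ := F5b_det hP hx'.hom hdet
  obtain ⟨l, hl⟩ := hx'.ghom
  have hg : φ g' ≠ 0 := by
    have := pt1_ne h σ₀ (left_ne_zero_of_mul h1)
    rw [Sc.twist_apply 𝒜 φ u hl] at this
    exact right_ne_zero_of_mul this
  have hd : φ (brM P x').det ≠ 0 := by
    have := pt1_ne h σ₀ (right_ne_zero_of_mul h1)
    rw [Sc.twist_apply 𝒜 φ u hmem] at this
    exact right_ne_zero_of_mul this
  refine ⟨x', d', g', hx', hg, hd, ?_⟩
  rw [← hm, zpow_natCast]
  have hmA : u ^ m * φ (brM P x').det ∈ A₁ := (mem_Sec.1 (h.sec m _ hmem)).2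
  obtain ⟨v, hv⟩ := hunit ⟨_, hmA⟩ (by
    intro c hc
    have h2 := h0' _ ⟨c, rfl⟩
    rw [map_mul] at h2
    apply right_ne_zero_of_mul h2
    rw [pt1_apply, ← hc]
    congr 1
    exact Subtype.ext (Sc.twist_apply 𝒜 φ u hmem))
  have h3 : ((v⁻¹ : A₁ˣ) : A₁) * ⟨_, hmA⟩ = 1 := by rw [← hv, Units.inv_mul]
  have h4 := congrArg (Subtype.val) h3
  have h5 : (((v⁻¹ : A₁ˣ) : A₁) : K) * (u ^ m * φ (brM P x').det) = 1 := h4
  rw [← eq_inv_of_mul_eq_one_left h5]
  exact SetLike.coe_mem _

end Vale.Agent.P292.Mo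
end

section

/-! # P292 Part II: every element of the function field is a fraction of functions on the first
chart (F5c) -/

namespace Vale.Agent.P292.Mo

universe u w

open scoped IntermediateField.algebraAdjoinAdjoin

/-- **F5c** -/
theorem frac0_IC {k : Type u} [Field k] {K : Type w} [Field K] [Algebra k K] {t : K}
    [FiniteDimensional (IntermediateField.adjoin k {t}) K] (g : Polynomial k) (x : K) :
    ∃ a ∈ IC (B0 t g), ∃ b ∈ IC (B0 t g), b ≠ 0 ∧ x = a / b := by
  have h1 : Algebra.IsAlgebraic (IntermediateField.adjoin k {t}) K := inferInstance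
  have h2 : Algebra.IsAlgebraic (Algebra.adjoin k {t}) (IntermediateField.adjoin k {t}) :=
    IsLocalization.isAlgebraic _ (nonZeroDivisors _)
  have h3 : IsAlgebraic (Algebra.adjoin k {t}) x :=
    (Algebra.IsAlgebraic.trans (Algebra.adjoin k {t}) (IntermediateField.adjoin k {t})
      K).isAlgebraic x
  obtain ⟨y, hy, hint⟩ := h3.exists_integral_multiple
  have hle : Algebra.adjoin k {t} ≤ B0 t g :=
    Algebra.adjoin_mono (Set.singleton_subset_iff.2 (Or.inl rfl))
  have hy0 : (y : K) ≠ 0 := fun h => hy (Subtype.ext h)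
  refine ⟨(y : K) * x, ?_, (y : K), ?_, hy0, ?_⟩
  · obtain ⟨p, hp, hp0⟩ := hint
    refine ⟨p.map (Subalgebra.inclusion hle).toRingHom, hp.map _, ?_⟩
    rw [Polynomial.eval₂_map]
    exact hp0
  · exact (isIntegral_algebraMap (R := B0 t g) (A := K) (x := ⟨y, hle y.2⟩) :)
  · rw [mul_div_cancel_left₀ x hy0]

end Vale.Agent.P292.Mo
end

section

/-!
# The curve data (P292, block F3a): reduction to the rings over the line
-/

namespace Vale.Agent.P292.Mo

open Polynomial

universe u w

section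

variable {k : Type u} [Field k] {K : Type w} [Field K] [Algebra k K] {t : K}

/-- The coefficients of the minimal polynomial of an integral element. -/
theorem cd_minpoly (B : Subalgebra k K)
    (hBF : ∀ x ∈ B, x ∈ IntermediateField.adjoin k {t})
    (hfr : ∀ x ∈ IntermediateField.adjoin k {t}, ∃ a ∈ B, ∃ b ∈ B, b ≠ 0 ∧ x = a / b)
    (hpir : IsPrincipalIdealRing B) {x : K} (hx : x ∈ IC B) (i : ℕ) :
    (((minpoly (IntermediateField.adjoin k {t}) x).coeff i :
      IntermediateField.adjoin k {t}) : K) ∈ B := by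
  classical
  let F := IntermediateField.adjoin k {t}
  let algBF : Algebra B F := (({ toFun := fun x => ⟨x, hBF x x.2⟩
                                 map_one' := rfl
                                 map_mul' := fun _ _ => rfl
                                 map_zero' := rfl
                                 map_add' := fun _ _ => rfl } : B →+* F)).toAlgebra
  have halg : ∀ x : B, ((algebraMap B F x : F) : K) = x := fun _ => rfl
  have tower : IsScalarTower B F K := IsScalarTower.of_algebraMap_eq fun _ => rfl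
  have hinjBF : Function.Injective (algebraMap B F) := fun x y h => by
    apply Subtype.ext
    have := congrArg Subtype.val h
    exact this
  have hfrac : IsFractionRing B F := by
    refine ⟨?_, ?_, ?_⟩
    · rintro ⟨y, hy⟩
      have hy0 : y ≠ 0 := nonZeroDivisors.ne_zero hy
      rw [isUnit_iff_ne_zero]
      intro h
      exact hy0 (hinjBF (h.trans (map_zero _).symm))
    · rintro ⟨x, hx⟩
      obtain ⟨a, ha, b, hb, hb0, hab⟩ := hfr x hx
      refine ⟨(⟨a, ha⟩, ⟨⟨b, hb⟩, ?_⟩), ?_⟩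
      · rw [mem_nonZeroDivisors_iff_ne_zero]
        intro h
        exact hb0 (congrArg Subtype.val h)
      · apply Subtype.ext
        show x * b = a
        rw [hab]
        field_simp
    · intro x y h
      exact ⟨1, by rw [hinjBF h]⟩
  have hdom : IsDomain B := inferInstance
  have hded : IsDedekindDomain B := inferInstance
  have hic : IsIntegrallyClosed B := inferInstance
  have hint : IsIntegral B x := hx
  have h := minpoly.isIntegrallyClosed_eq_field_fractions' F (R := B) hint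
  rw [h, Polynomial.coeff_map, halg]
  exact ((minpoly B x).coeff i).2

/-- Common denominators. -/
theorem cd_den {B : Subalgebra k K}
    (hfr : ∀ x ∈ IntermediateField.adjoin k {t}, ∃ a ∈ B, ∃ b ∈ B, b ≠ 0 ∧ x = a / b)
    {n : ℕ} (x : Fin n → IntermediateField.adjoin k {t}) :
    ∃ d ∈ B, d ≠ 0 ∧ ∀ i, d * (x i : K) ∈ B := by
  classical
  choose a ha b hb hb0 hab using fun i => hfr (x i) (x i).2
  refine ⟨∏ i, b i, Subalgebra.prod_mem _ fun i _ => hb i,
    Finset.prod_ne_zero_iff.2 fun i _ => hb0 i, ?_⟩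
  intro i
  rw [hab i, ← Finset.mul_prod_erase Finset.univ b (Finset.mem_univ i)]
  have h1 : b i * (∏ j ∈ Finset.univ.erase i, b j) * (a i / b i) =
      (∏ j ∈ Finset.univ.erase i, b j) * a i := by
    have := hb0 i
    field_simp
  rw [h1]
  exact Subalgebra.mul_mem _ (Subalgebra.prod_mem _ fun j _ => hb j) (ha i)

/-- Denominators in the big field. -/
theorem cd_denK {B : Subalgebra k K}
    (hBF : ∀ x ∈ B, x ∈ IntermediateField.adjoin k {t})
    (hfr : ∀ x ∈ IntermediateField.adjoin k {t}, ∃ a ∈ B, ∃ b ∈ B, b ≠ 0 ∧ x = a / b)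
    {n : ℕ} (ω : Module.Basis (Fin n) (IntermediateField.adjoin k {t}) K)
    (hω : ∀ x : K, x ∈ IC B ↔ ∀ i, ((ω.repr x i : K)) ∈ B) (x : K) :
    ∃ d ∈ B, d ≠ 0 ∧ d * x ∈ IC B := by
  obtain ⟨d, hd, hd0, h⟩ := cd_den hfr (fun i => ω.repr x i)
  refine ⟨d, hd, hd0, ?_⟩
  rw [hω]
  intro i
  have h1 : d * x = (⟨d, hBF d hd⟩ : IntermediateField.adjoin k {t}) • x := rfl
  rw [h1, map_smul, Finsupp.smul_apply, smul_eq_mul]
  exact h i

theorem cd_le_IC {B : Subalgebra k K} {x : K} (hx : x ∈ B) : x ∈ IC B :=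
  isIntegral_algebraMap (R := B) (x := ⟨x, hx⟩)

theorem cd_sum {n : ℕ} (ω : Module.Basis (Fin n) (IntermediateField.adjoin k {t}) K) (x : K) :
    x = ∑ i, (ω.repr x i : K) * ω i := by
  conv_lhs => rw [← ω.sum_repr x]
  refine Finset.sum_congr rfl fun i _ => ?_
  rw [Algebra.smul_def]
  rfl

/-- Finiteness of a quotient. -/
theorem cd_fd {V W : Type*} [AddCommGroup V] [Module k V] [AddCommGroup W] [Module k W]
    [FiniteDimensional k V] (U : Submodule k W) (f : V →ₗ[k] W)
    (h : ∀ x, ∃ v, x - f v ∈ U) : FiniteDimensional k (W ⧸ U) := by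
  refine Module.Finite.of_surjective (U.mkQ.comp f) ?_
  intro y
  obtain ⟨x, rfl⟩ := U.mkQ_surjective y
  obtain ⟨v, hv⟩ := h x
  refine ⟨v, ?_⟩
  rw [LinearMap.comp_apply, eq_comm, ← sub_eq_zero, ← map_sub, Submodule.mkQ_apply,
    Submodule.Quotient.mk_eq_zero]
  exact hv

/-- The map `v ↦ ∑ v_i ω_i`. -/
noncomputable def cdMap {n : ℕ} (ω : Fin n → K) (S : Submodule k K) : (Fin n → S) →ₗ[k] K :=
  ∑ i, (LinearMap.mulRight k (ω i)).comp (S.subtype.comp (LinearMap.proj i))

theorem cdMap_apply {n : ℕ} (ω : Fin n → K) (S : Submodule k K) (v : Fin n → S) :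
    cdMap ω S v = ∑ i, (v i : K) * ω i := by
  simp [cdMap]

/-- F3a, from the facts about the line. -/
theorem isCD_of [IsAlgClosed k] (ht : Transcendental k t)
    [FiniteDimensional (IntermediateField.adjoin k {t}) K]
    [Algebra.IsSeparable (IntermediateField.adjoin k {t}) K] {g : Polynomial k} (hg : g ≠ 0)
    (hquot : ∀ d : K, d ∈ B1 t g → d ≠ 0 → ∃ S : Submodule k K, FiniteDimensional k S ∧
      ∀ x ∈ B1 t g, ∃ s ∈ S, ∃ c ∈ B1 t g, x = s + d * c)
    (hadd : ∀ x ∈ IntermediateField.adjoin k {t}, ∃ b0 ∈ B0 t g, ∃ b1 ∈ B1 t g, x = b0 + b1)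
    (hinf : ∀ x : K, x ∈ B0 t g → x ∈ B1 t g → ∃ c : k, x = algebraMap k K c) :
    IsCD (IC (B0 t g)) (IC (B1 t g)) := by
  classical
  have hinfk : Infinite k := inferInstance
  obtain ⟨-, ω, hωm, hω⟩ := crv_basis0 (K := K) ht hg
  obtain ⟨-, ω', hωm', hω'⟩ := crv_basis1 (K := K) ht hg
  have hBF1 := crv_B1_le t g
  have hfr1 := crv_B1_frac ht hg
  refine ⟨?_, ?_, ?_, ?_⟩
  · -- the intersection is `k`
    have hle : Subalgebra.toSubmodule (IC (B0 t g)) ⊓ Subalgebra.toSubmodule (IC (B1 t g)) ≤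
        Submodule.span k {(1 : K)} := by
      rintro x ⟨h0, h1⟩
      have hco : ∀ i, ∃ c : k, (((minpoly (IntermediateField.adjoin k {t}) x).coeff i :
          IntermediateField.adjoin k {t}) : K) = algebraMap k K c := fun i =>
        hinf _ (cd_minpoly (B0 t g) (crv_B0_le (crv_ne ht hg)) (crv_B0_frac t g)
          (crv_B0_pir (crv_ne ht hg)) h0 i)
          (cd_minpoly (B1 t g) hBF1 hfr1 (crv_B1_pir ht hg) h1 i)
      have hlift : minpoly (IntermediateField.adjoin k {t}) x ∈
          Polynomial.lifts (algebraMap k (IntermediateField.adjoin k {t})) := by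
        rw [Polynomial.lifts_iff_coeff_lifts]
        intro i
        obtain ⟨c, hc⟩ := hco i
        exact ⟨c, Subtype.ext hc.symm⟩
      have hintF : IsIntegral (IntermediateField.adjoin k {t}) x :=
        Algebra.IsIntegral.isIntegral x
      obtain ⟨q, hq, -, hqm⟩ := Polynomial.lifts_and_degree_eq_and_monic hlift
        (minpoly.monic hintF)
      have hxk : IsIntegral k x := by
        refine ⟨q, hqm, ?_⟩
        have h2 := minpoly.aeval (IntermediateField.adjoin k {t}) x
        rw [← hq, Polynomial.aeval_map_algebraMap] at h2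
        exact h2
      have hdeg := IsAlgClosed.degree_eq_one_of_irreducible k (minpoly.irreducible hxk)
      obtain ⟨c, hc⟩ := minpoly.mem_range_of_degree_eq_one k x hdeg
      rw [Submodule.mem_span_singleton]
      exact ⟨c, by rw [← hc, Algebra.smul_def, mul_one]⟩
    exact Submodule.finiteDimensional_of_le hle
  · -- the sum has finite codimension
    have hden : ∃ d ∈ B1 t g, d ≠ 0 ∧ ∀ i, d * ω i ∈ IC (B1 t g) := by
      choose d hd hd0 h using fun i => cd_denK hBF1 hfr1 ω' hω' (ω i)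
      refine ⟨∏ i, d i, Subalgebra.prod_mem _ fun i _ => hd i,
        Finset.prod_ne_zero_iff.2 fun i _ => hd0 i, ?_⟩
      intro i
      rw [← Finset.mul_prod_erase Finset.univ d (Finset.mem_univ i), mul_comm (d i), mul_assoc]
      exact Subalgebra.mul_mem _ (cd_le_IC (Subalgebra.prod_mem _ fun j _ => hd j)) (h i)
    obtain ⟨d, hd, hd0, hdω⟩ := hden
    obtain ⟨S, hS, hSq⟩ := hquot d hd hd0
    refine cd_fd _ (cdMap (fun i => ω i) S) fun x => ?_
    choose b0 hb0 b1 hb1 hb using fun i => hadd (ω.repr x i) (ω.repr x i).2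
    choose s hs c hc hsc using fun i => hSq (b1 i) (hb1 i)
    refine ⟨fun i => ⟨s i, hs i⟩, ?_⟩
    rw [cdMap_apply]
    have e : x - ∑ i, s i * ω i = ∑ i, b0 i * ω i + ∑ i, c i * (d * ω i) := by
      conv_lhs => rw [cd_sum ω x]
      rw [← Finset.sum_sub_distrib, ← Finset.sum_add_distrib]
      refine Finset.sum_congr rfl fun i _ => ?_
      rw [hb i, hsc i]
      ring
    show x - ∑ i, s i * ω i ∈ _
    rw [e]
    refine Submodule.add_mem_sup ?_ ?_
    · exact Subalgebra.sum_mem _ fun i _ => Subalgebra.mul_mem _ (cd_le_IC (hb0 i)) (hωm i)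
    · exact Subalgebra.sum_mem _ fun i _ => Subalgebra.mul_mem _ (cd_le_IC (hc i)) (hdω i)
  · -- the quotients of the second ring
    intro a ha ha0
    obtain ⟨d, hd, hd0, hda⟩ := cd_denK hBF1 hfr1 ω' hω' a⁻¹
    obtain ⟨S, hS, hSq⟩ := hquot d hd hd0
    have hS' : FiniteDimensional k ↥(S ⊓ Subalgebra.toSubmodule (B1 t g)) :=
      Submodule.finiteDimensional_of_le inf_le_left
    have hmem : ∀ v, cdMap (fun i => ω' i) (S ⊓ Subalgebra.toSubmodule (B1 t g)) v ∈
        Subalgebra.toSubmodule (IC (B1 t g)) := by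
      intro v
      rw [cdMap_apply]
      exact Subalgebra.sum_mem _ fun i _ => Subalgebra.mul_mem _ (cd_le_IC (v i).2.2) (hωm' i)
    refine cd_fd _ (LinearMap.codRestrict _ (cdMap (fun i => ω' i)
      (S ⊓ Subalgebra.toSubmodule (B1 t g))) hmem) fun x => ?_
    have hx := (hω' x).1 x.2
    choose s hs c hc hsc using fun i => hSq _ (hx i)
    have hsB : ∀ i, s i ∈ S ⊓ Subalgebra.toSubmodule (B1 t g) := by
      intro i
      refine ⟨hs i, ?_⟩
      have : s i = (ω'.repr (x : K) i : K) - d * c i := by rw [hsc i]; ring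
      rw [this]
      exact Subalgebra.sub_mem _ (hx i) (Subalgebra.mul_mem _ hd (hc i))
    refine ⟨fun i => ⟨s i, hsB i⟩, ?_⟩
    rw [Submodule.mem_comap, Submodule.mem_map]
    refine ⟨∑ i, c i * (d * a⁻¹ * ω' i), ?_, ?_⟩
    · exact Subalgebra.sum_mem _ fun i _ => Subalgebra.mul_mem _ (cd_le_IC (hc i))
        (Subalgebra.mul_mem _ hda (hωm' i))
    · show a * ∑ i, c i * (d * a⁻¹ * ω' i) = (x : K) - cdMap (fun i => ω' i)
        (S ⊓ Subalgebra.toSubmodule (B1 t g)) (fun i => ⟨s i, hsB i⟩)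
      rw [cdMap_apply]
      conv_rhs => rw [cd_sum ω' (x : K)]
      rw [← Finset.sum_sub_distrib, Finset.mul_sum]
      refine Finset.sum_congr rfl fun i _ => ?_
      show a * (c i * (d * a⁻¹ * ω' i)) = (ω'.repr (x : K) i : K) * ω' i - s i * ω' i
      rw [hsc i]
      field_simp
      ring
  · -- fractions
    intro x
    obtain ⟨d, hd, hd0, hdx⟩ := cd_denK hBF1 hfr1 ω' hω' x
    exact ⟨d * x, hdx, d, cd_le_IC hd, hd0, by field_simp⟩

end

end Vale.Agent.P292.Mo
end

section

/-!
# The curve data (P292, block F3a)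
-/

namespace Vale.Agent.P292.Mo

open Polynomial

universe u w

variable {k : Type u} [Field k] {K : Type w} [Field K] [Algebra k K]

/-- F3a: the curve data. -/
theorem isCD_IC [IsAlgClosed k] {t : K} (ht : Transcendental k t)
    [FiniteDimensional (IntermediateField.adjoin k {t}) K]
    [Algebra.IsSeparable (IntermediateField.adjoin k {t}) K] {g : Polynomial k} (hg : g ≠ 0) :
    IsCD (IC (B0 t g)) (IC (B1 t g)) :=
  isCD_of ht hg (fun _ hd hd0 => b1_quot ht hg hd hd0) (fun _ hx => b0_add_b1 ht hg hx)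
    (fun _ h0 h1 => b0_inf_b1 ht hg h0 h1)

end Vale.Agent.P292.Mo
end

section

/-! # The index of a uniformiser in the integral closure (F3b). -/

namespace Vale.Agent.P292.Mo

universe u w

variable {k : Type u} [Field k] {K : Type w} [Field K] [Algebra k K]

theorem idxic_relIdx_of_le {V : Type w} [AddCommGroup V] [Module k V] {U U' : Submodule k V}
    (h : U' ≤ U) : relIdx U U' = Module.finrank k (↥U ⧸ U'.comap U.subtype) := by
  have h1 : U.comap U'.subtype = ⊤ := by
    rw [eq_top_iff]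
    intro x _
    exact h x.2
  have h2 : Module.finrank k (↥U' ⧸ U.comap U'.subtype) = 0 := by
    rw [h1]
    have : Subsingleton (↥U' ⧸ (⊤ : Submodule k U')) :=
      Submodule.Quotient.subsingleton_iff.2 rfl
    exact Module.finrank_zero_of_subsingleton
  rw [relIdx, h2]
  simp

theorem idxic_mem_IC {B : Subalgebra k K} {x : K} : x ∈ IC B ↔ x ∈ integralClosure B K := Iff.rfl

theorem idxic_le_IC {B : Subalgebra k K} {x : K} (hx : x ∈ B) : x ∈ IC B := by
  rw [idxic_mem_IC]
  exact (integralClosure B K).algebraMap_mem (⟨x, hx⟩ : B)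

/-- The index of `u ∈ B` in the integral closure of `B`, with a basis. -/
theorem idxic_basis (B : Subalgebra k K) (F : IntermediateField k K) {n : ℕ}
    (ω : Module.Basis (Fin n) F K) (hω : ∀ x, x ∈ IC B ↔ ∀ i, (ω.repr x i : K) ∈ B)
    (hBF : ∀ x ∈ B, x ∈ F) {u : K} (hu : u ∈ B)
    (ev : B →ₗ[k] k) (hev : Function.Surjective ev)
    (hker : ∀ b : B, ev b = 0 ↔ ∃ b' : B, b = ⟨u, hu⟩ * b') :
    idx (IC B) u = n := by
  classical
  have hle : (Subalgebra.toSubmodule (IC B)).map (LinearMap.mulLeft k u) ≤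
      Subalgebra.toSubmodule (IC B) := by
    rintro _ ⟨a, ha, rfl⟩
    exact (IC B).mul_mem (idxic_le_IC hu) ha
  rw [idx, idxic_relIdx_of_le hle]
  have hrep : ∀ (β : Fin n → B) (i : Fin n),
      (ω.repr (∑ j, (⟨(β j : K), hBF _ (β j).2⟩ : F) • ω j) i : K) = β i := by
    intro β i
    rw [ω.repr_sum_self]
  have hsmul : ∀ (β : B) (x : K) (i : Fin n),
      (ω.repr ((β : K) * x) i : K) = β * (ω.repr x i : K) := by
    intro β x i
    have : (β : K) * x = (⟨(β : K), hBF _ β.2⟩ : F) • x := rfl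
    rw [this, map_smul, Finsupp.smul_apply]
    rfl
  let Φ : ↥(Subalgebra.toSubmodule (IC B)) →ₗ[k] (Fin n → k) :=
    { toFun := fun a i => ev ⟨(ω.repr (a : K) i : K), (hω _).1 a.2 i⟩
      map_add' := by
        intro a a'
        funext i
        have : (⟨(ω.repr ((a + a' : ↥(Subalgebra.toSubmodule (IC B))) : K) i : K),
            (hω _).1 (a + a').2 i⟩ : B) = ⟨(ω.repr (a : K) i : K), (hω _).1 a.2 i⟩ +
            ⟨(ω.repr (a' : K) i : K), (hω _).1 a'.2 i⟩ := by
          apply Subtype.ext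
          change (ω.repr ((a : K) + (a' : K)) i : K) = (ω.repr (a : K) i : K) + _
          rw [map_add]
          rfl
        rw [this, map_add]
        rfl
      map_smul' := by
        intro c a
        funext i
        have : (⟨(ω.repr ((c • a : ↥(Subalgebra.toSubmodule (IC B))) : K) i : K),
            (hω _).1 (c • a).2 i⟩ : B) = c • ⟨(ω.repr (a : K) i : K), (hω _).1 a.2 i⟩ := by
          apply Subtype.ext
          change (ω.repr (c • (a : K)) i : K) = c • (ω.repr (a : K) i : K)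
          rw [Algebra.smul_def, Algebra.smul_def]
          exact hsmul (algebraMap k B c) _ i
        rw [this, map_smul]
        rfl }
  have hΦs : Function.Surjective Φ := by
    intro f
    choose β hβ using fun i => hev (f i)
    refine ⟨⟨∑ j, (⟨(β j : K), hBF _ (β j).2⟩ : F) • ω j, (hω _).2 fun i => ?_⟩, ?_⟩
    · rw [hrep]
      exact (β i).2
    · funext i
      change ev _ = f i
      rw [← hβ i]
      congr 1
      exact Subtype.ext (hrep β i)
  have hΦk : LinearMap.ker Φ =
      ((Subalgebra.toSubmodule (IC B)).map (LinearMap.mulLeft k u)).comap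
        (Subalgebra.toSubmodule (IC B)).subtype := by
    ext a
    rw [LinearMap.mem_ker, Submodule.mem_comap, Submodule.mem_map]
    constructor
    · intro h
      have h1 : ∀ i, ∃ b' : B, (⟨(ω.repr (a : K) i : K), (hω _).1 a.2 i⟩ : B) = ⟨u, hu⟩ * b' :=
        fun i => (hker _).1 (congrFun h i)
      choose β hβ using h1
      refine ⟨∑ j, (⟨(β j : K), hBF _ (β j).2⟩ : F) • ω j, (hω _).2 fun i => ?_, ?_⟩
      · rw [hrep]
        exact (β i).2
      · change u * (∑ j, (⟨(β j : K), hBF _ (β j).2⟩ : F) • ω j) = (a : K)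
        apply ω.repr.injective
        ext i
        have h2 := hsmul ⟨u, hu⟩ (∑ j, (⟨(β j : K), hBF _ (β j).2⟩ : F) • ω j) i
        rw [hrep] at h2
        exact h2.trans (congrArg Subtype.val (hβ i)).symm
    · rintro ⟨a', ha', h⟩
      funext i
      change ev _ = 0
      refine (hker _).2 ⟨⟨(ω.repr a' i : K), (hω _).1 ha' i⟩, Subtype.ext ?_⟩
      change (ω.repr (a : K) i : K) = u * (ω.repr a' i : K)
      have h3 : (a : K) = u * a' := h.symm
      rw [h3]
      exact hsmul ⟨u, hu⟩ a' i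
  rw [← hΦk, LinearEquiv.finrank_eq (LinearMap.quotKerEquivOfSurjective Φ hΦs),
    Module.finrank_fintype_fun_eq_card, Fintype.card_fin]

/-- an evaluation from a decomposition -/
theorem idxic_exists_ev (B : Subalgebra k K) {u : K} (hu : u ∈ B)
    (h1 : ∀ x ∈ B, ∃ c : k, ∃ y ∈ B, x = algebraMap k K c + u * y)
    (h2 : ∀ (c : k), ∀ y ∈ B, algebraMap k K c = u * y → c = 0) :
    ∃ ev : B →ₗ[k] k, Function.Surjective ev ∧
      ∀ b : B, ev b = 0 ↔ ∃ b' : B, b = ⟨u, hu⟩ * b' := by
  classical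
  choose c y hy hc using fun x : B => h1 x x.2
  have key : ∀ (x : B) (d : k) (z : K), z ∈ B → (x : K) = algebraMap k K d + u * z → c x = d := by
    intro x d z hz h
    rw [← sub_eq_zero]
    refine h2 _ (z - y x) (B.sub_mem hz (hy x)) ?_
    rw [map_sub, mul_sub]
    have := hc x
    rw [h] at this
    linear_combination -this
  let ev : B →ₗ[k] k :=
    { toFun := c
      map_add' := by
        intro x x'
        refine key _ _ (y x + y x') (B.add_mem (hy x) (hy x')) ?_
        change (x : K) + (x' : K) = _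
        rw [map_add]
        linear_combination hc x + hc x'
      map_smul' := by
        intro a x
        refine key _ _ (algebraMap k K a * y x) (B.mul_mem (B.algebraMap_mem a) (hy x)) ?_
        change a • (x : K) = _
        rw [Algebra.smul_def, RingHom.id_apply, smul_eq_mul, map_mul]
        linear_combination (algebraMap k K a) * hc x }
  refine ⟨ev, ?_, ?_⟩
  · intro d
    refine ⟨algebraMap k B d, key _ _ 0 B.zero_mem ?_⟩
    rw [mul_zero, add_zero]
    rfl
  · intro b
    constructor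
    · intro h
      refine ⟨⟨y b, hy b⟩, ?_⟩
      apply Subtype.ext
      change (b : K) = u * y b
      have h3 := hc b
      have h4 : c b = 0 := h
      rw [h4, map_zero, zero_add] at h3
      exact h3
    · rintro ⟨b', rfl⟩
      refine key _ _ b' b'.2 ?_
      rw [map_zero, zero_add]
      rfl

section B1

open Polynomial

variable {t : K}

theorem idxic_aeval_inj (ht : Transcendental k t) {a b : k[X]} (h : aeval t a = aeval t b) :
    a = b :=
  transcendental_iff_injective.1 ht h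

theorem idxic_aeval_ne (ht : Transcendental k t) {a : k[X]} (h : a ≠ 0) : aeval t a ≠ 0 := by
  intro h0
  exact h (idxic_aeval_inj ht (h0.trans (map_zero _).symm))

theorem idxic_mem (ht : Transcendental k t) {g : k[X]} (l : k) (hl : g.eval l ≠ 0) :
    (t - algebraMap k K l)⁻¹ ∈ B1 t g := by
  refine ⟨1, X - C l, idxic_aeval_ne ht (X_sub_C_ne_zero l), ?_, ?_, ?_⟩
  · rw [(irreducible_X_sub_C l).coprime_iff_not_dvd, dvd_iff_isRoot]
    exact hl
  · rw [natDegree_one]; exact Nat.zero_le _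
  · rw [map_one, map_sub, aeval_X, aeval_C, one_div]

theorem idxic_decomp (ht : Transcendental k t) {g : k[X]} (l : k) (x : K) (hx : x ∈ B1 t g) :
    ∃ c : k, ∃ y ∈ B1 t g, x = algebraMap k K c + (t - algebraMap k K l)⁻¹ * y := by
  obtain ⟨a, b, hb, hbg, hd, rfl⟩ := hx
  have hb0 : b ≠ 0 := fun h => hb (by rw [h, map_zero])
  have ht0 : t - algebraMap k K l ≠ 0 := by
    have := idxic_aeval_ne ht (X_sub_C_ne_zero l)
    rwa [map_sub, aeval_X, aeval_C] at this
  set c : k := a.coeff b.natDegree / b.leadingCoeff with hc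
  have hp : ∀ j, b.natDegree ≤ j → (a - C c * b).coeff j = 0 := by
    intro j hj
    rw [coeff_sub, coeff_C_mul]
    rcases eq_or_lt_of_le hj with rfl | hj
    · rw [hc, coeff_natDegree, div_mul_cancel₀ _ (leadingCoeff_ne_zero.2 hb0), sub_self]
    · rw [coeff_eq_zero_of_natDegree_lt (hd.trans_lt hj), coeff_eq_zero_of_natDegree_lt hj,
        mul_zero, sub_zero]
  refine ⟨c, aeval t ((X - C l) * (a - C c * b)) / aeval t b, ⟨_, b, hb, hbg, ?_, rfl⟩, ?_⟩
  · rw [natDegree_le_iff_coeff_eq_zero]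
    intro j hj
    obtain ⟨i, rfl⟩ : ∃ i, j = i + 1 := ⟨j - 1, by omega⟩
    rw [sub_mul, coeff_sub, coeff_X_mul, coeff_C_mul, hp i (by omega), hp (i + 1) (by omega),
      mul_zero, sub_zero]
  · rw [map_mul, map_sub, map_sub, map_mul, aeval_X, aeval_C, aeval_C]
    field_simp
    ring

theorem idxic_indep (ht : Transcendental k t) {g : k[X]} (l : k) (c : k) (y : K)
    (hy : y ∈ B1 t g) (h : algebraMap k K c = (t - algebraMap k K l)⁻¹ * y) : c = 0 := by
  obtain ⟨a, b, hb, hbg, hd, rfl⟩ := hy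
  have hb0 : b ≠ 0 := fun h => hb (by rw [h, map_zero])
  have ht0 : t - algebraMap k K l ≠ 0 := by
    have := idxic_aeval_ne ht (X_sub_C_ne_zero l)
    rwa [map_sub, aeval_X, aeval_C] at this
  by_contra hc
  have h1 : aeval t (C c * ((X - C l) * b)) = aeval t a := by
    rw [map_mul, map_mul, map_sub, aeval_C, aeval_C, aeval_X, h]
    field_simp
  have h2 := idxic_aeval_inj ht h1
  have h3 : a.natDegree = 1 + b.natDegree := by
    rw [← h2, natDegree_C_mul hc, natDegree_mul (X_sub_C_ne_zero l) hb0, natDegree_X_sub_C]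
  omega

theorem idxic_B1_basis (ht : Transcendental k t) {g : k[X]} (l : k) (hl : g.eval l ≠ 0)
    (F : IntermediateField k K) {n : ℕ} (ω : Module.Basis (Fin n) F K)
    (hω : ∀ x, x ∈ IC (B1 t g) ↔ ∀ i, (ω.repr x i : K) ∈ B1 t g)
    (hBF : ∀ x ∈ B1 t g, x ∈ F) :
    idx (IC (B1 t g)) ((t - algebraMap k K l)⁻¹) = n := by
  obtain ⟨ev, h1, h2⟩ := idxic_exists_ev (B1 t g) (idxic_mem ht l hl)
    (fun x hx => idxic_decomp ht l x hx) (fun c y hy h => idxic_indep ht l c y hy h)
  exact idxic_basis (B1 t g) F ω hω hBF (idxic_mem ht l hl) ev h1 h2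

/-- F3b: the degree. -/
theorem idx_IC [IsAlgClosed k] {t : K} (ht : Transcendental k t)
    [FiniteDimensional (IntermediateField.adjoin k {t}) K]
    [Algebra.IsSeparable (IntermediateField.adjoin k {t}) K] {g : Polynomial k} (hg : g ≠ 0)
    (l : k) (hl : g.eval l ≠ 0) :
    idx (IC (B1 t g)) ((t - algebraMap k K l)⁻¹) =
      Module.finrank (IntermediateField.adjoin k {t}) K := by
  have : Infinite k := IsAlgClosed.instInfinite
  obtain ⟨-, ω, -, hω⟩ := crv_basis1 (K := K) ht hg
  exact idxic_B1_basis ht l hl _ ω hω (crv_B1_le t g)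

end B1

end Vale.Agent.P292.Mo
end

section

/-!
# P292-Mo F3f: expansions at the closed points of the first chart
-/

namespace Vale.Agent.P292.Mo

open Polynomial

universe u w

/-- F3f: expansions at the closed points of the first chart. -/
theorem expansion_IC {k : Type u} [Field k] {K : Type w} [Field K] [Algebra k K]
    [IsAlgClosed k] {t : K} (ht : Transcendental k t)
    [FiniteDimensional (IntermediateField.adjoin k {t}) K]
    [Algebra.IsSeparable (IntermediateField.adjoin k {t}) K] {g : Polynomial k} (hg : g ≠ 0)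
    (c : IC (B0 t g) →ₐ[k] k) :
    ∃ ex : IC (B0 t g) →ₐ[k] PowerSeries k, Function.Injective ex ∧
      (∀ a, PowerSeries.constantCoeff (ex a) = c a) ∧
      ∀ (n : ℕ) (s : PowerSeries k), ∃ a, PowerSeries.X ^ n ∣ ex a - s := by
  have hded : IsDedekindDomain (IC (B0 t g)) := (crv_basis0 ht hg).1
  have hp : (RingHom.ker c).IsPrime := RingHom.ker_isPrime c
  have htm : t ∈ IC (B0 t g) :=
    (integralClosure (B0 t g) K).algebraMap_mem ⟨t, crv_t_mem_B0 t g⟩
  have hne : RingHom.ker c ≠ ⊥ := by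
    intro h
    let τ : IC (B0 t g) := ⟨t, htm⟩
    have h1 : τ - algebraMap k (IC (B0 t g)) (c τ) ∈ RingHom.ker c := by
      rw [RingHom.mem_ker, map_sub, AlgHom.commutes]
      simp
    rw [h, Ideal.mem_bot] at h1
    have h2 := congrArg Subtype.val h1
    exact crv_ne_C ht (c τ) h2
  have hdvr : IsDiscreteValuationRing (Localization.AtPrime (RingHom.ker c)) :=
    IsLocalization.AtPrime.isDiscreteValuationRing_of_dedekind_domain (IC (B0 t g)) hne _
  obtain ⟨ex, h1, h2, h3, -⟩ := exists_expansion_at c (RingHom.ker c) (fun a => Iff.rfl)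
  refine ⟨ex, h1, h2, fun n s => ?_⟩
  obtain ⟨a, ha⟩ := h3 n s
  exact ⟨a, (dvd_sub_comm).mp ha⟩

end Vale.Agent.P292.Mo
end

section

/-! # Spreading out: smoothness on a basic open subset of a union of smooth basic open subsets. -/

namespace Vale.Agent.P292.Mo

universe u v

/-- S1: smoothness on a basic open subset of a union of smooth basic open subsets. -/
theorem smooth_of_mem_span {k : Type u} [Field k] {R : Type v} [CommRing R] [Algebra k R]
    [Algebra.FiniteType k R] {M : ℕ} (x : Fin M → R)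
    (h : ∀ i, Algebra.FormallySmooth k (Localization.Away (x i))) (s : R)
    (hs : s ∈ Ideal.span (Set.range x)) : Algebra.FormallySmooth k (Localization.Away s) := by
  have : Algebra.FinitePresentation k R :=
    (Algebra.FinitePresentation.of_finiteType (R := k) (A := R)).1 inferInstance
  rw [← Algebra.basicOpen_subset_smoothLocus_iff]
  intro p hp
  by_contra hns
  have h1 : ∀ i, x i ∈ p.asIdeal := by
    intro i
    by_contra hi
    exact hns (Algebra.basicOpen_subset_smoothLocus_iff.2 (h i) hi)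
  have h2 : Ideal.span (Set.range x) ≤ p.asIdeal :=
    Ideal.span_le.2 (by rintro _ ⟨i, rfl⟩; exact h1 i)
  exact hp (h2 hs)

end Vale.Agent.P292.Mo
end

section

/-! # Spreading out: smoothness of a basic open set spreads out. -/

namespace Vale.Agent.P292.Mo

open MvPolynomial

universe u v w

/-- First order Taylor expansion. -/
theorem smoothspread_taylor {R : Type u} {B : Type v} [CommRing R] [CommRing B] [Algebra R B]
    {M : ℕ} (x δ : Fin M → B) (hδ : ∀ i j, δ i * δ j = 0) (p : MvPolynomial (Fin M) R) :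
    aeval (fun i => x i + δ i) p = aeval x p + ∑ i, aeval x (pderiv i p) * δ i := by
  induction p using MvPolynomial.induction_on with
  | C a => simp
  | add p q hp hq =>
    rw [map_add, map_add, hp, hq]
    have : ∀ i, aeval x (pderiv i (p + q)) * δ i =
        aeval x (pderiv i p) * δ i + aeval x (pderiv i q) * δ i := by
      intro i
      rw [map_add, map_add, add_mul]
    rw [Finset.sum_congr rfl fun i _ => this i, Finset.sum_add_distrib]
    ring
  | mul_X p n hp =>
    have h1 : ∀ i, aeval x (pderiv i (p * X n)) * δ i =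
        aeval x (pderiv i p) * δ i * x n + (if i = n then aeval x p * δ i else 0) := by
      intro i
      rw [Derivation.leibniz, pderiv_X, smul_eq_mul, smul_eq_mul, map_add, map_mul, map_mul,
        aeval_X]
      by_cases hin : i = n
      · subst hin
        simp
        ring
      · rw [Pi.single_eq_of_ne (Ne.symm hin), if_neg hin]
        simp
        ring
    rw [Finset.sum_congr rfl fun i _ => h1 i, Finset.sum_add_distrib, Finset.sum_ite_eq',
      if_pos (Finset.mem_univ _), ← Finset.sum_mul, map_mul, map_mul, hp, aeval_X, aeval_X]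
    have h2 : (∑ i, aeval x (pderiv i p) * δ i) * δ n = 0 := by
      rw [Finset.sum_mul]
      exact Finset.sum_eq_zero fun i _ => by rw [mul_assoc, hδ, mul_zero]
    linear_combination h2

/-- The certificate of smoothness. -/
def smoothspread_Cert {R : Type u} [CommRing R] {M L : ℕ} (F : Fin L → MvPolynomial (Fin M) R)
    (g : MvPolynomial (Fin M) R) (h : Fin M → Fin L → MvPolynomial (Option (Fin M)) R)
    (q : Fin L → Fin L → Fin L → MvPolynomial (Option (Fin M)) R)
    (r : Fin L → MvPolynomial (Option (Fin M)) R) : Prop :=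
  ∀ j, rename some (F j) + ∑ i, rename some (pderiv i (F j)) * ∑ l, h i l * rename some (F l) =
    (∑ a, ∑ b, q j a b * (rename some (F a) * rename some (F b))) +
      r j * (rename some g * X none - 1)

theorem smoothspread_cert_map {R : Type u} {S : Type v} [CommRing R] [CommRing S] {M L : ℕ}
    (f : R →+* S) {F : Fin L → MvPolynomial (Fin M) R}
    {g : MvPolynomial (Fin M) R} {h : Fin M → Fin L → MvPolynomial (Option (Fin M)) R}
    {q : Fin L → Fin L → Fin L → MvPolynomial (Option (Fin M)) R}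
    {r : Fin L → MvPolynomial (Option (Fin M)) R} (hc : smoothspread_Cert F g h q r) :
    smoothspread_Cert (fun l => MvPolynomial.map f (F l)) (MvPolynomial.map f g)
      (fun i l => MvPolynomial.map f (h i l)) (fun j a b => MvPolynomial.map f (q j a b))
      (fun j => MvPolynomial.map f (r j)) := by
  intro j
  have := congrArg (MvPolynomial.map f) (hc j)
  simp only [map_add, map_sum, map_mul, map_sub, map_one, map_X, map_rename] at this
  simp only [pderiv_map]
  exact this

theorem smoothspread_cert_of_map {R : Type u} {S : Type v} [CommRing R] [CommRing S] {M L : ℕ}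
    (f : R →+* S) (hf : Function.Injective (MvPolynomial.map (σ := Option (Fin M)) f))
    {F : Fin L → MvPolynomial (Fin M) R}
    {g : MvPolynomial (Fin M) R} {h : Fin M → Fin L → MvPolynomial (Option (Fin M)) R}
    {q : Fin L → Fin L → Fin L → MvPolynomial (Option (Fin M)) R}
    {r : Fin L → MvPolynomial (Option (Fin M)) R}
    (hc : smoothspread_Cert (fun l => MvPolynomial.map f (F l)) (MvPolynomial.map f g)
      (fun i l => MvPolynomial.map f (h i l)) (fun j a b => MvPolynomial.map f (q j a b))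
      (fun j => MvPolynomial.map f (r j))) : smoothspread_Cert F g h q r := by
  intro j
  apply hf
  have := hc j
  simp only [map_add, map_sum, map_mul, map_sub, map_one, map_X, map_rename]
  simp only [pderiv_map] at this
  exact this

/-- The certificate gives formal smoothness. -/
theorem smoothspread_smooth {R : Type u} [CommRing R] {M L : ℕ}
    {F : Fin L → MvPolynomial (Fin M) R} {g : MvPolynomial (Fin M) R}
    {h : Fin M → Fin L → MvPolynomial (Option (Fin M)) R}
    {q : Fin L → Fin L → Fin L → MvPolynomial (Option (Fin M)) R}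
    {r : Fin L → MvPolynomial (Option (Fin M)) R} (hc : smoothspread_Cert F g h q r) :
    Algebra.FormallySmooth R
      (Localization.Away (Ideal.Quotient.mk (Ideal.span (Set.range F)) g)) := by
  refine Algebra.FormallySmooth.of_comp_surjective fun B _ _ J hJ f => ?_
  have hJ2 : ∀ x ∈ J, ∀ y ∈ J, x * y = 0 := by
    intro x hx y hy
    have : x * y ∈ J ^ 2 := by
      rw [pow_two]
      exact Ideal.mul_mem_mul hx hy
    rwa [hJ, Ideal.mem_bot] at this
  -- the images of the variables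
  obtain ⟨φ, hφ⟩ : ∃ φ : MvPolynomial (Fin M) R →ₐ[R] B ⧸ J, ∀ p, φ p =
      f (algebraMap _ _ (Ideal.Quotient.mk (Ideal.span (Set.range F)) p)) :=
    ⟨(f.comp (Algebra.algHom R (MvPolynomial (Fin M) R ⧸ Ideal.span (Set.range F)) _)).comp
      (Ideal.Quotient.mkₐ R _), fun p => rfl⟩
  have hφF : ∀ l, φ (F l) = 0 := by
    intro l
    rw [hφ, Ideal.Quotient.eq_zero_iff_mem.mpr (Ideal.subset_span (Set.mem_range_self l)), map_zero,
      map_zero]
  have hφg : IsUnit (φ g) := by
    rw [hφ]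
    exact (IsLocalization.Away.algebraMap_isUnit
      (Ideal.Quotient.mk (Ideal.span (Set.range F)) g)).map f
  choose b hb using fun i => Ideal.Quotient.mk_surjective (φ (X i))
  have hb' : ∀ p : MvPolynomial (Fin M) R, Ideal.Quotient.mk J (aeval b p) = φ p := by
    intro p
    have : (Ideal.Quotient.mkₐ R J).comp (aeval b) = φ := by
      apply MvPolynomial.algHom_ext
      intro i
      rw [AlgHom.comp_apply, aeval_X]
      exact hb i
    rw [← this]
    rfl
  have hFJ : ∀ l, aeval b (F l) ∈ J := by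
    intro l
    rw [← Ideal.Quotient.eq_zero_iff_mem, hb', hφF]
  obtain ⟨t, ht⟩ : ∃ t, aeval b g * t = 1 := by
    obtain ⟨c, hc⟩ := hφg.exists_right_inv
    obtain ⟨c', rfl⟩ := Ideal.Quotient.mk_surjective c
    have h1 : aeval b g * c' - 1 ∈ J := by
      rw [← Ideal.Quotient.eq_zero_iff_mem, map_sub, map_mul, hb', hc, map_one, sub_self]
    have h2 := hJ2 _ h1 _ h1
    refine ⟨c' * (2 - aeval b g * c'), ?_⟩
    linear_combination -h2
  -- the evaluation at `(b, t)`
  set e : MvPolynomial (Option (Fin M)) R →ₐ[R] B := aeval (fun o => Option.elim o t b) with he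
  have her : ∀ p : MvPolynomial (Fin M) R, e (rename some p) = aeval b p := by
    intro p
    rw [he, aeval_rename]
    rfl
  have heT : e (X none) = t := by
    rw [he, aeval_X]
    rfl
  set δ : Fin M → B := fun i => ∑ l, e (h i l) * aeval b (F l) with hδ
  have hδJ : ∀ i, δ i ∈ J := fun i => sum_mem fun l _ => Ideal.mul_mem_left _ _ (hFJ l)
  have hδ2 : ∀ i j, δ i * δ j = 0 := fun i j => hJ2 _ (hδJ i) _ (hδJ j)
  have hF0 : ∀ j, aeval (fun i => b i + δ i) (F j) = 0 := by
    intro j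
    rw [smoothspread_taylor b δ hδ2]
    have h1 := congrArg e (hc j)
    simp only [map_add, map_sum, map_mul, map_sub, map_one, her, heT] at h1
    rw [ht, sub_self, mul_zero, add_zero] at h1
    rw [hδ]
    refine h1.trans ?_
    refine Finset.sum_eq_zero fun a _ => Finset.sum_eq_zero fun c _ => ?_
    rw [hJ2 _ (hFJ a) _ (hFJ c), mul_zero]
  -- the lift on the quotient
  obtain ⟨ψ, hψ⟩ : ∃ ψ : (MvPolynomial (Fin M) R ⧸ Ideal.span (Set.range F)) →ₐ[R] B,
      ∀ p, ψ (Ideal.Quotient.mk _ p) = aeval (fun i => b i + δ i) p := by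
    refine ⟨Ideal.Quotient.liftₐ _ (aeval (fun i => b i + δ i)) ?_, fun p => rfl⟩
    intro a ha
    have : Ideal.span (Set.range F) ≤ RingHom.ker (aeval (R := R) (fun i => b i + δ i)) := by
      rw [Ideal.span_le]
      rintro _ ⟨l, rfl⟩
      exact hF0 l
    exact this ha
  have hψφ : ∀ p, Ideal.Quotient.mk J (ψ (Ideal.Quotient.mk _ p)) = φ p := by
    intro p
    rw [hψ]
    have : (Ideal.Quotient.mkₐ R J).comp (aeval (fun i => b i + δ i)) = φ := by
      apply MvPolynomial.algHom_ext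
      intro i
      rw [AlgHom.comp_apply, aeval_X, map_add]
      rw [Ideal.Quotient.mkₐ_eq_mk, Ideal.Quotient.eq_zero_iff_mem.mpr (hδJ i), add_zero]
      exact hb i
    rw [← this]
    rfl
  have hψg : IsUnit (ψ (Ideal.Quotient.mk _ g)) := by
    obtain ⟨c, hc⟩ := hφg.exists_right_inv
    obtain ⟨c', rfl⟩ := Ideal.Quotient.mk_surjective c
    have h1 : ψ (Ideal.Quotient.mk _ g) * c' - 1 ∈ J := by
      rw [← Ideal.Quotient.eq_zero_iff_mem, map_sub, map_mul, hψφ, hc, map_one, sub_self]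
    have h2 := hJ2 _ h1 _ h1
    refine IsUnit.of_mul_eq_one (c' * (2 - ψ (Ideal.Quotient.mk _ g) * c')) ?_
    linear_combination -h2
  refine ⟨IsLocalization.Away.liftAlgHom (Ideal.Quotient.mk (Ideal.span (Set.range F)) g)
    hψg, ?_⟩
  apply Localization.algHom_ext
  apply Ideal.Quotient.algHom_ext
  apply MvPolynomial.algHom_ext
  intro i
  have h1 := hψφ (X i)
  rw [hφ] at h1
  refine Eq.trans ?_ h1
  change Ideal.Quotient.mk J ((IsLocalization.Away.liftAlgHom
    (Ideal.Quotient.mk (Ideal.span (Set.range F)) g) hψg)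
      (algebraMap _ _ (Ideal.Quotient.mk _ (X i)))) = _
  rw [IsLocalization.Away.liftAlgHom_apply, IsLocalization.Away.lift_eq]
  rfl

/-- Formal smoothness gives the certificate. -/
theorem smoothspread_exists_cert {R : Type u} [CommRing R] {M L : ℕ}
    (F : Fin L → MvPolynomial (Fin M) R) (g : MvPolynomial (Fin M) R)
    (hs : Algebra.FormallySmooth R
      (Localization.Away (Ideal.Quotient.mk (Ideal.span (Set.range F)) g))) :
    ∃ (h : Fin M → Fin L → MvPolynomial (Option (Fin M)) R)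
      (q : Fin L → Fin L → Fin L → MvPolynomial (Option (Fin M)) R)
      (r : Fin L → MvPolynomial (Option (Fin M)) R), smoothspread_Cert F g h q r := by
  classical
  set I₁ : Ideal (MvPolynomial (Option (Fin M)) R) :=
    Ideal.span (Set.range fun l => rename some (F l)) with hI₁
  set w : MvPolynomial (Option (Fin M)) R := rename some g * X none - 1 with hw
  set I : Ideal (MvPolynomial (Option (Fin M)) R) := I₁ ⊔ Ideal.span {w} with hI
  have hFI : ∀ l, rename some (F l) ∈ I := fun l =>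
    Ideal.mem_sup_left (Ideal.subset_span (Set.mem_range_self l))
  have hwI : w ∈ I := Ideal.mem_sup_right (Ideal.mem_span_singleton_self w)
  have hle : I ^ 2 ≤ I := Ideal.pow_le_self two_ne_zero
  let fac : (MvPolynomial (Option (Fin M)) R ⧸ I ^ 2) →ₐ[R] (MvPolynomial (Option (Fin M)) R ⧸ I) :=
    Ideal.Quotient.factorₐ R hle
  have hfac : Function.Surjective fac := by
    intro x
    obtain ⟨y, rfl⟩ := Ideal.Quotient.mk_surjective x
    exact ⟨Ideal.Quotient.mk _ y, rfl⟩
  have hker : ∀ y, fac (Ideal.Quotient.mk _ y) = 0 ↔ y ∈ I := by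
    intro y
    rw [← Ideal.Quotient.eq_zero_iff_mem]
    rfl
  have hnil : IsNilpotent (RingHom.ker fac) := by
    refine ⟨2, ?_⟩
    rw [Ideal.zero_eq_bot, eq_bot_iff, pow_two (RingHom.ker fac), Ideal.mul_le]
    intro x hx y hy
    obtain ⟨x, rfl⟩ := Ideal.Quotient.mk_surjective x
    obtain ⟨y, rfl⟩ := Ideal.Quotient.mk_surjective y
    have hx' : x ∈ I := (hker x).mp hx
    have hy' : y ∈ I := (hker y).mp hy
    rw [Ideal.mem_bot, ← map_mul, Ideal.Quotient.eq_zero_iff_mem, pow_two]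
    exact Ideal.mul_mem_mul hx' hy'
  -- the map to the quotient by `I`
  obtain ⟨f0, hf0⟩ : ∃ f0 : (MvPolynomial (Fin M) R ⧸ Ideal.span (Set.range F)) →ₐ[R]
      (MvPolynomial (Option (Fin M)) R ⧸ I),
      ∀ p, f0 (Ideal.Quotient.mk _ p) = Ideal.Quotient.mk I (rename some p) := by
    refine ⟨Ideal.Quotient.liftₐ _ ((Ideal.Quotient.mkₐ R I).comp (rename some)) ?_, fun p => rfl⟩
    intro a ha
    have : Ideal.span (Set.range F) ≤
        RingHom.ker ((Ideal.Quotient.mkₐ R I).comp (rename (R := R) some)) := by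
      rw [Ideal.span_le]
      rintro _ ⟨l, rfl⟩
      exact Ideal.Quotient.eq_zero_iff_mem.mpr (hFI l)
    exact this ha
  have hunit : IsUnit (f0 (Ideal.Quotient.mk _ g)) := by
    refine IsUnit.of_mul_eq_one (Ideal.Quotient.mk I (X none)) ?_
    rw [hf0, ← map_mul, ← sub_eq_zero, ← map_one (Ideal.Quotient.mk I), ← map_sub,
      Ideal.Quotient.eq_zero_iff_mem]
    exact hwI
  let f : Localization.Away (Ideal.Quotient.mk (Ideal.span (Set.range F)) g) →ₐ[R]
      (MvPolynomial (Option (Fin M)) R ⧸ I) :=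
    IsLocalization.Away.liftAlgHom (Ideal.Quotient.mk (Ideal.span (Set.range F)) g) hunit
  have hf : ∀ p, f (algebraMap _ _ (Ideal.Quotient.mk (Ideal.span (Set.range F)) p)) =
      Ideal.Quotient.mk I (rename some p) := by
    intro p
    rw [← hf0]
    exact IsLocalization.Away.lift_eq _ hunit _
  obtain ⟨s, hs'⟩ : ∃ s : Localization.Away (Ideal.Quotient.mk (Ideal.span (Set.range F)) g) →ₐ[R]
      (MvPolynomial (Option (Fin M)) R ⧸ I ^ 2), ∀ x, fac (s x) = f x :=
    ⟨Algebra.FormallySmooth.liftOfSurjective f fac hfac hnil,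
      Algebra.FormallySmooth.liftOfSurjective_apply f fac hfac hnil⟩
  obtain ⟨φ, hφ⟩ : ∃ φ : MvPolynomial (Fin M) R →ₐ[R] (MvPolynomial (Option (Fin M)) R ⧸ I ^ 2),
      ∀ p, φ p = s (algebraMap _ _ (Ideal.Quotient.mk (Ideal.span (Set.range F)) p)) :=
    ⟨(s.comp (Algebra.algHom R (MvPolynomial (Fin M) R ⧸ Ideal.span (Set.range F)) _)).comp
      (Ideal.Quotient.mkₐ R _), fun p => rfl⟩
  have hφF : ∀ l, φ (F l) = 0 := by
    intro l
    rw [hφ, Ideal.Quotient.eq_zero_iff_mem.mpr (Ideal.subset_span (Set.mem_range_self l)), map_zero,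
      map_zero]
  choose y hy using fun i => Ideal.Quotient.mk_surjective (φ (X i))
  have hyI : ∀ i, y i - X (some i) ∈ I := by
    intro i
    rw [← hker, map_sub, map_sub, hy, hφ, hs', hf, rename_X]
    exact sub_self _
  -- decompose the corrections
  have hdec : ∀ i, ∃ (a : Fin L → MvPolynomial (Option (Fin M)) R)
      (c : MvPolynomial (Option (Fin M)) R),
      y i - X (some i) = (∑ l, a l * rename some (F l)) + c * w := by
    intro i
    obtain ⟨u, hu, v, hv, huv⟩ := Submodule.mem_sup.mp (hyI i)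
    obtain ⟨a, ha⟩ := Ideal.mem_span_range_iff_exists_fun.mp hu
    obtain ⟨c, hc⟩ := Ideal.mem_span_singleton'.mp hv
    exact ⟨a, c, by rw [ha, hc, huv]⟩
  choose h c hhc using hdec
  -- the Taylor expansion
  have htay : ∀ j, rename some (F j) + ∑ i, rename some (pderiv i (F j)) * (y i - X (some i)) ∈
      I ^ 2 := by
    intro j
    have h1 := smoothspread_taylor (R := R)
      (fun i => Ideal.Quotient.mk (I ^ 2) (X (some i)))
      (fun i => Ideal.Quotient.mk (I ^ 2) (y i - X (some i))) (by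
        intro i i'
        rw [← map_mul, Ideal.Quotient.eq_zero_iff_mem, pow_two]
        exact Ideal.mul_mem_mul (hyI i) (hyI i')) (F j)
    have h2 : aeval (fun i => Ideal.Quotient.mk (I ^ 2) (X (some i)) +
        Ideal.Quotient.mk (I ^ 2) (y i - X (some i))) = φ := by
      apply MvPolynomial.algHom_ext
      intro i
      rw [aeval_X, ← map_add, add_sub_cancel, hy]
    have h3 : ∀ p : MvPolynomial (Fin M) R,
        aeval (fun i => Ideal.Quotient.mk (I ^ 2) (X (some i))) p =
          Ideal.Quotient.mk (I ^ 2) (rename some p) := by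
      intro p
      have : aeval (fun i => Ideal.Quotient.mk (I ^ 2) (X (some i))) =
          (Ideal.Quotient.mkₐ R (I ^ 2)).comp (rename some) := by
        apply MvPolynomial.algHom_ext
        intro i
        rw [aeval_X, AlgHom.comp_apply, rename_X]
        rfl
      rw [this]
      rfl
    rw [h2, hφF] at h1
    simp only [h3] at h1
    rw [← Ideal.Quotient.eq_zero_iff_mem, map_add, map_sum, h1]
    simp only [map_mul]
  -- the square of the ideal
  have hsq : I ^ 2 ≤ Ideal.span (Set.range fun ab : Fin L × Fin L =>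
      rename some (F ab.1) * rename some (F ab.2)) ⊔ Ideal.span {w} := by
    rw [pow_two, hI, Ideal.sup_mul, Ideal.mul_sup]
    refine sup_le (sup_le ?_ ?_) ?_
    · refine le_sup_of_le_left ?_
      rw [hI₁, Ideal.span_mul_span', Ideal.span_le]
      rintro _ ⟨_, ⟨a, rfl⟩, _, ⟨b, rfl⟩, rfl⟩
      exact Ideal.subset_span ⟨(a, b), rfl⟩
    · exact le_sup_of_le_right Ideal.mul_le_right
    · exact le_sup_of_le_right Ideal.mul_le_left
  have hfin : ∀ j, ∃ (q : Fin L × Fin L → MvPolynomial (Option (Fin M)) R)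
      (r : MvPolynomial (Option (Fin M)) R),
      rename some (F j) + ∑ i, rename some (pderiv i (F j)) * (y i - X (some i)) =
        (∑ ab : Fin L × Fin L, q ab * (rename some (F ab.1) * rename some (F ab.2))) + r * w := by
    intro j
    obtain ⟨u, hu, v, hv, huv⟩ := Submodule.mem_sup.mp (hsq (htay j))
    obtain ⟨a, ha⟩ := Ideal.mem_span_range_iff_exists_fun.mp hu
    obtain ⟨c, hc⟩ := Ideal.mem_span_singleton'.mp hv
    exact ⟨a, c, by rw [ha, hc, huv]⟩
  choose q r hqr using hfin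
  refine ⟨h, fun j a b => q j (a, b),
    fun j => r j - ∑ i, rename some (pderiv i (F j)) * c i, fun j => ?_⟩
  have h1 := hqr j
  rw [Fintype.sum_prod_type] at h1
  have h2 : ∑ i, rename some (pderiv i (F j)) * (y i - X (some i)) =
      (∑ i, rename some (pderiv i (F j)) * ∑ l, h i l * rename some (F l)) +
        (∑ i, rename some (pderiv i (F j)) * c i) * w := by
    rw [Finset.sum_mul, ← Finset.sum_add_distrib]
    refine Finset.sum_congr rfl fun i _ => ?_
    rw [hhc]
    ring
  rw [h2] at h1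
  rw [← hw]
  linear_combination h1

/-- T2: smoothness of a basic open set spreads out. -/
theorem smooth_spread {M L : ℕ} (F : Fin L → MvPolynomial (Fin M) ℂ) (g : MvPolynomial (Fin M) ℂ)
    (h : Algebra.FormallySmooth ℂ
      (Localization.Away (Ideal.Quotient.mk (Ideal.span (Set.range F)) g))) :
    ∃ A₀ : Subalgebra ℤ ℂ, A₀.FG ∧ ∀ A : Subalgebra ℤ ℂ, A₀ ≤ A →
      ∀ (F' : Fin L → MvPolynomial (Fin M) A) (g' : MvPolynomial (Fin M) A),
        (∀ i, MvPolynomial.map (algebraMap A ℂ) (F' i) = F i) →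
        MvPolynomial.map (algebraMap A ℂ) g' = g →
        ∀ (k : Type v) [Field k] (j : A →+* k), Algebra.FormallySmooth k
          (Localization.Away (Ideal.Quotient.mk
            (Ideal.span (Set.range fun l => MvPolynomial.map j (F' l))) (MvPolynomial.map j g'))) := by
  classical
  obtain ⟨h, q, r, hc⟩ := smoothspread_exists_cert F g h
  obtain ⟨A₀, hA₀, hlift⟩ := exists_lift_poly
    (Sum.elim (fun il : Fin M × Fin L => h il.1 il.2)
      (Sum.elim (fun jab : Fin L × Fin L × Fin L => q jab.1 jab.2.1 jab.2.2) r))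
  refine ⟨A₀, hA₀, fun A hA F' g' hF' hg' k _ j => ?_⟩
  choose P hP using hlift A hA
  refine smoothspread_smooth (smoothspread_cert_map j (F := F') (g := g')
    (h := fun i l => P (Sum.inl (i, l))) (q := fun j a b => P (Sum.inr (Sum.inl (j, a, b))))
    (r := fun j => P (Sum.inr (Sum.inr j))) ?_)
  refine smoothspread_cert_of_map (algebraMap A ℂ) (map_algebraMap_injective A) ?_
  simp only [hF', hg', hP, Sum.elim_inl, Sum.elim_inr]
  exact hc

end Vale.Agent.P292.Mo
end
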