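import Vale.Agent.P292.Bdl.B4
import Vale.Agent.P292.Bn.N6
import Vale.Agent.P292.Bn.N4
import Vale.Agent.P292.Bdl.B1
import Vale.Agent.P292.Bn.N5

set_option linter.all false

section

/-! # Frames: symplectic coordinates near a nonvertex point. -/

namespace Vale.Agent.P292

open Module

universe u v

variable {R : Type u} [CommRing R] [Algebra ℂ R] {𝒜 : ℕ → Submodule ℂ R} [GradedAlgebra 𝒜]
  {P : R →ₗ[ℂ] R →ₗ[ℂ] R}

/-- The matrix of brackets of a family. -/
def brMat (P : R →ₗ[ℂ] R →ₗ[ℂ] R) {N : ℕ} (x : Fin N → R) : Matrix (Fin N) (Fin N) R :=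
  Matrix.of fun i j => P (x i) (x j)

@[simp] lemma brMat_apply {N : ℕ} (x : Fin N → R) (i j : Fin N) :
    brMat P x i j = P (x i) (x j) := rfl

lemma brMat_transpose (hX : IsContactFano 𝒜 P) {N : ℕ} (x : Fin N → R) :
    (brMat P x).transpose = -brMat P x := by
  ext i j
  rw [Matrix.transpose_apply, Matrix.neg_apply, brMat_apply, brMat_apply, hX.skew]

/-- A nondegenerate frame has even rank. -/
lemma even_of_det_ne_zero (hX : IsContactFano 𝒜 P) {N : ℕ} (x : Fin N → R)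
    (h : (brMat P x).det ≠ 0) : Even N := by
  have := hX.domain
  have : CharZero R := charZero_of_injective_algebraMap (algebraMap ℂ R).injective
  by_contra hN
  rw [Nat.not_even_iff_odd] at hN
  have h1 : (brMat P x).det = -(brMat P x).det := by
    conv_lhs => rw [← Matrix.det_transpose, brMat_transpose hX, Matrix.det_neg,
      Fintype.card_fin, hN.neg_one_pow, neg_one_mul]
  exact h (self_eq_neg.mp h1)

/-- The adjugate of the matrix of brackets of a nondegenerate frame is alternating. -/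
lemma adjugate_brMat_swap (hX : IsContactFano 𝒜 P) {N : ℕ} (x : Fin N → R)
    (h : (brMat P x).det ≠ 0) (i j : Fin N) :
    (brMat P x).adjugate j i = -(brMat P x).adjugate i j := by
  have h1 : (brMat P x).adjugate.transpose = -(brMat P x).adjugate := by
    rw [Matrix.adjugate_transpose, brMat_transpose hX]
    have h2 : -brMat P x = (-1 : R) • brMat P x := by rw [neg_smul, one_smul]
    rw [h2, Matrix.adjugate_smul, Fintype.card_fin]
    have h3 : 0 < N := by
      rcases Nat.eq_zero_or_pos N with rfl | h0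
      · exact i.elim0
      · exact h0
    have h4 : Odd (N - 1) := Nat.Even.sub_odd h3 (even_of_det_ne_zero hX x h) odd_one
    rw [h4.neg_one_pow, neg_smul, one_smul]
  have h5 := congrFun (congrFun h1 i) j
  rwa [Matrix.transpose_apply, Matrix.neg_apply] at h5

lemma P_mem_constSq (hX : IsContactFano 𝒜 P) (p : R →ₐ[ℂ] ℂ) (v u : R) (hu : u ∈ constSq p) :
    p (P v u) = 0 := by
  rw [mem_constSq] at hu
  have h1 : u = (u - algebraMap ℂ R (p u)) + algebraMap ℂ R (p u) := by ring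
  rw [h1, map_add, hX.P_algebraMap_right, add_zero]
  refine Submodule.mul_induction_on (C := fun z => p (P v z) = 0) (by rwa [sq] at hu) ?_ ?_
  · intro a ha b hb
    have ha' : p a = 0 := ha
    have hb' : p b = 0 := hb
    rw [hX.leibniz, map_add, map_mul, map_mul, ha', hb', mul_zero, zero_mul, add_zero]
  · intro a b ha hb
    rw [map_add, map_add, ha, hb, add_zero]

/-- Homogeneous elements whose classes are a basis modulo `ℂ + (ker p)²`. -/
theorem fr_exists_homogeneous_basis (hX : IsContactFano 𝒜 P) (p : R →ₐ[ℂ] ℂ) :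
    ∃ (N : ℕ) (x : Fin N → R) (d : Fin N → ℕ) (b : Basis (Fin N) ℂ (R ⧸ constSq p)),
      (∀ i, x i ∈ 𝒜 (d i)) ∧ ∀ i, b i = (constSq p).mkQ (x i) := by
  classical
  have := hX.finiteType
  have := finiteDimensional_quotient_constSq p
  let S : Set (R ⧸ constSq p) := {w | ∃ k, ∃ r ∈ 𝒜 k, (constSq p).mkQ r = w}
  have hS : Submodule.span ℂ S = ⊤ := by
    rw [eq_top_iff]
    rintro w -
    obtain ⟨r, rfl⟩ := (constSq p).mkQ_surjective w
    rw [← DirectSum.sum_support_decompose 𝒜 r, map_sum]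
    exact sum_mem fun k _ => Submodule.subset_span ⟨k, _, SetLike.coe_mem _, rfl⟩
  obtain ⟨t, htS, htspan, htli⟩ := exists_linearIndependent ℂ S
  rw [hS] at htspan
  let b0 : Basis t ℂ (R ⧸ constSq p) := Basis.mk htli (by
    rw [Subtype.range_coe, htspan])
  have hfin : Finite t := Module.Finite.finite_basis b0
  have := Fintype.ofFinite t
  let e := Fintype.equivFin t
  have hx : ∀ i : Fin (Fintype.card t), ∃ (r : R) (k : ℕ), r ∈ 𝒜 k ∧
      (constSq p).mkQ r = (e.symm i : R ⧸ constSq p) := fun i => by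
    obtain ⟨k, r, hr, hrw⟩ := htS (e.symm i).2
    exact ⟨r, k, hr, hrw⟩
  choose x d hx hxe using hx
  refine ⟨Fintype.card t, x, d, b0.reindex e, hx, fun i => ?_⟩
  rw [hxe, Basis.reindex_apply, Basis.mk_apply]

/-- `x` is a homogeneous frame with denominator `g`: the differentials of the `x i` generate
those of all elements after multiplication by `g`, with coefficients `h`. -/
structure IsFrame (𝒜 : ℕ → Submodule ℂ R) {N : ℕ} (x : Fin N → R) (g : R)
    (h : R → Fin N → R) : Prop where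
  homogeneous : ∀ i, ∃ d, x i ∈ 𝒜 d
  smul_D : ∀ r, g • KaehlerDifferential.D ℂ R r = ∑ i, h r i • KaehlerDifferential.D ℂ R (x i)

omit [GradedAlgebra 𝒜] in
/-- The relation of a frame holds for every derivation. -/
theorem IsFrame.smul_derivation {N : ℕ} {x : Fin N → R} {g : R} {h : R → Fin N → R}
    (hF : IsFrame 𝒜 x g h) {M : Type*} [AddCommGroup M] [Module R M] [Module ℂ M]
    [IsScalarTower ℂ R M] (δ : Derivation ℂ R M) (r : R) :
    g • δ r = ∑ i, h r i • δ (x i) := by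
  have h1 := congrArg δ.liftKaehlerDifferential (hF.smul_D r)
  rw [map_smul, map_sum, Derivation.liftKaehlerDifferential_comp_D] at h1
  rw [h1]
  refine Finset.sum_congr rfl fun i _ => ?_
  rw [map_smul, Derivation.liftKaehlerDifferential_comp_D]

/-- The relation of a frame for Hamiltonian derivations. -/
theorem IsFrame.mul_P (hX : IsContactFano 𝒜 P) {N : ℕ} {x : Fin N → R} {g : R}
    {h : R → Fin N → R} (hF : IsFrame 𝒜 x g h) (a r : R) :
    g * P a r = ∑ i, h r i * P a (x i) :=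
  hF.smul_derivation (hX.ham a) r

/-- Cramer's rule: every derivation is determined by its values on the frame. -/
theorem IsFrame.det_smul_derivation (hX : IsContactFano 𝒜 P) {N : ℕ} {x : Fin N → R} {g : R}
    {h : R → Fin N → R} (hF : IsFrame 𝒜 x g h) {M : Type*} [AddCommGroup M] [Module R M]
    [Module ℂ M] [IsScalarTower ℂ R M] (δ : Derivation ℂ R M) (r : R) :
    (g * (brMat P x).det) • δ r =
      ∑ i, ∑ j, (g * ((brMat P x).adjugate i j * P (x j) r)) • δ (x i) := by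
  have h1 : ∀ i, (brMat P x).det * h r i =
      ∑ j, g * ((brMat P x).adjugate i j * P (x j) r) := by
    intro i
    have h2 : ∀ j, g * P (x j) r = ((brMat P x).mulVec (h r)) j := fun j => by
      rw [hF.mul_P hX, Matrix.mulVec, dotProduct]
      exact Finset.sum_congr rfl fun k _ => by rw [brMat_apply, mul_comm]
    have h3 : (brMat P x).adjugate.mulVec ((brMat P x).mulVec (h r)) =
        (brMat P x).det • h r := by
      rw [Matrix.mulVec_mulVec, Matrix.adjugate_mul, Matrix.smul_mulVec, Matrix.one_mulVec]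
    have h4 := congrFun h3 i
    rw [Pi.smul_apply, smul_eq_mul] at h4
    rw [← h4, Matrix.mulVec, dotProduct]
    refine Finset.sum_congr rfl fun j _ => ?_
    rw [← h2]; ring
  rw [mul_comm g, mul_smul, hF.smul_derivation, Finset.smul_sum]
  refine Finset.sum_congr rfl fun i _ => ?_
  rw [smul_smul, h1, Finset.sum_smul]

/-- (A) Frames at a closed nonvertex point. -/
theorem exists_frame (hX : IsContactFano 𝒜 P) {p : R →ₐ[ℂ] ℂ} (hp : ¬ IsVertex 𝒜 p) :
    ∃ (N : ℕ) (x : Fin N → R) (g : R) (h : R → Fin N → R),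
      IsFrame 𝒜 x g h ∧ p (g * (brMat P x).det) ≠ 0 := by
  classical
  have := hX.finiteType
  obtain ⟨N, x, d, b, hxd, hb⟩ := fr_exists_homogeneous_basis hX p
  set 𝔪 := RingHom.ker p with h𝔪
  -- nondegeneracy
  have hdet : p (brMat P x).det ≠ 0 := by
    rw [AlgHom.map_det]
    intro h0
    obtain ⟨c, hc, hc0⟩ := Matrix.exists_mulVec_eq_zero_iff.mpr h0
    have h1 : (∑ i, c i • x i) ∈ constSq p := by
      rw [mem_constSq]
      refine hX.nondegenerate p hp _ fun v => ?_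
      rw [hX.skew, map_neg, neg_eq_zero]
      -- `p (P v (∑ c i x i)) = 0`
      obtain ⟨a, ha⟩ : ∃ a : Fin N → ℂ, v - ∑ j, a j • x j ∈ constSq p := by
        refine ⟨fun j => b.repr ((constSq p).mkQ v) j, ?_⟩
        rw [← Submodule.Quotient.mk_eq_zero, ← Submodule.mkQ_apply, map_sub, map_sum, sub_eq_zero]
        conv_lhs => rw [← b.sum_repr ((constSq p).mkQ v)]
        refine Finset.sum_congr rfl fun i _ => ?_
        rw [map_smul, hb]
      have h2 : p (P (v - ∑ j, a j • x j) (∑ i, c i • x i)) = 0 := by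
        rw [hX.skew, map_neg, P_mem_constSq hX p _ _ ha, neg_zero]
      have h3 : p (P (∑ j, a j • x j) (∑ i, c i • x i)) = 0 := by
        have e1 : P (∑ j, a j • x j) = ∑ j, a j • P (x j) := by
          rw [map_sum]
          exact Finset.sum_congr rfl fun j _ => map_smul _ _ _
        rw [e1, LinearMap.sum_apply, map_sum]
        refine Finset.sum_eq_zero fun j _ => ?_
        rw [LinearMap.smul_apply, map_smul, map_sum, map_sum]
        have h4 := congrFun hc0 j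
        simp only [Matrix.mulVec, dotProduct, AlgHom.mapMatrix_apply, Matrix.map_apply,
          brMat_apply, Pi.zero_apply] at h4
        have h5 : (∑ i, p (P (x j) (c i • x i))) = 0 := by
          rw [← h4]
          refine Finset.sum_congr rfl fun i _ => ?_
          rw [map_smul, map_smul, smul_eq_mul, mul_comm]
        rw [h5, smul_zero]
      rw [map_sub, LinearMap.sub_apply, map_sub, h3, sub_zero] at h2
      exact h2
    have h2 : (∑ i, c i • b i) = 0 := by
      rw [← Submodule.Quotient.mk_eq_zero, ← Submodule.mkQ_apply, map_sum] at h1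
      rw [← h1]
      refine Finset.sum_congr rfl fun i _ => ?_
      rw [map_smul, hb]
    exact hc (funext fun i => Fintype.linearIndependent_iff.mp b.linearIndependent c h2 i)
  -- differentials
  let Q : Submodule R (Ω[R⁄ℂ]) :=
    Submodule.span R (Set.range fun i => KaehlerDifferential.D ℂ R (x i))
  have hsup : (⊤ : Submodule R (Ω[R⁄ℂ])) ≤ Q ⊔ 𝔪 • (⊤ : Submodule R (Ω[R⁄ℂ])) := by
    refine le_trans (KaehlerDifferential.span_range_derivation ℂ R).ge ?_
    rw [Submodule.span_le]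
    rintro _ ⟨r, rfl⟩
    obtain ⟨a, ha⟩ : ∃ a : Fin N → ℂ, r - ∑ j, a j • x j ∈ constSq p := by
      refine ⟨fun j => b.repr ((constSq p).mkQ r) j, ?_⟩
      rw [← Submodule.Quotient.mk_eq_zero, ← Submodule.mkQ_apply, map_sub, map_sum, sub_eq_zero]
      conv_lhs => rw [← b.sum_repr ((constSq p).mkQ r)]
      refine Finset.sum_congr rfl fun i _ => ?_
      rw [map_smul, hb]
    obtain ⟨u, hu⟩ : ∃ u, u = r - ∑ j, a j • x j := ⟨_, rfl⟩
    rw [← hu] at ha
    have h1 : KaehlerDifferential.D ℂ R r = (∑ j, a j • KaehlerDifferential.D ℂ R (x j)) +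
        KaehlerDifferential.D ℂ R (u - algebraMap ℂ R (p u)) := by
      have h2 : r = (∑ j, a j • x j) + u := by rw [hu]; ring
      conv_lhs => rw [h2]
      rw [map_add, map_sub (KaehlerDifferential.D ℂ R) u, Derivation.map_algebraMap, sub_zero,
        map_sum]
      congr 1
      exact Finset.sum_congr rfl fun j _ => Derivation.map_smul _ _ _
    rw [SetLike.mem_coe, h1]
    refine add_mem (Submodule.mem_sup_left ?_) (Submodule.mem_sup_right ?_)
    · refine sum_mem fun j _ => ?_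
      rw [← algebraMap_smul R (a j)]
      exact Submodule.smul_mem _ _ (Submodule.subset_span ⟨j, rfl⟩)
    · rw [mem_constSq, sq] at ha
      refine Submodule.mul_induction_on (C := fun z => KaehlerDifferential.D ℂ R z ∈
        𝔪 • (⊤ : Submodule R (Ω[R⁄ℂ]))) ha ?_ ?_
      · intro a ha b hb
        rw [Derivation.leibniz]
        exact add_mem (Submodule.smul_mem_smul ha trivial) (Submodule.smul_mem_smul hb trivial)
      · intro a b ha hb
        rw [map_add]
        exact add_mem ha hb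
  obtain ⟨g, hg1, hg⟩ := Submodule.exists_sub_one_mem_and_smul_le_of_fg_of_le_sup
    (N' := (⊤ : Submodule R (Ω[R⁄ℂ]))) (Module.Finite.fg_top) le_rfl hsup
  have hgp : p g ≠ 0 := by
    have h1 : p (g - 1) = 0 := hg1
    rw [map_sub, map_one, sub_eq_zero] at h1
    rw [h1]; exact one_ne_zero
  have hh : ∀ r, ∃ h : Fin N → R,
      g • KaehlerDifferential.D ℂ R r = ∑ i, h i • KaehlerDifferential.D ℂ R (x i) := by
    intro r
    have h1 : g • KaehlerDifferential.D ℂ R r ∈ Q := hg (Submodule.smul_mem_pointwise_smul _ _ _ trivial)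
    obtain ⟨c, hc⟩ := (Submodule.mem_span_range_iff_exists_fun R).mp h1
    exact ⟨c, hc.symm⟩
  choose h hh using hh
  exact ⟨N, x, g, h, ⟨fun i => ⟨d i, hxd i⟩, hh⟩, by rw [map_mul]; exact mul_ne_zero hgp hdet⟩

/-- (A) Frames at a prime that does not contain the irrelevant ideal. -/
theorem exists_frame_of_prime (hX : IsContactFano 𝒜 P) (I : Ideal R) (hI : I.IsPrime) {k : ℕ}
    (hk : 0 < k) {r : R} (hr : r ∈ 𝒜 k) (hrI : r ∉ I) :
    ∃ (N : ℕ) (x : Fin N → R) (g : R) (h : R → Fin N → R),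
      IsFrame 𝒜 x g h ∧ g * (brMat P x).det ∉ I := by
  obtain ⟨p, hp1, hp2⟩ := exists_closed_of_prime hX I
    (fun r n h => hI.mem_of_pow_mem n h) r hrI
  have hp : ¬ IsVertex 𝒜 p := fun hv => hp2 (hv k hk r hr)
  obtain ⟨N, x, g, h, hF, hg⟩ := exists_frame hX hp
  exact ⟨N, x, g, h, hF, fun hmem => hg (hp1 _ hmem)⟩

/-- (A) Frames at a point with values in a domain. -/
theorem exists_frame_of_point (hX : IsContactFano 𝒜 P) {B : Type v} [CommRing B] [IsDomain B]
    [Algebra ℂ B] (q : R →ₐ[ℂ] B) {k : ℕ} (hk : 0 < k) {r : R} (hr : r ∈ 𝒜 k) (hrq : q r ≠ 0) :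
    ∃ (N : ℕ) (x : Fin N → R) (g : R) (h : R → Fin N → R),
      IsFrame 𝒜 x g h ∧ q (g * (brMat P x).det) ≠ 0 := by
  obtain ⟨N, x, g, h, hF, hg⟩ := exists_frame_of_prime hX (RingHom.ker q)
    (RingHom.ker_isPrime q) hk hr (by rwa [RingHom.mem_ker])
  exact ⟨N, x, g, h, hF, fun h0 => hg (by rwa [RingHom.mem_ker])⟩

end Vale.Agent.P292
end

section

/-! # LeBrun-Salamon, block A1: homogeneous charts at closed points. -/

namespace Vale.Agent.P292

open Module

universe u v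

variable {R : Type u} [CommRing R] [Algebra ℂ R] {𝒜 : ℕ → Submodule ℂ R} [GradedAlgebra 𝒜]
  {P : R →ₗ[ℂ] R →ₗ[ℂ] R}

variable (𝒜) in
/-- Scaling as a linear map. -/
noncomputable def scaleLin (c : ℂ) : R →ₗ[ℂ] R :=
  (DirectSum.toModule ℂ ℕ R (fun k => (c ^ k : ℂ) • (𝒜 k).subtype)) ∘ₗ
    (DirectSum.decomposeLinearEquiv 𝒜).toLinearMap

lemma scaleLin_apply (c : ℂ) {k : ℕ} {r : R} (hr : r ∈ 𝒜 k) : scaleLin 𝒜 c r = (c ^ k) • r := by
  change DirectSum.toModule ℂ ℕ R (fun k => (c ^ k : ℂ) • (𝒜 k).subtype)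
    (DirectSum.decompose 𝒜 r) = _
  rw [DirectSum.decompose_of_mem 𝒜 hr]
  change DirectSum.toModule ℂ ℕ R (fun k => (c ^ k : ℂ) • (𝒜 k).subtype)
    (DirectSum.lof ℂ ℕ (fun k => 𝒜 k) k ⟨r, hr⟩) = _
  rw [DirectSum.toModule_lof]
  rfl

lemma scaleLin_mul (c : ℂ) (a b : R) :
    scaleLin 𝒜 c (a * b) = scaleLin 𝒜 c a * scaleLin 𝒜 c b := by
  refine forall_of_homogeneous' (𝒜 := 𝒜) (scaleLin 𝒜 c ∘ₗ LinearMap.mulRight ℂ b)
    (LinearMap.mulRight ℂ (scaleLin 𝒜 c b) ∘ₗ scaleLin 𝒜 c) (fun k r hr => ?_) a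
  refine forall_of_homogeneous' (𝒜 := 𝒜) (scaleLin 𝒜 c ∘ₗ LinearMap.mulLeft ℂ r)
    (LinearMap.mulLeft ℂ (scaleLin 𝒜 c r) ∘ₗ scaleLin 𝒜 c) (fun l s hs => ?_) b
  simp only [LinearMap.comp_apply, LinearMap.mulLeft_apply]
  rw [scaleLin_apply c (SetLike.mul_mem_graded hr hs), scaleLin_apply c hr, scaleLin_apply c hs,
    smul_mul_smul_comm, pow_add]

variable (𝒜) in
/-- Scaling as an algebra homomorphism. -/
noncomputable def scaleHom (c : ℂ) : R →ₐ[ℂ] R :=
  AlgHom.ofLinearMap (scaleLin 𝒜 c)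
    (by rw [scaleLin_apply c (SetLike.one_mem_graded 𝒜), pow_zero, one_smul]) (scaleLin_mul c)

lemma scaleHom_apply (c : ℂ) {k : ℕ} {r : R} (hr : r ∈ 𝒜 k) : scaleHom 𝒜 c r = (c ^ k) • r :=
  scaleLin_apply c hr

lemma scaleHom_scaleHom_inv {c : ℂ} (hc : c ≠ 0) (r : R) :
    scaleHom 𝒜 c (scaleHom 𝒜 c⁻¹ r) = r := by
  refine forall_of_homogeneous' (𝒜 := 𝒜)
    ((scaleHom 𝒜 c).toLinearMap ∘ₗ (scaleHom 𝒜 c⁻¹).toLinearMap) LinearMap.id
    (fun k r hr => ?_) r
  simp only [LinearMap.comp_apply, AlgHom.toLinearMap_apply, LinearMap.id_apply]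
  rw [scaleHom_apply _ hr, map_smul, scaleHom_apply _ hr, smul_smul, ← mul_pow,
    inv_mul_cancel₀ hc, one_pow, one_smul]

/-- A subspace stable under scaling contains the homogeneous components of its elements. -/
theorem component_mem_of_scale (I : Submodule ℂ R)
    (hI : ∀ c : ℂ, c ≠ 0 → ∀ r ∈ I, scaleHom 𝒜 c r ∈ I) {r : R} (hr : r ∈ I) (l : ℕ) :
    (DirectSum.decompose 𝒜 r l : R) ∈ I := by
  classical
  by_contra hl
  have h1 : I.mkQ (DirectSum.decompose 𝒜 r l : R) ≠ 0 := by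
    rwa [Submodule.mkQ_apply, Ne, Submodule.Quotient.mk_eq_zero]
  obtain ⟨φ, hφ⟩ : ∃ φ : Module.Dual ℂ (R ⧸ I), φ (I.mkQ (DirectSum.decompose 𝒜 r l : R)) ≠ 0 := by
    by_contra hcon
    push Not at hcon
    exact h1 ((Module.forall_dual_apply_eq_zero_iff ℂ _).mp hcon)
  let p : Polynomial ℂ := ∑ k ∈ (DirectSum.decompose 𝒜 r).support,
    Polynomial.C (φ (I.mkQ (DirectSum.decompose 𝒜 r k : R))) * Polynomial.X ^ k
  have hp : p = 0 := by
    refine Polynomial.eq_zero_of_infinite_isRoot p (Set.Infinite.mono (s := {c : ℂ | c ≠ 0}) ?_ ?_)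
    · intro c hc
      have h2 : φ (I.mkQ (scaleHom 𝒜 c r)) = 0 := by
        rw [Submodule.mkQ_apply, (Submodule.Quotient.mk_eq_zero _).mpr (hI c hc r hr), map_zero]
      change Polynomial.eval c p = 0
      rw [← h2]
      conv_rhs => rw [← DirectSum.sum_support_decompose 𝒜 r]
      rw [map_sum, map_sum, map_sum, Polynomial.eval_finsetSum]
      refine Finset.sum_congr rfl fun k _ => ?_
      rw [scaleHom_apply c (SetLike.coe_mem _), map_smul, map_smul, Polynomial.eval_mul,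
        Polynomial.eval_C, Polynomial.eval_pow, Polynomial.eval_X, smul_eq_mul, mul_comm]
    · exact (Set.finite_singleton (0 : ℂ)).infinite_compl
  have h3 : p.coeff l = φ (I.mkQ (DirectSum.decompose 𝒜 r l : R)) := by
    rw [Polynomial.finsetSum_coeff]
    rw [Finset.sum_eq_single l]
    · rw [Polynomial.coeff_C_mul, Polynomial.coeff_X_pow_self, mul_one]
    · intro k _ hk
      rw [Polynomial.coeff_C_mul, Polynomial.coeff_X_pow, if_neg (Ne.symm hk), mul_zero]
    · intro hl'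
      rw [DFinsupp.notMem_support_iff] at hl'
      rw [hl']; simp
  apply hφ
  rw [← h3, hp, Polynomial.coeff_zero]

/-- Relations between differentials hold for derivations along homomorphisms. -/
theorem relation_along {A : Type*} [CommRing A] [Algebra ℂ A] (τ : R →ₐ[ℂ] A) {M : Type*}
    [AddCommGroup M] [Module A M] [Module ℂ M] [IsScalarTower ℂ A M] (δ : R →ₗ[ℂ] M)
    (hδ : ∀ a b, δ (a * b) = τ a • δ b + τ b • δ a) {N : ℕ} {x c : Fin N → R} {g r : R}
    (h : g • KaehlerDifferential.D ℂ R r = ∑ i, c i • KaehlerDifferential.D ℂ R (x i)) :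
    τ g • δ r = ∑ i, τ (c i) • δ (x i) := by
  let _ : Module R M := Module.compHom M (τ : R →+* A)
  have hsm : ∀ (r : R) (m : M), r • m = τ r • m := fun _ _ => rfl
  have : IsScalarTower ℂ R M := ⟨fun c r m => by
    rw [hsm, hsm, map_smul, smul_assoc]⟩
  let δ' : Derivation ℂ R M := Derivation.mk' δ fun a b => by
    rw [hsm, hsm]; exact hδ a b
  have h1 := congrArg δ'.liftKaehlerDifferential h
  rw [map_smul, map_sum, Derivation.liftKaehlerDifferential_comp_D] at h1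
  change τ g • δ r = _ at h1
  rw [h1]
  refine Finset.sum_congr rfl fun i _ => ?_
  rw [map_smul, Derivation.liftKaehlerDifferential_comp_D]
  rfl

/-- A1: homogeneous coordinates at every nonvertex closed point. -/
theorem exists_chart (hX : IsContactFano 𝒜 P) (p : R →ₐ[ℂ] ℂ) (hp : ¬ IsVertex 𝒜 p) :
    ∃ (N : ℕ) (x : Fin N → R) (k : Fin N → ℕ) (g : R) (l : ℕ), (∀ i, x i ∈ 𝒜 (k i)) ∧ g ∈ 𝒜 l ∧
      p g ≠ 0 ∧ p (Matrix.det (Matrix.of fun i j => P (x i) (x j))) ≠ 0 ∧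
      ∀ r, ∃ c : Fin N → R, g • KaehlerDifferential.D ℂ R r =
        ∑ i, c i • KaehlerDifferential.D ℂ R (x i) := by
  classical
  obtain ⟨N, x, g, h, hF, hg⟩ := exists_frame hX hp
  rw [map_mul] at hg
  choose k hk using hF.homogeneous
  let Q : Submodule R (Ω[R⁄ℂ]) :=
    Submodule.span R (Set.range fun i => KaehlerDifferential.D ℂ R (x i))
  let I : Submodule ℂ R :=
    { carrier := {a | ∀ r, a • KaehlerDifferential.D ℂ R r ∈ Q}
      add_mem' := fun {a b} ha hb r => by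
        rw [add_smul]; exact add_mem (ha r) (hb r)
      zero_mem' := fun r => by rw [zero_smul]; exact zero_mem _
      smul_mem' := fun c a ha r => by
        have h1 : (c • a) • KaehlerDifferential.D ℂ R r =
            (algebraMap ℂ R c) • (a • KaehlerDifferential.D ℂ R r) := by
          rw [Algebra.smul_def, mul_smul]
        rw [h1]
        exact Submodule.smul_mem _ _ (ha r) }
  have hgI : g ∈ I := fun r => by
    rw [hF.smul_D r]
    exact sum_mem fun i _ => Submodule.smul_mem _ _ (Submodule.subset_span ⟨i, rfl⟩)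
  have hI : ∀ c : ℂ, c ≠ 0 → ∀ a ∈ I, scaleHom 𝒜 c a ∈ I := by
    intro c hc a ha r
    obtain ⟨y, hy⟩ := (Submodule.mem_span_range_iff_exists_fun R).mp (ha (scaleHom 𝒜 c⁻¹ r))
    have h1 := relation_along (scaleHom 𝒜 c)
      ((KaehlerDifferential.D ℂ R).toLinearMap ∘ₗ (scaleHom 𝒜 c).toLinearMap) (fun a b => by
        simp only [LinearMap.comp_apply, AlgHom.toLinearMap_apply, map_mul]
        exact Derivation.leibniz _ _ _) hy.symm
    simp only [LinearMap.comp_apply, AlgHom.toLinearMap_apply] at h1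
    rw [scaleHom_scaleHom_inv hc] at h1
    change _ • KaehlerDifferential.D ℂ R r ∈ Q
    change _ • KaehlerDifferential.D ℂ R r = _ at h1
    rw [h1]
    refine sum_mem fun i _ => Submodule.smul_mem _ _ ?_
    change KaehlerDifferential.D ℂ R (scaleHom 𝒜 c (x i)) ∈ Q
    rw [scaleHom_apply c (hk i), Derivation.map_smul, ← algebraMap_smul R (c ^ k i)]
    exact Submodule.smul_mem _ _ (Submodule.subset_span ⟨i, rfl⟩)
  obtain ⟨l, hl⟩ : ∃ l, p (DirectSum.decompose 𝒜 g l : R) ≠ 0 := by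
    by_contra hcon
    push Not at hcon
    apply left_ne_zero_of_mul hg
    rw [← DirectSum.sum_support_decompose 𝒜 g, map_sum]
    exact Finset.sum_eq_zero fun l _ => hcon l
  refine ⟨N, x, k, (DirectSum.decompose 𝒜 g l : R), l, hk, SetLike.coe_mem _, hl,
    right_ne_zero_of_mul hg, fun r => ?_⟩
  obtain ⟨c, hc⟩ := (Submodule.mem_span_range_iff_exists_fun R).mp
    (component_mem_of_scale I hI hgI l r)
  exact ⟨c, hc.symm⟩

end Vale.Agent.P292
end

section

/-! Charts at points with values in domains, in terms of Kaehler differentials. -/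

namespace Vale.Agent.P292

open MvPolynomial

universe u v w

variable {R : Type u} [CommRing R] [Algebra ℂ R] {𝒜 : ℕ → Submodule ℂ R} [GradedAlgebra 𝒜]
  {P : R →ₗ[ℂ] R →ₗ[ℂ] R}

/-- Closed specialisations. -/
theorem kd_exists_closed {B : Type v} [CommRing B] [IsDomain B] [Algebra ℂ B]
    [Algebra.FiniteType ℂ R] (x : R →ₐ[ℂ] B) (g : R) (hg : x g ≠ 0) :
    ∃ p : R →ₐ[ℂ] ℂ, (∀ r, x r = 0 → p r = 0) ∧ p g ≠ 0 := by
  have hJ : IsJacobsonRing R := isJacobsonRing_of_finiteType (A := ℂ)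
  set I : Ideal R := RingHom.ker x with hI
  have hprime : I.IsPrime := RingHom.ker_isPrime _
  have hjac : I.jacobson = I := hJ.out hprime.isRadical
  have hgI : g ∉ I.jacobson := by
    rw [hjac, hI, RingHom.mem_ker]
    exact hg
  rw [Ideal.jacobson, Ideal.mem_sInf] at hgI
  push Not at hgI
  obtain ⟨m, ⟨hm1, hm2⟩, hm3⟩ := hgI
  letI : Field (R ⧸ m) := Ideal.Quotient.field m
  have hft : Algebra.FiniteType ℂ (R ⧸ m) :=
    Algebra.FiniteType.of_surjective (Ideal.Quotient.mkₐ ℂ m) Ideal.Quotient.mk_surjective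
  have hfin : Module.Finite ℂ (R ⧸ m) := finite_of_finite_type_of_isJacobsonRing ℂ (R ⧸ m)
  have hint : Algebra.IsIntegral ℂ (R ⧸ m) := Algebra.IsIntegral.of_finite ℂ (R ⧸ m)
  have hbij : Function.Bijective (algebraMap ℂ (R ⧸ m)) :=
    IsAlgClosed.algebraMap_bijective_of_isIntegral
  let e : ℂ ≃ₐ[ℂ] (R ⧸ m) := AlgEquiv.ofBijective (Algebra.ofId ℂ (R ⧸ m)) hbij
  refine ⟨(e.symm : (R ⧸ m) →ₐ[ℂ] ℂ).comp (Ideal.Quotient.mkₐ ℂ m), ?_, ?_⟩
  · intro r hr
    have h1 : (Ideal.Quotient.mkₐ ℂ m) r = 0 := by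
      rw [Ideal.Quotient.mkₐ_eq_mk, Ideal.Quotient.eq_zero_iff_mem]
      exact hm1 hr
    rw [AlgHom.comp_apply, h1, map_zero]
  · intro h0
    rw [AlgHom.comp_apply] at h0
    have h1 : (Ideal.Quotient.mkₐ ℂ m) g = 0 := by
      have := congrArg e h0
      simpa using this
    rw [Ideal.Quotient.mkₐ_eq_mk, Ideal.Quotient.eq_zero_iff_mem] at h1
    exact hm3 h1

/-- Homogeneous coordinates at a nonvertex point with values in a domain. -/
theorem exists_chart_kd (hX : IsContactFano 𝒜 P) {E : Type v} [CommRing E] [IsDomain E]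
    [Algebra ℂ E] (x₀ : R →ₐ[ℂ] E) (hx : IsNV 𝒜 x₀) :
    ∃ (N : ℕ) (x : Fin N → R) (k : Fin N → ℕ) (g : R) (l : ℕ), (∀ i, x i ∈ 𝒜 (k i)) ∧ g ∈ 𝒜 l ∧
      x₀ g ≠ 0 ∧ x₀ (Matrix.det (Matrix.of fun i j => P (x i) (x j))) ≠ 0 ∧
      ∀ r, ∃ c : Fin N → R, g • KaehlerDifferential.D ℂ R r =
        ∑ i, c i • KaehlerDifferential.D ℂ R (x i) := by
  have hft : Algebra.FiniteType ℂ R := hX.finiteType
  obtain ⟨k₀, hk₀, r₀, hr₀, hne⟩ := hx
  obtain ⟨p, hp, hpr⟩ := kd_exists_closed x₀ r₀ hne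
  obtain ⟨N, x, k, g, l, h1, h2, h3, h4, h5⟩ := exists_chart hX p fun h => hpr (h k₀ hk₀ r₀ hr₀)
  exact ⟨N, x, k, g, l, h1, h2, fun h => h3 (hp g h), fun h => h4 (hp _ h), h5⟩

end Vale.Agent.P292
end

section

/-! # LeBrun-Salamon, block B: the symplectic form at a field valued point -/

namespace Vale.Agent.P292

universe u v

variable {R : Type u} [CommRing R] [Algebra ℂ R] {𝒜 : ℕ → Submodule ℂ R} [GradedAlgebra 𝒜]
  {P : R →ₗ[ℂ] R →ₗ[ℂ] R}

section om

variable {E : Type v} [Field E] [Algebra ℂ E] {x : R →ₐ[ℂ] E}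

theorem isDer_hamAt (hX : IsContactFano 𝒜 P) (x : R →ₐ[ℂ] E) (r : R) :
    IsDer x (hamAt P x r) := by
  intro s t
  simp only [hamAt_apply, hX.leibniz, map_add, map_mul]
  ring

theorem exists_ham_rep (hX : IsContactFano 𝒜 P) (hx : IsNV 𝒜 x) :
    ∃ (N : ℕ) (r : Fin N → R), ∀ δ, IsDer x δ → ∃ a : Fin N → E, ∀ s,
      δ s = ∑ i, a i * x (P (r i) s) := by
  obtain ⟨k, hk, r, hr, hrx⟩ := hx
  obtain ⟨N, y, g, h, hF, hg⟩ := exists_frame_of_point hX x hk hr hrx
  refine ⟨N, y, fun δ hδ => ?_⟩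
  let _ : Module R E := Module.compHom E x.toRingHom
  have hsm : ∀ (r : R) (z : E), r • z = x r * z := fun _ _ => rfl
  have _ : IsScalarTower ℂ R E := ⟨fun c r z => by rw [hsm, hsm, map_smul, smul_mul_assoc]⟩
  let D' : Derivation ℂ R E := Derivation.mk' δ (fun a b => by rw [hsm, hsm]; exact hδ a b)
  have hD' : ∀ s, D' s = δ s := fun _ => rfl
  refine ⟨fun j => ∑ i, x ((brMat P y).adjugate i j) * δ (y i) / x (brMat P y).det,
    fun s => ?_⟩
  have h1 := hF.det_smul_derivation hX D' s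
  rw [map_mul] at hg
  have hg1 : x g ≠ 0 := left_ne_zero_of_mul hg
  have hg2 : x (brMat P y).det ≠ 0 := right_ne_zero_of_mul hg
  have h2 : x g * (x (brMat P y).det * δ s) =
      x g * ∑ i, ∑ j, x ((brMat P y).adjugate i j) * x (P (y j) s) * δ (y i) := by
    have h3 : (g * (brMat P y).det) • D' s = x g * (x (brMat P y).det * δ s) := by
      rw [hsm, map_mul, hD', mul_assoc]
    rw [← h3, h1, Finset.mul_sum]
    refine Finset.sum_congr rfl fun i _ => ?_
    rw [Finset.mul_sum]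
    refine Finset.sum_congr rfl fun j _ => ?_
    rw [hsm, hD', map_mul, map_mul]
    ring
  have h4 := mul_left_cancel₀ hg1 h2
  have h5 : δ s = (∑ i, ∑ j, x ((brMat P y).adjugate i j) * x (P (y j) s) * δ (y i)) /
      x (brMat P y).det := by
    rw [eq_div_iff hg2, mul_comm, h4]
  rw [h5, Finset.sum_comm, Finset.sum_div]
  refine Finset.sum_congr rfl fun j _ => ?_
  rw [Finset.sum_mul, Finset.sum_div]
  refine Finset.sum_congr rfl fun i _ => ?_
  ring

/-- Two representations of a derivation by Hamiltonian derivations give the same value. -/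
theorem ham_rep_pair (hX : IsContactFano 𝒜 P) {δ δ' : R →ₗ[ℂ] E}
    {N : ℕ} {a : Fin N → E} {r : Fin N → R} (h : ∀ s, δ s = ∑ i, a i * x (P (r i) s))
    {M : ℕ} {c : Fin M → E} {t : Fin M → R} (h' : ∀ s, δ' s = ∑ i, c i * x (P (t i) s)) :
    ∑ i, a i * δ' (r i) = - ∑ k, c k * δ (t k) := by
  have h1 : ∑ i, a i * δ' (r i) = ∑ i, ∑ k, a i * (c k * x (P (t k) (r i))) := by
    refine Finset.sum_congr rfl fun i _ => ?_
    rw [h', Finset.mul_sum]
  have h2 : ∑ k, c k * δ (t k) = ∑ k, ∑ i, c k * (a i * x (P (r i) (t k))) := by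
    refine Finset.sum_congr rfl fun k _ => ?_
    rw [h, Finset.mul_sum]
  rw [h1, h2, Finset.sum_comm, ← Finset.sum_neg_distrib]
  refine Finset.sum_congr rfl fun k _ => ?_
  rw [← Finset.sum_neg_distrib]
  refine Finset.sum_congr rfl fun i _ => ?_
  rw [hX.skew (t k) (r i), map_neg]
  ring

theorem om_eq (hX : IsContactFano 𝒜 P) (hx : IsNV 𝒜 x) {δ δ' : R →ₗ[ℂ] E} (hδ' : IsDer x δ')
    {N : ℕ} {a : Fin N → E} {r : Fin N → R} (h : ∀ s, δ s = ∑ i, a i * x (P (r i) s)) :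
    om P x δ δ' = ∑ i, a i * δ' (r i) := by
  have hex : ∃ c, IsOm P x δ δ' c := ⟨_, N, a, r, h, rfl⟩
  have h1 : om P x δ δ' = hex.choose := by
    unfold om
    rw [dif_pos hex]
  obtain ⟨M, b, t, hb, hc⟩ := hex.choose_spec
  obtain ⟨L, u, hu⟩ := exists_ham_rep hX hx
  obtain ⟨c, hc'⟩ := hu δ' hδ'
  rw [h1, hc, ham_rep_pair hX hb hc', ham_rep_pair hX h hc']

theorem om_ham (hX : IsContactFano 𝒜 P) (hx : IsNV 𝒜 x) {δ' : R →ₗ[ℂ] E} (hδ' : IsDer x δ')
    (r : R) : om P x (hamAt P x r) δ' = δ' r := by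
  rw [om_eq hX hx hδ' (N := 1) (a := fun _ => 1) (r := fun _ => r) (fun s => by simp)]
  simp

theorem om_antisymm (hX : IsContactFano 𝒜 P) (hx : IsNV 𝒜 x) {δ δ' : R →ₗ[ℂ] E}
    (hδ : IsDer x δ) (hδ' : IsDer x δ') : om P x δ δ' = - om P x δ' δ := by
  obtain ⟨L, u, hu⟩ := exists_ham_rep hX hx
  obtain ⟨a, ha⟩ := hu δ hδ
  obtain ⟨c, hc⟩ := hu δ' hδ'
  rw [om_eq hX hx hδ' ha, om_eq hX hx hδ hc, ham_rep_pair hX ha hc]

theorem om_add_right (hX : IsContactFano 𝒜 P) (hx : IsNV 𝒜 x) {δ δ₁ δ₂ : R →ₗ[ℂ] E}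
    (hδ : IsDer x δ) (h1 : IsDer x δ₁) (h2 : IsDer x δ₂) :
    om P x δ (δ₁ + δ₂) = om P x δ δ₁ + om P x δ δ₂ := by
  have h12 : IsDer x (δ₁ + δ₂) := (DerAt x).add_mem h1 h2
  obtain ⟨L, u, hu⟩ := exists_ham_rep hX hx
  obtain ⟨a, ha⟩ := hu δ hδ
  rw [om_eq hX hx h12 ha, om_eq hX hx h1 ha, om_eq hX hx h2 ha, ← Finset.sum_add_distrib]
  refine Finset.sum_congr rfl fun i _ => ?_
  rw [LinearMap.add_apply, mul_add]

theorem om_smul_right (hX : IsContactFano 𝒜 P) (hx : IsNV 𝒜 x) {δ δ' : R →ₗ[ℂ] E}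
    (hδ : IsDer x δ) (h1 : IsDer x δ') (c : E) :
    om P x δ (c • δ') = c * om P x δ δ' := by
  have h12 : IsDer x (c • δ') := (DerAt x).smul_mem c h1
  obtain ⟨L, u, hu⟩ := exists_ham_rep hX hx
  obtain ⟨a, ha⟩ := hu δ hδ
  rw [om_eq hX hx h12 ha, om_eq hX hx h1 ha, Finset.mul_sum]
  refine Finset.sum_congr rfl fun i _ => ?_
  rw [LinearMap.smul_apply, smul_eq_mul]
  ring

theorem om_add_left (hX : IsContactFano 𝒜 P) (hx : IsNV 𝒜 x) {δ₁ δ₂ δ' : R →ₗ[ℂ] E}
    (h1 : IsDer x δ₁) (h2 : IsDer x δ₂) (hδ' : IsDer x δ') :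
    om P x (δ₁ + δ₂) δ' = om P x δ₁ δ' + om P x δ₂ δ' := by
  have h12 : IsDer x (δ₁ + δ₂) := (DerAt x).add_mem h1 h2
  rw [om_antisymm hX hx h12 hδ', om_antisymm hX hx h1 hδ', om_antisymm hX hx h2 hδ',
    om_add_right hX hx hδ' h1 h2]
  ring

theorem om_smul_left (hX : IsContactFano 𝒜 P) (hx : IsNV 𝒜 x) {δ δ' : R →ₗ[ℂ] E}
    (h1 : IsDer x δ) (hδ' : IsDer x δ') (c : E) :
    om P x (c • δ) δ' = c * om P x δ δ' := by
  have h12 : IsDer x (c • δ) := (DerAt x).smul_mem c h1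
  rw [om_antisymm hX hx h12 hδ', om_antisymm hX hx h1 hδ', om_smul_right hX hx hδ' h1 c]
  ring

/-- The value of the form on a Hamiltonian derivation in the second place. -/
theorem om_ham_right (hX : IsContactFano 𝒜 P) (hx : IsNV 𝒜 x) {δ : R →ₗ[ℂ] E}
    (hδ : IsDer x δ) (r : R) : om P x δ (hamAt P x r) = - δ r := by
  rw [om_antisymm hX hx hδ (isDer_hamAt hX x r), om_ham hX hx hδ]

/-- The form is alternating. -/
theorem om_self (hX : IsContactFano 𝒜 P) (hx : IsNV 𝒜 x) {δ : R →ₗ[ℂ] E}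
    (hδ : IsDer x δ) : om P x δ δ = 0 := by
  have hE : CharZero E := charZero_of_injective_algebraMap (algebraMap ℂ E).injective
  exact self_eq_neg.mp (om_antisymm hX hx hδ hδ)

theorem eq_zero_of_om (hX : IsContactFano 𝒜 P) (hx : IsNV 𝒜 x) {δ : R →ₗ[ℂ] E}
    (h1 : IsDer x δ) (h : ∀ δ', IsDer x δ' → om P x δ δ' = 0) : δ = 0 := by
  ext r
  have h2 := h _ (isDer_hamAt hX x r)
  rw [om_ham_right hX hx h1, neg_eq_zero] at h2
  rw [h2, LinearMap.zero_apply]

/-- A derivation which pairs to zero with all Hamiltonian derivations is zero. -/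
theorem eq_zero_of_om' (hX : IsContactFano 𝒜 P) (hx : IsNV 𝒜 x) {δ : R →ₗ[ℂ] E}
    (h1 : IsDer x δ) (h : ∀ δ', IsDer x δ' → om P x δ' δ = 0) : δ = 0 := by
  refine eq_zero_of_om hX hx h1 fun δ' hδ' => ?_
  rw [om_antisymm hX hx h1 hδ', h δ' hδ', neg_zero]

theorem om_neg_left (hX : IsContactFano 𝒜 P) (hx : IsNV 𝒜 x) {δ δ' : R →ₗ[ℂ] E}
    (h1 : IsDer x δ) (hδ' : IsDer x δ') : om P x (-δ) δ' = - om P x δ δ' := by
  have h := om_smul_left hX hx h1 hδ' (-1)
  have e : (-1 : E) • δ = -δ := by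
    ext s; simp
  rwa [e, neg_one_mul] at h

theorem om_neg_right (hX : IsContactFano 𝒜 P) (hx : IsNV 𝒜 x) {δ δ' : R →ₗ[ℂ] E}
    (h1 : IsDer x δ) (hδ' : IsDer x δ') : om P x δ (-δ') = - om P x δ δ' := by
  have h := om_smul_right hX hx h1 hδ' (-1)
  have e : (-1 : E) • δ' = -δ' := by
    ext s; simp
  rwa [e, neg_one_mul] at h

theorem om_sub_left (hX : IsContactFano 𝒜 P) (hx : IsNV 𝒜 x) {δ₁ δ₂ δ' : R →ₗ[ℂ] E}
    (h1 : IsDer x δ₁) (h2 : IsDer x δ₂) (hδ' : IsDer x δ') :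
    om P x (δ₁ - δ₂) δ' = om P x δ₁ δ' - om P x δ₂ δ' := by
  rw [sub_eq_add_neg, om_add_left hX hx h1 ((DerAt x).neg_mem h2) hδ', om_neg_left hX hx h2 hδ',
    sub_eq_add_neg]

theorem om_sub_right (hX : IsContactFano 𝒜 P) (hx : IsNV 𝒜 x) {δ δ₁ δ₂ : R →ₗ[ℂ] E}
    (hδ : IsDer x δ) (h1 : IsDer x δ₁) (h2 : IsDer x δ₂) :
    om P x δ (δ₁ - δ₂) = om P x δ δ₁ - om P x δ δ₂ := by
  rw [sub_eq_add_neg, om_add_right hX hx hδ h1 ((DerAt x).neg_mem h2), om_neg_right hX hx hδ h2,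
    sub_eq_add_neg]

theorem om_zero_left (hX : IsContactFano 𝒜 P) (hx : IsNV 𝒜 x) {δ' : R →ₗ[ℂ] E}
    (hδ' : IsDer x δ') : om P x 0 δ' = 0 := by
  have := om_smul_left hX hx hδ' hδ' 0
  rwa [zero_smul, zero_mul] at this

theorem om_zero_right (hX : IsContactFano 𝒜 P) (hx : IsNV 𝒜 x) {δ : R →ₗ[ℂ] E}
    (hδ : IsDer x δ) : om P x δ 0 = 0 := by
  have := om_smul_right hX hx hδ hδ 0
  rwa [zero_smul, zero_mul] at this

end om

end Vale.Agent.P292
end

section

/-! # Blocks C1, C3: the symplectic form along curves is polynomial. -/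

namespace Vale.Agent.P292

open MvPolynomial TensorProduct

universe u v w

/-! ### the form in a chart -/

section
variable {R : Type u} [CommRing R] [Algebra ℂ R] {𝒜 : ℕ → Submodule ℂ R} [GradedAlgebra 𝒜]
  {P : R →ₗ[ℂ] R →ₗ[ℂ] R}

theorem c1_antisymm (hX : IsContactFano 𝒜 P) (r s : R) : P r s = - P s r := by
  have h := hX.alternating (r + s)
  simp only [map_add, LinearMap.add_apply, hX.alternating r, hX.alternating s, zero_add,
    add_zero] at h
  exact eq_neg_of_add_eq_zero_left (by rwa [add_comm] at h)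

/-- A relation between differentials holds for all derivations over a point. -/
theorem c1_isDer_rel {E : Type v} [CommRing E] [Algebra ℂ E] {x₀ : R →ₐ[ℂ] E}
    {δ : R →ₗ[ℂ] E} (hδ : IsDer x₀ δ) {N : ℕ} {x : Fin N → R} {g r : R} {c : Fin N → R}
    (h : g • KaehlerDifferential.D ℂ R r = ∑ i, c i • KaehlerDifferential.D ℂ R (x i)) :
    x₀ g * δ r = ∑ i, x₀ (c i) * δ (x i) := by
  letI : Algebra R E := x₀.toRingHom.toAlgebra
  have hmap : ∀ r : R, algebraMap R E r = x₀ r := fun _ => rfl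
  haveI : IsScalarTower ℂ R E := IsScalarTower.of_algebraMap_eq fun c => by
    rw [hmap, AlgHom.commutes]
  let D : Derivation ℂ R E := Derivation.mk' δ fun a b => by
    rw [hδ a b, Algebra.smul_def, Algebra.smul_def, hmap, hmap]
  have hD : ∀ r, D r = δ r := fun _ => rfl
  have := congrArg D.liftKaehlerDifferential h
  rw [map_smul, Derivation.liftKaehlerDifferential_comp_D, map_sum, hD, Algebra.smul_def,
    hmap] at this
  rw [this]
  refine Finset.sum_congr rfl fun i _ => ?_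
  rw [map_smul, Derivation.liftKaehlerDifferential_comp_D, hD, Algebra.smul_def, hmap]

/-- A relation between differentials holds for the brackets. -/
theorem c1_bracket_rel (hX : IsContactFano 𝒜 P) {N : ℕ} {x : Fin N → R} {g r : R}
    {c : Fin N → R}
    (h : g • KaehlerDifferential.D ℂ R r = ∑ i, c i • KaehlerDifferential.D ℂ R (x i)) (s : R) :
    g * P r s = ∑ i, c i * P (x i) s := by
  have hδ : IsDer (AlgHom.id ℂ R) (P s) := fun a b => by
    rw [hX.leibniz, AlgHom.id_apply, AlgHom.id_apply]; ring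
  have h1 := c1_isDer_rel hδ h
  simp only [AlgHom.id_apply] at h1
  rw [c1_antisymm hX r s, mul_neg, h1, ← Finset.sum_neg_distrib]
  refine Finset.sum_congr rfl fun i _ => ?_
  rw [c1_antisymm hX (x i) s, mul_neg]

/-- The symplectic form in a chart. -/
theorem c1_chart_om (hX : IsContactFano 𝒜 P) {E : Type v} [Field E] [Algebra ℂ E]
    {x₀ : R →ₐ[ℂ] E} (hx : IsNV 𝒜 x₀) {δ δ' : R →ₗ[ℂ] E} (hδ : IsDer x₀ δ) (hδ' : IsDer x₀ δ')
    {N : ℕ} (x : Fin N → R) (g : R) (hg : x₀ g ≠ 0)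
    (h : ∀ r, ∃ c : Fin N → R, g • KaehlerDifferential.D ℂ R r =
        ∑ i, c i • KaehlerDifferential.D ℂ R (x i)) :
    x₀ (Matrix.det (Matrix.of fun i j => P (x i) (x j))) * om P x₀ δ δ' =
      ∑ i, ∑ j, δ (x i) * x₀ (Matrix.adjugate (Matrix.of fun i j => P (x i) (x j)) i j) *
        δ' (x j) := by
  obtain ⟨K, r, hr⟩ := exists_ham_rep hX hx
  obtain ⟨a, ha⟩ := hr δ hδ
  choose c hc using fun l => h (r l)
  set b : Fin N → E := fun m => (x₀ g)⁻¹ * ∑ l, a l * x₀ (c l m) with hb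
  have key : ∀ (f : R → E) (f' : Fin N → E), (∀ l, x₀ g * f (r l) = ∑ m, x₀ (c l m) * f' m) →
      ∑ l, a l * f (r l) = ∑ m, b m * f' m := by
    intro f f' hf
    have h1 : x₀ g * ∑ l, a l * f (r l) = x₀ g * ∑ m, b m * f' m := by
      calc x₀ g * ∑ l, a l * f (r l) = ∑ l, a l * (x₀ g * f (r l)) := by
            rw [Finset.mul_sum]; exact Finset.sum_congr rfl fun l _ => by ring
        _ = ∑ l, ∑ m, a l * (x₀ (c l m) * f' m) :=
            Finset.sum_congr rfl fun l _ => by rw [hf l, Finset.mul_sum]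
        _ = ∑ m, ∑ l, a l * (x₀ (c l m) * f' m) := Finset.sum_comm
        _ = x₀ g * ∑ m, b m * f' m := by
            rw [Finset.mul_sum]
            refine Finset.sum_congr rfl fun m _ => ?_
            simp only [hb]
            rw [← mul_assoc, ← mul_assoc, mul_inv_cancel₀ hg, one_mul, Finset.sum_mul]
            exact Finset.sum_congr rfl fun l _ => by ring
    exact mul_left_cancel₀ hg h1
  have hδx : ∀ s, δ s = ∑ m, b m * x₀ (P (x m) s) := by
    intro s
    rw [ha s]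
    refine key (fun t => x₀ (P t s)) (fun m => x₀ (P (x m) s)) fun l => ?_
    rw [← map_mul, c1_bracket_rel hX (hc l) s, map_sum]
    exact Finset.sum_congr rfl fun m _ => by rw [map_mul]
  have hom : om P x₀ δ δ' = ∑ m, b m * δ' (x m) := om_eq hX hx hδ' hδx
  set M : Matrix (Fin N) (Fin N) R := Matrix.of fun i j => P (x i) (x j) with hM
  have hMadj : ∀ m j, ∑ i, x₀ (P (x m) (x i)) * x₀ (M.adjugate i j) =
      if m = j then x₀ M.det else 0 := by
    intro m j
    have h1 := congrFun (congrFun (Matrix.mul_adjugate M) m) j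
    rw [Matrix.mul_apply, Matrix.smul_apply, Matrix.one_apply] at h1
    have h2 := congrArg x₀ h1
    rw [map_sum] at h2
    simp only [map_mul] at h2
    rw [show (∑ i, x₀ (P (x m) (x i)) * x₀ (M.adjugate i j)) =
      ∑ i, x₀ (M m i) * x₀ (M.adjugate i j) from rfl, h2]
    split_ifs <;> simp
  rw [hom]
  symm
  calc ∑ i, ∑ j, δ (x i) * x₀ (M.adjugate i j) * δ' (x j)
      = ∑ j, ∑ i, δ (x i) * x₀ (M.adjugate i j) * δ' (x j) := Finset.sum_comm
    _ = ∑ j, (x₀ M.det * b j) * δ' (x j) := by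
        refine Finset.sum_congr rfl fun j _ => ?_
        rw [← Finset.sum_mul]
        congr 1
        calc ∑ i, δ (x i) * x₀ (M.adjugate i j)
            = ∑ i, ∑ m, b m * (x₀ (P (x m) (x i)) * x₀ (M.adjugate i j)) := by
              refine Finset.sum_congr rfl fun i _ => ?_
              rw [hδx (x i), Finset.sum_mul]
              exact Finset.sum_congr rfl fun m _ => by ring
          _ = ∑ m, ∑ i, b m * (x₀ (P (x m) (x i)) * x₀ (M.adjugate i j)) := Finset.sum_comm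
          _ = ∑ m, b m * (if m = j then x₀ M.det else 0) := by
              refine Finset.sum_congr rfl fun m _ => ?_
              rw [← Finset.mul_sum, hMadj]
          _ = x₀ M.det * b j := by
              simp only [mul_ite, mul_zero, Finset.sum_ite_eq', Finset.mem_univ, if_true]
              ring
    _ = x₀ M.det * ∑ m, b m * δ' (x m) := by
        rw [Finset.mul_sum]
        exact Finset.sum_congr rfl fun j _ => by ring

end

/-! ### rational functions of two variables with poles only at the origin -/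

theorem c1_exists_poly {κ : Type v} [Field κ] [IsAlgClosed κ]
    (z : FractionRing (MvPolynomial (Fin 2) κ))
    (h : ∀ a : Fin 2 → κ, a ≠ 0 → ∃ q c : MvPolynomial (Fin 2) κ, eval a q ≠ 0 ∧
      algebraMap _ (FractionRing (MvPolynomial (Fin 2) κ)) q * z = algebraMap _ _ c) :
    ∃ c : MvPolynomial (Fin 2) κ, algebraMap _ (FractionRing (MvPolynomial (Fin 2) κ)) c = z := by
  apply IsFractionRing.isInteger_of_isUnit_den
  by_contra hu
  set D : MvPolynomial (Fin 2) κ := (IsFractionRing.den (MvPolynomial (Fin 2) κ) z :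
    nonZeroDivisors (MvPolynomial (Fin 2) κ)).1 with hD
  have hD0 : D ≠ 0 := nonZeroDivisors.coe_ne_zero _
  obtain ⟨π, hπ, hπD⟩ := WfDvdMonoid.exists_irreducible_factor hu hD0
  have hπp : Prime π := hπ.prime
  have hz : ∀ a : Fin 2 → κ, a ≠ 0 → eval a π ≠ 0 := by
    intro a ha h0
    obtain ⟨q, c, hq, hqc⟩ := h a ha
    have h1 : q * IsFractionRing.num (MvPolynomial (Fin 2) κ) z = c * D := by
      apply IsFractionRing.injective (MvPolynomial (Fin 2) κ)
        (FractionRing (MvPolynomial (Fin 2) κ))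
      rw [map_mul, map_mul, ← hqc]
      have h2 := (IsFractionRing.num_mul_den_eq_num_iff_eq
        (A := MvPolynomial (Fin 2) κ) (x := z) (y := z)).mpr rfl
      rw [← h2, mul_assoc]
    have h2 : D ∣ q * IsFractionRing.num (MvPolynomial (Fin 2) κ) z := ⟨c, by rw [h1, mul_comm]⟩
    have h3 : D ∣ q := IsRelPrime.dvd_of_dvd_mul_right
      (IsFractionRing.num_den_reduced (MvPolynomial (Fin 2) κ) z).symm h2
    obtain ⟨t, ht⟩ := hπD.trans h3
    apply hq
    rw [ht, map_mul, h0, zero_mul]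
  haveI : (Ideal.span {π}).IsPrime := (Ideal.span_singleton_prime hπp.ne_zero).mpr hπp
  have hX : ∀ i : Fin 2, π ∣ (X i : MvPolynomial (Fin 2) κ) := by
    intro i
    rw [← Ideal.mem_span_singleton, ← MvPolynomial.IsPrime.vanishingIdeal_zeroLocus (K := κ)
      (Ideal.span {π}), mem_vanishingIdeal_iff]
    intro a ha
    rw [mem_zeroLocus_iff] at ha
    have h1 := ha π (Ideal.mem_span_singleton_self π)
    have h2 : a = 0 := by
      by_contra h3
      apply hz a h3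
      rwa [aeval_eq_eval] at h1
    rw [h2]
    simp
  have h4 : (X 0 : MvPolynomial (Fin 2) κ) ∣ π :=
    hπ.dvd_symm (X_prime (R := κ) (i := (0 : Fin 2))).irreducible (hX 0)
  have h5 := X_dvd_X.mp (h4.trans (hX 1))
  exact absurd h5 (by decide)

/-! ### the form along a curve -/

variable {R : Type u} [CommRing R] [Algebra ℂ R] {𝒜 : ℕ → Submodule ℂ R} [GradedAlgebra 𝒜]
  {P : R →ₗ[ℂ] R →ₗ[ℂ] R}

section omC
variable {κ : Type v} [Field κ] [IsAlgClosed κ] [Algebra ℂ κ] {d : ℕ}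
  {φ : R →ₐ[ℂ] MvPolynomial (Fin 2) κ}

omit [IsAlgClosed κ] in
theorem c1_isDer_comp {δ : R →ₗ[ℂ] MvPolynomial (Fin 2) κ} (h : IsDer φ δ)
    {F : Type w} [CommRing F] [Algebra ℂ F] (j : MvPolynomial (Fin 2) κ →ₐ[ℂ] F) :
    IsDer (j.comp φ) (j.toLinearMap ∘ₗ δ) := fun r s => by
  simp [h r s]

omit [GradedAlgebra 𝒜] [IsAlgClosed κ] in
theorem c1_isNV_pt (hφ : IsCurve 𝒜 d φ) (a : Fin 2 → κ) (ha : a ≠ 0) : IsNV 𝒜 (pt φ a) := by
  obtain ⟨k, hk, r, hr, h⟩ := hφ.bpf a ha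
  exact ⟨k, hk, r, hr, by rwa [pt_apply, ← aeval_eq_eval]⟩

omit [GradedAlgebra 𝒜] [IsAlgClosed κ] in
theorem c1_isNV_gen (hφ : IsCurve 𝒜 d φ) {F : Type w} [CommRing F] [Algebra ℂ F]
    (j : MvPolynomial (Fin 2) κ →ₐ[ℂ] F) (hj : Function.Injective j) : IsNV 𝒜 (j.comp φ) := by
  obtain ⟨k, hk, r, hr, h⟩ := hφ.bpf ![1, 0] (by
    intro h0
    have := congrFun h0 0
    simp at this)
  refine ⟨k, hk, r, hr, fun h0 => h ?_⟩
  rw [AlgHom.comp_apply] at h0
  rw [hj (h0.trans (map_zero j).symm), map_zero]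

omit [IsAlgClosed κ] in
theorem c1_chart_comp (hX : IsContactFano 𝒜 P) {F : Type w} [Field F] [Algebra ℂ F]
    (j : MvPolynomial (Fin 2) κ →ₐ[ℂ] F) (hj : IsNV 𝒜 (j.comp φ))
    {δ δ' : R →ₗ[ℂ] MvPolynomial (Fin 2) κ} (h1 : IsDer φ δ) (h2 : IsDer φ δ')
    {N : ℕ} (x : Fin N → R) (g : R) (hg : j (φ g) ≠ 0)
    (h : ∀ r, ∃ c : Fin N → R, g • KaehlerDifferential.D ℂ R r =
        ∑ i, c i • KaehlerDifferential.D ℂ R (x i)) :
    j (φ (Matrix.det (Matrix.of fun i j => P (x i) (x j)))) *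
      om P (j.comp φ) (j.toLinearMap ∘ₗ δ) (j.toLinearMap ∘ₗ δ') =
      j (∑ i, ∑ j, δ (x i) * φ (Matrix.adjugate (Matrix.of fun i j => P (x i) (x j)) i j) *
        δ' (x j)) := by
  have := c1_chart_om hX hj (c1_isDer_comp h1 j) (c1_isDer_comp h2 j) x g hg h
  rw [AlgHom.comp_apply] at this
  rw [this, map_sum]
  refine Finset.sum_congr rfl fun i _ => ?_
  rw [map_sum]
  refine Finset.sum_congr rfl fun i _ => ?_
  rw [map_mul, map_mul]
  rfl

theorem omC_frac (hX : IsContactFano 𝒜 P) (hφ : IsCurve 𝒜 d φ)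
    {δ δ' : R →ₗ[ℂ] MvPolynomial (Fin 2) κ} (h1 : IsDer φ δ) (h2 : IsDer φ δ') :
    algebraMap _ (FractionRing (MvPolynomial (Fin 2) κ)) (omC P φ δ δ') =
    om P ((IsScalarTower.toAlgHom ℂ (MvPolynomial (Fin 2) κ)
        (FractionRing (MvPolynomial (Fin 2) κ))).comp φ)
      ((IsScalarTower.toAlgHom ℂ (MvPolynomial (Fin 2) κ)
        (FractionRing (MvPolynomial (Fin 2) κ))).toLinearMap ∘ₗ δ)
      ((IsScalarTower.toAlgHom ℂ (MvPolynomial (Fin 2) κ)
        (FractionRing (MvPolynomial (Fin 2) κ))).toLinearMap ∘ₗ δ') := by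
  refine Classical.epsilon_spec (p := fun c =>
    algebraMap _ (FractionRing (MvPolynomial (Fin 2) κ)) c =
    om P ((IsScalarTower.toAlgHom ℂ (MvPolynomial (Fin 2) κ)
        (FractionRing (MvPolynomial (Fin 2) κ))).comp φ)
      ((IsScalarTower.toAlgHom ℂ (MvPolynomial (Fin 2) κ)
        (FractionRing (MvPolynomial (Fin 2) κ))).toLinearMap ∘ₗ δ)
      ((IsScalarTower.toAlgHom ℂ (MvPolynomial (Fin 2) κ)
        (FractionRing (MvPolynomial (Fin 2) κ))).toLinearMap ∘ₗ δ')) (c1_exists_poly _ ?_)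
  intro a ha
  obtain ⟨N, x, k, g, l, -, -, hg, hdet, hc⟩ := exists_chart_kd hX (pt φ a) (c1_isNV_pt hφ a ha)
  have hφg : φ g ≠ 0 := fun h0 => hg (by rw [pt_apply, h0, map_zero])
  have hinj : Function.Injective (IsScalarTower.toAlgHom ℂ (MvPolynomial (Fin 2) κ)
        (FractionRing (MvPolynomial (Fin 2) κ))) :=
    IsFractionRing.injective (MvPolynomial (Fin 2) κ) (FractionRing (MvPolynomial (Fin 2) κ))
  have := c1_chart_comp hX (IsScalarTower.toAlgHom ℂ (MvPolynomial (Fin 2) κ)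
        (FractionRing (MvPolynomial (Fin 2) κ))) (c1_isNV_gen hφ _ hinj) h1 h2 x g
        (fun h0 => hφg (hinj (h0.trans (map_zero _).symm))) hc
  exact ⟨_, _, by rwa [pt_apply] at hdet, this⟩

/-- C3 without homogeneity. -/
theorem c1_omC_chart (hX : IsContactFano 𝒜 P) (hφ : IsCurve 𝒜 d φ)
    {δ δ' : R →ₗ[ℂ] MvPolynomial (Fin 2) κ} (h1 : IsDer φ δ) (h2 : IsDer φ δ')
    {N : ℕ} (x : Fin N → R) (g : R) (hg : φ g ≠ 0)
    (h : ∀ r, ∃ c : Fin N → R, g • KaehlerDifferential.D ℂ R r =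
        ∑ i, c i • KaehlerDifferential.D ℂ R (x i)) :
    φ (Matrix.det (Matrix.of fun i j => P (x i) (x j))) * omC P φ δ δ' =
      ∑ i, ∑ j, δ (x i) * φ (Matrix.adjugate (Matrix.of fun i j => P (x i) (x j)) i j) *
        δ' (x j) := by
  have hinj : Function.Injective (IsScalarTower.toAlgHom ℂ (MvPolynomial (Fin 2) κ)
        (FractionRing (MvPolynomial (Fin 2) κ))) :=
    IsFractionRing.injective (MvPolynomial (Fin 2) κ) (FractionRing (MvPolynomial (Fin 2) κ))
  apply hinj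
  rw [← c1_chart_comp hX (IsScalarTower.toAlgHom ℂ (MvPolynomial (Fin 2) κ)
        (FractionRing (MvPolynomial (Fin 2) κ))) (c1_isNV_gen hφ _ hinj) h1 h2 x g
        (fun h0 => hg (hinj (h0.trans (map_zero _).symm))) h, map_mul, ← omC_frac hX hφ h1 h2]
  rfl

theorem c1_omC_spec (hX : IsContactFano 𝒜 P) (hφ : IsCurve 𝒜 d φ)
    {δ δ' : R →ₗ[ℂ] MvPolynomial (Fin 2) κ} (h1 : IsDer φ δ) (h2 : IsDer φ δ')
    {F : Type w} [Field F] [Algebra ℂ F] (j : MvPolynomial (Fin 2) κ →ₐ[ℂ] F)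
    (hj : IsNV 𝒜 (j.comp φ)) :
    om P (j.comp φ) (j.toLinearMap ∘ₗ δ) (j.toLinearMap ∘ₗ δ') = j (omC P φ δ δ') := by
  obtain ⟨N, x, k, g, l, -, -, hg, hdet, hc⟩ := exists_chart_kd hX (j.comp φ) hj
  rw [AlgHom.comp_apply] at hg hdet
  have hφg : φ g ≠ 0 := fun h0 => hg (by rw [h0, map_zero])
  have h3 := c1_chart_comp hX j hj h1 h2 x g hg hc
  rw [← c1_omC_chart hX hφ h1 h2 x g hφg hc, map_mul] at h3
  exact mul_left_cancel₀ hdet h3

/-- C1: `omC` computes `om` at every field valued point of the curve, not over the vertex. -/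
theorem omC_spec (hX : IsContactFano 𝒜 P) (hφ : IsCurve 𝒜 d φ) {e e' : ℤ}
    {δ δ' : R →ₗ[ℂ] MvPolynomial (Fin 2) κ} (h1 : IsHDer 𝒜 d φ e δ) (h2 : IsHDer 𝒜 d φ e' δ')
    {F : Type w} [Field F] [Algebra ℂ F] (j : MvPolynomial (Fin 2) κ →ₐ[ℂ] F)
    (hj : IsNV 𝒜 (j.comp φ)) :
    om P (j.comp φ) (j.toLinearMap ∘ₗ δ) (j.toLinearMap ∘ₗ δ') = j (omC P φ δ δ') :=
  c1_omC_spec hX hφ h1.der h2.der j hj

theorem omC_eval (hX : IsContactFano 𝒜 P) (hφ : IsCurve 𝒜 d φ) {e e' : ℤ}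
    {δ δ' : R →ₗ[ℂ] MvPolynomial (Fin 2) κ} (h1 : IsHDer 𝒜 d φ e δ) (h2 : IsHDer 𝒜 d φ e' δ')
    (a : Fin 2 → κ) (ha : a ≠ 0) :
    om P (pt φ a) (evL a δ) (evL a δ') = eval a (omC P φ δ δ') := by
  have := c1_omC_spec hX hφ h1.der h2.der
    ((aeval a : MvPolynomial (Fin 2) κ →ₐ[κ] κ).restrictScalars ℂ) (c1_isNV_pt hφ a ha)
  refine this.trans ?_
  rw [AlgHom.restrictScalars_apply, aeval_eq_eval]

/-- C3: chart formula along the curve. -/
theorem omC_chart (hX : IsContactFano 𝒜 P) (hφ : IsCurve 𝒜 d φ) {e e' : ℤ}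
    {δ δ' : R →ₗ[ℂ] MvPolynomial (Fin 2) κ} (h1 : IsHDer 𝒜 d φ e δ) (h2 : IsHDer 𝒜 d φ e' δ')
    {N : ℕ} (x : Fin N → R) (g : R) (hg : φ g ≠ 0)
    (h : ∀ r, ∃ c : Fin N → R, g • KaehlerDifferential.D ℂ R r =
        ∑ i, c i • KaehlerDifferential.D ℂ R (x i)) :
    φ (Matrix.det (Matrix.of fun i j => P (x i) (x j))) * omC P φ δ δ' =
      ∑ i, ∑ j, δ (x i) * φ (Matrix.adjugate (Matrix.of fun i j => P (x i) (x j)) i j) *
        δ' (x j) :=
  c1_omC_chart hX hφ h1.der h2.der x g hg h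

end omC

end Vale.Agent.P292
end

section

/-! # LeBrun-Salamon: homogeneity of the symplectic form along curves. -/

namespace Vale.Agent.P292

open MvPolynomial

universe u v w

variable {R : Type u} [CommRing R] [Algebra ℂ R] {𝒜 : ℕ → Submodule ℂ R} [GradedAlgebra 𝒜]
  {P : R →ₗ[ℂ] R →ₗ[ℂ] R}

omit [GradedAlgebra 𝒜] in
theorem IsCurve.isNV {κ : Type v} [Field κ] [Algebra ℂ κ] {d : ℕ}
    {φ : R →ₐ[ℂ] MvPolynomial (Fin 2) κ} (hφ : IsCurve 𝒜 d φ) : IsNV 𝒜 φ := by
  obtain ⟨k, hk, r, hr, h⟩ := hφ.bpf ![1, 0] (fun h => by simpa using congrFun h 0)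
  exact ⟨k, hk, r, hr, fun h0 => h (by rw [h0, map_zero])⟩

theorem IsContactFano.P_zero_left (hX : IsContactFano 𝒜 P) {a : R} (ha : a ∈ 𝒜 0) (b : R) :
    P a b = 0 := by
  obtain ⟨c, rfl⟩ := hX.connected a ha
  have hb1 : P b 1 = 0 := by
    have := hX.leibniz b 1 1
    simpa using this
  have h1b : P 1 b = 0 := by
    have h := hX.alternating (1 + b)
    rw [map_add, map_add, LinearMap.add_apply, LinearMap.add_apply, hX.alternating 1,
      hX.alternating b, hb1] at h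
    simpa using h
  rw [Algebra.algebraMap_eq_smul_one, map_smul, LinearMap.smul_apply, h1b, smul_zero]

section

variable {κ : Type v} [Field κ] [Algebra ℂ κ] {d : ℕ} {φ : R →ₐ[ℂ] MvPolynomial (Fin 2) κ}

/-- The entries of the bracket matrix along a curve. -/
theorem IsCurve.zhom_P (hX : IsContactFano 𝒜 P) (hφ : IsCurve 𝒜 d φ) {k l : ℕ} {a b : R}
    (ha : a ∈ 𝒜 k) (hb : b ∈ 𝒜 l) : ZHom (φ (P a b)) ((d * k - d : ℤ) + (d * l : ℤ)) := by
  by_cases hkl : k + l = 0
  · obtain rfl : k = 0 := by omega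
    rw [hX.P_zero_left ha, map_zero]
    exact ZHom.zero _
  · obtain ⟨n, hn⟩ := Nat.exists_eq_succ_of_ne_zero hkl
    refine (ZHom.of_nat (hφ.degree n _ (hX.degree k l n hn a ha b hb))).congr ?_
    have : (k : ℤ) + l = n + 1 := by exact_mod_cast hn
    push_cast
    have h2 : (n : ℤ) = k + l - 1 := by omega
    rw [h2]
    ring

omit [GradedAlgebra 𝒜] in
theorem IsHDer.zhom {e : ℤ} {δ : R →ₗ[ℂ] MvPolynomial (Fin 2) κ} (h : IsHDer 𝒜 d φ e δ)
    {k : ℕ} {r : R} (hr : r ∈ 𝒜 k) : ZHom (δ r) (d * k + e : ℤ) :=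
  ⟨fun m hm => h.homog k r hr m hm, fun hneg => h.neg k hneg r hr⟩

end

variable {κ : Type v} [Field κ] [IsAlgClosed κ] [Algebra ℂ κ] {d : ℕ}
  {φ : R →ₐ[ℂ] MvPolynomial (Fin 2) κ}

theorem omC_zhom (hX : IsContactFano 𝒜 P) (hφ : IsCurve 𝒜 d φ) {e e' : ℤ}
    {δ δ' : R →ₗ[ℂ] MvPolynomial (Fin 2) κ} (h1 : IsHDer 𝒜 d φ e δ) (h2 : IsHDer 𝒜 d φ e' δ') :
    ZHom (omC P φ δ δ') (e + e' + d) := by
  obtain ⟨N, x, k, g, l, hx, hg, hg0, hdet, hc⟩ := exists_chart_kd hX φ hφ.isNV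
  have hcr := omC_chart hX hφ h1 h2 x g hg0 hc
  set M : Matrix (Fin N) (Fin N) R := Matrix.of fun i j => P (x i) (x j) with hM
  have hMφ : ∀ i j, ZHom (φ.mapMatrix M i j) ((d * k i - d : ℤ) + (d * k j : ℤ)) := fun i j => by
    simpa [hM] using hφ.zhom_P hX (hx i) (hx j)
  have hdetZ := ZHom.det (fun i => (d * k i - d : ℤ)) (fun j => (d * k j : ℤ)) hMφ
  rw [← AlgHom.map_det] at hdetZ
  refine hdetZ.of_mul_left hdet ?_
  rw [hcr]
  refine ZHom.sum _ fun i _ => ZHom.sum _ fun j _ => ?_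
  have hadj := ZHom.adjugate (fun i => (d * k i - d : ℤ)) (fun j => (d * k j : ℤ)) hMφ i j
  rw [← AlgHom.map_adjugate] at hadj
  refine (((h1.zhom (hx i)).mul hadj).mul (h2.zhom (hx j))).congr ?_
  ring

theorem omC_homog (hX : IsContactFano 𝒜 P) (hφ : IsCurve 𝒜 d φ) {e e' : ℤ}
    {δ δ' : R →ₗ[ℂ] MvPolynomial (Fin 2) κ} (h1 : IsHDer 𝒜 d φ e δ) (h2 : IsHDer 𝒜 d φ e' δ')
    {m : ℕ} (hm : (m : ℤ) = e + e' + d) : (omC P φ δ δ').IsHomogeneous m :=
  (omC_zhom hX hφ h1 h2).nat m hm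

theorem omC_eq_zero (hX : IsContactFano 𝒜 P) (hφ : IsCurve 𝒜 d φ) {e e' : ℤ}
    {δ δ' : R →ₗ[ℂ] MvPolynomial (Fin 2) κ} (h1 : IsHDer 𝒜 d φ e δ) (h2 : IsHDer 𝒜 d φ e' δ')
    (hm : e + e' + d < 0) : omC P φ δ δ' = 0 :=
  (omC_zhom hX hφ h1 h2).neg hm

end Vale.Agent.P292
end

section

/-! # LeBrun-Salamon, block A2: charts at points with values in domains, in Cramer form -/

namespace Vale.Agent.P292

universe u v w

variable {R : Type u} [CommRing R] [Algebra ℂ R] {𝒜 : ℕ → Submodule ℂ R} [GradedAlgebra 𝒜]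
  {P : R →ₗ[ℂ] R →ₗ[ℂ] R}

/-- A derivation over a point, applied to a relation between differentials. -/
theorem a2_apply {F : Type w} [CommRing F] [Algebra ℂ F] (y : R →ₐ[ℂ] F) {δ : R →ₗ[ℂ] F}
    (hδ : IsDer y δ) {N : ℕ} {x : Fin N → R} {g : R} {c : Fin N → R} {r : R}
    (h : g • KaehlerDifferential.D ℂ R r = ∑ i, c i • KaehlerDifferential.D ℂ R (x i)) :
    y g * δ r = ∑ i, y (c i) * δ (x i) := by
  let _ : Module R F := Module.compHom F y.toRingHom
  have hsm : ∀ (r : R) (z : F), r • z = y r * z := fun _ _ => rfl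
  have _ : IsScalarTower ℂ R F := ⟨fun c r z => by rw [hsm, hsm, map_smul, smul_mul_assoc]⟩
  let D' : Derivation ℂ R F := Derivation.mk' δ (fun a b => by rw [hsm, hsm]; exact hδ a b)
  have hD' : ∀ s, D' s = δ s := fun _ => rfl
  have h1 := congrArg D'.liftKaehlerDifferential h
  rw [map_smul, map_sum, Derivation.liftKaehlerDifferential_comp_D, hD', hsm] at h1
  rw [h1]
  refine Finset.sum_congr rfl fun i _ => ?_
  rw [map_smul, Derivation.liftKaehlerDifferential_comp_D, hD', hsm]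

/-- Cramer's rule for a derivation over a point, in a chart. -/
theorem a2_cramer (hX : IsContactFano 𝒜 P) {F : Type w} [CommRing F] [IsDomain F] [Algebra ℂ F]
    (y : R →ₐ[ℂ] F) {δ : R →ₗ[ℂ] F} (hδ : IsDer y δ) {N : ℕ} {x : Fin N → R} {g : R}
    (hg : y g ≠ 0)
    (h : ∀ r, ∃ c : Fin N → R, g • KaehlerDifferential.D ℂ R r =
      ∑ i, c i • KaehlerDifferential.D ℂ R (x i)) (r : R) :
    y (Matrix.det (Matrix.of fun i j => P (x i) (x j))) * δ r =
      ∑ i, ∑ j, δ (x i) * y (Matrix.adjugate (Matrix.of fun i j => P (x i) (x j)) i j) *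
        y (P (x j) r) := by
  obtain ⟨c, hc⟩ := h r
  set M : Matrix (Fin N) (Fin N) R := Matrix.of fun i j => P (x i) (x j) with hM
  have hham : ∀ a : R, IsDer y (hamAt P y a) := fun a s t => by
    simp only [hamAt_apply, hX.leibniz, map_add, map_mul]
    ring
  have h2 : ∀ j, y g * y (P (x j) r) = ∑ l, y (c l) * y (M j l) := fun j =>
    a2_apply y (hham (x j)) hc
  have h3 : ∀ i l, ∑ j, y (M.adjugate i j) * y (M j l) = if i = l then y M.det else 0 := by
    intro i l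
    have h4 := congrArg y (congrFun (congrFun (Matrix.adjugate_mul M) i) l)
    rw [Matrix.mul_apply, map_sum] at h4
    simp only [map_mul] at h4
    rw [h4, Matrix.smul_apply, Matrix.one_apply]
    split_ifs with hil
    · simp
    · simp
  refine mul_left_cancel₀ hg ?_
  calc y g * (y M.det * δ r) = y M.det * (y g * δ r) := by ring
    _ = ∑ i, δ (x i) * (y (c i) * y M.det) := by
        rw [a2_apply y hδ hc, Finset.mul_sum]
        exact Finset.sum_congr rfl fun i _ => by ring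
    _ = ∑ i, δ (x i) * ∑ j, y (M.adjugate i j) * (y g * y (P (x j) r)) := by
        refine Finset.sum_congr rfl fun i _ => ?_
        congr 1
        simp only [h2, Finset.mul_sum]
        rw [Finset.sum_comm]
        have h5 : ∀ l, ∑ j, y (M.adjugate i j) * (y (c l) * y (M j l)) =
            y (c l) * if i = l then y M.det else 0 := fun l => by
          rw [← h3 i l, Finset.mul_sum]
          exact Finset.sum_congr rfl fun j _ => by ring
        simp only [h5, mul_ite, mul_zero, Finset.sum_ite_eq, Finset.mem_univ, if_true]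
    _ = y g * ∑ i, ∑ j, δ (x i) * y (M.adjugate i j) * y (P (x j) r) := by
        rw [Finset.mul_sum]
        refine Finset.sum_congr rfl fun i _ => ?_
        rw [Finset.mul_sum, Finset.mul_sum]
        exact Finset.sum_congr rfl fun j _ => by ring

/-- A2: charts at points with values in domains, in the form used everywhere: for every
derivation `δ` over any point `y : R → F` (`F` a domain) with `y g ≠ 0`: Cramer. -/
theorem exists_chart_at (hX : IsContactFano 𝒜 P) {E : Type v} [CommRing E] [IsDomain E]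
    [Algebra ℂ E] (x₀ : R →ₐ[ℂ] E) (hx : IsNV 𝒜 x₀) :
    ∃ (N : ℕ) (x : Fin N → R) (k : Fin N → ℕ) (g : R) (l : ℕ), (∀ i, x i ∈ 𝒜 (k i)) ∧ g ∈ 𝒜 l ∧
      x₀ g ≠ 0 ∧ x₀ (Matrix.det (Matrix.of fun i j => P (x i) (x j))) ≠ 0 ∧
      ∀ (F : Type w) [CommRing F] [IsDomain F] [Algebra ℂ F] (y : R →ₐ[ℂ] F) (δ : R →ₗ[ℂ] F),
        y g ≠ 0 → IsDer y δ → ∀ r, y (Matrix.det (Matrix.of fun i j => P (x i) (x j))) * δ r =
          ∑ i, ∑ j, δ (x i) * y (Matrix.adjugate (Matrix.of fun i j => P (x i) (x j)) i j) *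
            y (P (x j) r) := by
  obtain ⟨N, x, k, g, l, h1, h2, h3, h4, h5⟩ := exists_chart_kd hX x₀ hx
  exact ⟨N, x, k, g, l, h1, h2, h3, h4, fun F _ _ _ y δ hy hδ r => a2_cramer hX y hδ hy h5 r⟩

end Vale.Agent.P292
end

section

/-! # Frames along a curve: preliminaries.
Linear forms dividing binary forms, division of derivations by a linear form, bilinearity of
`omC`, the dimension of the spaces of derivations at field valued points. -/

namespace Vale.Agent.P292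

open MvPolynomial

universe u v w

section forms

variable {κ : Type v} [Field κ]

/-- The linear form vanishing at `u`. -/
noncomputable def frL (u : Fin 2 → κ) : MvPolynomial (Fin 2) κ := C (u 1) * X 0 - C (u 0) * X 1

theorem frL_homog (u : Fin 2 → κ) : (frL u).IsHomogeneous 1 :=
  ((isHomogeneous_C_mul_X _ _).sub (isHomogeneous_C_mul_X _ _))

theorem frL_ne {u : Fin 2 → κ} (hu : u ≠ 0) : frL u ≠ 0 := by
  intro h
  apply hu
  have h0 := congrArg (eval ![1, 0]) h
  have h1 := congrArg (eval ![0, 1]) h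
  simp [frL] at h0 h1
  ext i
  fin_cases i
  · exact h1
  · exact h0

/-- A linear form with value one at `u`. -/
theorem exists_frU {u : Fin 2 → κ} (hu : u ≠ 0) :
    ∃ l : MvPolynomial (Fin 2) κ, l.IsHomogeneous 1 ∧ eval u l = 1 := by
  by_cases h0 : u 0 = 0
  · have h1 : u 1 ≠ 0 := fun h1 => hu (by ext i; fin_cases i <;> simp [h0, h1])
    exact ⟨C (u 1)⁻¹ * X 1, isHomogeneous_C_mul_X _ _, by simp [h1]⟩
  · exact ⟨C (u 0)⁻¹ * X 0, isHomogeneous_C_mul_X _ _, by simp [h0]⟩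

theorem fr_aeval_smul (a : Fin 2 → κ) (Y : MvPolynomial (Fin 2) κ) {m : ℕ}
    {p : MvPolynomial (Fin 2) κ} (hp : p.IsHomogeneous m) :
    aeval (fun i => C (a i) * Y) p = C (eval a p) * Y ^ m := by
  conv_lhs => rw [p.as_sum]
  conv_rhs => rw [p.as_sum]
  rw [map_sum, map_sum, map_sum, Finset.sum_mul]
  refine Finset.sum_congr rfl fun s hs => ?_
  rw [aeval_monomial, eval_monomial, Finsupp.prod_fintype _ _ (fun _ => pow_zero _),
    Finsupp.prod_fintype _ _ (fun _ => pow_zero _), Fin.prod_univ_two, Fin.prod_univ_two]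
  have h1 := hp (mem_support_iff.1 hs)
  rw [Finsupp.weight_apply, Finsupp.sum_fintype _ _ (by simp)] at h1
  simp only [Pi.one_apply, smul_eq_mul, mul_one, Fin.sum_univ_two] at h1
  rw [← h1, algebraMap_eq, mul_pow, mul_pow, map_mul, map_mul, map_pow, map_pow, pow_add]
  ring

theorem frL_dvd {u : Fin 2 → κ} (hu : u ≠ 0) {m : ℕ} {p : MvPolynomial (Fin 2) κ}
    (hp : p.IsHomogeneous m) (h : eval u p = 0) : frL u ∣ p := by
  have key : ∀ (q : Fin 2 → MvPolynomial (Fin 2) κ), (∀ i, frL u ∣ X i - q i) →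
      ∀ p, frL u ∣ p - aeval q p := by
    intro q hq p
    rw [← Ideal.mem_span_singleton, ← Ideal.Quotient.eq]
    have h1 : (Ideal.Quotient.mkₐ κ (Ideal.span {frL u})) =
        (Ideal.Quotient.mkₐ κ (Ideal.span {frL u})).comp (aeval q) := by
      apply MvPolynomial.algHom_ext
      intro i
      rw [AlgHom.comp_apply, aeval_X]
      change Ideal.Quotient.mk _ _ = Ideal.Quotient.mk _ _
      rw [Ideal.Quotient.eq, Ideal.mem_span_singleton]
      exact hq i
    exact congrArg (fun f => f p) h1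
  by_cases h0 : u 0 = 0
  · have h1 : u 1 ≠ 0 := fun h1 => hu (by ext i; fin_cases i <;> simp [h0, h1])
    have h2 := key (fun i => C ((u 1)⁻¹ * u i) * X 1) (by
      intro i
      fin_cases i
      · refine ⟨C (u 1)⁻¹, ?_⟩
        simp only [frL, Fin.zero_eta, h0, mul_zero, map_zero, zero_mul, sub_zero]
        rw [mul_comm, ← mul_assoc, ← map_mul, inv_mul_cancel₀ h1, map_one, one_mul]
      · refine ⟨0, ?_⟩
        simp [h1]) p
    rw [fr_aeval_smul _ _ hp] at h2
    have h3 : eval (fun i => (u 1)⁻¹ * u i) p = 0 := by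
      have h4 := congrArg (eval (fun _ => (1 : κ))) (fr_aeval_smul u (C (u 1)⁻¹) hp)
      rw [h] at h4
      rw [map_zero, zero_mul, map_zero] at h4
      rw [← h4, ← aeval_eq_eval, ← aeval_eq_eval]
      have h5 := MvPolynomial.comp_aeval (R := κ) (fun i => C (u i) * C (σ := Fin 2) (u 1)⁻¹)
        (aeval (R := κ) (fun _ : Fin 2 => (1 : κ)))
      have h6 := congrArg (fun f => f p) h5
      simp only [AlgHom.comp_apply] at h6
      rw [h6]
      congr 2
      funext i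
      simp [mul_comm]
    rwa [h3, map_zero, zero_mul, sub_zero] at h2
  · have h2 := key (fun i => C ((u 0)⁻¹ * u i) * X 0) (by
      intro i
      fin_cases i
      · refine ⟨0, ?_⟩
        simp [h0]
      · refine ⟨-C (u 0)⁻¹, ?_⟩
        simp only [frL, Fin.mk_one, map_mul]
        have h6 : (C (u 0) : MvPolynomial (Fin 2) κ) * C (u 0)⁻¹ = 1 := by
          rw [← map_mul, mul_inv_cancel₀ h0, map_one]
        linear_combination (X 1 : MvPolynomial (Fin 2) κ) * (-1) * h6 * (-1) * (-1)) p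
    rw [fr_aeval_smul _ _ hp] at h2
    have h3 : eval (fun i => (u 0)⁻¹ * u i) p = 0 := by
      have h4 := congrArg (eval (fun _ => (1 : κ))) (fr_aeval_smul u (C (u 0)⁻¹) hp)
      rw [h] at h4
      rw [map_zero, zero_mul, map_zero] at h4
      rw [← h4, ← aeval_eq_eval, ← aeval_eq_eval]
      have h5 := MvPolynomial.comp_aeval (R := κ) (fun i => C (u i) * C (σ := Fin 2) (u 0)⁻¹)
        (aeval (R := κ) (fun _ : Fin 2 => (1 : κ)))
      have h6 := congrArg (fun f => f p) h5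
      simp only [AlgHom.comp_apply] at h6
      rw [h6]
      congr 2
      funext i
      simp [mul_comm]
    rwa [h3, map_zero, zero_mul, sub_zero] at h2

/-- A polynomial which vanishes outside the origin is zero. -/
theorem fr_eq_zero [Infinite κ] {p : MvPolynomial (Fin 2) κ}
    (h : ∀ a : Fin 2 → κ, a ≠ 0 → eval a p = 0) : p = 0 := by
  have h1 : (X 0 : MvPolynomial (Fin 2) κ) * p = 0 := by
    apply MvPolynomial.funext
    intro a
    rw [map_mul, map_zero, eval_X]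
    by_cases ha : a = 0
    · rw [ha]; simp
    · rw [h a ha, mul_zero]
  exact (mul_eq_zero.1 h1).resolve_left (X_ne_zero 0)

end forms

section hder

variable {R : Type u} [CommRing R] [Algebra ℂ R] {𝒜 : ℕ → Submodule ℂ R} [GradedAlgebra 𝒜]
  {P : R →ₗ[ℂ] R →ₗ[ℂ] R}
  {κ : Type v} [Field κ] [Algebra ℂ κ] {d : ℕ} {φ : R →ₐ[ℂ] MvPolynomial (Fin 2) κ}

omit [GradedAlgebra 𝒜] in
theorem IsHDer.fr_of_zhom {e : ℤ} {δ : R →ₗ[ℂ] MvPolynomial (Fin 2) κ} (h : IsDer φ δ)
    (h' : ∀ k, ∀ r ∈ 𝒜 k, ZHom (δ r) (d * k + e)) : IsHDer 𝒜 d φ e δ :=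
  ⟨h, fun k r hr m hm => (h' k r hr).nat m hm, fun k hk r hr => (h' k r hr).neg hk⟩

omit [GradedAlgebra 𝒜] in
theorem IsHDer.fr_add {e : ℤ} {δ δ' : R →ₗ[ℂ] MvPolynomial (Fin 2) κ} (h : IsHDer 𝒜 d φ e δ)
    (h' : IsHDer 𝒜 d φ e δ') : IsHDer 𝒜 d φ e (δ + δ') :=
  IsHDer.fr_of_zhom ((DerAt φ).add_mem h.der h'.der) fun k r hr => by
    rw [LinearMap.add_apply]
    exact (h.zhom hr).add (h'.zhom hr)

omit [GradedAlgebra 𝒜] in
theorem IsHDer.fr_zero (e : ℤ) : IsHDer 𝒜 d φ e (0 : R →ₗ[ℂ] MvPolynomial (Fin 2) κ) :=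
  IsHDer.fr_of_zhom (DerAt φ).zero_mem fun k r hr => by
    rw [LinearMap.zero_apply]
    exact ZHom.zero _

omit [GradedAlgebra 𝒜] in
theorem IsHDer.fr_smul {e : ℤ} {δ : R →ₗ[ℂ] MvPolynomial (Fin 2) κ} (h : IsHDer 𝒜 d φ e δ)
    {p : MvPolynomial (Fin 2) κ} {n : ℤ} (hp : ZHom p n) : IsHDer 𝒜 d φ (n + e) (p • δ) :=
  IsHDer.fr_of_zhom ((DerAt φ).smul_mem p h.der) fun k r hr => by
    rw [LinearMap.smul_apply, smul_eq_mul]
    exact (hp.mul (h.zhom hr)).congr (by ring)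

omit [GradedAlgebra 𝒜] in
theorem IsHDer.fr_congr {e e' : ℤ} {δ : R →ₗ[ℂ] MvPolynomial (Fin 2) κ} (h : IsHDer 𝒜 d φ e δ)
    (he : e = e') : IsHDer 𝒜 d φ e' δ := he ▸ h

omit [GradedAlgebra 𝒜] in
theorem IsHDer.fr_sum {ι : Type*} (s : Finset ι) {e : ℤ}
    {δ : ι → R →ₗ[ℂ] MvPolynomial (Fin 2) κ} (h : ∀ i ∈ s, IsHDer 𝒜 d φ e (δ i)) :
    IsHDer 𝒜 d φ e (∑ i ∈ s, δ i) := by
  classical
  induction s using Finset.induction_on with
  | empty => simpa using IsHDer.fr_zero (φ := φ) e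
  | insert a s ha ih =>
    rw [Finset.sum_insert ha]
    exact (h a (Finset.mem_insert_self _ _)).fr_add
      (ih fun i hi => h i (Finset.mem_insert_of_mem hi))

/-- Division of a homogeneous derivation by a linear form. -/
theorem IsHDer.fr_div {e : ℤ} {δ : R →ₗ[ℂ] MvPolynomial (Fin 2) κ} (h : IsHDer 𝒜 d φ e δ)
    {u : Fin 2 → κ} (hu : u ≠ 0) (h0 : ∀ r, eval u (δ r) = 0) :
    ∃ δ', IsHDer 𝒜 d φ (e - 1) δ' ∧ δ = frL u • δ' := by
  classical
  have hL := frL_ne hu
  have hdvd : ∀ r, frL u ∣ δ r := by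
    intro r
    induction r using DirectSum.Decomposition.inductionOn 𝒜 with
    | zero => rw [map_zero]; exact dvd_zero _
    | @homogeneous k r =>
      by_cases hk : (d * k + e : ℤ) < 0
      · rw [h.neg k hk r r.2]; exact dvd_zero _
      · push Not at hk
        obtain ⟨m, hm⟩ := Int.eq_ofNat_of_zero_le hk
        exact frL_dvd hu (h.homog k r r.2 m hm.symm) (h0 r)
    | add a b ha hb => rw [map_add]; exact dvd_add ha hb
  choose f hf using hdvd
  let δ' : R →ₗ[ℂ] MvPolynomial (Fin 2) κ :=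
    { toFun := f
      map_add' := fun a b => by
        apply mul_left_cancel₀ hL
        rw [← hf, mul_add, ← hf, ← hf, map_add]
      map_smul' := fun c a => by
        apply mul_left_cancel₀ hL
        rw [← hf, RingHom.id_apply, mul_smul_comm, ← hf, map_smul] }
  have hδ' : ∀ r, δ r = frL u * δ' r := hf
  refine ⟨δ', IsHDer.fr_of_zhom ?_ ?_, ?_⟩
  · intro r s
    apply mul_left_cancel₀ hL
    rw [← hδ', h.der, hδ', hδ']
    ring
  · intro k r hr
    have h1 := h.zhom hr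
    rw [hδ'] at h1
    exact (ZHom.of_nat (frL_homog u)).of_mul_left (n' := d * k + (e - 1)) hL
      (h1.congr (by push_cast; ring))
  · ext1 r
    rw [LinearMap.smul_apply, smul_eq_mul, hδ']

theorem fr_inj : Function.Injective (IsScalarTower.toAlgHom ℂ (MvPolynomial (Fin 2) κ)
        (FractionRing (MvPolynomial (Fin 2) κ))) :=
    IsFractionRing.injective (MvPolynomial (Fin 2) κ) (FractionRing (MvPolynomial (Fin 2) κ))

variable [IsAlgClosed κ]

theorem fr_omC_add_left (hX : IsContactFano 𝒜 P) (hφ : IsCurve 𝒜 d φ)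
    {δ₁ δ₂ δ' : R →ₗ[ℂ] MvPolynomial (Fin 2) κ} (h1 : IsDer φ δ₁) (h2 : IsDer φ δ₂)
    (h' : IsDer φ δ') : omC P φ (δ₁ + δ₂) δ' = omC P φ δ₁ δ' + omC P φ δ₂ δ' := by
  apply fr_inj
  have e1 := omC_frac hX hφ ((DerAt φ).add_mem h1 h2) h'
  have e2 := omC_frac hX hφ h1 h'
  have e3 := omC_frac hX hφ h2 h'
  rw [map_add]
  change algebraMap _ _ _ = algebraMap _ _ _ + algebraMap _ _ _
  rw [e1, e2, e3, LinearMap.comp_add]
  exact om_add_left hX (c1_isNV_gen hφ _ fr_inj) (c1_isDer_comp h1 _) (c1_isDer_comp h2 _)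
    (c1_isDer_comp h' _)

theorem fr_omC_smul_left (hX : IsContactFano 𝒜 P) (hφ : IsCurve 𝒜 d φ)
    {δ δ' : R →ₗ[ℂ] MvPolynomial (Fin 2) κ} (h1 : IsDer φ δ) (h' : IsDer φ δ')
    (p : MvPolynomial (Fin 2) κ) : omC P φ (p • δ) δ' = p * omC P φ δ δ' := by
  apply fr_inj
  have e1 := omC_frac hX hφ ((DerAt φ).smul_mem p h1) h'
  have e2 := omC_frac hX hφ h1 h'
  rw [map_mul]
  change algebraMap _ _ _ = algebraMap _ _ _ * algebraMap _ _ _
  rw [e1, e2]
  have e3 : (IsScalarTower.toAlgHom ℂ (MvPolynomial (Fin 2) κ)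
        (FractionRing (MvPolynomial (Fin 2) κ))).toLinearMap ∘ₗ (p • δ) =
      (algebraMap _ (FractionRing (MvPolynomial (Fin 2) κ)) p) •
      ((IsScalarTower.toAlgHom ℂ (MvPolynomial (Fin 2) κ)
        (FractionRing (MvPolynomial (Fin 2) κ))).toLinearMap ∘ₗ δ) := by
    ext1 r
    rw [LinearMap.comp_apply, LinearMap.smul_apply, LinearMap.smul_apply, smul_eq_mul,
      smul_eq_mul, AlgHom.toLinearMap_apply, map_mul]
    rfl
  rw [e3]
  exact om_smul_left hX (c1_isNV_gen hφ _ fr_inj) (c1_isDer_comp h1 _) (c1_isDer_comp h' _) _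

theorem fr_omC_antisymm (hX : IsContactFano 𝒜 P) (hφ : IsCurve 𝒜 d φ)
    {δ δ' : R →ₗ[ℂ] MvPolynomial (Fin 2) κ} (h1 : IsDer φ δ) (h' : IsDer φ δ') :
    omC P φ δ δ' = - omC P φ δ' δ := by
  apply fr_inj
  have e1 := omC_frac hX hφ h1 h'
  have e2 := omC_frac hX hφ h' h1
  rw [map_neg]
  change algebraMap _ _ _ = - algebraMap _ _ _
  rw [e1, e2]
  exact om_antisymm hX (c1_isNV_gen hφ _ fr_inj) (c1_isDer_comp h1 _) (c1_isDer_comp h' _)

theorem fr_omC_add_right (hX : IsContactFano 𝒜 P) (hφ : IsCurve 𝒜 d φ)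
    {δ₁ δ₂ δ' : R →ₗ[ℂ] MvPolynomial (Fin 2) κ} (h1 : IsDer φ δ₁) (h2 : IsDer φ δ₂)
    (h' : IsDer φ δ') : omC P φ δ' (δ₁ + δ₂) = omC P φ δ' δ₁ + omC P φ δ' δ₂ := by
  rw [fr_omC_antisymm hX hφ h' ((DerAt φ).add_mem h1 h2), fr_omC_add_left hX hφ h1 h2 h',
    fr_omC_antisymm hX hφ h' h1, fr_omC_antisymm hX hφ h' h2]
  ring

theorem fr_omC_smul_right (hX : IsContactFano 𝒜 P) (hφ : IsCurve 𝒜 d φ)
    {δ δ' : R →ₗ[ℂ] MvPolynomial (Fin 2) κ} (h1 : IsDer φ δ) (h' : IsDer φ δ')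
    (p : MvPolynomial (Fin 2) κ) : omC P φ δ (p • δ') = p * omC P φ δ δ' := by
  rw [fr_omC_antisymm hX hφ h1 ((DerAt φ).smul_mem p h'), fr_omC_smul_left hX hφ h' h1,
    fr_omC_antisymm hX hφ h1 h']
  ring

theorem fr_omC_zero_left (hX : IsContactFano 𝒜 P) (hφ : IsCurve 𝒜 d φ)
    {δ' : R →ₗ[ℂ] MvPolynomial (Fin 2) κ} (h' : IsDer φ δ') : omC P φ 0 δ' = 0 := by
  have := fr_omC_smul_left hX hφ h' h' 0
  rwa [zero_smul, zero_mul] at this

theorem fr_omC_sum_left (hX : IsContactFano 𝒜 P) (hφ : IsCurve 𝒜 d φ) {ι : Type*} (s : Finset ι)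
    (p : ι → MvPolynomial (Fin 2) κ) {δ : ι → R →ₗ[ℂ] MvPolynomial (Fin 2) κ}
    {δ' : R →ₗ[ℂ] MvPolynomial (Fin 2) κ} (h1 : ∀ i ∈ s, IsDer φ (δ i)) (h' : IsDer φ δ') :
    omC P φ (∑ i ∈ s, p i • δ i) δ' = ∑ i ∈ s, p i * omC P φ (δ i) δ' := by
  classical
  induction s using Finset.induction_on with
  | empty => simpa using fr_omC_zero_left hX hφ h'
  | insert a s ha ih =>
    have h2 : ∀ i ∈ s, IsDer φ (δ i) := fun i hi => h1 i (Finset.mem_insert_of_mem hi)
    have h3 := h1 a (Finset.mem_insert_self _ _)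
    rw [Finset.sum_insert ha, Finset.sum_insert ha, fr_omC_add_left hX hφ
      ((DerAt φ).smul_mem _ h3) ((DerAt φ).sum_mem fun i hi => (DerAt φ).smul_mem _ (h2 i hi)) h',
      fr_omC_smul_left hX hφ h3 h', ih h2]

theorem fr_omC_sum_right (hX : IsContactFano 𝒜 P) (hφ : IsCurve 𝒜 d φ) {ι : Type*} (s : Finset ι)
    (p : ι → MvPolynomial (Fin 2) κ) {δ : ι → R →ₗ[ℂ] MvPolynomial (Fin 2) κ}
    {δ' : R →ₗ[ℂ] MvPolynomial (Fin 2) κ} (h1 : ∀ i ∈ s, IsDer φ (δ i)) (h' : IsDer φ δ') :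
    omC P φ δ' (∑ i ∈ s, p i • δ i) = ∑ i ∈ s, p i * omC P φ δ' (δ i) := by
  rw [fr_omC_antisymm hX hφ h' ((DerAt φ).sum_mem fun i hi => (DerAt φ).smul_mem _ (h1 i hi)),
    fr_omC_sum_left hX hφ s p h1 h', ← Finset.sum_neg_distrib]
  refine Finset.sum_congr rfl fun i hi => ?_
  rw [fr_omC_antisymm hX hφ h' (h1 i hi)]
  ring

end hder

section dim

variable {R : Type u} [CommRing R] [Algebra ℂ R] {𝒜 : ℕ → Submodule ℂ R} [GradedAlgebra 𝒜]
  {P : R →ₗ[ℂ] R →ₗ[ℂ] R}

/-- The values on a chart are coordinates on the space of derivations over a field valued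
point. -/
theorem fr_chart_equiv (hX : IsContactFano 𝒜 P) {E : Type v} [Field E] [Algebra ℂ E]
    (y : R →ₐ[ℂ] E) {N : ℕ} {x : Fin N → R} {g : R} (hg : y g ≠ 0)
    (hdet : y (Matrix.det (Matrix.of fun i j => P (x i) (x j))) ≠ 0)
    (h : ∀ r, ∃ c : Fin N → R, g • KaehlerDifferential.D ℂ R r =
      ∑ i, c i • KaehlerDifferential.D ℂ R (x i)) :
    Nonempty (DerAt y ≃ₗ[E] (Fin N → E)) := by
  classical
  choose c hc using h
  let f : DerAt y →ₗ[E] (Fin N → E) :=
    { toFun := fun δ i => (δ : R →ₗ[ℂ] E) (x i)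
      map_add' := fun a b => rfl
      map_smul' := fun c a => rfl }
  have hf : ∀ δ i, f δ i = (δ : R →ₗ[ℂ] E) (x i) := fun δ i => rfl
  refine ⟨LinearEquiv.ofBijective f ⟨?_, ?_⟩⟩
  · rintro ⟨δ₁, h₁⟩ ⟨δ₂, h₂⟩ h0
    apply Subtype.ext
    ext r
    apply mul_left_cancel₀ hg
    rw [a2_apply y h₁ (hc r), a2_apply y h₂ (hc r)]
    refine Finset.sum_congr rfl fun i _ => ?_
    have h3 : δ₁ (x i) = δ₂ (x i) := congrFun h0 i
    rw [h3]
  · intro b
    let M : Matrix (Fin N) (Fin N) E := (Matrix.of fun i j => P (x i) (x j)).map y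
    have hM : IsUnit M.det := by
      have h1 : M.det = y (Matrix.det (Matrix.of fun i j => P (x i) (x j))) := by
        rw [AlgHom.map_det]
        rfl
      rw [h1]
      exact isUnit_iff_ne_zero.2 hdet
    let a : Fin N → E := Matrix.vecMul b M⁻¹
    have ha : Matrix.vecMul a M = b := by
      rw [Matrix.vecMul_vecMul, Matrix.nonsing_inv_mul _ hM, Matrix.vecMul_one]
    let δ : R →ₗ[ℂ] E := ∑ j, a j • hamAt P y (x j)
    have hδ : δ ∈ DerAt y := Submodule.sum_mem _ fun j _ => Submodule.smul_mem _ _ (by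
      intro r s
      rw [hamAt_apply, hamAt_apply, hamAt_apply, hX.leibniz, map_add, map_mul, map_mul]
      ring)
    refine ⟨⟨δ, hδ⟩, ?_⟩
    ext i
    rw [hf]
    have h1 := congrFun ha i
    rw [Matrix.vecMul, dotProduct] at h1
    rw [← h1]
    change (∑ j, a j • hamAt P y (x j)) (x i) = _
    rw [LinearMap.sum_apply]
    exact Finset.sum_congr rfl fun j _ => rfl

/-- The space of derivations over a field valued point has dimension `cdim R`. -/
theorem fr_exists_equiv (hX : IsContactFano 𝒜 P) [IsDomain R] {E : Type v} [Field E] [Algebra ℂ E]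
    (y : R →ₐ[ℂ] E) (hy : IsNV 𝒜 y) : Nonempty (DerAt y ≃ₗ[E] (Fin (cdim R) → E)) := by
  obtain ⟨N, x, k, g, l, -, -, hg, hdet, hc⟩ := exists_chart_kd hX y hy
  have hg0 : g ≠ 0 := fun h => hg (by rw [h, map_zero])
  have hdet0 : Matrix.det (Matrix.of fun i j => P (x i) (x j)) ≠ 0 :=
    fun h => hdet (by rw [h, map_zero])
  set ι : R →ₐ[ℂ] FractionRing R := IsScalarTower.toAlgHom ℂ R (FractionRing R) with hι
  have hιinj : Function.Injective ι := IsFractionRing.injective R (FractionRing R)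
  obtain ⟨e⟩ := fr_chart_equiv hX ι (fun h => hg0 (hιinj (by rw [h, map_zero])))
    (fun h => hdet0 (hιinj (by rw [h, map_zero]))) hc
  have hN : cdim R = N := by
    rw [cdim, e.finrank_eq, Module.finrank_fin_fun]
  rw [hN]
  exact fr_chart_equiv hX y hg hdet hc

end dim

end Vale.Agent.P292
end

section

/-! # Frames along a curve.
If the derivations of degree zero along a curve take all values at `(1, 0)`, then there are
homogeneous derivations `δ_i` of degrees `-d ≤ e_i ≤ 0` with constant nonzero Gram determinant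
for the symplectic form: a basis of the derivations along the curve. -/

namespace Vale.Agent.P292

open MvPolynomial

universe u v w

/-- A binary form of positive degree has a zero. -/
theorem fr_exists_zero {κ : Type v} [Field κ] [IsAlgClosed κ] {F : MvPolynomial (Fin 2) κ} {m : ℕ}
    (hm : 0 < m) (hF : F.IsHomogeneous m) : ∃ a : Fin 2 → κ, a ≠ 0 ∧ eval a F = 0 := by
  by_contra hcon
  push Not at hcon
  have hF0 : F ≠ 0 := fun h => hcon ![1, 0] (fun h => one_ne_zero (congrFun h 0)) (by rw [h, map_zero])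
  have hF1 : algebraMap _ (FractionRing (MvPolynomial (Fin 2) κ)) F ≠ 0 := by
    rwa [Ne, FaithfulSMul.algebraMap_eq_zero_iff]
  obtain ⟨c, hc⟩ := c1_exists_poly (algebraMap _ (FractionRing (MvPolynomial (Fin 2) κ)) F)⁻¹
    fun a ha => ⟨F, 1, hcon a ha, by rw [mul_inv_cancel₀ hF1, map_one]⟩
  have h1 : c * F = 1 := by
    apply IsFractionRing.injective (MvPolynomial (Fin 2) κ) (FractionRing (MvPolynomial (Fin 2) κ))
    rw [map_mul, hc, inv_mul_cancel₀ hF1, map_one]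
  have hc0 : c ≠ 0 := fun h => by rw [h, zero_mul] at h1; exact zero_ne_one h1
  have h2 := totalDegree_mul_of_isDomain hc0 hF0
  rw [h1, totalDegree_one, hF.totalDegree hF0] at h2
  omega

variable {R : Type u} [CommRing R] [Algebra ℂ R] {𝒜 : ℕ → Submodule ℂ R} [GradedAlgebra 𝒜]
  {P : R →ₗ[ℂ] R →ₗ[ℂ] R}

section point

variable {E : Type v} [Field E] [Algebra ℂ E] {y : R →ₐ[ℂ] E}

theorem fr_chart_coord (hX : IsContactFano 𝒜 P) 
    (y : R →ₐ[ℂ] E) {N : ℕ} {x : Fin N → R} {g : R} (hg : y g ≠ 0)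
    (hdet : y (Matrix.det (Matrix.of fun i j => P (x i) (x j))) ≠ 0)
    (h : ∀ r, ∃ c : Fin N → R, g • KaehlerDifferential.D ℂ R r =
      ∑ i, c i • KaehlerDifferential.D ℂ R (x i)) :
    (∀ δ : R →ₗ[ℂ] E, IsDer y δ → (∀ i, δ (x i) = 0) → δ = 0) ∧
    (∀ b : Fin N → E, ∃ δ : R →ₗ[ℂ] E, IsDer y δ ∧ ∀ i, δ (x i) = b i) := by
  classical
  choose c hc using h
  constructor
  · intro δ hδ h0
    ext r
    apply mul_left_cancel₀ hg
    rw [a2_apply y hδ (hc r)]
    rw [LinearMap.zero_apply, mul_zero]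
    refine Finset.sum_eq_zero fun i _ => ?_
    rw [h0 i, mul_zero]
  · intro b
    let M : Matrix (Fin N) (Fin N) E := (Matrix.of fun i j => P (x i) (x j)).map y
    have hM : IsUnit M.det := by
      have h1 : M.det = y (Matrix.det (Matrix.of fun i j => P (x i) (x j))) := by
        rw [AlgHom.map_det]
        rfl
      rw [h1]
      exact isUnit_iff_ne_zero.2 hdet
    let a : Fin N → E := Matrix.vecMul b M⁻¹
    have ha : Matrix.vecMul a M = b := by
      rw [Matrix.vecMul_vecMul, Matrix.nonsing_inv_mul _ hM, Matrix.vecMul_one]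
    let δ : R →ₗ[ℂ] E := ∑ j, a j • hamAt P y (x j)
    have hδ : δ ∈ DerAt y := Submodule.sum_mem _ fun j _ => Submodule.smul_mem _ _ (by
      intro r s
      rw [hamAt_apply, hamAt_apply, hamAt_apply, hX.leibniz, map_add, map_mul, map_mul]
      ring)
    refine ⟨δ, hδ, ?_⟩
    intro i
    have h1 := congrFun ha i
    rw [Matrix.vecMul, dotProduct] at h1
    rw [← h1]
    change (∑ j, a j • hamAt P y (x j)) (x i) = _
    rw [LinearMap.sum_apply]
    exact Finset.sum_congr rfl fun j _ => rfl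

/-- Coordinates on the derivations over a field valued point. -/
theorem fr_exists_coord (hX : IsContactFano 𝒜 P) [IsDomain R]
    (y : R →ₐ[ℂ] E) (hy : IsNV 𝒜 y) : ∃ x : Fin (cdim R) → R,
    (∀ δ : R →ₗ[ℂ] E, IsDer y δ → (∀ i, δ (x i) = 0) → δ = 0) ∧
    (∀ b : Fin (cdim R) → E, ∃ δ : R →ₗ[ℂ] E, IsDer y δ ∧ ∀ i, δ (x i) = b i) := by
  obtain ⟨N, x, k, g, l, -, -, hg, hdet, hc⟩ := exists_chart_kd hX y hy
  have hg0 : g ≠ 0 := fun h => hg (by rw [h, map_zero])
  have hdet0 : Matrix.det (Matrix.of fun i j => P (x i) (x j)) ≠ 0 :=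
    fun h => hdet (by rw [h, map_zero])
  set ι : R →ₐ[ℂ] FractionRing R := IsScalarTower.toAlgHom ℂ R (FractionRing R) with hι
  have hιinj : Function.Injective ι := IsFractionRing.injective R (FractionRing R)
  obtain ⟨e⟩ := fr_chart_equiv hX ι (fun h => hg0 (hιinj (by rw [h, map_zero])))
    (fun h => hdet0 (hιinj (by rw [h, map_zero]))) hc
  have hN : cdim R = N := by
    rw [cdim, e.finrank_eq, Module.finrank_fin_fun]
  rw [hN]
  exact ⟨x, fr_chart_coord hX y hg hdet hc⟩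

theorem fr_om_sum_left (hX : IsContactFano 𝒜 P) (hy : IsNV 𝒜 y) {ι : Type*} (s : Finset ι)
    (c : ι → E) {v : ι → R →ₗ[ℂ] E} {w : R →ₗ[ℂ] E} (hv : ∀ i ∈ s, IsDer y (v i))
    (hw : IsDer y w) : om P y (∑ i ∈ s, c i • v i) w = ∑ i ∈ s, c i * om P y (v i) w := by
  classical
  induction s using Finset.induction_on with
  | empty => simpa using om_zero_left hX hy hw
  | insert a s ha ih =>
    have h2 : ∀ i ∈ s, IsDer y (v i) := fun i hi => hv i (Finset.mem_insert_of_mem hi)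
    have h3 := hv a (Finset.mem_insert_self _ _)
    rw [Finset.sum_insert ha, Finset.sum_insert ha, om_add_left hX hy
      ((DerAt y).smul_mem _ h3) ((DerAt y).sum_mem fun i hi => (DerAt y).smul_mem _ (h2 i hi)) hw,
      om_smul_left hX hy h3 hw, ih h2]

omit [GradedAlgebra 𝒜] in
theorem fr_isDer_sum {S : Type*} [CommRing S] [Algebra ℂ S] {y : R →ₐ[ℂ] S} {ι : Type*}
    (s : Finset ι) (c : ι → S) {v : ι → R →ₗ[ℂ] S}
    (hv : ∀ i ∈ s, IsDer y (v i)) : IsDer y (∑ i ∈ s, c i • v i) :=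
  (DerAt y).sum_mem fun i hi => (DerAt y).smul_mem _ (hv i hi)

variable [IsDomain R]

/-- Derivations without nontrivial relations span. -/
theorem fr_span (hX : IsContactFano 𝒜 P) (hy : IsNV 𝒜 y) {v : Fin (cdim R) → R →ₗ[ℂ] E}
    (hv : ∀ i, IsDer y (v i)) (hli : ∀ c : Fin (cdim R) → E, ∑ i, c i • v i = 0 → c = 0)
    {w : R →ₗ[ℂ] E} (hw : IsDer y w) : ∃ c : Fin (cdim R) → E, w = ∑ i, c i • v i := by
  obtain ⟨x, hx, -⟩ := fr_exists_coord hX y hy
  let V : Matrix (Fin (cdim R)) (Fin (cdim R)) E := Matrix.of fun i j => v i (x j)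
  have hV : ∀ (c : Fin (cdim R) → E) j, (∑ i, c i • v i) (x j) = Matrix.vecMul c V j := by
    intro c j
    rw [LinearMap.sum_apply, Matrix.vecMul, dotProduct]
    exact Finset.sum_congr rfl fun i _ => rfl
  have hdet : V.det ≠ 0 := by
    intro h0
    obtain ⟨c, hc0, hc⟩ := Matrix.exists_vecMul_eq_zero_iff.2 h0
    apply hc0
    apply hli
    refine hx _ (fr_isDer_sum _ _ fun i _ => hv i) fun j => ?_
    rw [hV, hc, Pi.zero_apply]
  refine ⟨Matrix.vecMul (fun j => w (x j)) V⁻¹, ?_⟩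
  rw [← sub_eq_zero]
  refine hx _ ((DerAt y).sub_mem hw (fr_isDer_sum _ _ fun i _ => hv i)) fun j => ?_
  rw [LinearMap.sub_apply, hV, Matrix.vecMul_vecMul,
    Matrix.nonsing_inv_mul _ (isUnit_iff_ne_zero.2 hdet), Matrix.vecMul_one, sub_self]

omit [IsDomain R] in
/-- A nonzero Gram determinant gives linear independence. -/
theorem fr_indep (hX : IsContactFano 𝒜 P) (hy : IsNV 𝒜 y) {v : Fin (cdim R) → R →ₗ[ℂ] E}
    (hv : ∀ i, IsDer y (v i))
    (h : (Matrix.of fun i j => om P y (v i) (v j)).det ≠ 0) (c : Fin (cdim R) → E)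
    (hc : ∑ i, c i • v i = 0) : c = 0 := by
  have h1 : Matrix.vecMul c (Matrix.of fun i j => om P y (v i) (v j)) = 0 := by
    ext j
    have h2 := fr_om_sum_left hX hy Finset.univ c (w := v j) (fun i _ => hv i) (hv j)
    rw [hc, om_zero_left hX hy (hv j)] at h2
    rw [Matrix.vecMul, dotProduct, Pi.zero_apply]
    exact h2.symm
  exact Matrix.eq_zero_of_vecMul_eq_zero h h1

/-- A zero Gram determinant gives linear dependence. -/
theorem fr_dep (hX : IsContactFano 𝒜 P) (hy : IsNV 𝒜 y) {v : Fin (cdim R) → R →ₗ[ℂ] E}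
    (hv : ∀ i, IsDer y (v i))
    (h : (Matrix.of fun i j => om P y (v i) (v j)).det = 0) :
    ∃ c : Fin (cdim R) → E, c ≠ 0 ∧ ∑ i, c i • v i = 0 := by
  by_contra hcon
  have hli : ∀ c : Fin (cdim R) → E, ∑ i, c i • v i = 0 → c = 0 := by
    intro c hc
    by_contra hc0
    exact hcon ⟨c, hc0, hc⟩
  obtain ⟨c, hc0, hc⟩ := Matrix.exists_vecMul_eq_zero_iff.2 h
  apply hc0
  apply hli
  have hs : IsDer y (∑ i, c i • v i) := fr_isDer_sum _ _ fun i _ => hv i
  refine eq_zero_of_om hX hy hs fun δ' hδ' => ?_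
  obtain ⟨b, rfl⟩ := fr_span hX hy hv hli hδ'
  rw [om_antisymm hX hy hs hδ', fr_om_sum_left hX hy Finset.univ b (fun i _ => hv i) hs,
    neg_eq_zero]
  refine Finset.sum_eq_zero fun j _ => ?_
  rw [om_antisymm hX hy (hv j) hs, fr_om_sum_left hX hy Finset.univ c (fun i _ => hv i) (hv j)]
  have h2 := congrFun hc j
  rw [Matrix.vecMul, dotProduct, Pi.zero_apply] at h2
  have h3 : ∑ i, c i * om P y (v i) (v j) = 0 := h2
  rw [h3, neg_zero, mul_zero]

end point

section curve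

variable {κ : Type v} [Field κ] [IsAlgClosed κ] [Algebra ℂ κ] {d : ℕ}
  {φ : R →ₐ[ℂ] MvPolynomial (Fin 2) κ}

omit [IsAlgClosed κ] in
theorem fr_isDer_evL {δ : R →ₗ[ℂ] MvPolynomial (Fin 2) κ} (h : IsDer φ δ) (a : Fin 2 → κ) :
    IsDer (pt φ a) (evL a δ) := fun r s => by
  simp [h r s]

theorem fr_omC_eval (hX : IsContactFano 𝒜 P) (hφ : IsCurve 𝒜 d φ)
    {δ δ' : R →ₗ[ℂ] MvPolynomial (Fin 2) κ} (h1 : IsDer φ δ) (h2 : IsDer φ δ')
    (a : Fin 2 → κ) (ha : a ≠ 0) :
    om P (pt φ a) (evL a δ) (evL a δ') = eval a (omC P φ δ δ') := by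
  have := c1_omC_spec hX hφ h1 h2
    ((aeval a : MvPolynomial (Fin 2) κ →ₐ[κ] κ).restrictScalars ℂ) (c1_isNV_pt hφ a ha)
  refine this.trans ?_
  rw [AlgHom.restrictScalars_apply, aeval_eq_eval]

/-- The Gram determinant of linear combinations. -/
theorem fr_gram_det (hX : IsContactFano 𝒜 P) (hφ : IsCurve 𝒜 d φ) {N : ℕ}
    {δ : Fin N → R →ₗ[ℂ] MvPolynomial (Fin 2) κ} (h : ∀ i, IsDer φ (δ i))
    (Q : Matrix (Fin N) (Fin N) (MvPolynomial (Fin 2) κ)) :
    (Matrix.of fun a b => omC P φ (∑ i, Q a i • δ i) (∑ i, Q b i • δ i)).det =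
      Q.det * (Matrix.of fun i j => omC P φ (δ i) (δ j)).det * Q.det := by
  have h1 : (Matrix.of fun a b => omC P φ (∑ i, Q a i • δ i) (∑ i, Q b i • δ i)) =
      Q * (Matrix.of fun i j => omC P φ (δ i) (δ j)) * Q.transpose := by
    ext1 a b
    rw [Matrix.of_apply, fr_omC_sum_left hX hφ _ _ (fun i _ => h i)
      ((DerAt φ).sum_mem fun i _ => (DerAt φ).smul_mem _ (h i)), Matrix.mul_assoc,
      Matrix.mul_apply]
    refine Finset.sum_congr rfl fun i _ => ?_
    rw [fr_omC_sum_right hX hφ _ _ (fun i _ => h i) (h i), Matrix.mul_apply]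
    congr 1
    refine Finset.sum_congr rfl fun j _ => ?_
    rw [Matrix.of_apply, Matrix.transpose_apply, mul_comm]
  rw [h1, Matrix.det_mul, Matrix.det_mul, Matrix.det_transpose]

theorem fr_gram_zhom (hX : IsContactFano 𝒜 P) (hφ : IsCurve 𝒜 d φ) {N : ℕ} {e : Fin N → ℤ}
    {δ : Fin N → R →ₗ[ℂ] MvPolynomial (Fin 2) κ} (h : ∀ i, IsHDer 𝒜 d φ (e i) (δ i)) :
    ZHom (Matrix.of fun i j => omC P φ (δ i) (δ j)).det (∑ i, (2 * e i + d)) := by
  have h1 := ZHom.det (M := Matrix.of fun i j => omC P φ (δ i) (δ j)) e (fun j => e j + d)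
    fun i j => (omC_zhom hX hφ (h i) (h j)).congr (by ring)
  refine h1.congr ?_
  rw [← Finset.sum_add_distrib]
  exact Finset.sum_congr rfl fun i _ => by ring

/-- A frame of homogeneous derivations along a curve. -/
structure IsHFrame (𝒜 : ℕ → Submodule ℂ R) (P : R →ₗ[ℂ] R →ₗ[ℂ] R) (d : ℕ)
    (φ : R →ₐ[ℂ] MvPolynomial (Fin 2) κ) {N : ℕ} (e : Fin N → ℤ)
    (δ : Fin N → R →ₗ[ℂ] MvPolynomial (Fin 2) κ) (c : κ) : Prop where
  nonpos : ∀ i, e i ≤ 0
  ge : ∀ i, -(d : ℤ) ≤ e i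
  hder : ∀ i, IsHDer 𝒜 d φ (e i) (δ i)
  ne : c ≠ 0
  det : (Matrix.of fun i j => omC P φ (δ i) (δ j)).det = C c
  sum : ∑ i, (2 * e i + d) = 0


/-- Replacing one member of the family, the Gram determinant stays nonzero. -/
theorem fr_gram_update (hX : IsContactFano 𝒜 P) (hφ : IsCurve 𝒜 d φ) {N : ℕ}
    {δ : Fin N → R →ₗ[ℂ] MvPolynomial (Fin 2) κ} (h : ∀ i, IsDer φ (δ i))
    (hdet : (Matrix.of fun i j => omC P φ (δ i) (δ j)).det ≠ 0) (j : Fin N)
    (q : Fin N → MvPolynomial (Fin 2) κ) (hq : q j ≠ 0) (L : MvPolynomial (Fin 2) κ)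
    {δj : R →ₗ[ℂ] MvPolynomial (Fin 2) κ} (hδj : IsDer φ δj)
    (hL : ∑ i, q i • δ i = L • δj) :
    (Matrix.of fun a b => omC P φ (Function.update δ j δj a) (Function.update δ j δj b)).det
      ≠ 0 := by
  classical
  intro h0
  have hδ' : ∀ i, IsDer φ (Function.update δ j δj i) := by
    intro i
    by_cases hij : i = j
    · subst hij
      rw [Function.update_self]
      exact hδj
    · rw [Function.update_of_ne hij]
      exact h i
  have e1 := fr_gram_det hX hφ h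
    ((1 : Matrix (Fin N) (Fin N) (MvPolynomial (Fin 2) κ)).updateRow j q)
  have e2 := fr_gram_det hX hφ hδ' (Matrix.diagonal (Function.update 1 j L))
  have e3 : ∀ a, ∑ i, ((1 : Matrix (Fin N) (Fin N)
      (MvPolynomial (Fin 2) κ)).updateRow j q) a i • δ i = Function.update δ j (L • δj) a := by
    intro a
    by_cases haj : a = j
    · subst haj
      rw [Matrix.updateRow_self, Function.update_self, hL]
    · rw [Matrix.updateRow_ne haj, Function.update_of_ne haj]
      rw [Finset.sum_eq_single a]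
      · rw [Matrix.one_apply_eq, one_smul]
      · intro i _ hia
        rw [Matrix.one_apply_ne (Ne.symm hia), zero_smul]
      · intro h'
        exact absurd (Finset.mem_univ a) h'
  have e4 : ∀ a, ∑ i, (Matrix.diagonal (Function.update (1 : Fin N →
      MvPolynomial (Fin 2) κ) j L)) a i • Function.update δ j δj i =
      Function.update δ j (L • δj) a := by
    intro a
    rw [Finset.sum_eq_single a]
    · rw [Matrix.diagonal_apply_eq]
      by_cases haj : a = j
      · subst haj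
        rw [Function.update_self, Function.update_self, Function.update_self]
      · rw [Function.update_of_ne haj, Function.update_of_ne haj, Function.update_of_ne haj,
          Pi.one_apply, one_smul]
    · intro i _ hia
      rw [Matrix.diagonal_apply_ne _ (Ne.symm hia), zero_smul]
    · intro h'
      exact absurd (Finset.mem_univ a) h'
  have e5 : ((1 : Matrix (Fin N) (Fin N) (MvPolynomial (Fin 2) κ)).updateRow j q).det = q j := by
    rw [← Matrix.cramer_transpose_apply, Matrix.transpose_one, Matrix.cramer_one]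
    rfl
  simp only [e3] at e1
  simp only [e4] at e2
  rw [e1, h0, mul_zero, zero_mul, e5] at e2
  exact mul_ne_zero (mul_ne_zero hq hdet) hq e2

variable [IsDomain R]

/-- At a zero of the Gram determinant the values are linearly dependent. -/
theorem fr_dep_curve (hX : IsContactFano 𝒜 P) (hφ : IsCurve 𝒜 d φ)
    {δ : Fin (cdim R) → R →ₗ[ℂ] MvPolynomial (Fin 2) κ} (h : ∀ i, IsDer φ (δ i))
    {u : Fin 2 → κ} (hu : u ≠ 0)
    (hu0 : eval u (Matrix.of fun i j => omC P φ (δ i) (δ j)).det = 0) :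
    ∃ c : Fin (cdim R) → κ, c ≠ 0 ∧ ∀ r, ∑ i, c i * eval u (δ i r) = 0 := by
  have hG : (Matrix.of fun i j => om P (pt φ u) (evL u (δ i)) (evL u (δ j))).det = 0 := by
    have h1 : (Matrix.of fun i j => om P (pt φ u) (evL u (δ i)) (evL u (δ j))) =
        (eval u).mapMatrix (Matrix.of fun i j => omC P φ (δ i) (δ j)) := by
      ext i j
      rw [RingHom.mapMatrix_apply, Matrix.map_apply, Matrix.of_apply, Matrix.of_apply]
      exact fr_omC_eval hX hφ (h i) (h j) u hu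
    rw [h1, ← RingHom.map_det, hu0]
  obtain ⟨c, hc0, hc⟩ := fr_dep hX (c1_isNV_pt hφ u hu) (fun i => fr_isDer_evL (h i) u) hG
  refine ⟨c, hc0, fun r => ?_⟩
  have h2 := congrArg (fun f => f r) hc
  rw [LinearMap.zero_apply] at h2
  rw [← h2]
  change _ = (∑ i, c i • evL u (δ i)) r
  rw [LinearMap.sum_apply]
  refine Finset.sum_congr rfl fun i _ => ?_
  rw [LinearMap.smul_apply, evL_apply, smul_eq_mul]

/-- The reduction step: if the Gram determinant is not constant, one can divide. -/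
theorem fr_step (hX : IsContactFano 𝒜 P) (hφ : IsCurve 𝒜 d φ) {e : Fin (cdim R) → ℤ}
    {δ : Fin (cdim R) → R →ₗ[ℂ] MvPolynomial (Fin 2) κ} (h : ∀ i, IsHDer 𝒜 d φ (e i) (δ i))
    (hle : ∀ i, e i ≤ 0)
    (hdet : (Matrix.of fun i j => omC P φ (δ i) (δ j)).det ≠ 0)
    (hpos : 0 < ∑ i, (2 * e i + d)) :
    ∃ (e' : Fin (cdim R) → ℤ) (δ' : Fin (cdim R) → R →ₗ[ℂ] MvPolynomial (Fin 2) κ),
      (∀ i, IsHDer 𝒜 d φ (e' i) (δ' i)) ∧ (∀ i, e' i ≤ 0) ∧
      (Matrix.of fun i j => omC P φ (δ' i) (δ' j)).det ≠ 0 ∧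
      ∑ i, (2 * e' i + d) = ∑ i, (2 * e i + d) - 2 := by
  classical
  have hz := fr_gram_zhom hX hφ h
  obtain ⟨m, hm⟩ := Int.eq_ofNat_of_zero_le hpos.le
  have hm0 : 0 < m := by
    rw [hm] at hpos
    exact_mod_cast hpos
  obtain ⟨u, hu, hu0⟩ := fr_exists_zero hm0 (hz.nat m hm.symm)
  obtain ⟨c, hc0, hc'⟩ := fr_dep_curve hX hφ (fun i => (h i).der) hu hu0
  obtain ⟨i₀, hi₀⟩ := Function.ne_iff.1 hc0
  -- choose the index of maximal degree
  obtain ⟨j, hj, hjmax⟩ := Finset.exists_max_image (Finset.univ.filter fun i => c i ≠ 0) e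
    ⟨i₀, by simpa using hi₀⟩
  have hcj : c j ≠ 0 := (Finset.mem_filter.1 hj).2
  have hmax : ∀ i, c i ≠ 0 → e i ≤ e j := fun i hi => hjmax i (by simp [hi])
  obtain ⟨l, hl, hlu⟩ := exists_frU hu
  let q : Fin (cdim R) → MvPolynomial (Fin 2) κ := fun i => C (c i) * l ^ (e j - e i).toNat
  have hqj : q j = C (c j) := by simp [q]
  have hqj0 : q j ≠ 0 := by
    rw [hqj]
    rwa [Ne, C_eq_zero]
  have hq : ∀ i, IsHDer 𝒜 d φ (e j) (q i • δ i) := by
    intro i
    by_cases hci : c i = 0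
    · have : q i = 0 := by simp [q, hci]
      rw [this, zero_smul]
      exact IsHDer.fr_zero _
    · have h1 : ZHom (q i) (e j - e i) := by
        have h2 := ZHom.of_nat ((isHomogeneous_C (Fin 2) (c i)).mul (hl.pow (e j - e i).toNat))
        refine h2.congr ?_
        have := hmax i hci
        push_cast
        omega
      exact ((h i).fr_smul h1).fr_congr (by ring)
  have hθh : IsHDer 𝒜 d φ (e j) (∑ i, q i • δ i) := IsHDer.fr_sum _ fun i _ => hq i
  have hθ0 : ∀ r, eval u ((∑ i, q i • δ i) r) = 0 := by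
    intro r
    rw [LinearMap.sum_apply, map_sum, ← hc' r]
    refine Finset.sum_congr rfl fun i _ => ?_
    rw [LinearMap.smul_apply, smul_eq_mul, map_mul]
    congr 1
    simp [q, hlu]
  obtain ⟨δj, hδj, hδjθ⟩ := hθh.fr_div hu hθ0
  refine ⟨Function.update e j (e j - 1), Function.update δ j δj, ?_, ?_,
    fr_gram_update hX hφ (fun i => (h i).der) hdet j q hqj0 (frL u) hδj.der hδjθ, ?_⟩
  · intro i
    by_cases hij : i = j
    · subst hij
      rw [Function.update_self, Function.update_self]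
      exact hδj
    · rw [Function.update_of_ne hij, Function.update_of_ne hij]
      exact h i
  · intro i
    by_cases hij : i = j
    · subst hij
      rw [Function.update_self]
      have := hle i
      omega
    · rw [Function.update_of_ne hij]
      exact hle i
  · have h7 : ∀ i, 2 * Function.update e j (e j - 1) i + (d : ℤ) =
        (2 * e i + d) - if i = j then 2 else 0 := by
      intro i
      by_cases hij : i = j
      · subst hij
        rw [Function.update_self, if_pos rfl]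
        ring
      · rw [Function.update_of_ne hij, if_neg hij, sub_zero]
    rw [Finset.sum_congr rfl fun i _ => h7 i, Finset.sum_sub_distrib, Finset.sum_ite_eq',
      if_pos (Finset.mem_univ j)]

/-- The reduction, carried out to the end. -/
theorem fr_reduce (hX : IsContactFano 𝒜 P) (hφ : IsCurve 𝒜 d φ) (n : ℕ) :
    ∀ (e : Fin (cdim R) → ℤ) (δ : Fin (cdim R) → R →ₗ[ℂ] MvPolynomial (Fin 2) κ),
    (∀ i, IsHDer 𝒜 d φ (e i) (δ i)) → (∀ i, e i ≤ 0) →
    (Matrix.of fun i j => omC P φ (δ i) (δ j)).det ≠ 0 →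
    ∑ i, (2 * e i + (d : ℤ)) = n →
    ∃ (e' : Fin (cdim R) → ℤ) (δ' : Fin (cdim R) → R →ₗ[ℂ] MvPolynomial (Fin 2) κ),
      (∀ i, IsHDer 𝒜 d φ (e' i) (δ' i)) ∧ (∀ i, e' i ≤ 0) ∧
      (Matrix.of fun i j => omC P φ (δ' i) (δ' j)).det ≠ 0 ∧
      ∑ i, (2 * e' i + (d : ℤ)) = 0 := by
  induction n using Nat.strong_induction_on with
  | _ n ih =>
    intro e δ h hle hdet hn
    rcases Nat.eq_zero_or_pos n with h0 | h0
    · exact ⟨e, δ, h, hle, hdet, by rw [hn, h0]; rfl⟩
    · obtain ⟨e', δ', h', hle', hdet', hs⟩ := fr_step hX hφ h hle hdet (by rw [hn]; exact_mod_cast h0)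
      have hnn : 0 ≤ ∑ i, (2 * e' i + (d : ℤ)) := by
        by_contra hneg
        push Not at hneg
        exact hdet' ((fr_gram_zhom hX hφ h').neg hneg)
      obtain ⟨n', hn'⟩ := Int.eq_ofNat_of_zero_le hnn
      refine ih n' ?_ e' δ' h' hle' hdet' hn'
      rw [hn', hn] at hs
      omega

/-- Every curve with enough derivations of degree zero has a frame. -/
theorem exists_hframe (hX : IsContactFano 𝒜 P) (hφ : IsCurve 𝒜 d φ)
    (hfree : ∀ v : R →ₗ[ℂ] κ, IsDer (pt φ ![1, 0]) v →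
      ∃ δ : R →ₗ[ℂ] MvPolynomial (Fin 2) κ, IsHDer 𝒜 d φ 0 δ ∧ evL ![1, 0] δ = v) :
    ∃ (e : Fin (cdim R) → ℤ) (δ : Fin (cdim R) → R →ₗ[ℂ] MvPolynomial (Fin 2) κ) (c : κ),
      IsHFrame 𝒜 P d φ e δ c := by
  classical
  have hu : (![1, 0] : Fin 2 → κ) ≠ 0 := fun h => one_ne_zero (congrFun h 0)
  have hnv := c1_isNV_pt hφ ![1, 0] hu
  obtain ⟨x, hx, hx'⟩ := fr_exists_coord hX (pt φ ![1, 0]) hnv
  choose v hv hvx using fun i => hx' (Pi.single i 1)
  choose δ₀ hδ₀ hδv using fun i => hfree (v i) (hv i)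
  have hdet₀ : (Matrix.of fun i j => omC P φ (δ₀ i) (δ₀ j)).det ≠ 0 := by
    intro h0
    obtain ⟨c, hc0, hc⟩ := fr_dep_curve hX hφ (fun i => (hδ₀ i).der) hu (by rw [h0, map_zero])
    apply hc0
    ext j
    have h1 := hc (x j)
    rw [Finset.sum_eq_single j] at h1
    · rw [← evL_apply, hδv, hvx, Pi.single_eq_same, mul_one] at h1
      exact h1
    · intro i _ hij
      rw [← evL_apply, hδv, hvx, Pi.single_eq_of_ne (Ne.symm hij), mul_zero]
    · intro h'
      exact absurd (Finset.mem_univ j) h'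
  obtain ⟨e, δ, h, hle, hdet, hsum⟩ := fr_reduce hX hφ (∑ i : Fin (cdim R), d) (fun _ => 0) δ₀
    hδ₀ (fun _ => le_rfl) hdet₀ (by push_cast; exact Finset.sum_congr rfl fun i _ => by ring)
  have hz := (fr_gram_zhom hX hφ h).nat 0 (by rw [hsum]; rfl)
  obtain ⟨c, hc⟩ : ∃ c : κ, (Matrix.of fun i j => omC P φ (δ i) (δ j)).det = C c :=
    ⟨_, (totalDegree_eq_zero_iff_eq_C).1 (Nat.le_zero.1 hz.totalDegree_le)⟩
  refine ⟨e, δ, c, hle, ?_, h, ?_, hc, hsum⟩
  · intro i
    by_contra hi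
    push Not at hi
    apply hdet
    refine Matrix.det_eq_zero_of_row_eq_zero i fun j => ?_
    rw [Matrix.of_apply]
    refine (omC_zhom hX hφ (h i) (h j)).neg ?_
    have := hle j
    omega
  · rintro rfl
    rw [hc, map_zero] at hdet
    exact hdet rfl

end curve

end Vale.Agent.P292
end

section

/-! # Consequences of the existence of frames along curves. -/

namespace Vale.Agent.P292

open MvPolynomial

universe u v w

variable {R : Type u} [CommRing R] [Algebra ℂ R] {𝒜 : ℕ → Submodule ℂ R} [GradedAlgebra 𝒜]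
  {P : R →ₗ[ℂ] R →ₗ[ℂ] R}
  {κ : Type v} [Field κ] [IsAlgClosed κ] [Algebra ℂ κ] {d : ℕ}
  {φ : R →ₐ[ℂ] MvPolynomial (Fin 2) κ}

/-- The Gram matrix. -/
noncomputable def frG (P : R →ₗ[ℂ] R →ₗ[ℂ] R) (φ : R →ₐ[ℂ] MvPolynomial (Fin 2) κ) {N : ℕ}
    (δ : Fin N → R →ₗ[ℂ] MvPolynomial (Fin 2) κ) :
    Matrix (Fin N) (Fin N) (MvPolynomial (Fin 2) κ) := Matrix.of fun i j => omC P φ (δ i) (δ j)

/-- The inverse of the Gram matrix. -/
noncomputable def frI (P : R →ₗ[ℂ] R →ₗ[ℂ] R) (φ : R →ₐ[ℂ] MvPolynomial (Fin 2) κ) {N : ℕ}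
    (δ : Fin N → R →ₗ[ℂ] MvPolynomial (Fin 2) κ) (c : κ) :
    Matrix (Fin N) (Fin N) (MvPolynomial (Fin 2) κ) := (C c⁻¹ : MvPolynomial (Fin 2) κ) •
      (frG P φ δ).adjugate

section basic

variable {N : ℕ} {e : Fin N → ℤ} {δ : Fin N → R →ₗ[ℂ] MvPolynomial (Fin 2) κ} {c : κ}

omit [GradedAlgebra 𝒜] [IsAlgClosed κ] in
theorem IsHFrame.mul_frI (h : IsHFrame 𝒜 P d φ e δ c) : frG P φ δ * frI P φ δ c = 1 := by
  rw [frI, Matrix.mul_smul, Matrix.mul_adjugate, frG, h.det, smul_smul, ← map_mul,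
    inv_mul_cancel₀ h.ne, map_one, one_smul]

omit [GradedAlgebra 𝒜] [IsAlgClosed κ] in
theorem IsHFrame.frI_mul (h : IsHFrame 𝒜 P d φ e δ c) : frI P φ δ c * frG P φ δ = 1 := by
  rw [frI, Matrix.smul_mul, Matrix.adjugate_mul, frG, h.det, smul_smul, ← map_mul,
    inv_mul_cancel₀ h.ne, map_one, one_smul]

theorem IsHFrame.frG_zhom (hX : IsContactFano 𝒜 P) (hφ : IsCurve 𝒜 d φ)
    (h : IsHFrame 𝒜 P d φ e δ c) (i j : Fin N) : ZHom (frG P φ δ i j) (e i + (e j + d)) :=
  (omC_zhom hX hφ (h.hder i) (h.hder j)).congr (by ring)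

theorem IsHFrame.frI_zhom (hX : IsContactFano 𝒜 P) (hφ : IsCurve 𝒜 d φ)
    (h : IsHFrame 𝒜 P d φ e δ c) (i j : Fin N) :
    ZHom (frI P φ δ c i j) (-(e i + e j + d)) := by
  have h1 := ZHom.adjugate (M := frG P φ δ) e (fun j => e j + d) (h.frG_zhom hX hφ) i j
  have h2 := (ZHom.of_nat (isHomogeneous_C (Fin 2) c⁻¹)).mul h1
  rw [frI, Matrix.smul_apply, smul_eq_mul]
  refine h2.congr ?_
  have h3 := h.sum
  rw [← Finset.sum_add_distrib]
  have h4 : ∑ i, (e i + (e i + (d : ℤ))) = 0 := by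
    rw [← h3]
    exact Finset.sum_congr rfl fun i _ => by ring
  rw [h4]
  push_cast
  ring

/-- The coefficients of a combination of the frame. -/
theorem IsHFrame.coeff_eq (hX : IsContactFano 𝒜 P) (hφ : IsCurve 𝒜 d φ)
    (h : IsHFrame 𝒜 P d φ e δ c) {θ : R →ₗ[ℂ] MvPolynomial (Fin 2) κ}
    {p : Fin N → MvPolynomial (Fin 2) κ} (hθ : θ = ∑ i, p i • δ i) (i : Fin N) :
    p i = ∑ j, omC P φ θ (δ j) * frI P φ δ c j i := by
  have h1 : ∀ j, omC P φ θ (δ j) = Matrix.vecMul p (frG P φ δ) j := by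
    intro j
    rw [hθ, fr_omC_sum_left hX hφ _ _ (fun i _ => (h.hder i).der) (h.hder j).der]
    rfl
  have h2 : Matrix.vecMul (Matrix.vecMul p (frG P φ δ)) (frI P φ δ c) = p := by
    rw [Matrix.vecMul_vecMul, h.mul_frI, Matrix.vecMul_one]
  conv_lhs => rw [← h2]
  rw [Matrix.vecMul, dotProduct]
  exact Finset.sum_congr rfl fun j _ => by rw [h1]

/-- The coefficients are unique. -/
theorem IsHFrame.unique (hX : IsContactFano 𝒜 P) (hφ : IsCurve 𝒜 d φ)
    (h : IsHFrame 𝒜 P d φ e δ c) {p q : Fin N → MvPolynomial (Fin 2) κ}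
    (hpq : ∑ i, p i • δ i = ∑ i, q i • δ i) : p = q := by
  ext1 i
  rw [h.coeff_eq hX hφ (p := p) rfl i, h.coeff_eq hX hφ (p := q) rfl i, hpq]

/-- The Gram determinant at a point. -/
theorem IsHFrame.gram_ne (hX : IsContactFano 𝒜 P) (hφ : IsCurve 𝒜 d φ)
    (h : IsHFrame 𝒜 P d φ e δ c) {u : Fin 2 → κ} (hu : u ≠ 0) :
    (Matrix.of fun i j => om P (pt φ u) (evL u (δ i)) (evL u (δ j))).det ≠ 0 := by
  have h1 : (Matrix.of fun i j => om P (pt φ u) (evL u (δ i)) (evL u (δ j))) =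
      (eval u).mapMatrix (Matrix.of fun i j => omC P φ (δ i) (δ j)) := by
    ext i j
    rw [RingHom.mapMatrix_apply, Matrix.map_apply, Matrix.of_apply, Matrix.of_apply]
    exact fr_omC_eval hX hφ (h.hder i).der (h.hder j).der u hu
  rw [h1, ← RingHom.map_det, h.det, eval_C]
  exact h.ne

end basic

section domain

variable [IsDomain R] {e : Fin (cdim R) → ℤ}
  {δ : Fin (cdim R) → R →ₗ[ℂ] MvPolynomial (Fin 2) κ} {c : κ}

/-- The values of the frame at a point span the derivations there. -/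
theorem IsHFrame.exists_pt (hX : IsContactFano 𝒜 P) (hφ : IsCurve 𝒜 d φ)
    (h : IsHFrame 𝒜 P d φ e δ c) {u : Fin 2 → κ} (hu : u ≠ 0) {x : R →ₗ[ℂ] κ}
    (hx : IsDer (pt φ u) x) : ∃ b : Fin (cdim R) → κ, x = ∑ i, b i • evL u (δ i) :=
  fr_span hX (c1_isNV_pt hφ u hu) (fun i => fr_isDer_evL (h.hder i).der u)
    (fr_indep hX (c1_isNV_pt hφ u hu) (fun i => fr_isDer_evL (h.hder i).der u)
      (h.gram_ne hX hφ hu)) hx

omit [IsDomain R] in
/-- The values of the frame at a point are linearly independent. -/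
theorem IsHFrame.pt_indep (hX : IsContactFano 𝒜 P) (hφ : IsCurve 𝒜 d φ)
    (h : IsHFrame 𝒜 P d φ e δ c) {u : Fin 2 → κ} (hu : u ≠ 0) {b : Fin (cdim R) → κ}
    (hb : ∑ i, b i • evL u (δ i) = 0) : b = 0 :=
  fr_indep hX (c1_isNV_pt hφ u hu) (fun i => fr_isDer_evL (h.hder i).der u)
      (h.gram_ne hX hφ hu) b hb

/-- Every derivation along the curve is a combination of the frame. -/
theorem IsHFrame.exists_coeff (hX : IsContactFano 𝒜 P) (hφ : IsCurve 𝒜 d φ)
    (h : IsHFrame 𝒜 P d φ e δ c) {θ : R →ₗ[ℂ] MvPolynomial (Fin 2) κ} (hθ : IsDer φ θ) :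
    ∃ p : Fin (cdim R) → MvPolynomial (Fin 2) κ, θ = ∑ i, p i • δ i := by
  refine ⟨Matrix.vecMul (fun j => omC P φ θ (δ j)) (frI P φ δ c), ?_⟩
  set p := Matrix.vecMul (fun j => omC P φ θ (δ j)) (frI P φ δ c) with hp
  have hs : IsDer φ (∑ i, p i • δ i) := fr_isDer_sum _ _ fun i _ => (h.hder i).der
  have hs' : IsDer φ (θ - ∑ i, p i • δ i) := (DerAt φ).sub_mem hθ hs
  have horth : ∀ j, omC P φ (θ - ∑ i, p i • δ i) (δ j) = 0 := by
    intro j
    have h1 : θ - ∑ i, p i • δ i = θ + (-1 : MvPolynomial (Fin 2) κ) • ∑ i, p i • δ i := by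
      ext1 r
      rw [LinearMap.sub_apply, LinearMap.add_apply, LinearMap.smul_apply, smul_eq_mul]
      ring
    rw [h1, fr_omC_add_left hX hφ hθ ((DerAt φ).smul_mem _ hs) (h.hder j).der,
      fr_omC_smul_left hX hφ hs (h.hder j).der,
      fr_omC_sum_left hX hφ _ _ (fun i _ => (h.hder i).der) (h.hder j).der]
    have h2 : ∑ i, p i * omC P φ (δ i) (δ j) = omC P φ θ (δ j) := by
      have h3 : Matrix.vecMul p (frG P φ δ) = fun j => omC P φ θ (δ j) := by
        rw [hp, Matrix.vecMul_vecMul, h.frI_mul, Matrix.vecMul_one]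
      exact congrFun h3 j
    rw [h2]
    ring
  have hpt : ∀ u : Fin 2 → κ, u ≠ 0 → evL u (θ - ∑ i, p i • δ i) = 0 := by
    intro u hu
    refine eq_zero_of_om hX (c1_isNV_pt hφ u hu) (fr_isDer_evL hs' u) fun x hx => ?_
    obtain ⟨b, rfl⟩ := h.exists_pt hX hφ hu hx
    rw [om_antisymm hX (c1_isNV_pt hφ u hu) (fr_isDer_evL hs' u) hx,
      fr_om_sum_left hX (c1_isNV_pt hφ u hu) _ _ (fun i _ => fr_isDer_evL (h.hder i).der u)
      (fr_isDer_evL hs' u), neg_eq_zero]
    refine Finset.sum_eq_zero fun j _ => ?_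
    rw [om_antisymm hX (c1_isNV_pt hφ u hu) (fr_isDer_evL (h.hder j).der u)
      (fr_isDer_evL hs' u), fr_omC_eval hX hφ hs' (h.hder j).der u hu, horth, map_zero, neg_zero,
      mul_zero]
  rw [← sub_eq_zero]
  ext1 r
  rw [LinearMap.zero_apply]
  refine fr_eq_zero fun u hu => ?_
  rw [← evL_apply, hpt u hu, LinearMap.zero_apply]

/-- Homogeneous derivations are combinations with homogeneous coefficients. -/
theorem IsHFrame.exists_coeff_zhom (hX : IsContactFano 𝒜 P) (hφ : IsCurve 𝒜 d φ)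
    (h : IsHFrame 𝒜 P d φ e δ c) {k : ℤ} {θ : R →ₗ[ℂ] MvPolynomial (Fin 2) κ}
    (hθ : IsHDer 𝒜 d φ k θ) :
    ∃ p : Fin (cdim R) → MvPolynomial (Fin 2) κ, (∀ i, ZHom (p i) (k - e i)) ∧
      θ = ∑ i, p i • δ i := by
  obtain ⟨p, hp⟩ := h.exists_coeff hX hφ hθ.der
  refine ⟨p, fun i => ?_, hp⟩
  rw [h.coeff_eq hX hφ hp i]
  refine ZHom.sum _ fun j _ => ?_
  exact ((omC_zhom hX hφ hθ (h.hder j)).mul (h.frI_zhom hX hφ j i)).congr (by ring)

/-- There are no derivations of degree `< -d`. -/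
theorem IsHFrame.eq_zero (hX : IsContactFano 𝒜 P) (hφ : IsCurve 𝒜 d φ)
    (h : IsHFrame 𝒜 P d φ e δ c) {k : ℤ} (hk : k < -d) {θ : R →ₗ[ℂ] MvPolynomial (Fin 2) κ}
    (hθ : IsHDer 𝒜 d φ k θ) : θ = 0 := by
  obtain ⟨p, hp, hp'⟩ := h.exists_coeff_zhom hX hφ hθ
  rw [hp']
  refine Finset.sum_eq_zero fun i _ => ?_
  rw [(hp i).neg (by have := h.ge i; omega), zero_smul]

/-- The derivations of degree zero take every value at every point. -/
theorem IsHFrame.exists_value (hX : IsContactFano 𝒜 P) (hφ : IsCurve 𝒜 d φ)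
    (h : IsHFrame 𝒜 P d φ e δ c) {u : Fin 2 → κ} (hu : u ≠ 0) {x : R →ₗ[ℂ] κ}
    (hx : IsDer (pt φ u) x) {k : ℤ} (hk : 0 ≤ k) : ∃ θ, IsHDer 𝒜 d φ k θ ∧ evL u θ = x := by
  obtain ⟨b, rfl⟩ := h.exists_pt hX hφ hu hx
  obtain ⟨l, hl, hlu⟩ := exists_frU hu
  refine ⟨∑ i, (C (b i) * l ^ (k - e i).toNat : MvPolynomial (Fin 2) κ) • δ i,
    IsHDer.fr_sum _ fun i _ => ?_, ?_⟩
  · have h1 : ZHom (C (b i) * l ^ (k - e i).toNat) (k - e i) := by
      have h2 := ZHom.of_nat ((isHomogeneous_C (Fin 2) (b i)).mul (hl.pow (k - e i).toNat))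
      refine h2.congr ?_
      have := h.nonpos i
      push_cast
      omega
    exact ((h.hder i).fr_smul h1).fr_congr (by ring)
  · ext r
    rw [evL_apply, LinearMap.sum_apply, LinearMap.sum_apply, map_sum]
    refine Finset.sum_congr rfl fun i _ => ?_
    rw [LinearMap.smul_apply, LinearMap.smul_apply, evL_apply, smul_eq_mul, smul_eq_mul, map_mul,
      map_mul, map_pow, hlu, one_pow, mul_one, eval_C]

/-- On a line, the values of the derivations of degree `-1` form a Lagrangian subspace. -/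
theorem IsHFrame.lagrangian (hX : IsContactFano 𝒜 P) (hφ : IsCurve 𝒜 1 φ)
    (h : IsHFrame 𝒜 P 1 φ e δ c) {u : Fin 2 → κ} (hu : u ≠ 0) (x : R →ₗ[ℂ] κ)
    (hx : IsDer (pt φ u) x)
    (horth : ∀ τ, IsHDer 𝒜 1 φ (-1) τ → om P (pt φ u) x (evL u τ) = 0) :
    ∃ τ, IsHDer 𝒜 1 φ (-1) τ ∧ evL u τ = x := by
  classical
  obtain ⟨b, rfl⟩ := h.exists_pt hX hφ hu hx
  have hnv := c1_isNV_pt hφ u hu
  have he : ∀ i, e i = 0 ∨ e i = -1 := fun i => by
    have h1 := h.ge i
    have h2 := h.nonpos i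
    push_cast at h1
    omega
  -- the part of degree zero
  let b₀ : Fin (cdim R) → κ := fun i => if e i = 0 then b i else 0
  let θ : R →ₗ[ℂ] MvPolynomial (Fin 2) κ := ∑ i, (C (b₀ i) : MvPolynomial (Fin 2) κ) • δ i
  have hθ : IsHDer 𝒜 1 φ 0 θ := by
    refine IsHDer.fr_sum _ fun i _ => ?_
    by_cases hi : e i = 0
    · exact ((h.hder i).fr_smul (ZHom.of_nat (isHomogeneous_C (Fin 2) (b₀ i)))).fr_congr
        (by rw [hi]; rfl)
    · have : b₀ i = 0 := if_neg hi
      rw [this, map_zero, zero_smul]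
      exact IsHDer.fr_zero _
  have hθu : evL u θ = ∑ i, b₀ i • evL u (δ i) := by
    ext r
    rw [evL_apply, LinearMap.sum_apply, LinearMap.sum_apply, map_sum]
    refine Finset.sum_congr rfl fun i _ => ?_
    rw [LinearMap.smul_apply, LinearMap.smul_apply, evL_apply, smul_eq_mul, smul_eq_mul, map_mul,
      eval_C]
  have hneg : ∀ i j, e i = -1 → e j = -1 → omC P φ (δ i) (δ j) = 0 := fun i j hi hj =>
    (omC_zhom hX hφ (h.hder i) (h.hder j)).neg (by rw [hi, hj]; norm_num)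
  -- `θ` is orthogonal to the derivations of degree `-1`
  have h1 : ∀ j, e j = -1 → omC P φ θ (δ j) = 0 := by
    intro j hj
    have h2 := (omC_zhom hX hφ hθ (h.hder j)).nat 0 (by rw [hj]; norm_num)
    obtain ⟨a, ha⟩ : ∃ a : κ, omC P φ θ (δ j) = C a :=
      ⟨_, (totalDegree_eq_zero_iff_eq_C).1 (Nat.le_zero.1 h2.totalDegree_le)⟩
    have h3 := fr_omC_eval hX hφ hθ.der (h.hder j).der u hu
    rw [ha, eval_C] at h3
    have h4 : om P (pt φ u) (evL u θ) (evL u (δ j)) = 0 := by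
      rw [hθu, fr_om_sum_left hX hnv _ _ (fun i _ => fr_isDer_evL (h.hder i).der u)
        (fr_isDer_evL (h.hder j).der u)]
      have h5 := horth (δ j) (hj ▸ h.hder j)
      rw [fr_om_sum_left hX hnv _ _ (fun i _ => fr_isDer_evL (h.hder i).der u)
        (fr_isDer_evL (h.hder j).der u)] at h5
      rw [← h5]
      refine Finset.sum_congr rfl fun i _ => ?_
      by_cases hi : e i = 0
      · rw [show b₀ i = b i from if_pos hi]
      · rw [fr_omC_eval hX hφ (h.hder i).der (h.hder j).der u hu,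
          hneg i j ((he i).resolve_left hi) hj, map_zero, mul_zero, mul_zero]
    rw [ha, ← h3, h4, map_zero]
  have h2 : ∀ i, e i = 0 → b i = 0 := by
    intro i hi
    have h3 := h.coeff_eq hX hφ (p := fun i => C (b₀ i)) (θ := θ) rfl i
    have h4 : ∑ j, omC P φ θ (δ j) * frI P φ δ c j i = 0 := by
      refine Finset.sum_eq_zero fun j _ => ?_
      rcases he j with hj | hj
      · rw [(h.frI_zhom hX hφ j i).neg (by rw [hi, hj]; norm_num), mul_zero]
      · rw [h1 j hj, zero_mul]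
    rw [h4] at h3
    have h5 : b₀ i = 0 := by
      simpa using h3
    rwa [show b₀ i = b i from if_pos hi] at h5
  refine ⟨∑ i, (C (b i) : MvPolynomial (Fin 2) κ) • δ i, ?_, ?_⟩
  · refine IsHDer.fr_sum _ fun i _ => ?_
    rcases he i with hi | hi
    · rw [h2 i hi, map_zero, zero_smul]
      exact IsHDer.fr_zero _
    · exact ((h.hder i).fr_smul (ZHom.of_nat (isHomogeneous_C (Fin 2) (b i)))).fr_congr
        (by rw [hi]; rfl)
  · ext r
    rw [evL_apply, LinearMap.sum_apply, LinearMap.sum_apply, map_sum]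
    refine Finset.sum_congr rfl fun i _ => ?_
    rw [LinearMap.smul_apply, LinearMap.smul_apply, evL_apply, smul_eq_mul, smul_eq_mul, map_mul,
      eval_C]

end domain

end Vale.Agent.P292
end

section

/-! # Frames along anchored curves. -/

namespace Vale.Agent.P292

open MvPolynomial

universe u v w

variable {R : Type u} [CommRing R] [Algebra ℂ R] {𝒜 : ℕ → Submodule ℂ R} [GradedAlgebra 𝒜]
  {P : R →ₗ[ℂ] R →ₗ[ℂ] R}

/-- An anchored curve has a frame. -/
theorem IsAnch.exists_hframe (hX : IsContactFano 𝒜 P) [IsDomain R] {K : Type v} [Field K]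
    [IsAlgClosed K] [Algebra ℂ K] {d : ℕ} {ψ : R →ₐ[ℂ] MvPolynomial (Fin 2) K}
    (h : IsAnch 𝒜 d ψ) :
    ∃ (e : Fin (cdim R) → ℤ) (δ : Fin (cdim R) → R →ₗ[ℂ] MvPolynomial (Fin 2) K) (c : K),
      IsHFrame 𝒜 P d ψ e δ c :=
  Vale.Agent.P292.exists_hframe hX h.curve fun v hv =>
    let ⟨δ, h1, h2, _⟩ := h.exists_isHDer hX v hv
    ⟨δ, h1, h2⟩

/-- F1 -/
theorem ni_exists_value (hX : IsContactFano 𝒜 P) [IsDomain R] {K : Type v} [Field K]
    [IsAlgClosed K] [Algebra ℂ K] {ψ : R →ₐ[ℂ] MvPolynomial (Fin 2) K} (h : IsAnch 𝒜 1 ψ)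
    {u : Fin 2 → K} (hu : u ≠ 0) (x : R →ₗ[ℂ] K) (hx : IsDer (pt ψ u) x) :
    ∃ δ, IsHDer 𝒜 1 ψ 0 δ ∧ evL u δ = x := by
  obtain ⟨e, δ, c, hf⟩ := h.exists_hframe hX
  exact hf.exists_value hX h.curve hu hx le_rfl

/-- F2 -/
theorem ni_lagrangian (hX : IsContactFano 𝒜 P) [IsDomain R] {K : Type v} [Field K]
    [IsAlgClosed K] [Algebra ℂ K] {ψ : R →ₐ[ℂ] MvPolynomial (Fin 2) K} (h : IsAnch 𝒜 1 ψ)
    {u : Fin 2 → K} (hu : u ≠ 0) (x : R →ₗ[ℂ] K) (hx : IsDer (pt ψ u) x)
    (horth : ∀ τ, IsHDer 𝒜 1 ψ (-1) τ → om P (pt ψ u) x (evL u τ) = 0) :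
    ∃ τ, IsHDer 𝒜 1 ψ (-1) τ ∧ evL u τ = x := by
  obtain ⟨e, δ, c, hf⟩ := h.exists_hframe hX
  exact hf.lagrangian hX h.curve hu x hx horth

end Vale.Agent.P292
end

section

/-! # Closedness of the symplectic form on points with values in a field. -/

namespace Vale.Agent.P292

universe u v

variable {R : Type u} [CommRing R] [Algebra ℂ R] {𝒜 : ℕ → Submodule ℂ R} [GradedAlgebra 𝒜]
  {P : R →ₗ[ℂ] R →ₗ[ℂ] R}

/-- The derivative of the pairing of two derivations given by Hamiltonian derivations. -/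
lemma closed_aux (hX : IsContactFano 𝒜 P) {E : Type v} [Field E] [Algebra ℂ E] {x : R →ₐ[ℂ] E}
    (D₁ D₂ D₃ : Derivation ℂ E E) {N : ℕ} (r : Fin N → R) (a₁ a₂ a₃ : Fin N → E)
    (h1 : ∀ s, D₁ (x s) = ∑ i, a₁ i * x (P (r i) s))
    (h2 : ∀ s, D₂ (x s) = ∑ i, a₂ i * x (P (r i) s))
    (h3 : ∀ s, D₃ (x s) = ∑ i, a₃ i * x (P (r i) s)) :
    D₁ (∑ i, a₂ i * D₃ (x (r i))) = (∑ i, a₂ i * D₁ (D₃ (x (r i)))) -
      (∑ k, a₃ k * D₁ (D₂ (x (r k)))) +
      ∑ k, ∑ i, ∑ j, a₃ k * a₂ i * a₁ j * x (P (r j) (P (r i) (r k))) := by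
  -- the derivative of the second relation at `r k`
  have key : ∀ k, D₁ (D₂ (x (r k))) = (∑ i, D₁ (a₂ i) * x (P (r i) (r k))) +
      ∑ i, ∑ j, a₂ i * a₁ j * x (P (r j) (P (r i) (r k))) := by
    intro k
    rw [h2, map_sum, ← Finset.sum_add_distrib]
    refine Finset.sum_congr rfl fun i _ => ?_
    rw [Derivation.leibniz, smul_eq_mul, smul_eq_mul, h1, Finset.mul_sum, add_comm, mul_comm]
    congr 1
    exact Finset.sum_congr rfl fun j _ => by ring
  have hskew : ∀ i, D₃ (x (r i)) = - ∑ k, a₃ k * x (P (r i) (r k)) := by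
    intro i
    rw [h3, ← Finset.sum_neg_distrib]
    refine Finset.sum_congr rfl fun k _ => ?_
    rw [hX.skew (r k) (r i), map_neg, mul_neg]
  have e1 : (∑ i, D₁ (a₂ i) * D₃ (x (r i))) = - ∑ k, a₃ k * ∑ i, D₁ (a₂ i) * x (P (r i) (r k)) := by
    simp_rw [Finset.mul_sum]
    rw [Finset.sum_comm, ← Finset.sum_neg_distrib]
    refine Finset.sum_congr rfl fun i _ => ?_
    rw [hskew, mul_neg, Finset.mul_sum]
    congr 1
    exact Finset.sum_congr rfl fun k _ => by ring
  have e2 : D₁ (∑ i, a₂ i * D₃ (x (r i))) = (∑ i, a₂ i * D₁ (D₃ (x (r i)))) +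
      ∑ i, D₁ (a₂ i) * D₃ (x (r i)) := by
    rw [map_sum, ← Finset.sum_add_distrib]
    refine Finset.sum_congr rfl fun i _ => ?_
    rw [Derivation.leibniz, smul_eq_mul, smul_eq_mul]
    ring
  have e3 : (∑ k, a₃ k * D₁ (D₂ (x (r k)))) =
      (∑ k, a₃ k * ∑ i, D₁ (a₂ i) * x (P (r i) (r k))) +
      ∑ k, ∑ i, ∑ j, a₃ k * a₂ i * a₁ j * x (P (r j) (P (r i) (r k))) := by
    rw [← Finset.sum_add_distrib]
    refine Finset.sum_congr rfl fun k _ => ?_
    rw [key, mul_add]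
    congr 1
    rw [Finset.mul_sum]
    refine Finset.sum_congr rfl fun i _ => ?_
    rw [Finset.mul_sum]
    exact Finset.sum_congr rfl fun j _ => by ring
  rw [e2, e1, e3]
  ring

/-- Closedness, in terms of coefficients. -/
lemma closed_coeff (hX : IsContactFano 𝒜 P) {E : Type v} [Field E] [Algebra ℂ E] {x : R →ₐ[ℂ] E}
    (D₁ D₂ D₃ : Derivation ℂ E E)
    (h12 : ∀ e, D₁ (D₂ e) = D₂ (D₁ e)) (h13 : ∀ e, D₁ (D₃ e) = D₃ (D₁ e))
    (h23 : ∀ e, D₂ (D₃ e) = D₃ (D₂ e)) {N : ℕ} (r : Fin N → R) (a₁ a₂ a₃ : Fin N → E)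
    (h1 : ∀ s, D₁ (x s) = ∑ i, a₁ i * x (P (r i) s))
    (h2 : ∀ s, D₂ (x s) = ∑ i, a₂ i * x (P (r i) s))
    (h3 : ∀ s, D₃ (x s) = ∑ i, a₃ i * x (P (r i) s)) :
    D₁ (∑ i, a₂ i * D₃ (x (r i))) + D₂ (∑ i, a₃ i * D₁ (x (r i))) +
      D₃ (∑ i, a₁ i * D₂ (x (r i))) = 0 := by
  rw [closed_aux hX D₁ D₂ D₃ r a₁ a₂ a₃ h1 h2 h3, closed_aux hX D₂ D₃ D₁ r a₂ a₃ a₁ h2 h3 h1,
    closed_aux hX D₃ D₁ D₂ r a₃ a₁ a₂ h3 h1 h2]
  -- the triple sums
  have t1 : (∑ k, ∑ i, ∑ j, a₃ k * a₂ i * a₁ j * x (P (r j) (P (r i) (r k)))) =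
      ∑ p, ∑ q, ∑ m, a₁ p * a₂ q * a₃ m * x (P (r p) (P (r q) (r m))) := by
    rw [Finset.sum_comm]
    simp_rw [fun i => Finset.sum_comm (s := (Finset.univ : Finset (Fin N)))
      (t := (Finset.univ : Finset (Fin N))) (f := fun k j =>
        a₃ k * a₂ i * a₁ j * x (P (r j) (P (r i) (r k))))]
    rw [Finset.sum_comm]
    refine Finset.sum_congr rfl fun p _ => Finset.sum_congr rfl fun q _ =>
      Finset.sum_congr rfl fun m _ => by ring
  have t2 : (∑ k, ∑ i, ∑ j, a₁ k * a₃ i * a₂ j * x (P (r j) (P (r i) (r k)))) =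
      ∑ p, ∑ q, ∑ m, a₁ p * a₂ q * a₃ m * x (P (r q) (P (r m) (r p))) := by
    refine Finset.sum_congr rfl fun p _ => ?_
    rw [Finset.sum_comm]
    exact Finset.sum_congr rfl fun q _ => Finset.sum_congr rfl fun m _ => by ring
  have t3 : (∑ k, ∑ i, ∑ j, a₂ k * a₁ i * a₃ j * x (P (r j) (P (r i) (r k)))) =
      ∑ p, ∑ q, ∑ m, a₁ p * a₂ q * a₃ m * x (P (r m) (P (r p) (r q))) := by
    rw [Finset.sum_comm]
    exact Finset.sum_congr rfl fun p _ => Finset.sum_congr rfl fun q _ =>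
      Finset.sum_congr rfl fun m _ => by ring
  have tz : (∑ p, ∑ q, ∑ m, a₁ p * a₂ q * a₃ m * x (P (r p) (P (r q) (r m)))) +
      (∑ p, ∑ q, ∑ m, a₁ p * a₂ q * a₃ m * x (P (r q) (P (r m) (r p)))) +
      (∑ p, ∑ q, ∑ m, a₁ p * a₂ q * a₃ m * x (P (r m) (P (r p) (r q)))) = 0 := by
    simp_rw [← Finset.sum_add_distrib]
    refine Finset.sum_eq_zero fun p _ => Finset.sum_eq_zero fun q _ =>
      Finset.sum_eq_zero fun m _ => ?_
    rw [← mul_add, ← mul_add, ← map_add, ← map_add]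
    have hj : P (r p) (P (r q) (r m)) + P (r q) (P (r m) (r p)) + P (r m) (P (r p) (r q)) = 0 := by
      rw [hX.jacobi (r p) (r q) (r m), hX.skew (P (r p) (r q)) (r m), hX.skew (r p) (r m),
        map_neg]
      ring
    rw [hj, map_zero, mul_zero]
  rw [t1, t2, t3]
  simp_rw [← h12, ← h13, ← h23]
  linear_combination tz

/-- Every derivation over a nonvertex point is a combination of Hamiltonian ones. -/
lemma ham_rep_aux (hX : IsContactFano 𝒜 P) {E : Type v} [Field E] [Algebra ℂ E]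
    {x : R →ₐ[ℂ] E} (hx : IsNV 𝒜 x) :
    ∃ (N : ℕ) (r : Fin N → R), ∀ δ, IsDer x δ → ∃ a : Fin N → E, ∀ s,
      δ s = ∑ i, a i * x (P (r i) s) := by
  obtain ⟨k, hk, r, hr, hrx⟩ := hx
  obtain ⟨N, y, g, h, hF, hg⟩ := exists_frame_of_point hX x hk hr hrx
  refine ⟨N, y, fun δ hδ => ?_⟩
  letI : Algebra R E := x.toRingHom.toAlgebra
  have hsm : ∀ (a : R) (e : E), a • e = x a * e := fun a e => Algebra.smul_def a e
  haveI : IsScalarTower ℂ R E := IsScalarTower.of_algebraMap_eq fun c => (x.commutes c).symm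
  let d : Derivation ℂ R E := Derivation.mk' δ (fun a b => by
    rw [hsm, hsm]; exact hδ a b)
  have hd : ∀ s, d s = δ s := fun s => rfl
  refine ⟨fun j => (x (g * (brMat P y).det))⁻¹ * ∑ i, x (g * (brMat P y).adjugate i j) *
    δ (y i), fun s => ?_⟩
  have h1 := hF.det_smul_derivation hX d s
  rw [hsm, hd] at h1
  rw [eq_comm, ← mul_right_inj' hg, h1]
  simp_rw [hsm, hd]
  rw [Finset.sum_comm, Finset.mul_sum]
  refine Finset.sum_congr rfl fun j _ => ?_
  rw [← mul_assoc, ← mul_assoc, mul_inv_cancel₀ hg, one_mul, Finset.sum_mul]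
  refine Finset.sum_congr rfl fun i _ => ?_
  simp only [map_mul]
  ring

/-- The value of the pairing does not depend on the representation. -/
lemma om_eq_aux (hX : IsContactFano 𝒜 P) {E : Type v} [Field E] [Algebra ℂ E]
    {x : R →ₐ[ℂ] E} (hx : IsNV 𝒜 x) {δ δ' : R →ₗ[ℂ] E} (hδ' : IsDer x δ')
    {N : ℕ} {a : Fin N → E} {r : Fin N → R} (h : ∀ s, δ s = ∑ i, a i * x (P (r i) s)) :
    om P x δ δ' = ∑ i, a i * δ' (r i) := by
  have hex : ∃ c, IsOm P x δ δ' c := ⟨_, N, a, r, h, rfl⟩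
  rw [om, dif_pos hex]
  obtain ⟨M, b, q, hb, hc⟩ := hex.choose_spec
  rw [hc]
  obtain ⟨L, t, ht⟩ := ham_rep_aux hX hx
  obtain ⟨c, hc'⟩ := ht δ' hδ'
  have key : ∀ {K : ℕ} (e : Fin K → E) (u : Fin K → R)
      (_ : ∀ s, δ s = ∑ i, e i * x (P (u i) s)),
      ∑ i, e i * δ' (u i) = - ∑ k, c k * δ (t k) := by
    intro K e u he
    simp_rw [hc', he, Finset.mul_sum]
    rw [Finset.sum_comm, ← Finset.sum_neg_distrib]
    refine Finset.sum_congr rfl fun k _ => ?_
    rw [← Finset.sum_neg_distrib]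
    refine Finset.sum_congr rfl fun i _ => ?_
    rw [hX.skew (t k) (u i), map_neg]
    ring
  rw [key b q hb, key a r h]

/-- Closedness (Jacobi), for commuting derivations of the field. -/
theorem om_closed (hX : IsContactFano 𝒜 P) {E : Type v} [Field E] [Algebra ℂ E]
    {x : R →ₐ[ℂ] E} (hx : IsNV 𝒜 x) (D₁ D₂ D₃ : Derivation ℂ E E)
    (h12 : ∀ e, D₁ (D₂ e) = D₂ (D₁ e)) (h13 : ∀ e, D₁ (D₃ e) = D₃ (D₁ e))
    (h23 : ∀ e, D₂ (D₃ e) = D₃ (D₂ e)) :
    D₁ (om P x (alongAt x D₂) (alongAt x D₃)) + D₂ (om P x (alongAt x D₃) (alongAt x D₁)) +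
      D₃ (om P x (alongAt x D₁) (alongAt x D₂)) = 0 := by
  obtain ⟨N, r, hr⟩ := ham_rep_aux hX hx
  obtain ⟨a₁, h1⟩ := hr _ (isDer_alongAt x D₁)
  obtain ⟨a₂, h2⟩ := hr _ (isDer_alongAt x D₂)
  obtain ⟨a₃, h3⟩ := hr _ (isDer_alongAt x D₃)
  rw [om_eq_aux hX hx (isDer_alongAt x D₃) h2, om_eq_aux hX hx (isDer_alongAt x D₁) h3,
    om_eq_aux hX hx (isDer_alongAt x D₂) h1]
  exact closed_coeff hX D₁ D₂ D₃ h12 h13 h23 r a₁ a₂ a₃ h1 h2 h3

end Vale.Agent.P292
end

section

/-! # P292 K-plan, V0, V1, V2: the constant `b` and the first variation. -/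

namespace Vale.Agent.P292

open MvPolynomial TensorProduct

universe u v w

/-! ### extension of derivations (formally etale case) -/

section Der

variable {κ A Ω : Type*} [CommRing κ] [CommRing A] [CommRing Ω] [Algebra κ A] [Algebra A Ω]
  [Algebra κ Ω] [IsScalarTower κ A Ω] [Algebra.FormallyEtale A Ω]

theorem v1_exists_der (d : Derivation κ A Ω) :
    ∃ D : Derivation κ Ω Ω, ∀ x, D (algebraMap A Ω x) = d x := by
  have hb : IsBaseChange Ω (KaehlerDifferential.map κ κ A Ω) :=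
    KaehlerDifferential.isBaseChange_of_formallyEtale κ A Ω
  refine ⟨(hb.lift d.liftKaehlerDifferential).compDer (KaehlerDifferential.D κ Ω), fun x => ?_⟩
  have h1 := hb.lift_eq d.liftKaehlerDifferential (KaehlerDifferential.D κ A x)
  rw [KaehlerDifferential.map_D, Derivation.liftKaehlerDifferential_comp_D] at h1
  exact h1

theorem v1_der_ext (D₁ D₂ : Derivation κ Ω Ω)
    (h : ∀ x : A, D₁ (algebraMap A Ω x) = D₂ (algebraMap A Ω x)) : D₁ = D₂ := by
  have hb : IsBaseChange Ω (KaehlerDifferential.map κ κ A Ω) :=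
    KaehlerDifferential.isBaseChange_of_formallyEtale κ A Ω
  have h1 : D₁.liftKaehlerDifferential = D₂.liftKaehlerDifferential := by
    refine hb.algHom_ext' _ _ ?_
    refine Derivation.liftKaehlerDifferential_unique _ _ ?_
    ext x
    have h2 := h x
    rw [← Derivation.liftKaehlerDifferential_comp_D D₁,
      ← Derivation.liftKaehlerDifferential_comp_D D₂] at h2
    simpa using h2
  ext x
  rw [← Derivation.liftKaehlerDifferential_comp_D D₁,
    ← Derivation.liftKaehlerDifferential_comp_D D₂, h1]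

end Der

/-! ### general facts on coefficientwise derivations -/

section gen

variable {κ : Type v} [Field κ] [Algebra ℂ κ]

theorem mapD_C (D : Derivation ℂ κ κ) (c : κ) : mapD D (C c) = C (D c) := by
  classical
  ext m
  rw [coeff_mapD, coeff_C, coeff_C]
  split_ifs with h
  · rfl
  · exact map_zero _

theorem mapD_X (D : Derivation ℂ κ κ) (i : Fin 2) : mapD D (X i) = 0 := by
  classical
  ext m
  rw [coeff_mapD, coeff_X, coeff_zero]
  split_ifs with h
  · exact D.map_one_eq_zero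
  · exact map_zero _

theorem mapD_pderiv (D : Derivation ℂ κ κ) (i : Fin 2) (p : MvPolynomial (Fin 2) κ) :
    mapD D (pderiv i p) = pderiv i (mapD D p) := by
  classical
  induction p using MvPolynomial.induction_on with
  | C c => simp [mapD_C]
  | add p q hp hq => simp [hp, hq]
  | mul_X p j hp =>
    have h1 : mapD D (pderiv i (X j : MvPolynomial (Fin 2) κ)) = 0 := by
      rw [pderiv_X, Pi.single_apply]
      split_ifs
      · exact (mapD D).map_one_eq_zero
      · exact map_zero _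
    simp only [Derivation.leibniz, map_add, mapD_X, h1, hp, smul_eq_mul, mul_zero, zero_add,
      add_zero]
    ring

omit [Algebra ℂ κ] in
theorem pderiv_comm (i j : Fin 2) (p : MvPolynomial (Fin 2) κ) :
    pderiv i (pderiv j p) = pderiv j (pderiv i p) := by
  classical
  have h : ⁅(pderiv i : Derivation κ (MvPolynomial (Fin 2) κ) (MvPolynomial (Fin 2) κ)),
      (pderiv j : Derivation κ (MvPolynomial (Fin 2) κ) (MvPolynomial (Fin 2) κ))⁆ = 0 := by
    refine MvPolynomial.derivation_ext fun k => ?_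
    rw [Derivation.commutator_apply, pderiv_X, pderiv_X, Pi.single_apply, Pi.single_apply]
    split_ifs <;> simp
  have h2 := congrArg (fun D : Derivation κ (MvPolynomial (Fin 2) κ) (MvPolynomial (Fin 2) κ) =>
    D p) h
  simp only [Derivation.commutator_apply, Derivation.zero_apply] at h2
  exact sub_eq_zero.1 h2

theorem eval_mapD (D : Derivation ℂ κ κ) (a : Fin 2 → κ) (ha : ∀ i, D (a i) = 0)
    (p : MvPolynomial (Fin 2) κ) : eval a (mapD D p) = D (eval a p) := by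
  induction p using MvPolynomial.induction_on with
  | C c => simp [mapD_C]
  | add p q hp hq => simp [hp, hq]
  | mul_X p j hp =>
    rw [Derivation.leibniz, mapD_X]
    simp only [smul_eq_mul, mul_zero, zero_add, map_mul, eval_X, hp, Derivation.leibniz, ha]

theorem eval_mapD_10 (D : Derivation ℂ κ κ) (p : MvPolynomial (Fin 2) κ) :
    eval ![1, 0] (mapD D p) = D (eval ![1, 0] p) := by
  refine eval_mapD D _ (fun i => ?_) p
  fin_cases i
  · exact D.map_one_eq_zero
  · exact map_zero _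

theorem eval_mapD_01 (D : Derivation ℂ κ κ) (p : MvPolynomial (Fin 2) κ) :
    eval ![0, 1] (mapD D p) = D (eval ![0, 1] p) := by
  refine eval_mapD D _ (fun i => ?_) p
  fin_cases i
  · exact map_zero _
  · exact D.map_one_eq_zero

omit [Algebra ℂ κ] in
theorem pderiv_of_homog_one {p : MvPolynomial (Fin 2) κ} (hp : p.IsHomogeneous 1) :
    pderiv 0 p = C (eval ![1, 0] p) ∧ pderiv 1 p = C (eval ![0, 1] p) := by
  have he := hp.sum_X_mul_pderiv
  rw [Fin.sum_univ_two, one_nsmul] at he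
  have h0 : (pderiv 0 p).IsHomogeneous 0 := hp.pderiv
  have h1 : (pderiv 1 p).IsHomogeneous 0 := hp.pderiv
  have h0' := totalDegree_eq_zero_iff_eq_C.1 (Nat.le_zero.1 h0.totalDegree_le)
  have h1' := totalDegree_eq_zero_iff_eq_C.1 (Nat.le_zero.1 h1.totalDegree_le)
  constructor
  · rw [h0']
    congr 1
    have := congrArg (eval ![1, 0]) he
    rw [h0', h1'] at this
    simpa using this
  · rw [h1']
    congr 1
    have := congrArg (eval ![0, 1]) he
    rw [h0', h1'] at this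
    simpa using this

end gen

section
variable {R : Type u} [CommRing R] [Algebra ℂ R] {𝒜 : ℕ → Submodule ℂ R} [GradedAlgebra 𝒜]
  {P : R →ₗ[ℂ] R →ₗ[ℂ] R}

omit [GradedAlgebra 𝒜] in
theorem IsCurve.isNV_pt {κ : Type v} [Field κ] [Algebra ℂ κ] {d : ℕ}
    {φ : R →ₐ[ℂ] MvPolynomial (Fin 2) κ} (hφ : IsCurve 𝒜 d φ) {a : Fin 2 → κ} (ha : a ≠ 0) :
    IsNV 𝒜 (pt φ a) := by
  obtain ⟨k, hk, r, hr, h⟩ := hφ.bpf a ha
  exact ⟨k, hk, r, hr, h⟩

theorem vec10_ne {κ : Type v} [Field κ] : (![1, 0] : Fin 2 → κ) ≠ 0 := fun h => by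
  have := congrFun h 0
  simp at this

theorem vec01_ne {κ : Type v} [Field κ] : (![0, 1] : Fin 2 → κ) ≠ 0 := fun h => by
  have := congrFun h 1
  simp at this

theorem IsDer.evL {κ : Type v} [Field κ] [Algebra ℂ κ] {φ : R →ₐ[ℂ] MvPolynomial (Fin 2) κ}
    {δ : R →ₗ[ℂ] MvPolynomial (Fin 2) κ} (h : IsDer φ δ) (a : Fin 2 → κ) :
    IsDer (pt φ a) (P292.evL a δ) := fun r s => by
  simp [h r s]

section closed

variable {κ : Type v} [Field κ] [IsAlgClosed κ] [Algebra ℂ κ] {d : ℕ}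
  {φ : R →ₐ[ℂ] MvPolynomial (Fin 2) κ}

/-- closedness of the symplectic form, along a moving curve -/
theorem curve_closed (hX : IsContactFano 𝒜 P) (hφ : IsCurve 𝒜 d φ) (D : Derivation ℂ κ κ) :
    mapD D (omC P φ (pd φ 0) (pd φ 1)) =
      pderiv 0 (omC P φ ((mapD D : Derivation ℂ _ _).toLinearMap ∘ₗ φ.toLinearMap) (pd φ 1)) -
      pderiv 1 (omC P φ ((mapD D : Derivation ℂ _ _).toLinearMap ∘ₗ φ.toLinearMap)
        (pd φ 0)) := by
  classical
  let A := MvPolynomial (Fin 2) κ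
  let K := FractionRing A
  have : Algebra.FormallyEtale A K := Algebra.FormallyEtale.of_isLocalization (nonZeroDivisors A)
  let j : A →ₐ[ℂ] K := IsScalarTower.toAlgHom ℂ A K
  have hj : ∀ p, j p = algebraMap A K p := fun p => rfl
  let E0 : Derivation ℂ A A := mapD D
  let E1 : Derivation ℂ A A := (pderiv 0 : Derivation κ A A).restrictScalars ℂ
  let E2 : Derivation ℂ A A := (pderiv 1 : Derivation κ A A).restrictScalars ℂ
  obtain ⟨D0, hD0⟩ := v1_exists_der ((Algebra.linearMap A K).compDer E0)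
  obtain ⟨D1, hD1⟩ := v1_exists_der ((Algebra.linearMap A K).compDer E1)
  obtain ⟨D2, hD2⟩ := v1_exists_der ((Algebra.linearMap A K).compDer E2)
  have g0 : ∀ p : A, D0 (algebraMap A K p) = algebraMap A K (mapD D p) := hD0
  have g1 : ∀ p : A, D1 (algebraMap A K p) = algebraMap A K (pderiv 0 p) := hD1
  have g2 : ∀ p : A, D2 (algebraMap A K p) = algebraMap A K (pderiv 1 p) := hD2
  have comm : ∀ (F G : Derivation ℂ K K), (∀ p : A, F (G (algebraMap A K p)) =
      G (F (algebraMap A K p))) → ∀ e, F (G e) = G (F e) := by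
    intro F G h e
    have h1 : ⁅F, G⁆ = 0 := by
      refine v1_der_ext (A := A) _ _ fun p => ?_
      rw [Derivation.commutator_apply, Derivation.zero_apply, h, sub_self]
    have h2 := congrArg (fun D : Derivation ℂ K K => D e) h1
    simp only [Derivation.commutator_apply, Derivation.zero_apply] at h2
    exact sub_eq_zero.1 h2
  have c01 : ∀ e, D0 (D1 e) = D1 (D0 e) := comm _ _ fun p => by
    rw [g1, g0, g0, g1, mapD_pderiv]
  have c02 : ∀ e, D0 (D2 e) = D2 (D0 e) := comm _ _ fun p => by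
    rw [g2, g0, g0, g2, mapD_pderiv]
  have c12 : ∀ e, D1 (D2 e) = D2 (D1 e) := comm _ _ fun p => by
    rw [g2, g1, g1, g2, pderiv_comm]
  have hx : IsNV 𝒜 (j.comp φ) := by
    obtain ⟨k, hk, r, hr, h⟩ := hφ.bpf ![1, 0] vec10_ne
    refine ⟨k, hk, r, hr, ?_⟩
    rw [AlgHom.comp_apply, hj]
    intro h0
    rw [(injective_iff_map_eq_zero _).1 (IsFractionRing.injective A K) _ h0, map_zero] at h
    exact h rfl
  have a0 : alongAt (j.comp φ) D0 = j.toLinearMap ∘ₗ
      ((mapD D : Derivation ℂ _ _).toLinearMap ∘ₗ φ.toLinearMap) := by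
    ext r
    exact g0 _
  have a1 : alongAt (j.comp φ) D1 = j.toLinearMap ∘ₗ (pd φ 0) := by
    ext r
    exact g1 _
  have a2 : alongAt (j.comp φ) D2 = j.toLinearMap ∘ₗ (pd φ 1) := by
    ext r
    exact g2 _
  have h := om_closed hX hx D0 D1 D2 c01 c02 c12
  rw [om_antisymm hX hx (isDer_alongAt _ D2) (isDer_alongAt _ D0), a0, a1, a2,
    omC_spec hX hφ (isHDer_pd hφ 0) (isHDer_pd hφ 1) j hx,
    omC_spec hX hφ (isHDer_mapD hφ D) (isHDer_pd hφ 1) j hx,
    omC_spec hX hφ (isHDer_mapD hφ D) (isHDer_pd hφ 0) j hx, hj, hj, hj, map_neg, g0, g1, g2,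
    ← map_neg, ← map_add, ← map_add] at h
  have h' := (injective_iff_map_eq_zero _).1 (IsFractionRing.injective A K) _ h
  linear_combination h'

end closed

section conic
variable {Ω : Type v} [Field Ω] [IsAlgClosed Ω] [Algebra ℂ Ω] {w : R →ₐ[ℂ] ℂ}
  {φ : R →ₐ[ℂ] MvPolynomial (Fin 2) Ω}

/-- V0: the constant `b`. -/
theorem exists_b (hX : IsContactFano 𝒜 P) (hφ : IsCurve 𝒜 2 φ) :
    ∃ b : Ω, omC P φ (pd φ 0) (pd φ 1) = C b := by
  have h := omC_homog hX hφ (isHDer_pd hφ 0) (isHDer_pd hφ 1) (m := 0) (by norm_num)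
  exact ⟨_, (totalDegree_eq_zero_iff_eq_C.1 (Nat.le_zero.1 h.totalDegree_le))⟩

omit [IsAlgClosed Ω] in
theorem evL_mapD_01 (φ : R →ₐ[ℂ] MvPolynomial (Fin 2) Ω) (D : Derivation ℂ Ω Ω) :
    evL ![0, 1] ((mapD D : Derivation ℂ _ _).toLinearMap ∘ₗ φ.toLinearMap) =
      alongAt (pt φ ![0, 1]) D := by
  ext r
  rw [evL_apply, alongAt_apply, pt_apply]
  exact eval_mapD_01 D _

omit [IsAlgClosed Ω] in
theorem evL_mapD_10' (φ : R →ₐ[ℂ] MvPolynomial (Fin 2) Ω) (D : Derivation ℂ Ω Ω) :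
    evL ![1, 0] ((mapD D : Derivation ℂ _ _).toLinearMap ∘ₗ φ.toLinearMap) =
      alongAt (pt φ ![1, 0]) D := by
  ext r
  rw [evL_apply, alongAt_apply, pt_apply]
  exact eval_mapD_10 D _

omit [IsAlgClosed Ω] [GradedAlgebra 𝒜] in
theorem GenConicAt.kill_left (hφ : GenConicAt 𝒜 w φ) (D : Derivation ℂ Ω Ω) (r : R) :
    D (pt φ ![1, 0] r) = 0 := by
  rw [hφ.left, Derivation.map_algebraMap]

omit [IsAlgClosed Ω] [GradedAlgebra 𝒜] in
theorem evL_mapD_10 (hφ : GenConicAt 𝒜 w φ) (D : Derivation ℂ Ω Ω) :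
    evL ![1, 0] ((mapD D : Derivation ℂ _ _).toLinearMap ∘ₗ φ.toLinearMap) = 0 := by
  rw [evL_mapD_10']
  ext r
  exact hφ.kill_left D r

/-- V1, general form: first variation for a derivation which kills the left end point. -/
theorem first_variation' (hX : IsContactFano 𝒜 P) (hc : IsCurve 𝒜 2 φ) {b : Ω}
    (hb : omC P φ (pd φ 0) (pd φ 1) = C b) (D : Derivation ℂ Ω Ω)
    (hD0 : ∀ r, D (pt φ ![1, 0] r) = 0) :
    D b = om P (pt φ ![0, 1]) (evL ![0, 1] (pd φ 0)) (alongAt (pt φ ![0, 1]) D) := by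
  have hD := isHDer_mapD hc D
  have h0 := isHDer_pd hc 0
  have h1 := isHDer_pd hc 1
  have h := curve_closed hX hc D
  rw [hb, mapD_C] at h
  have d0 : (omC P φ ((mapD D : Derivation ℂ _ _).toLinearMap ∘ₗ φ.toLinearMap)
      (pd φ 0)).IsHomogeneous 1 := omC_homog hX hc hD h0 (by norm_num)
  have d1 : (omC P φ ((mapD D : Derivation ℂ _ _).toLinearMap ∘ₗ φ.toLinearMap)
      (pd φ 1)).IsHomogeneous 1 := omC_homog hX hc hD h1 (by norm_num)
  have hz0 : alongAt (pt φ ![1, 0]) D = 0 := LinearMap.ext hD0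
  rw [(pderiv_of_homog_one d1).1, (pderiv_of_homog_one d0).2,
    ← omC_eval hX hc hD h1 _ vec10_ne, ← omC_eval hX hc hD h0 _ vec01_ne, evL_mapD_10', hz0,
    evL_mapD_01, ← map_sub] at h
  have h' := C_injective _ _ h
  have hz : om P (pt φ ![1, 0]) 0 (evL ![1, 0] (pd φ 1)) = 0 := by
    have := om_smul_left hX (hc.isNV_pt vec10_ne) (h1.der.evL ![1, 0]) (h1.der.evL ![1, 0]) (0 : Ω)
    rwa [zero_smul, zero_mul] at this
  rw [h', hz, om_antisymm hX (hc.isNV_pt vec01_ne) (isDer_alongAt _ D) (h0.der.evL _)]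
  ring

/-- V2, general form. -/
theorem first_variation_ham' (hX : IsContactFano 𝒜 P) (hc : IsCurve 𝒜 2 φ) {b : Ω}
    (hb : omC P φ (pd φ 0) (pd φ 1) = C b) (D : Derivation ℂ Ω Ω)
    (hD0 : ∀ r, D (pt φ ![1, 0] r) = 0) (r : R)
    (hD : ∀ s, D (pt φ ![0, 1] s) = pt φ ![0, 1] (P r s)) :
    D b = - eval ![0, 1] (pderiv 0 (φ r)) := by
  have h0 := isHDer_pd hc 0
  have ha : alongAt (pt φ ![0, 1]) D = hamAt P (pt φ ![0, 1]) r := by
    ext s
    rw [alongAt_apply, hamAt_apply, hD]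
  have hd : IsDer (pt φ ![0, 1]) (hamAt P (pt φ ![0, 1]) r) := ha ▸ isDer_alongAt _ D
  rw [first_variation' hX hc hb D hD0, ha, om_antisymm hX (hc.isNV_pt vec01_ne) (h0.der.evL _) hd,
    om_ham hX (hc.isNV_pt vec01_ne) (h0.der.evL _), evL_apply, pd_apply]

/-- V1: first variation. -/
theorem first_variation (hX : IsContactFano 𝒜 P) (hφ : GenConicAt 𝒜 w φ) {b : Ω}
    (hb : omC P φ (pd φ 0) (pd φ 1) = C b) (D : Derivation ℂ Ω Ω) :
    D b = om P (pt φ ![0, 1]) (evL ![0, 1] (pd φ 0)) (alongAt (pt φ ![0, 1]) D) :=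
  first_variation' hX hφ.curve hb D (hφ.kill_left D)

/-- V2: first variation in Hamiltonian directions. -/
theorem first_variation_ham (hX : IsContactFano 𝒜 P) (hφ : GenConicAt 𝒜 w φ) {b : Ω}
    (hb : omC P φ (pd φ 0) (pd φ 1) = C b) (D : Derivation ℂ Ω Ω) (r : R)
    (hD : ∀ s, D (pt φ ![0, 1] s) = pt φ ![0, 1] (P r s)) :
    D b = - eval ![0, 1] (pderiv 0 (φ r)) :=
  first_variation_ham' hX hφ.curve hb D (hφ.kill_left D) r hD

end conic
end

end Vale.Agent.P292
end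

section

/-! # There is no chain of two lines through a generic point and a point independent of it -/

namespace Vale.Agent.P292

open MvPolynomial

set_option linter.unusedSectionVars false

universe u v w

variable {R : Type u} [CommRing R] [Algebra ℂ R] {𝒜 : ℕ → Submodule ℂ R} [GradedAlgebra 𝒜]
  {P : R →ₗ[ℂ] R →ₗ[ℂ] R}

variable {κ : Type v} [Field κ] [Algebra ℂ κ] {d : ℕ}
  {φ : R →ₐ[ℂ] MvPolynomial (Fin 2) κ}

/-- two linear maps which agree on homogeneous elements are equal. -/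
theorem mm_ext {M : Type*} [AddCommGroup M] [Module ℂ M] {f g : R →ₗ[ℂ] M}
    (h : ∀ k, ∀ r ∈ 𝒜 k, f r = g r) : f = g := by
  classical
  refine LinearMap.ext fun r => ?_
  rw [← DirectSum.sum_support_decompose 𝒜 r, map_sum, map_sum]
  exact Finset.sum_congr rfl fun k _ => h k _ (SetLike.coe_mem _)

/-- the Euler derivation as the value of a partial derivative. -/
theorem mm_evL_pd_one (hφ : IsCurve 𝒜 d φ) (r : R) :
    evL ![0, 1] (pd φ 1) r = d * pt φ ![0, 1] (euler 𝒜 r) := by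
  have h : (evL ![0, 1] (pd φ 1) : R →ₗ[ℂ] κ) =
      (d : ℂ) • ((pt φ ![0, 1]).toLinearMap ∘ₗ euler 𝒜) := by
    refine mm_ext (𝒜 := 𝒜) fun k r hr => ?_
    have h1 := congrArg (eval ![(0 : κ), 1]) (hφ.degree k r hr).sum_X_mul_pderiv
    rw [Fin.sum_univ_two] at h1
    simp only [map_add, map_mul, eval_X, Matrix.cons_val_zero, Matrix.cons_val_one, zero_mul,
      one_mul, zero_add, nsmul_eq_mul, map_natCast] at h1
    rw [evL_apply, pd_apply, h1]
    change _ = (d : ℂ) • (pt φ ![0, 1]) (euler 𝒜 r)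
    rw [euler_apply k r hr, map_smul, pt_apply, Algebra.smul_def, Algebra.smul_def,
      map_natCast, map_natCast]
    push_cast
    ring
  rw [h]
  change (d : ℂ) • (pt φ ![0, 1]) (euler 𝒜 r) = _
  rw [Algebra.smul_def, map_natCast]

theorem mm_evL_pd_zero (hφ : IsCurve 𝒜 d φ) (r : R) :
    evL ![1, 0] (pd φ 0) r = d * pt φ ![1, 0] (euler 𝒜 r) := by
  have h : (evL ![1, 0] (pd φ 0) : R →ₗ[ℂ] κ) =
      (d : ℂ) • ((pt φ ![1, 0]).toLinearMap ∘ₗ euler 𝒜) := by
    refine mm_ext (𝒜 := 𝒜) fun k r hr => ?_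
    have h1 := congrArg (eval ![(1 : κ), 0]) (hφ.degree k r hr).sum_X_mul_pderiv
    rw [Fin.sum_univ_two] at h1
    simp only [map_add, map_mul, eval_X, Matrix.cons_val_zero, Matrix.cons_val_one, zero_mul,
      one_mul, add_zero, nsmul_eq_mul, map_natCast] at h1
    rw [evL_apply, pd_apply, h1]
    change _ = (d : ℂ) • (pt φ ![1, 0]) (euler 𝒜 r)
    rw [euler_apply k r hr, map_smul, pt_apply, Algebra.smul_def, Algebra.smul_def,
      map_natCast, map_natCast]
    push_cast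
    ring
  rw [h]
  change (d : ℂ) • (pt φ ![1, 0]) (euler 𝒜 r) = _
  rw [Algebra.smul_def, map_natCast]

/-- evaluation of the coefficientwise derivation at a point with constant coordinates. -/
theorem mm_eval_mapD (D : Derivation ℂ κ κ) (a : Fin 2 → κ) (ha : ∀ i, D (a i) = 0)
    (p : MvPolynomial (Fin 2) κ) : eval a (mapD D p) = D (eval a p) := by
  induction p using MvPolynomial.induction_on' with
  | monomial m c =>
    have h1 : mapD D (monomial m c) = monomial m (D c) := by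
      ext n
      rw [coeff_mapD, coeff_monomial, coeff_monomial]
      split_ifs <;> simp
    have h2 : D (m.prod fun i k => a i ^ k) = 0 := by
      rw [Finsupp.prod_fintype _ _ (fun i => pow_zero _), Fin.prod_univ_two, Derivation.leibniz,
        Derivation.leibniz_pow, Derivation.leibniz_pow, ha, ha]
      simp
    rw [h1, eval_monomial, eval_monomial, Derivation.leibniz, h2, smul_zero, zero_add, smul_eq_mul,
      mul_comm]
  | add p q hp hq => rw [map_add, map_add, map_add, map_add, hp, hq]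

theorem mm_evL_mapD (D : Derivation ℂ κ κ) (a : Fin 2 → κ) (ha : ∀ i, D (a i) = 0) :
    evL a ((mapD D : Derivation ℂ _ _).toLinearMap ∘ₗ φ.toLinearMap) = alongAt (pt φ a) D := by
  refine LinearMap.ext fun r => ?_
  rw [evL_apply, alongAt_apply, pt_apply]
  exact mm_eval_mapD D a ha (φ r)

theorem mm_D_one_zero (D : Derivation ℂ κ κ) (i : Fin 2) : D ((![1, 0] : Fin 2 → κ) i) = 0 := by
  fin_cases i <;> simp

theorem mm_D_zero_one (D : Derivation ℂ κ κ) (i : Fin 2) : D ((![0, 1] : Fin 2 → κ) i) = 0 := by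
  fin_cases i <;> simp

theorem mm_isDer_evL {e : ℤ} {δ : R →ₗ[ℂ] MvPolynomial (Fin 2) κ} (h : IsHDer 𝒜 d φ e δ)
    (a : Fin 2 → κ) : IsDer (pt φ a) (evL a δ) := fun r s => by
  rw [evL_apply, evL_apply, evL_apply, h.der r s, map_add, map_mul, map_mul, pt_apply, pt_apply]

theorem mm_IsHDer_sub {e : ℤ} {δ δ' : R →ₗ[ℂ] MvPolynomial (Fin 2) κ} (h : IsHDer 𝒜 d φ e δ)
    (h' : IsHDer 𝒜 d φ e δ') : IsHDer 𝒜 d φ e (δ - δ') where
  der r s := by
    rw [LinearMap.sub_apply, LinearMap.sub_apply, LinearMap.sub_apply, h.der r s, h'.der r s]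
    ring
  homog k r hr m hm := by
    rw [LinearMap.sub_apply]
    exact (h.homog k r hr m hm).sub (h'.homog k r hr m hm)
  neg k hk r hr := by
    rw [LinearMap.sub_apply, h.neg k hk r hr, h'.neg k hk r hr, sub_zero]

/-- the infinitesimal reparametrisations of the curve. -/
theorem mm_isHDer_mul_pd (hφ : IsCurve 𝒜 d φ) (c : κ) (i j : Fin 2) :
    IsHDer 𝒜 d φ 0 ((LinearMap.mulLeft ℂ (C c * X j : MvPolynomial (Fin 2) κ)) ∘ₗ pd φ i) where
  der r s := by
    have h := (isHDer_pd hφ i).der r s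
    change (C c * X j) * pd φ i (r * s) = φ r * ((C c * X j) * pd φ i s) +
      φ s * ((C c * X j) * pd φ i r)
    rw [h]
    ring
  homog k r hr m hm := by
    change ((C c * X j) * pd φ i r).IsHomogeneous m
    rcases Nat.eq_zero_or_pos (d * k) with h0 | h0
    · have h1 : pd φ i r = 0 := (isHDer_pd hφ i).neg k (by
        have : ((d * k : ℕ) : ℤ) = d * k := by push_cast; ring
        omega) r hr
      rw [h1, mul_zero]
      exact isHomogeneous_zero _ _ _
    · have h1 := (isHDer_pd hφ i).homog k r hr (d * k - 1) (by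
        have : ((d * k : ℕ) : ℤ) = d * k := by push_cast; ring
        omega)
      have h2 := ((isHomogeneous_C (Fin 2) c).mul (isHomogeneous_X κ j)).mul h1
      have h3 : 0 + 1 + (d * k - 1) = m := by
        have : ((d * k : ℕ) : ℤ) = d * k := by push_cast; ring
        omega
      rwa [h3] at h2
  neg k hk r hr := by
    have : ((d * k : ℕ) : ℤ) = d * k := by push_cast; ring
    omega

variable [IsAlgClosed κ]

/-- a point of a curve is not the vertex. -/
theorem mm_isNV_pt (hφ : IsCurve 𝒜 d φ) {a : Fin 2 → κ} (ha : a ≠ 0) : IsNV 𝒜 (pt φ a) := by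
  obtain ⟨k, hk, r, hr, h⟩ := hφ.bpf a ha
  exact ⟨k, hk, r, hr, by rwa [pt_apply, ← coe_aeval_eq_eval]⟩

theorem mm_one_zero_ne : (![1, 0] : Fin 2 → κ) ≠ 0 := fun h => one_ne_zero (congrFun h 0)

theorem mm_zero_one_ne : (![0, 1] : Fin 2 → κ) ≠ 0 := fun h => one_ne_zero (congrFun h 1)

/-- **No 2-chain.** Two lines with a common point, one through a generic point, the other one
through a point independent of it (up to scaling). -/
theorem no_two_chain (hX : IsContactFano 𝒜 P) {ψ₁ ψ₂ : R →ₐ[ℂ] MvPolynomial (Fin 2) κ}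
    (h₁ : IsCurve 𝒜 1 ψ₁) (h₂ : IsCurve 𝒜 1 ψ₂) (hν : pt ψ₁ ![0, 1] = pt ψ₂ ![0, 1])
    (hgen : ∀ δ, IsDer (pt ψ₁ ![1, 0]) δ → ∃ D : Derivation ℂ κ κ,
      (∀ r, D (pt ψ₁ ![1, 0] r) = δ r) ∧
      ∃ c : κ, ∀ r, D (pt ψ₂ ![1, 0] r) = c * pt ψ₂ ![1, 0] (euler 𝒜 r)) : False := by
  have h10 : (![1, 0] : Fin 2 → κ) ≠ 0 := mm_one_zero_ne
  have h01 : (![0, 1] : Fin 2 → κ) ≠ 0 := mm_zero_one_ne
  have hnu := mm_isNV_pt h₁ h01
  have hw := mm_isNV_pt h₁ h10
  -- the tangent direction of the first line at the node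
  have hpd1 : evL ![0, 1] (pd ψ₁ 1) = evL ![0, 1] (pd ψ₂ 1) := by
    refine LinearMap.ext fun r => ?_
    rw [mm_evL_pd_one h₁, mm_evL_pd_one h₂, hν]
  have key1 : ∀ D : Derivation ℂ κ κ,
      (∃ c : κ, ∀ r, D (pt ψ₂ ![1, 0] r) = c * pt ψ₂ ![1, 0] (euler 𝒜 r)) →
      om P (pt ψ₂ ![0, 1]) (alongAt (pt ψ₂ ![0, 1]) D) (evL ![0, 1] (pd ψ₂ 1)) = 0 := by
    rintro D ⟨c, hc⟩
    -- the corrected derivation
    have hδ := mm_IsHDer_sub (isHDer_mapD h₂ D) (mm_isHDer_mul_pd h₂ c 0 0)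
    set δ : R →ₗ[ℂ] MvPolynomial (Fin 2) κ := (mapD D : Derivation ℂ _ _).toLinearMap ∘ₗ
      ψ₂.toLinearMap - (LinearMap.mulLeft ℂ (C c * X 0 : MvPolynomial (Fin 2) κ)) ∘ₗ pd ψ₂ 0
      with hδdef
    have hδr : ∀ r, δ r = mapD D (ψ₂ r) - C c * X 0 * pderiv 0 (ψ₂ r) := fun r => rfl
    have h0 : ∀ r, eval ![1, 0] (δ r) = 0 := by
      intro r
      have h1 := mm_evL_pd_zero h₂ r
      rw [evL_apply, pd_apply] at h1
      rw [hδr, map_sub, mm_eval_mapD D _ (mm_D_one_zero D), map_mul, map_mul, eval_C, eval_X, h1]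
      have h2 := hc r
      rw [pt_apply] at h2
      rw [h2]
      simp
    obtain ⟨δ', hδ', hmul⟩ := exists_div_X_one h₂ hδ h0
    have h3 := omC_eval hX h₂ hδ' (isHDer_pd h₂ 1) ![0, 1] h01
    rw [omC_eq_zero hX h₂ hδ' (isHDer_pd h₂ 1) (by norm_num), map_zero] at h3
    have h4 : evL ![0, 1] δ' = alongAt (pt ψ₂ ![0, 1]) D := by
      refine LinearMap.ext fun r => ?_
      have h5 := congrArg (eval ![(0 : κ), 1]) (hmul r)
      rw [hδr, map_sub, mm_eval_mapD D _ (mm_D_zero_one D)] at h5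
      simp only [map_mul, eval_X, Matrix.cons_val_zero, Matrix.cons_val_one, mul_zero, zero_mul,
        sub_zero, one_mul] at h5
      rw [evL_apply, alongAt_apply, pt_apply, ← h5]
    rw [← h4]
    exact h3
  -- the pairing on the first line
  have key2 : ∀ δ, IsDer (pt ψ₁ ![1, 0]) δ →
      om P (pt ψ₁ ![1, 0]) δ (evL ![1, 0] (pd ψ₁ 1)) = 0 := by
    intro δ hδ
    obtain ⟨D, hD, hc⟩ := hgen δ hδ
    have h1 := key1 D hc
    rw [← hν, ← hpd1] at h1
    have h2 := omC_homog hX h₁ (isHDer_mapD h₁ D) (isHDer_pd h₁ 1) (m := 0) (by norm_num)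
    have h3 := totalDegree_eq_zero_iff_eq_C.1 (Nat.le_zero.1 h2.totalDegree_le)
    have h4 := omC_eval hX h₁ (isHDer_mapD h₁ D) (isHDer_pd h₁ 1) ![0, 1] h01
    have h5 := omC_eval hX h₁ (isHDer_mapD h₁ D) (isHDer_pd h₁ 1) ![1, 0] h10
    rw [h3, eval_C, mm_evL_mapD D _ (mm_D_zero_one D), h1] at h4
    rw [h3, eval_C, mm_evL_mapD D _ (mm_D_one_zero D), ← h4] at h5
    have h6 : alongAt (pt ψ₁ ![1, 0]) D = δ := LinearMap.ext hD
    rwa [h6] at h5
  have key3 : evL ![1, 0] (pd ψ₁ 1) = 0 :=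
    eq_zero_of_om' hX hw (mm_isDer_evL (isHDer_pd h₁ 1) ![1, 0]) key2
  -- the partial derivative is divisible by every power of the second variable
  have key4 : ∀ n : ℕ, ∃ δ : R →ₗ[ℂ] MvPolynomial (Fin 2) κ, IsHDer 𝒜 1 ψ₁ (-1 - n) δ ∧
      (∀ r, eval ![1, 0] (δ r) = 0) ∧ ∀ r, pd ψ₁ 1 r = X 1 ^ n * δ r := by
    intro n
    induction n with
    | zero =>
      refine ⟨pd ψ₁ 1, by simpa using isHDer_pd h₁ 1, fun r => ?_, fun r => by simp⟩
      rw [← evL_apply, key3]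
      rfl
    | succ n ih =>
      obtain ⟨δ, hδ, h0, hm⟩ := ih
      obtain ⟨δ', hδ', hm'⟩ := exists_div_X_one h₁ hδ h0
      refine ⟨δ', ?_, fun r => ?_, fun r => ?_⟩
      · have e : (-1 - (n : ℤ)) - 1 = -1 - ((n + 1 : ℕ) : ℤ) := by push_cast; ring
        rwa [e] at hδ'
      · have h2 : evL ![1, 0] δ' = 0 := by
          refine eq_zero_of_om' hX hw (mm_isDer_evL hδ' ![1, 0]) fun η hη => ?_
          obtain ⟨D, hD, -⟩ := hgen η hη
          have h5 := omC_eval hX h₁ (isHDer_mapD h₁ D) hδ' ![1, 0] h10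
          rw [omC_eq_zero hX h₁ (isHDer_mapD h₁ D) hδ' (by push_cast; linarith), map_zero,
            mm_evL_mapD D _ (mm_D_one_zero D)] at h5
          have h6 : alongAt (pt ψ₁ ![1, 0]) D = η := LinearMap.ext hD
          rwa [h6] at h5
        rw [← evL_apply, h2]
        rfl
      · rw [hm, hm', pow_succ, mul_assoc]
  obtain ⟨k, hk, r, hr, hne⟩ := h₁.bpf ![0, 1] h01
  obtain ⟨δ, hδ, -, hm⟩ := key4 k
  have h7 : pd ψ₁ 1 r = 0 := by
    rw [hm, hδ.neg k (by push_cast; linarith) r hr, mul_zero]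
  have h8 := mm_evL_pd_one h₁ r
  rw [evL_apply, h7, map_zero, euler_apply k r hr, map_smul, pt_apply, Algebra.smul_def] at h8
  rw [aeval_eq_eval] at hne
  have h9 : (algebraMap ℂ κ (k : ℂ)) ≠ 0 := by
    rw [Ne, map_eq_zero_iff _ (algebraMap ℂ κ).injective]
    exact_mod_cast hk.ne'
  exact (mul_ne_zero (by simp) (mul_ne_zero h9 hne)) h8.symm

end Vale.Agent.P292
end

section

/-! # The ray through a closed point does not have codimension one. -/

namespace Vale.Agent.P292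

open Matrix

universe u v

variable {R : Type u} [CommRing R] [Algebra ℂ R] {𝒜 : ℕ → Submodule ℂ R} [GradedAlgebra 𝒜]
  {P : R →ₗ[ℂ] R →ₗ[ℂ] R}

omit [GradedAlgebra 𝒜] in
/-- The dimension of the cone is at most the number of elements of a frame. -/
theorem cdim_le_of_isFrame [IsDomain R] {N : ℕ} {x : Fin N → R} {g : R} {h : R → Fin N → R}
    (hF : IsFrame 𝒜 x g h) (hg : g ≠ 0) : cdim R ≤ N := by
  let K := FractionRing R
  let y : R →ₐ[ℂ] K := IsScalarTower.toAlgHom ℂ R K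
  have hy : ∀ r, y r = algebraMap R K r := fun r => rfl
  let f : DerAt y →ₗ[K] (Fin N → K) :=
    { toFun := fun δ i => (δ : R →ₗ[ℂ] K) (x i)
      map_add' := fun a b => by ext i; rfl
      map_smul' := fun c a => by ext i; rfl }
  have hf : Function.Injective f := by
    intro δ δ' hδ
    have hδ' : ∀ i, (δ : R →ₗ[ℂ] K) (x i) = (δ' : R →ₗ[ℂ] K) (x i) := fun i => congrFun hδ i
    have mk : ∀ ε : DerAt y, ∃ D : Derivation ℂ R K, ∀ r, D r = (ε : R →ₗ[ℂ] K) r := fun ε =>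
      ⟨Derivation.mk' (ε : R →ₗ[ℂ] K) (fun a b => by
        rw [(ε.2 : IsDer y _) a b, Algebra.smul_def, Algebra.smul_def, hy, hy]), fun r => rfl⟩
    obtain ⟨D, hD⟩ := mk δ
    obtain ⟨D', hD'⟩ := mk δ'
    apply Subtype.ext
    ext r
    have h1 := hF.smul_derivation D r
    have h2 := hF.smul_derivation D' r
    have h3 : g • D r = g • D' r := by
      rw [h1, h2]
      refine Finset.sum_congr rfl fun i _ => ?_
      rw [hD, hD', hδ']
    rw [Algebra.smul_def, Algebra.smul_def] at h3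
    have h4 := mul_left_cancel₀ (fun h0 => hg (IsFractionRing.injective R K (by
      rw [h0, map_zero]))) h3
    rw [← hD, ← hD', h4]
  have h1 := LinearMap.finrank_le_finrank_of_injective hf
  rw [Module.finrank_fin_fun] at h1
  exact h1

/-- A height one prime is stable under brackets. -/
theorem P_mem_of_dvr [IsDomain R] (hX : IsContactFano 𝒜 P) (p : Ideal R) [p.IsPrime]
    (hdvr : IsDiscreteValuationRing (Localization.AtPrime p)) {a b : R} (ha : a ∈ p)
    (hb : b ∈ p) : P a b ∈ p := by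
  let L := Localization.AtPrime p
  obtain ⟨ϖ, hϖ⟩ := IsDiscreteValuationRing.exists_irreducible L
  have hmax := (IsDiscreteValuationRing.irreducible_iff_uniformizer ϖ).mp hϖ
  obtain ⟨⟨π, s⟩, hπ⟩ := IsLocalization.surj p.primeCompl ϖ
  have hinj : Function.Injective (algebraMap R L) :=
    IsLocalization.injective L (Ideal.primeCompl_le_nonZeroDivisors p)
  have hπp : π ∈ p := by
    have h1 : algebraMap R L π ∈ IsLocalRing.maximalIdeal L := by
      rw [← hπ]
      refine Ideal.mul_mem_right _ _ ?_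
      rw [hmax]
      exact Ideal.mem_span_singleton_self _
    have h2 := IsLocalization.AtPrime.to_map_mem_maximal_iff L p π
    exact h2.mp h1
  have key : ∀ c ∈ p, ∃ v u, v ∉ p ∧ v * c = π * u := by
    intro c hc
    have h1 : algebraMap R L c ∈ IsLocalRing.maximalIdeal L :=
      (IsLocalization.AtPrime.to_map_mem_maximal_iff L p c).mpr hc
    rw [hmax, Ideal.mem_span_singleton'] at h1
    obtain ⟨z, hz⟩ := h1
    obtain ⟨⟨u, t⟩, hu⟩ := IsLocalization.surj p.primeCompl z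
    refine ⟨s * t, u, ?_, ?_⟩
    · intro h2
      rcases (inferInstance : p.IsPrime).mem_or_mem h2 with h3 | h3
      · exact s.2 h3
      · exact t.2 h3
    · apply hinj
      rw [map_mul, map_mul, map_mul, ← hz, ← hu, ← hπ]
      ring
  obtain ⟨v, u, hv, hvu⟩ := key a ha
  obtain ⟨v', u', hv', hvu'⟩ := key b hb
  have e1 : P (v * a) (v' * b) ∈ p := by
    rw [hvu, hvu', hX.leibniz]
    refine Ideal.add_mem _ ?_ (Ideal.mul_mem_right _ _ hπp)
    refine Ideal.mul_mem_right _ _ ?_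
    rw [hX.skew, hX.leibniz, hX.alternating, zero_mul, zero_add]
    exact p.neg_mem (Ideal.mul_mem_right _ _ hπp)
  have e2 : P (v * a) (v' * b) = v * v' * P a b
      + (a * (P v (v' * b)) + b * (v * P a v')) := by
    have h1 : P (v * a) (v' * b) = v * P a (v' * b) + a * P v (v' * b) := by
      rw [hX.skew, hX.leibniz, hX.skew (v' * b) v, hX.skew (v' * b) a]
      ring
    rw [h1, hX.leibniz a v' b]
    ring
  rw [e2] at e1
  have e3 : v * v' * P a b ∈ p := by
    have h1 : a * (P v (v' * b)) + b * (v * P a v') ∈ p :=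
      p.add_mem (Ideal.mul_mem_right _ _ ha) (Ideal.mul_mem_right _ _ hb)
    exact (Ideal.add_mem_iff_left p h1).mp e1
  rcases (inferInstance : p.IsPrime).mem_or_mem e3 with h3 | h3
  · rcases (inferInstance : p.IsPrime).mem_or_mem h3 with h4 | h4
    · exact absurd h4 hv
    · exact absurd h4 hv'
  · exact h3

omit [Algebra ℂ R] in
/-- A prime contained in a height one prime. -/
theorem eq_bot_or_eq_of_dvr [IsDomain R] (p : Ideal R) [p.IsPrime]
    (hdvr : IsDiscreteValuationRing (Localization.AtPrime p)) (q : Ideal R) [hq : q.IsPrime]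
    (hqp : q ≤ p) : q = ⊥ ∨ q = p := by
  let L := Localization.AtPrime p
  have hdisj : Disjoint (p.primeCompl : Set R) q := by
    rw [Set.disjoint_left]
    intro a ha ha'
    exact ha (hqp ha')
  have hprime : (q.map (algebraMap R L)).IsPrime :=
    IsLocalization.isPrime_of_isPrime_disjoint p.primeCompl L q hq hdisj
  have hcomap : (q.map (algebraMap R L)).comap (algebraMap R L) = q :=
    IsLocalization.under_map_of_isPrime_disjoint p.primeCompl L hq hdisj
  by_cases h0 : q.map (algebraMap R L) = ⊥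
  · left
    rw [eq_bot_iff]
    intro a ha
    have h1 : algebraMap R L a ∈ q.map (algebraMap R L) := Ideal.mem_map_of_mem _ ha
    rw [h0, Ideal.mem_bot] at h1
    rw [Ideal.mem_bot]
    exact (IsLocalization.injective L (Ideal.primeCompl_le_nonZeroDivisors p))
      (by rw [h1, map_zero])
  · right
    have hmax : (q.map (algebraMap R L)).IsMaximal := hprime.isMaximal h0
    have h1 : q.map (algebraMap R L) = IsLocalRing.maximalIdeal L :=
      IsLocalRing.eq_maximalIdeal hmax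
    rw [← hcomap, h1]
    exact IsLocalization.AtPrime.under_maximalIdeal L p

/-- The ray through a closed point does not have codimension one. -/
theorem not_le_of_dvr [IsDomain R] (hX : IsContactFano 𝒜 P) (hdim : 3 ≤ cdim R)
    (w : R →ₐ[ℂ] ℂ) (hw : ¬ IsVertex 𝒜 w) (p : Ideal R) [p.IsPrime]
    (hdvr : IsDiscreteValuationRing (Localization.AtPrime p))
    (h : ∀ k, ∀ r ∈ 𝒜 k, w r = 0 → r ∈ p) : False := by
  classical
  -- brackets of homogeneous elements vanishing at `w`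
  have hkerp : (RingHom.ker w).IsPrime := RingHom.ker_isPrime _
  set q : Ideal R := ((RingHom.ker w).homogeneousCore 𝒜).toIdeal with hqdef
  have hqprime : q.IsPrime := hkerp.homogeneousCore
  have hqker : q ≤ RingHom.ker w := Ideal.toIdeal_homogeneousCore_le 𝒜 _
  have hqmem : ∀ k, ∀ r ∈ 𝒜 k, w r = 0 → r ∈ q := fun k r hr hwr =>
    Ideal.mem_homogeneousCore_of_homogeneous_of_mem ⟨k, hr⟩ hwr
  have hqp : q ≤ p := by
    rw [hqdef]
    change Ideal.span _ ≤ p
    rw [Ideal.span_le]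
    rintro r ⟨⟨r', k, hk⟩, hr', rfl⟩
    exact h k r' hk hr'
  have hbr : ∀ a b, (∃ k, a ∈ 𝒜 k) → (∃ k, b ∈ 𝒜 k) → w a = 0 → w b = 0 → w (P a b) = 0 := by
    rintro a b ⟨k, ha⟩ ⟨l, hb⟩ hwa hwb
    have ha' := hqmem k a ha hwa
    have hb' := hqmem l b hb hwb
    rcases eq_bot_or_eq_of_dvr p hdvr q hqp with h0 | h0
    · rw [h0, Ideal.mem_bot] at ha'
      rw [ha', map_zero, LinearMap.zero_apply, map_zero]
    · have h1 : P a b ∈ p := P_mem_of_dvr hX p hdvr (hqp ha') (hqp hb')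
      rw [← h0] at h1
      exact hqker h1
  -- the frame
  obtain ⟨N, x, g, c₀, hF, hdet⟩ := exists_frame hX hw
  rw [map_mul] at hdet
  have hg : g ≠ 0 := by
    rintro rfl
    rw [map_zero, zero_mul] at hdet
    exact hdet rfl
  have hN : 3 ≤ N := hdim.trans (cdim_le_of_isFrame hF hg)
  have hdet' : w (brMat P x).det ≠ 0 := right_ne_zero_of_mul hdet
  -- a homogeneous element which does not vanish
  unfold IsVertex at hw
  push Not at hw
  obtain ⟨k₀, hk₀, t, ht, hwt⟩ := hw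
  have hPpow : ∀ (a v : R) (n : ℕ), P (a ^ n) v = n * a ^ (n - 1) * P a v :=
    fun a v n => hX.P_pow_left a v n
  have hdec : ∀ i, ∃ (y : R) (s c : ℂ), (∃ k, y ∈ 𝒜 k) ∧ w y = 0 ∧
      ∀ v, w (P (x i) v) = s * w (P y v) + c * w (P t v) := by
    intro i
    obtain ⟨d, hd⟩ := hF.homogeneous i
    by_cases ha : w (x i) = 0
    · exact ⟨x i, 1, 0, ⟨d, hd⟩, ha, fun v => by ring⟩
    · set a := w (x i) with hadef
      set b := w t with hbdef
      refine ⟨algebraMap ℂ R (b ^ d) * x i ^ k₀ - algebraMap ℂ R (a ^ k₀) * t ^ d,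
        (b ^ d * k₀ * a ^ (k₀ - 1))⁻¹, (b ^ d * k₀ * a ^ (k₀ - 1))⁻¹ * (a ^ k₀ * d * b ^ (d - 1)),
        ⟨d * k₀, ?_⟩, ?_, fun v => ?_⟩
      · refine sub_mem ?_ ?_
        · rw [← Algebra.smul_def]
          refine Submodule.smul_mem _ _ ?_
          have := SetLike.pow_mem_graded k₀ hd
          rwa [smul_eq_mul, mul_comm] at this
        · rw [← Algebra.smul_def]
          refine Submodule.smul_mem _ _ ?_
          have := SetLike.pow_mem_graded d ht
          rwa [smul_eq_mul] at this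
      · simp only [map_sub, map_mul, map_pow, AlgHom.commutes]
        rw [← hadef, ← hbdef]
        simp only [Algebra.algebraMap_self, RingHom.id_apply]
        ring
      · have hk' : (k₀ : ℂ) ≠ 0 := by exact_mod_cast hk₀.ne'
        have hcoef : b ^ d * k₀ * a ^ (k₀ - 1) ≠ 0 :=
          mul_ne_zero (mul_ne_zero (pow_ne_zero _ hwt) hk') (pow_ne_zero _ ha)
        have h1 : w (P (algebraMap ℂ R (b ^ d) * x i ^ k₀ - algebraMap ℂ R (a ^ k₀) * t ^ d) v)
            = b ^ d * k₀ * a ^ (k₀ - 1) * w (P (x i) v)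
              - a ^ k₀ * d * b ^ (d - 1) * w (P t v) := by
          rw [← Algebra.smul_def, ← Algebra.smul_def, map_sub, map_smul, map_smul,
            LinearMap.sub_apply, LinearMap.smul_apply, LinearMap.smul_apply, map_sub, map_smul,
            map_smul, hPpow, hPpow]
          simp only [map_mul, map_pow, map_natCast, smul_eq_mul]
          rw [← hadef, ← hbdef]
          ring
        rw [h1]
        field_simp
        ring
  choose y s c hyh hy0 hdec using hdec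
  -- the matrix has rank at most two
  let M : Matrix (Fin N) (Fin N) ℂ := Matrix.of fun i j => w (P (x i) (x j))
  have hM : M = vecMulVec (fun i => - s i * w (P t (y i))) c
      + vecMulVec c (fun j => w (P t (x j))) := by
    ext i j
    rw [Matrix.add_apply, vecMulVec_apply, vecMulVec_apply]
    change w (P (x i) (x j)) = _
    rw [hdec i (x j), hX.skew (y i) (x j), map_neg, hdec j (y i),
      hbr (y j) (y i) (hyh j) (hyh i) (hy0 j) (hy0 i)]
    ring
  have hMdet : M.det ≠ 0 := by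
    have : M = (w : R →+* ℂ).mapMatrix (brMat P x) := by
      ext i j; rfl
    rw [this, ← RingHom.map_det]
    exact hdet'
  obtain ⟨z, hz0, hz⟩ : ∃ z : Fin N → ℂ, z ≠ 0 ∧
      (Matrix.of ![c, fun j => w (P t (x j))]).mulVec z = 0 := by
    have h1 : LinearMap.ker (Matrix.of ![c, fun j => w (P t (x j))]).mulVecLin ≠ ⊥ :=
      LinearMap.ker_ne_bot_of_finrank_lt (by simp; omega)
    obtain ⟨z, hz, hz0⟩ := Submodule.exists_mem_ne_zero_of_ne_bot h1
    exact ⟨z, hz0, hz⟩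
  have hz1 : c ⬝ᵥ z = 0 := congrFun hz 0
  have hz2 : (fun j => w (P t (x j))) ⬝ᵥ z = 0 := congrFun hz 1
  apply hz0
  refine Matrix.eq_zero_of_mulVec_eq_zero hMdet ?_
  rw [hM, Matrix.add_mulVec]
  ext i
  rw [Pi.add_apply, vecMulVec_mulVec, vecMulVec_mulVec, hz1, hz2]
  simp

end Vale.Agent.P292
end

section

/-! # Freeness: derivations of degree `≤ -2` along a conic with a generic end point vanish. -/

namespace Vale.Agent.P292

open MvPolynomial TensorProduct

universe u v w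

variable {R : Type u} [CommRing R] [Algebra ℂ R] {𝒜 : ℕ → Submodule ℂ R}
  {P : R →ₗ[ℂ] R →ₗ[ℂ] R}

theorem v3_vec10_ne {κ : Type v} [Field κ] : (![1, 0] : Fin 2 → κ) ≠ 0 := fun h => by
  have := congrFun h 0
  simp at this

theorem v3_vec01_ne {κ : Type v} [Field κ] : (![0, 1] : Fin 2 → κ) ≠ 0 := fun h => by
  have := congrFun h 1
  simp at this

theorem v3_isNV {κ : Type v} [Field κ] [Algebra ℂ κ] {d : ℕ}
    {φ : R →ₐ[ℂ] MvPolynomial (Fin 2) κ} (hφ : IsCurve 𝒜 d φ) {a : Fin 2 → κ} (ha : a ≠ 0) :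
    IsNV 𝒜 (pt φ a) := by
  obtain ⟨k, hk, r, hr, h⟩ := hφ.bpf a ha
  exact ⟨k, hk, r, hr, h⟩

theorem v3_isDer_evL {κ : Type v} [Field κ] [Algebra ℂ κ]
    {φ : R →ₐ[ℂ] MvPolynomial (Fin 2) κ} {δ : R →ₗ[ℂ] MvPolynomial (Fin 2) κ}
    (hδ : IsDer φ δ) (a : Fin 2 → κ) : IsDer (pt φ a) (evL a δ) := fun r s => by
  rw [evL_apply, evL_apply, evL_apply, hδ r s, map_add, map_mul, map_mul, pt_apply, pt_apply]

theorem v3_eval_mapD {κ : Type v} [Field κ] [Algebra ℂ κ] (D : Derivation ℂ κ κ) {a : Fin 2 → κ}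
    (ha : ∀ i, D (a i) = 0) (p : MvPolynomial (Fin 2) κ) : eval a (mapD D p) = D (eval a p) := by
  have hC : ∀ c : κ, mapD D (C c : MvPolynomial (Fin 2) κ) = C (D c) := fun c => by
    classical
    ext m
    rw [coeff_mapD, coeff_C, coeff_C]
    split_ifs <;> simp
  have hXi : ∀ i, mapD D (X i : MvPolynomial (Fin 2) κ) = 0 := fun i => by
    classical
    ext m
    rw [coeff_mapD, coeff_X, coeff_zero]
    split_ifs
    · exact D.map_one_eq_zero
    · exact D.map_zero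
  induction p using MvPolynomial.induction_on with
  | C c => rw [hC, eval_C, eval_C]
  | add p q hp hq => rw [map_add, map_add, hp, hq, map_add, map_add]
  | mul_X p i hp =>
    rw [Derivation.leibniz, hXi, smul_zero, zero_add, smul_eq_mul, map_mul, hp, map_mul,
      eval_X, Derivation.leibniz, ha, smul_zero, zero_add, smul_eq_mul]

theorem v3_evL_mapD {κ : Type v} [Field κ] [Algebra ℂ κ] {φ : R →ₐ[ℂ] MvPolynomial (Fin 2) κ}
    {D : Derivation ℂ κ κ} (a : Fin 2 → κ) (ha : ∀ i, D (a i) = 0) :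
    evL a ((mapD D : Derivation ℂ _ _).toLinearMap ∘ₗ φ.toLinearMap) = alongAt (pt φ a) D := by
  refine LinearMap.ext fun r => ?_
  rw [evL_apply, alongAt_apply, pt_apply]
  exact v3_eval_mapD D ha (φ r)

variable {Ω : Type v} [Field Ω] [Algebra ℂ Ω] {w : R →ₐ[ℂ] ℂ}
  {φ : R →ₐ[ℂ] MvPolynomial (Fin 2) Ω}

/-- Derivations at the generic end point extend to derivations of the field. -/
theorem GenConicAt.gen (hφ : GenConicAt 𝒜 w φ) (δ : R →ₗ[ℂ] Ω) (hδ : IsDer (pt φ ![0, 1]) δ) :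
    ∃ D : Derivation ℂ Ω Ω, (∀ r, D (pt φ ![1, 0] r) = 0) ∧ ∀ r, D (pt φ ![0, 1] r) = δ r := by
  obtain ⟨D, hD⟩ := exists_derivation_of_isDer hφ.inj hδ
  refine ⟨D, fun r => ?_, fun r => ?_⟩
  · rw [hφ.left, D.map_algebraMap]
  · rw [← hD, alongAt_apply]

variable [GradedAlgebra 𝒜]

/-- A derivation at the generic end point which pairs to zero with everything vanishes. -/
theorem eq_zero_of_om_gen (hX : IsContactFano 𝒜 P) (hcur : IsCurve 𝒜 2 φ)
    (hgen : ∀ δ : R →ₗ[ℂ] Ω, IsDer (pt φ ![0, 1]) δ → ∃ D : Derivation ℂ Ω Ω,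
      (∀ r, D (pt φ ![1, 0] r) = 0) ∧ ∀ r, D (pt φ ![0, 1] r) = δ r)
    {δ : R →ₗ[ℂ] Ω} (hδ : IsDer (pt φ ![0, 1]) δ)
    (h : ∀ D : Derivation ℂ Ω Ω, (∀ r, D (pt φ ![1, 0] r) = 0) →
      om P (pt φ ![0, 1]) δ (alongAt (pt φ ![0, 1]) D) = 0) : δ = 0 := by
  refine eq_zero_of_om hX (v3_isNV hcur v3_vec01_ne) hδ fun δ' hδ' => ?_
  obtain ⟨D, hD0, hD⟩ := hgen δ' hδ'
  have : δ' = alongAt (pt φ ![0, 1]) D := LinearMap.ext fun r => (hD r).symm
  rw [this]
  exact h D hD0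

variable [IsAlgClosed Ω]

/-- Derivations of degree `≤ -2` along the conic vanish. -/
theorem core_gen (hX : IsContactFano 𝒜 P) (hcur : IsCurve 𝒜 2 φ)
    (hgen : ∀ δ : R →ₗ[ℂ] Ω, IsDer (pt φ ![0, 1]) δ → ∃ D : Derivation ℂ Ω Ω,
      (∀ r, D (pt φ ![1, 0] r) = 0) ∧ ∀ r, D (pt φ ![0, 1] r) = δ r)
    {e : ℤ} {δ : R →ₗ[ℂ] MvPolynomial (Fin 2) Ω} (hδ : IsHDer 𝒜 2 φ e δ) (he : e ≤ -2) :
    δ = 0 := by
  -- step 1: vanishing at `(0, 1)`
  have step : ∀ (e : ℤ) (δ : R →ₗ[ℂ] MvPolynomial (Fin 2) Ω), IsHDer 𝒜 2 φ e δ → e ≤ -2 →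
      ∀ r, eval ![0, 1] (δ r) = 0 := by
    intro e δ hδ he
    have hder : IsDer (pt φ ![0, 1]) (evL ![0, 1] δ) := v3_isDer_evL hδ.der _
    have h0 : evL ![0, 1] δ = 0 := by
      refine eq_zero_of_om_gen hX hcur hgen hder fun D hD0 => ?_
      have hmap := isHDer_mapD (𝒜 := 𝒜) (d := 2) hcur D
      have hom : omC P φ δ ((mapD D : Derivation ℂ _ _).toLinearMap ∘ₗ φ.toLinearMap) = 0 := by
        rcases he.lt_or_eq with he | he
        · exact omC_eq_zero hX hcur hδ hmap (by push_cast; linarith)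
        · have hh := omC_homog hX hcur hδ hmap (m := 0) (by rw [he]; norm_num)
          have h10 := omC_eval hX hcur hδ hmap ![1, 0] v3_vec10_ne
          rw [v3_evL_mapD ![1, 0] (by simp [Fin.forall_fin_two])] at h10
          have h2 : alongAt (pt φ ![1, 0]) D = 0 := LinearMap.ext fun r => hD0 r
          rw [h2, om_zero_right hX (v3_isNV hcur v3_vec10_ne) (v3_isDer_evL hδ.der _)] at h10
          rw [← totalDegree_zero_iff_isHomogeneous, totalDegree_eq_zero_iff_eq_C] at hh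
          rw [hh, eval_C] at h10
          rw [hh, ← h10, map_zero]
      have h01 := omC_eval hX hcur hδ hmap ![0, 1] v3_vec01_ne
      rw [v3_evL_mapD ![0, 1] (by simp [Fin.forall_fin_two]), hom, map_zero] at h01
      exact h01
    intro r
    rw [← evL_apply, h0, LinearMap.zero_apply]
  -- step 2: divisibility by all powers of `X 0`
  have hdvd : ∀ (n : ℕ) (e : ℤ) (δ : R →ₗ[ℂ] MvPolynomial (Fin 2) Ω), IsHDer 𝒜 2 φ e δ →
      e ≤ -2 → ∀ r, (X 0 : MvPolynomial (Fin 2) Ω) ^ n ∣ δ r := by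
    intro n
    induction n with
    | zero => intro e δ _ _ r; rw [pow_zero]; exact one_dvd _
    | succ n ih =>
      intro e δ hδ he r
      obtain ⟨δ', h1, h2⟩ := exists_div_X_zero hcur hδ (step e δ hδ he)
      rw [h2 r, pow_succ']
      exact mul_dvd_mul_left _ (ih _ δ' h1 (by linarith) r)
  refine LinearMap.ext fun r => ?_
  rw [LinearMap.zero_apply]
  by_contra hne
  obtain ⟨q, hq⟩ := hdvd ((δ r).totalDegree + 1) e δ hδ he r
  have hq0 : q ≠ 0 := fun h => hne (by rw [hq, h, mul_zero])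
  have hX0 : (X 0 : MvPolynomial (Fin 2) Ω) ^ ((δ r).totalDegree + 1) ≠ 0 :=
    pow_ne_zero _ (X_ne_zero 0)
  have := totalDegree_mul_of_isDomain hX0 hq0
  rw [← hq, totalDegree_X_pow] at this
  omega

/-- V3: freeness, general form. -/
theorem free_conic_gen (hX : IsContactFano 𝒜 P) (hcur : IsCurve 𝒜 2 φ)
    (hgen : ∀ δ : R →ₗ[ℂ] Ω, IsDer (pt φ ![0, 1]) δ → ∃ D : Derivation ℂ Ω Ω,
      (∀ r, D (pt φ ![1, 0] r) = 0) ∧ ∀ r, D (pt φ ![0, 1] r) = δ r)
    {δ : R →ₗ[ℂ] MvPolynomial (Fin 2) Ω} (hδ : IsHDer 𝒜 2 φ 0 δ)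
    (h0 : ∀ r, eval ![1, 0] (δ r) = 0) (h1 : ∀ r, eval ![0, 1] (δ r) = 0) : δ = 0 := by
  obtain ⟨δ₁, h2, h3⟩ := exists_div_X_one hcur hδ h0
  have h4 : ∀ r, eval ![0, 1] (δ₁ r) = 0 := fun r => by
    have := h1 r
    rw [h3 r, map_mul, eval_X] at this
    simpa using this
  obtain ⟨δ₂, h5, h6⟩ := exists_div_X_zero hcur h2 h4
  have h7 : δ₂ = 0 := core_gen hX hcur hgen h5 (by norm_num)
  refine LinearMap.ext fun r => ?_
  rw [h3, h6, h7, LinearMap.zero_apply, mul_zero, mul_zero]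

/-- V3: freeness: a derivation along the conic of degree `0` vanishing at both end points is
zero. -/
theorem free_conic (hX : IsContactFano 𝒜 P) (hφ : GenConicAt 𝒜 w φ)
    {δ : R →ₗ[ℂ] MvPolynomial (Fin 2) Ω} (hδ : IsHDer 𝒜 2 φ 0 δ)
    (h0 : ∀ r, eval ![1, 0] (δ r) = 0) (h1 : ∀ r, eval ![0, 1] (δ r) = 0) : δ = 0 :=
  free_conic_gen hX hφ.curve hφ.gen hδ h0 h1

end Vale.Agent.P292
end

section

/-! # P292 K-plan, V4, V5, V6: `b ≠ 0`, algebraicity of the generic conic, flow of `b ^ 2`.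

The versions with the suffix `_gen` are for conics with two arbitrary ends; `hgen` says that the
second end moves freely while the first one is fixed. -/

namespace Vale.Agent.P292

open MvPolynomial TensorProduct

universe u v w

section
variable {R : Type u} [CommRing R] [Algebra ℂ R] {𝒜 : ℕ → Submodule ℂ R} [GradedAlgebra 𝒜]
  {P : R →ₗ[ℂ] R →ₗ[ℂ] R}

section hder
variable {κ : Type v} [Field κ] [Algebra ℂ κ] {d : ℕ} {φ : R →ₐ[ℂ] MvPolynomial (Fin 2) κ}

omit [GradedAlgebra 𝒜] in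
/-- `c X_i` times a derivation over `φ`. -/
theorem IsHDer.v4_mulX {e : ℤ} {δ : R →ₗ[ℂ] MvPolynomial (Fin 2) κ} (h : IsHDer 𝒜 d φ e δ)
    (c : κ) (i : Fin 2) {δ' : R →ₗ[ℂ] MvPolynomial (Fin 2) κ}
    (h' : ∀ r, δ' r = C c * X i * δ r) : IsHDer 𝒜 d φ (e + 1) δ' := by
  have hX : (C c * X i : MvPolynomial (Fin 2) κ).IsHomogeneous 1 := by
    have h1 := (isHomogeneous_C (Fin 2) c).mul (isHomogeneous_X κ i)
    rwa [zero_add] at h1
  refine ⟨fun r s => ?_, fun k r hr m hm => ?_, fun k hk r hr => ?_⟩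
  · rw [h', h', h', h.der r s]
    ring
  · rw [h']
    rcases Nat.eq_zero_or_pos m with hm0 | hm0
    · subst hm0
      rw [h.neg k (by push_cast at hm; linarith) r hr, mul_zero]
      exact isHomogeneous_zero _ _ _
    · have h1 := hX.mul (h.homog k r hr (m - 1) (by push_cast [hm0]; linarith))
      rwa [Nat.add_sub_cancel' hm0] at h1
  · rw [h', h.neg k (by linarith) r hr, mul_zero]

omit [GradedAlgebra 𝒜] in
theorem IsHDer.v4_sub {e : ℤ} {δ δ' : R →ₗ[ℂ] MvPolynomial (Fin 2) κ} (h : IsHDer 𝒜 d φ e δ)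
    (h' : IsHDer 𝒜 d φ e δ') : IsHDer 𝒜 d φ e (δ - δ') := by
  refine ⟨fun r s => ?_, fun k r hr m hm => ?_, fun k hk r hr => ?_⟩
  · rw [LinearMap.sub_apply, LinearMap.sub_apply, LinearMap.sub_apply, h.der r s, h'.der r s]
    ring
  · exact (h.homog k r hr m hm).sub (h'.homog k r hr m hm)
  · rw [LinearMap.sub_apply, h.neg k hk r hr, h'.neg k hk r hr, sub_zero]

end hder

section conic
variable {Ω : Type v} [Field Ω] [IsAlgClosed Ω] [Algebra ℂ Ω] {w : R →ₐ[ℂ] ℂ}
  {φ : R →ₐ[ℂ] MvPolynomial (Fin 2) Ω}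

/-- V4, two arbitrary ends: `b ≠ 0`. -/
theorem b_ne_zero_gen (hX : IsContactFano 𝒜 P) (hcur : IsCurve 𝒜 2 φ)
    (hgen : ∀ δ, IsDer (pt φ ![0, 1]) δ → ∃ D : Derivation ℂ Ω Ω,
      (∀ r, D (pt φ ![1, 0] r) = 0) ∧ ∀ r, D (pt φ ![0, 1] r) = δ r) {b : Ω}
    (hb : omC P φ (pd φ 0) (pd φ 1) = C b) : b ≠ 0 := by
  rintro rfl
  have h0 := isHDer_pd hcur 0
  have h1 : evL ![0, 1] (pd φ 0) = 0 := by
    refine eq_zero_of_om_gen hX hcur hgen (h0.der.evL _) fun D hD => ?_
    rw [← first_variation' hX hcur hb D hD, map_zero]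
  obtain ⟨δ', hδ', h2⟩ := exists_div_X_zero hcur h0 fun r => by
    rw [← evL_apply, h1, LinearMap.zero_apply]
  have h3 : δ' = 0 := core_gen hX hcur hgen hδ' (by norm_num)
  obtain ⟨k, hk, r, hr, h4⟩ := hcur.bpf ![1, 0] vec10_ne
  refine h4 ?_
  have h5 : pderiv 0 (φ r) = 0 := by
    rw [← pd_apply, h2, h3, LinearMap.zero_apply, mul_zero]
  have hE := (hcur.degree k r hr).sum_X_mul_pderiv
  rw [Fin.sum_univ_two, h5, mul_zero, zero_add] at hE
  have h6 := congrArg (aeval (![1, 0] : Fin 2 → Ω)) hE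
  have : CharZero Ω := charZero_of_injective_algebraMap (algebraMap ℂ Ω).injective
  simp only [map_mul, aeval_X, Matrix.cons_val_one, Matrix.cons_val_fin_one, zero_mul,
    map_nsmul] at h6
  rw [eq_comm, smul_eq_zero] at h6
  rcases h6 with h6 | h6
  · omega
  · exact h6

/-- V5, two arbitrary ends. -/
theorem apply_eq_zero_gen (hX : IsContactFano 𝒜 P) (hcur : IsCurve 𝒜 2 φ)
    (hgen : ∀ δ, IsDer (pt φ ![0, 1]) δ → ∃ D : Derivation ℂ Ω Ω,
      (∀ r, D (pt φ ![1, 0] r) = 0) ∧ ∀ r, D (pt φ ![0, 1] r) = δ r) {b : Ω}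
    (hb : omC P φ (pd φ 0) (pd φ 1) = C b) (D : Derivation ℂ Ω Ω)
    (hD0 : ∀ s, D (pt φ ![1, 0] s) = 0) (hD : ∀ s, D (pt φ ![0, 1] s) = 0) :
    D b = 0 ∧ ∀ r m, D (coeff m (φ r)) = 0 := by
  constructor
  · have h1 : alongAt (pt φ ![0, 1]) D = 0 := by
      ext s
      exact hD s
    rw [first_variation' hX hcur hb D hD0, h1,
      om_zero_right hX (hcur.isNV_pt vec01_ne) ((isHDer_pd hcur 0).der.evL _)]
  · intro r m
    have h1 : ((mapD D : Derivation ℂ _ _).toLinearMap ∘ₗ φ.toLinearMap) = 0 := by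
      refine free_conic_gen hX hcur hgen (isHDer_mapD hcur D) (fun r => ?_) fun r => ?_
      · have := eval_mapD_10 D (φ r)
        rw [← pt_apply, hD0] at this
        exact this
      · have := eval_mapD_01 D (φ r)
        rw [← pt_apply, hD] at this
        exact this
    have h2 : mapD D (φ r) = 0 := LinearMap.congr_fun h1 r
    rw [← coeff_mapD, h2, coeff_zero]

/-- V6, two arbitrary ends: the flow of `b ^ 2`. -/
theorem flow_gen (hX : IsContactFano 𝒜 P) (hcur : IsCurve 𝒜 2 φ)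
    (hgen : ∀ δ, IsDer (pt φ ![0, 1]) δ → ∃ D : Derivation ℂ Ω Ω,
      (∀ r, D (pt φ ![1, 0] r) = 0) ∧ ∀ r, D (pt φ ![0, 1] r) = δ r) {b : Ω}
    (hb : omC P φ (pd φ 0) (pd φ 1) = C b) (D : Derivation ℂ Ω Ω)
    (hD0 : ∀ s, D (pt φ ![1, 0] s) = 0)
    (hD : ∀ s, D (pt φ ![0, 1] s) = 2 * b * eval ![0, 1] (pderiv 0 (φ s))) :
    D b = 0 ∧ ∀ r, mapD D (φ r) = C (2 * b) * X 1 * pderiv 0 (φ r) := by
  have h0 := isHDer_pd hcur 0
  have hnv : IsNV 𝒜 (pt φ ![0, 1]) := hcur.isNV_pt vec01_ne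
  constructor
  · have h1 : alongAt (pt φ ![0, 1]) D = (2 * b) • evL ![0, 1] (pd φ 0) := by
      ext s
      rw [alongAt_apply, hD, LinearMap.smul_apply, evL_apply, pd_apply, smul_eq_mul]
    have hd : IsDer (pt φ ![0, 1]) ((2 * b) • evL ![0, 1] (pd φ 0)) := h1 ▸ isDer_alongAt _ D
    rw [first_variation' hX hcur hb D hD0, h1, om_antisymm hX hnv (h0.der.evL _) hd,
      om_smul_left hX hnv (h0.der.evL _) (h0.der.evL _), om_self hX hnv (h0.der.evL _), mul_zero,
      neg_zero]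
  · let δ' : R →ₗ[ℂ] MvPolynomial (Fin 2) Ω :=
      (LinearMap.mulLeft ℂ (C (2 * b) * X 1 : MvPolynomial (Fin 2) Ω)) ∘ₗ pd φ 0
    have hδ' : IsHDer 𝒜 2 φ 0 δ' := h0.v4_mulX (2 * b) 1 fun r => rfl
    have h1 : ((mapD D : Derivation ℂ _ _).toLinearMap ∘ₗ φ.toLinearMap) - δ' = 0 := by
      refine free_conic_gen hX hcur hgen ((isHDer_mapD hcur D).v4_sub hδ') (fun r => ?_) fun r => ?_
      · have h2 : ((mapD D : Derivation ℂ _ _).toLinearMap ∘ₗ φ.toLinearMap - δ') r =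
            mapD D (φ r) - C (2 * b) * X 1 * pderiv 0 (φ r) := rfl
        rw [h2, map_sub, eval_mapD_10, ← pt_apply, hD0]
        simp
      · have h2 : ((mapD D : Derivation ℂ _ _).toLinearMap ∘ₗ φ.toLinearMap - δ') r =
            mapD D (φ r) - C (2 * b) * X 1 * pderiv 0 (φ r) := rfl
        rw [h2, map_sub, eval_mapD_01, ← pt_apply, hD]
        simp
    intro r
    have h2 := LinearMap.congr_fun h1 r
    exact sub_eq_zero.1 h2

/-- V4: `b ≠ 0`. -/
theorem b_ne_zero (hX : IsContactFano 𝒜 P) (hφ : GenConicAt 𝒜 w φ) {b : Ω}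
    (hb : omC P φ (pd φ 0) (pd φ 1) = C b) : b ≠ 0 :=
  b_ne_zero_gen hX hφ.curve hφ.gen hb

/-- V5: coefficients of the conic, and `b`, are algebraic over `Frac R`. -/
theorem apply_eq_zero (hX : IsContactFano 𝒜 P) (hφ : GenConicAt 𝒜 w φ) {b : Ω}
    (hb : omC P φ (pd φ 0) (pd φ 1) = C b) (D : Derivation ℂ Ω Ω)
    (hD : ∀ s, D (pt φ ![0, 1] s) = 0) : D b = 0 ∧ ∀ r m, D (coeff m (φ r)) = 0 :=
  apply_eq_zero_gen hX hφ.curve hφ.gen hb D (hφ.kill_left D) hD

/-- V6: the flow of `B = b²`. -/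
theorem flow (hX : IsContactFano 𝒜 P) (hφ : GenConicAt 𝒜 w φ) {b : Ω}
    (hb : omC P φ (pd φ 0) (pd φ 1) = C b) (D : Derivation ℂ Ω Ω)
    (hD : ∀ s, D (pt φ ![0, 1] s) = 2 * b * eval ![0, 1] (pderiv 0 (φ s))) :
    D b = 0 ∧ ∀ r, mapD D (φ r) = C (2 * b) * X 1 * pderiv 0 (φ r) :=
  flow_gen hX hφ.curve hφ.gen hb D (hφ.kill_left D) hD

end conic

end

end Vale.Agent.P292
end

section

/-! # The bracket matrix of a Noether normalisation is nondegenerate. -/

open TensorProduct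

universe u

namespace Vale.Agent.P292.Mo

/-- A derivation that kills a subalgebra over which the domain is algebraic is zero. -/
theorem noetherdet_derivation_eq_zero {k : Type} [Field k] [CharZero k] {R : Type u} [CommRing R]
    [IsDomain R] [Algebra k R] (A : Subalgebra k R) [Algebra.IsAlgebraic A R]
    (δ : Derivation k R R) (hδ : ∀ a ∈ A, δ a = 0) : δ = 0 := by
  classical
  have : CharZero R := charZero_of_injective_algebraMap (algebraMap k R).injective
  have : CharZero A := charZero_of_injective_algebraMap (algebraMap k A).injective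
  let δ' : Derivation A R R :=
    { toFun := δ
      map_add' := fun a b => map_add δ a b
      map_smul' := fun a r => by
        have h1 : δ (algebraMap A R a) = 0 := hδ _ a.2
        rw [Algebra.smul_def, Derivation.leibniz, RingHom.id_apply, h1, smul_zero, add_zero,
          smul_eq_mul]
        rfl
      map_one_eq_zero' := δ.map_one_eq_zero
      leibniz' := fun a b => δ.leibniz a b }
  ext r
  rw [Derivation.coe_zero, Pi.zero_apply]
  by_contra hr
  have key : ∀ (m : ℕ) (p : Polynomial A), p.natDegree = m → Polynomial.aeval r p = 0 →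
      p = 0 := by
    intro m
    induction m with
    | zero =>
      intro p hp h0
      rw [Polynomial.eq_C_of_natDegree_eq_zero hp, Polynomial.aeval_C] at h0
      rw [Polynomial.eq_C_of_natDegree_eq_zero hp]
      have : p.coeff 0 = 0 := Subtype.ext h0
      rw [this, Polynomial.C_0]
    | succ m ih =>
      intro p hp h0
      have h1 : Polynomial.aeval r (Polynomial.derivative p) = 0 := by
        have h2 : δ' (Polynomial.aeval r p) = Polynomial.aeval r (Polynomial.derivative p) • δ' r :=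
          Derivation.map_aeval δ' p r
        rw [h0, map_zero] at h2
        have h3 := h2.symm
        rw [smul_eq_mul] at h3
        rcases mul_eq_zero.mp h3 with h4 | h4
        · exact h4
        · exact absurd h4 hr
      have h2 : (Polynomial.derivative p).natDegree = m := by
        rw [Polynomial.natDegree_derivative, hp]; rfl
      have h3 := ih _ h2 h1
      have h4 := Polynomial.derivative_eq_zero.mp h3
      omega
  obtain ⟨p, hp0, hp⟩ := Algebra.IsAlgebraic.isAlgebraic (R := A) r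
  exact hp0 (key _ p rfl hp)

/-- Differentials of a transcendence basis are independent. -/
theorem noetherdet_linearIndependent {k : Type} [Field k] [CharZero k] {R : Type u} [CommRing R]
    [IsDomain R] [Algebra k R] {n : ℕ} (y : Fin n → R) (hy : IsTranscendenceBasis k y)
    (c : Fin n → R) (g : R) (hg : g ≠ 0)
    (h : ∀ δ : Derivation k R (Ω[(FractionRing R)⁄k]), g • ∑ i, c i • δ (y i) = 0) : c = 0 := by
  classical
  let K := FractionRing R
  let S := MvPolynomial (Fin n) k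
  have hinj : Function.Injective (MvPolynomial.aeval (R := k) y) := hy.1
  let _ : Algebra S R := (MvPolynomial.aeval (R := k) y).toRingHom.toAlgebra
  have : IsScalarTower k S R := IsScalarTower.of_algebraMap_eq fun x => by
    change _ = MvPolynomial.aeval y (algebraMap k S x)
    rw [MvPolynomial.algebraMap_eq, MvPolynomial.aeval_C]
  have halg : ∀ s : S, algebraMap S K s = algebraMap R K (MvPolynomial.aeval y s) := fun s =>
    IsScalarTower.algebraMap_apply S R K s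
  have : IsScalarTower k S K := IsScalarTower.of_algebraMap_eq fun x => by
    rw [halg, MvPolynomial.algebraMap_eq, MvPolynomial.aeval_C]
    exact (IsScalarTower.algebraMap_apply k R K x)
  have hinjK : Function.Injective (algebraMap S K) := by
    intro a b hab
    rw [halg, halg] at hab
    exact hinj (IsFractionRing.injective R K hab)
  have : FaithfulSMul S K := (faithfulSMul_iff_algebraMap_injective S K).mpr hinjK
  let L := FractionRing S
  let _ : Algebra L K := FractionRing.liftAlgebra S K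
  have : IsScalarTower S L K := FractionRing.isScalarTower_liftAlgebra S K
  have : IsScalarTower k L K := IsScalarTower.to₁₃₄ k S L K
  have hSR : Algebra.IsAlgebraic S R := by
    have h1 := hy.isAlgebraic
    refine Algebra.IsAlgebraic.of_ringHom_of_comp_eq (S := Algebra.adjoin k (Set.range y)) (B := R)
      (hy.1.aevalEquiv : S ≃ₐ[k] Algebra.adjoin k (Set.range y)).toRingEquiv.toRingHom
      (RingHom.id R) (hy.1.aevalEquiv).surjective Function.injective_id ?_
    ext x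
    · simp [RingHom.algebraMap_toAlgebra]
    · simp [RingHom.algebraMap_toAlgebra]
  have hRK : Algebra.IsAlgebraic R K :=
    (IsFractionRing.comap_isAlgebraic_iff (A := R) (K := K) (C := K)).mpr inferInstance
  have hSK : Algebra.IsAlgebraic S K := Algebra.IsAlgebraic.trans S R K
  have : Algebra.IsAlgebraic L K := (IsFractionRing.comap_isAlgebraic_iff (A := S) (K := L)).mp hSK
  have : CharZero L := charZero_of_injective_algebraMap (algebraMap k L).injective
  have : Algebra.FormallyEtale L K := Algebra.FormallyEtale.of_isSeparable L K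
  have : Algebra.FormallyEtale S L := Algebra.FormallyEtale.of_isLocalization (nonZeroDivisors S)
  have : Algebra.FormallyEtale S K := Algebra.FormallyEtale.comp S L K
  let e := KaehlerDifferential.tensorKaehlerEquivOfFormallyEtale k S K
  let b := (KaehlerDifferential.mvPolynomialBasis k (Fin n)).baseChange K
  have h1 := h ((KaehlerDifferential.D k K).compAlgebraMap R)
  have h2 : ∀ i, ((KaehlerDifferential.D k K).compAlgebraMap R) (y i) = e (b i) := by
    intro i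
    have h3 : b i = e.symm (KaehlerDifferential.D k K (algebraMap S K (MvPolynomial.X i))) := by
      rw [KaehlerDifferential.tensorKaehlerEquivOfFormallyEtale_symm_D_algebraMap]
      simp only [b, Module.Basis.baseChange_apply, KaehlerDifferential.mvPolynomialBasis_apply]
      rfl
    rw [h3, LinearEquiv.apply_symm_apply, halg, MvPolynomial.aeval_X]
    rfl
  have h3 : ∑ i, (algebraMap R K (c i)) • b i = 0 := by
    apply e.injective
    rw [map_zero, map_sum]
    have h4 : algebraMap R K g • ∑ i, e (algebraMap R K (c i) • b i) = 0 := by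
      rw [← h1, algebraMap_smul]
      congr 1
      refine Finset.sum_congr rfl fun i _ => ?_
      rw [map_smul, h2, algebraMap_smul]
    rcases smul_eq_zero.mp h4 with h5 | h5
    · exact absurd ((map_eq_zero_iff _ (IsFractionRing.injective R K)).mp h5) hg
    · exact h5
  have h4 := Fintype.linearIndependent_iff.mp b.linearIndependent _ h3
  funext i
  exact (IsFractionRing.injective R K) (by rw [h4 i, Pi.zero_apply, map_zero])

variable {R : Type u} [CommRing R] [Algebra ℂ R] {𝒜 : ℕ → Submodule ℂ R} [GradedAlgebra 𝒜]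
  {P : R →ₗ[ℂ] R →ₗ[ℂ] R}

/-- NN2. -/
theorem det_ne_zero_of_noether (hX : IsContactFano 𝒜 P) {n : ℕ} (y : Fin n → R)
    (hy : AlgebraicIndependent ℂ y)
    (hS : ∃ S : Finset R, Submodule.span (Algebra.adjoin ℂ (Set.range y)) (S : Set R) = ⊤) :
    (brM P y).det ≠ 0 ∧ n = Algebra.trdeg ℂ R := by
  classical
  have := hX.domain
  obtain ⟨T, hT⟩ := hS
  have hfin : Module.Finite (Algebra.adjoin ℂ (Set.range y)) R := ⟨⟨T, hT⟩⟩
  have hint : Algebra.IsIntegral (Algebra.adjoin ℂ (Set.range y)) R :=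
    Algebra.IsIntegral.of_finite _ _
  have halg : Algebra.IsAlgebraic (Algebra.adjoin ℂ (Set.range y)) R := hint.isAlgebraic
  have hb : IsTranscendenceBasis ℂ y := hy.isTranscendenceBasis_iff_isAlgebraic.mpr halg
  refine ⟨?_, ?_⟩
  · intro hdet
    obtain ⟨c, hc, hc0⟩ := Matrix.exists_vecMul_eq_zero_iff.mpr hdet
    have hc1 : ∀ j, ∑ i, c i * P (y i) (y j) = 0 := fun j => congrFun hc0 j
    let δ : Derivation ℂ R R := ∑ i, c i • hX.ham (y i)
    have hδ : ∀ r, δ r = ∑ i, c i * P (y i) r := fun r => by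
      have h1 : (⇑δ : R → R) = ∑ i, ⇑(c i • hX.ham (y i)) :=
        map_sum Derivation.coeFnAddMonoidHom (fun i => c i • hX.ham (y i)) Finset.univ
      rw [h1, Finset.sum_apply]
      rfl
    have hδ0 : δ = 0 := by
      refine noetherdet_derivation_eq_zero (Algebra.adjoin ℂ (Set.range y)) δ ?_
      have h1 : Set.EqOn δ (0 : Derivation ℂ R R) (Algebra.adjoin ℂ (Set.range y)) := by
        refine Derivation.eqOn_adjoin ?_
        rintro _ ⟨j, rfl⟩
        rw [hδ, hc1]; rfl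
      exact fun a ha => h1 ha
    obtain ⟨p, hp⟩ := hX.nonempty
    obtain ⟨N, x, g, h, hF, hg⟩ := exists_frame hX hp
    have hg' : g * (brMat P x).det ≠ 0 := fun h0 => hg (by rw [h0, map_zero])
    have hg0 : g ≠ 0 := left_ne_zero_of_mul hg'
    have hx0 : (brMat P x).det ≠ 0 := right_ne_zero_of_mul hg'
    have hbk : (fun k => ∑ i, c i * h (y i) k) = 0 := by
      refine Matrix.eq_zero_of_mulVec_eq_zero hx0 ?_
      funext j
      have h1 : (brMat P x).mulVec (fun k => ∑ i, c i * h (y i) k) j =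
          ∑ i, c i * ∑ k, h (y i) k * P (x j) (x k) := by
        simp only [Matrix.mulVec, dotProduct, brMat_apply, Finset.mul_sum]
        rw [Finset.sum_comm]
        exact Finset.sum_congr rfl fun i _ => Finset.sum_congr rfl fun k _ => by ring
      have h2 : ∀ i, ∑ k, h (y i) k * P (x j) (x k) = g * P (x j) (y i) := fun i =>
        (hF.mul_P hX (x j) (y i)).symm
      have h3 : ∑ i, c i * P (y i) (x j) = 0 := by
        rw [← hδ, hδ0]; rfl
      rw [h1, Pi.zero_apply]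
      have h4 : ∀ i, c i * ∑ k, h (y i) k * P (x j) (x k) = -g * (c i * P (y i) (x j)) := fun i => by
        rw [h2, hX.skew (x j) (y i)]; ring
      rw [Finset.sum_congr rfl fun i _ => h4 i, ← Finset.mul_sum, h3, mul_zero]
    apply hc
    refine noetherdet_linearIndependent y hb c g hg0 fun δ' => ?_
    have h1 : ∀ i, g • δ' (y i) = ∑ k, h (y i) k • δ' (x k) := fun i => hF.smul_derivation δ' (y i)
    rw [Finset.smul_sum]
    have h2 : ∀ i, g • c i • δ' (y i) = ∑ k, (c i * h (y i) k) • δ' (x k) := fun i => by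
      rw [smul_comm, h1, Finset.smul_sum]
      exact Finset.sum_congr rfl fun k _ => by rw [smul_smul]
    rw [Finset.sum_congr rfl fun i _ => h2 i, Finset.sum_comm]
    refine Finset.sum_eq_zero fun k _ => ?_
    rw [← Finset.sum_smul, congrFun hbk k, Pi.zero_apply, zero_smul]
  · have h1 := hb.lift_cardinalMk_eq_trdeg
    simpa using h1

end Vale.Agent.P292.Mo
end
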