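import Vale.Agent.P292.Bn.N6
import Vale.Agent.P292.Bn.N4
import Vale.Agent.P292.Bn.N1

set_option linter.all false

section

/-! # Base points of graded maps `R → κ[s, t]`, and linear changes of the parameters. -/

namespace Vale.Agent.P292

universe u v w

variable {R : Type u} [CommRing R] [Algebra ℂ R] {𝒜 : ℕ → Submodule ℂ R} [GradedAlgebra 𝒜]
  {P : R →ₗ[ℂ] R →ₗ[ℂ] R}

open Polynomial WithZero in
/-- The slope of a homomorphism to `κ[X]` is an integer. -/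
theorem nw_slope (hX : IsContactFano 𝒜 P) {κ : Type v} [Field κ] [Algebra ℂ κ]
    (Ψ : R →ₐ[ℂ] κ[X]) (e : ℕ)
    (hΨ : ∀ k, 0 < k → ∀ r ∈ 𝒜 k, (Ψ r).natDegree < (e + 1) * k) :
    ∀ k, ∀ r ∈ 𝒜 k, (Ψ r).natDegree ≤ e * k := by
  classical
  have := hX.finiteType
  obtain ⟨s, hs, hn⟩ := exists_generators 𝒜 hX.connected
  choose! n hn0 hn using hn
  set w := RatFunc.inftyValuation κ with hw
  have hconst : ∀ c : ℂ, w (algebraMap ℂ (RatFunc κ) c) ≤ 1 := by
    intro c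
    have : algebraMap ℂ (RatFunc κ) c = RatFunc.C (algebraMap ℂ κ c) := by
      rw [IsScalarTower.algebraMap_apply ℂ κ (RatFunc κ)]
      rfl
    rw [this]
    by_cases hc : algebraMap ℂ κ c = 0
    · rw [hc, map_zero, map_zero]; exact zero_le_one
    · rw [RatFunc.inftyValuation.C κ hc]
  have key : ∀ g ∈ s, (Ψ g).natDegree ≤ e * n g := by
    by_contra hcon
    push Not at hcon
    obtain ⟨g₁, hg₁, hg₁0⟩ := hcon
    obtain ⟨g₀, hg₀, hmax⟩ := Finset.exists_max_image s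
      (fun g => ((Ψ g).natDegree : ℚ) / n g) ⟨g₁, hg₁⟩
    have hk0 : 0 < n g₀ := Nat.pos_of_ne_zero (hn0 g₀ hg₀)
    have hk0' : (0 : ℚ) < n g₀ := by exact_mod_cast hk0
    have hmax' : ∀ g ∈ s, (Ψ g).natDegree * n g₀ ≤ (Ψ g₀).natDegree * n g := by
      intro g hg
      have h1 := hmax g hg
      have hkg : (0 : ℚ) < n g := by exact_mod_cast Nat.pos_of_ne_zero (hn0 g hg)
      rw [div_le_div_iff₀ hkg hk0'] at h1
      exact_mod_cast h1
    have hi0 : e * n g₀ < (Ψ g₀).natDegree := by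
      have h1 := hmax' g₁ hg₁
      have h2 : e * n g₁ * n g₀ < (Ψ g₁).natDegree * n g₀ := Nat.mul_lt_mul_of_pos_right hg₁0 hk0
      have h3 : (e * n g₀) * n g₁ < (Ψ g₀).natDegree * n g₁ := by
        calc (e * n g₀) * n g₁ = e * n g₁ * n g₀ := by ring
          _ < (Ψ g₁).natDegree * n g₀ := h2
          _ ≤ _ := h1
      exact Nat.lt_of_mul_lt_mul_right h3
    set k₀ := n g₀ with hk₀
    set i₀ := (Ψ g₀).natDegree with hi₀
    have hlt : i₀ < (e + 1) * k₀ := hΨ k₀ hk0 g₀ (hn g₀ hg₀)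
    -- the twisted point
    let x₁ : R →ₐ[ℂ] RatFunc κ :=
      ((IsScalarTower.toAlgHom ℂ κ[X] (RatFunc κ)).comp
        ((Polynomial.expand κ k₀).restrictScalars ℂ)).comp Ψ
    have hx₁ : ∀ r, x₁ r = algebraMap κ[X] (RatFunc κ) (Polynomial.expand κ k₀ (Ψ r)) :=
      fun r => rfl
    obtain ⟨x, hx⟩ := nw_twist (𝒜 := 𝒜) x₁ ((RatFunc.X : RatFunc κ) ^ (-(i₀ : ℤ)))
    have hval : ∀ k, ∀ r ∈ 𝒜 k, Ψ r ≠ 0 →
        w (x r) = exp (((k₀ * (Ψ r).natDegree : ℕ) : ℤ) - ((i₀ * k : ℕ) : ℤ)) := by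
      intro k r hr hr0
      have h1 : Polynomial.expand κ k₀ (Ψ r) ≠ 0 := (Polynomial.expand_ne_zero hk0).mpr hr0
      rw [hx k r hr, map_mul, map_pow, RatFunc.inftyValuation.X_zpow, hx₁,
        RatFunc.inftyValuation_apply, RatFunc.inftyValuation.polynomial κ h1,
        Polynomial.natDegree_expand, ← exp_nsmul, ← exp_add]
      congr 1
      push_cast
      rw [nsmul_eq_mul]
      ring
    have hle : ∀ r, w (x r) ≤ 1 := by
      refine nw_le_one_of_generators w hconst hs x (fun g hg => ?_)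
      by_cases hg0 : Ψ g = 0
      · have : x g = 0 := by
          rw [hx (n g) g (hn g hg), hx₁, hg0, map_zero, map_zero, mul_zero]
        rw [this, map_zero]; exact zero_le_one
      · rw [hval (n g) g (hn g hg) hg0, ← exp_zero, exp_le_exp]
        have := hmax' g hg
        have h2 : k₀ * (Ψ g).natDegree ≤ i₀ * n g := by rw [mul_comm]; exact this
        omega
    have hΨg₀ : Ψ g₀ ≠ 0 := by
      intro h
      rw [h, natDegree_zero] at hi₀
      omega
    have hone : w (x g₀) = 1 := by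
      rw [hval k₀ g₀ (hn g₀ hg₀) hΨg₀, ← exp_zero]
      congr 1
      rw [mul_comm k₀]
      exact sub_self _
    obtain ⟨p, hp, hpg⟩ := exists_closed_of_valuation hX w x hle g₀
      (by rw [hone]; exact lt_irrefl 1)
    have hv : ¬ IsVertex 𝒜 p := fun h => hpg (h k₀ hk0 g₀ (hn g₀ hg₀))
    have hG0 : 0 < Nat.gcd i₀ k₀ := Nat.gcd_pos_of_pos_right _ hk0
    have key : k₀ / Nat.gcd i₀ k₀ = 1 := by
      apply hX.lineBundle p hv
      intro k r hr hr0
      have h1 : w (x r) = 1 := by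
        by_contra hcon
        exact hr0 (hp r (lt_of_le_of_ne (hle r) hcon))
      have hr0' : Ψ r ≠ 0 := by
        intro h
        rw [hx k r hr, hx₁, h, map_zero, map_zero, mul_zero, map_zero] at h1
        exact zero_ne_one h1
      rw [hval k r hr hr0', ← exp_zero, exp_inj] at h1
      have h2 : k₀ * (Ψ r).natDegree = i₀ * k := by omega
      have h3 : k₀ / Nat.gcd i₀ k₀ ∣ (i₀ / Nat.gcd i₀ k₀) * k := by
        refine ⟨(Ψ r).natDegree, Nat.eq_of_mul_eq_mul_left hG0 ?_⟩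
        calc Nat.gcd i₀ k₀ * (i₀ / Nat.gcd i₀ k₀ * k)
            = (Nat.gcd i₀ k₀ * (i₀ / Nat.gcd i₀ k₀)) * k := by ring
          _ = i₀ * k := by rw [Nat.mul_div_cancel' (Nat.gcd_dvd_left _ _)]
          _ = k₀ * (Ψ r).natDegree := h2.symm
          _ = (Nat.gcd i₀ k₀ * (k₀ / Nat.gcd i₀ k₀)) * (Ψ r).natDegree := by
              rw [Nat.mul_div_cancel' (Nat.gcd_dvd_right _ _)]
          _ = _ := by ring
      exact (Nat.Coprime.symm (Nat.coprime_div_gcd_div_gcd hG0)).dvd_of_dvd_mul_left h3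
    have h4 : Nat.gcd i₀ k₀ = k₀ := by
      have := Nat.div_mul_cancel (Nat.gcd_dvd_right i₀ k₀)
      rw [key, one_mul] at this
      exact this
    have h5 : k₀ ∣ i₀ := by rw [← h4]; exact Nat.gcd_dvd_left _ _
    obtain ⟨c, hc⟩ := h5
    rw [hc, mul_comm e] at hi0
    rw [hc, mul_comm (e + 1)] at hlt
    have h6 := Nat.lt_of_mul_lt_mul_left hi0
    have h7 := Nat.lt_of_mul_lt_mul_left hlt
    omega
  -- from the generators to all elements
  obtain ⟨x, hx⟩ := nw_twist (𝒜 := 𝒜) ((IsScalarTower.toAlgHom ℂ κ[X] (RatFunc κ)).comp Ψ)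
    ((RatFunc.X : RatFunc κ) ^ (-(e : ℤ)))
  have hval : ∀ k, ∀ r ∈ 𝒜 k, Ψ r ≠ 0 →
      w (x r) = exp ((((Ψ r).natDegree : ℕ) : ℤ) - ((e * k : ℕ) : ℤ)) := by
    intro k r hr hr0
    rw [hx k r hr, map_mul, map_pow, RatFunc.inftyValuation.X_zpow]
    change _ * w (algebraMap κ[X] (RatFunc κ) (Ψ r)) = _
    rw [RatFunc.inftyValuation_apply, RatFunc.inftyValuation.polynomial κ hr0,
      ← exp_nsmul, ← exp_add]
    congr 1
    push_cast
    rw [nsmul_eq_mul]
    ring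
  have hle : ∀ r, w (x r) ≤ 1 := by
    refine nw_le_one_of_generators w hconst hs x (fun g hg => ?_)
    by_cases hg0 : Ψ g = 0
    · have : x g = 0 := by
        rw [hx (n g) g (hn g hg)]
        change _ * algebraMap κ[X] (RatFunc κ) (Ψ g) = _
        rw [hg0, map_zero, mul_zero]
      rw [this, map_zero]; exact zero_le_one
    · rw [hval (n g) g (hn g hg) hg0, ← exp_zero, exp_le_exp]
      have := key g hg
      omega
  intro k r hr
  by_cases hr0 : Ψ r = 0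
  · rw [hr0, natDegree_zero]; exact Nat.zero_le _
  · have h1 := hle r
    rw [hval k r hr hr0, ← exp_zero, exp_le_exp] at h1
    omega

open MvPolynomial

variable {κ : Type v} [Field κ] [Algebra ℂ κ]

/-- A base point at `(0, 1)` can be removed. -/
theorem exists_div_X_zero_pow (hX : IsContactFano 𝒜 P) (d : ℕ)
    (Φ : R →ₐ[ℂ] MvPolynomial (Fin 2) κ)
    (hΦ : ∀ k, ∀ r ∈ 𝒜 k, (Φ r).IsHomogeneous ((d + 1) * k))
    (hb : ∀ k, 0 < k → ∀ r ∈ 𝒜 k, eval ![0, 1] (Φ r) = 0) :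
    ∃ Φ' : R →ₐ[ℂ] MvPolynomial (Fin 2) κ, (∀ k, ∀ r ∈ 𝒜 k, (Φ' r).IsHomogeneous (d * k)) ∧
      ∀ k, ∀ r ∈ 𝒜 k, Φ r = X 0 ^ k * Φ' r := by
  let f : R →ₐ[ℂ] Polynomial κ := (nwDehom κ 0).comp Φ
  have hf : ∀ r, f r = nwDehom κ 0 (Φ r) := fun r => rfl
  have h1 : ∀ k, 0 < k → ∀ r ∈ 𝒜 k, (f r).natDegree < (d + 1) * k := by
    intro k hk r hr
    have h2 := nwDehom_natDegree_le 0 1 (by decide) (hΦ k r hr)
    have hpos : 0 < (d + 1) * k := Nat.mul_pos (Nat.succ_pos d) hk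
    rcases lt_or_eq_of_le h2 with h | h
    · exact h
    · exfalso
      have h3 : (f r).coeff ((d + 1) * k) = 0 := by
        rw [hf, nwDehom_coeff_symm (hΦ k r hr) (j := 0) (by omega), ← nw_eval_zero_one]
        exact hb k hk r hr
      have h4 : f r = 0 := by
        rw [← Polynomial.leadingCoeff_eq_zero, Polynomial.leadingCoeff, hf, h, ← hf]
        exact h3
      rw [← hf, h4, Polynomial.natDegree_zero] at h
      omega
  have h2 := nw_slope hX f d h1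
  obtain ⟨Φ', h3, -, h4⟩ := nw_homogenize (𝒜 := 𝒜) f d h2
  refine ⟨Φ', h3, fun k r hr => ?_⟩
  have h5 : (X 0 ^ k * Φ' r : MvPolynomial (Fin 2) κ).IsHomogeneous ((d + 1) * k) := by
    have h6 : (X 0 ^ k : MvPolynomial (Fin 2) κ).IsHomogeneous k := by
      have := (isHomogeneous_X κ (0 : Fin 2)).pow k
      rwa [one_mul] at this
    have := h6.mul (h3 k r hr)
    rwa [show k + d * k = (d + 1) * k by ring] at this
  refine nwDehom_injOn (hΦ k r hr) h5 ?_
  have h7 : nwDehom κ 0 (X 0) = 1 := by simp [nwDehom]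
  rw [map_mul, map_pow, h7, one_pow, one_mul, h4]
  exact (hf r).symm

/-- The linear change of parameters `x ↦ x 0 • a + x 1 • b`. -/
noncomputable def reparamHom (a b : Fin 2 → κ) :
    MvPolynomial (Fin 2) κ →ₐ[κ] MvPolynomial (Fin 2) κ :=
  aeval fun i => C (a i) * X 0 + C (b i) * X 1

omit [Algebra ℂ κ] in
theorem eval_reparamHom (a b x : Fin 2 → κ) (p : MvPolynomial (Fin 2) κ) :
    eval x (reparamHom a b p) = eval (x 0 • a + x 1 • b) p := by
  induction p using MvPolynomial.induction_on with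
  | C c => simp [reparamHom]
  | add p q hp hq => rw [map_add, map_add, map_add, hp, hq]
  | mul_X p i hp =>
    rw [map_mul, map_mul, map_mul, hp]
    congr 1
    simp [reparamHom]
    ring

omit [Algebra ℂ κ] in
theorem isHomogeneous_reparamHom (a b : Fin 2 → κ) {p : MvPolynomial (Fin 2) κ} {n : ℕ}
    (hp : p.IsHomogeneous n) : (reparamHom a b p).IsHomogeneous n := by
  have h1 : ∀ i : Fin 2, (C (a i) * X 0 + C (b i) * X 1 :
      MvPolynomial (Fin 2) κ).IsHomogeneous 1 := by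
    intro i
    refine IsHomogeneous.add ?_ ?_
    · have := (isHomogeneous_C (Fin 2) (a i)).mul (isHomogeneous_X κ (0 : Fin 2))
      rwa [zero_add] at this
    · have := (isHomogeneous_C (Fin 2) (b i)).mul (isHomogeneous_X κ (1 : Fin 2))
      rwa [zero_add] at this
  have := hp.aeval _ h1
  rwa [one_mul] at this

/-- The curve `φ` after a linear change of parameters. -/
noncomputable def reparam (a b : Fin 2 → κ) (φ : R →ₐ[ℂ] MvPolynomial (Fin 2) κ) :
    R →ₐ[ℂ] MvPolynomial (Fin 2) κ := ((reparamHom a b).restrictScalars ℂ).comp φ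

omit [GradedAlgebra 𝒜] in
theorem reparam_apply (a b : Fin 2 → κ) (φ : R →ₐ[ℂ] MvPolynomial (Fin 2) κ) (r : R) :
    reparam a b φ r = reparamHom a b (φ r) := rfl

theorem pt_reparam (a b : Fin 2 → κ) (φ : R →ₐ[ℂ] MvPolynomial (Fin 2) κ) (x : Fin 2 → κ) :
    pt (reparam a b φ) x = pt φ (x 0 • a + x 1 • b) := by
  ext r
  rw [pt_apply, pt_apply, reparam_apply, eval_reparamHom]

theorem IsCurve.reparam {d : ℕ} {φ : R →ₐ[ℂ] MvPolynomial (Fin 2) κ} {𝒜 : ℕ → Submodule ℂ R}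
    (hφ : IsCurve 𝒜 d φ)
    (a b : Fin 2 → κ) (hab : ∀ x : Fin 2 → κ, x ≠ 0 → x 0 • a + x 1 • b ≠ 0) :
    IsCurve 𝒜 d (reparam a b φ) where
  degree k r hr := isHomogeneous_reparamHom a b (hφ.degree k r hr)
  bpf x hx := by
    obtain ⟨k, hk, r, hr, h⟩ := hφ.bpf _ (hab x hx)
    refine ⟨k, hk, r, hr, ?_⟩
    rw [aeval_eq_eval] at h ⊢
    rw [reparam_apply]
    change eval x _ ≠ 0
    rw [eval_reparamHom]
    exact h

omit [Algebra ℂ κ] in
/-- Every nonzero vector belongs to a basis. -/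
theorem exists_basis_fin_two (u : Fin 2 → κ) (hu : u ≠ 0) :
    ∃ a : Fin 2 → κ, a 0 * u 1 - a 1 * u 0 ≠ 0 := by
  by_cases h : u 1 = 0
  · refine ⟨![0, 1], ?_⟩
    have h0 : u 0 ≠ 0 := by
      intro h0
      apply hu
      funext i
      fin_cases i
      · exact h0
      · exact h
    simpa using h0
  · exact ⟨![1, 0], by simpa using h⟩

omit [Algebra ℂ κ] in
theorem ne_zero_of_det {a b : Fin 2 → κ} (h : a 0 * b 1 - a 1 * b 0 ≠ 0) (x : Fin 2 → κ)
    (hx : x ≠ 0) : x 0 • a + x 1 • b ≠ 0 := by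
  intro h0
  have h1 := congrFun h0 0
  have h2 := congrFun h0 1
  simp only [Pi.add_apply, Pi.smul_apply, smul_eq_mul, Pi.zero_apply] at h1 h2
  apply hx
  have e0 : x 0 * (a 0 * b 1 - a 1 * b 0) = 0 := by linear_combination b 1 * h1 - b 0 * h2
  have e1 : x 1 * (a 0 * b 1 - a 1 * b 0) = 0 := by linear_combination a 0 * h2 - a 1 * h1
  funext i
  fin_cases i
  · exact (mul_eq_zero.1 e0).resolve_right h
  · exact (mul_eq_zero.1 e1).resolve_right h

/-- Every curve can be reparametrised so that a given point gets the parameter `(1, 0)`. -/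
theorem IsCurve.exists_reparam {d : ℕ} {φ : R →ₐ[ℂ] MvPolynomial (Fin 2) κ}
    {𝒜 : ℕ → Submodule ℂ R}
    (hφ : IsCurve 𝒜 d φ) (u : Fin 2 → κ) (hu : u ≠ 0) :
    ∃ φ' : R →ₐ[ℂ] MvPolynomial (Fin 2) κ, IsCurve 𝒜 d φ' ∧ pt φ' ![1, 0] = pt φ u := by
  obtain ⟨a, ha⟩ := exists_basis_fin_two u hu
  refine ⟨Vale.Agent.P292.reparam u a φ, hφ.reparam u a (ne_zero_of_det ?_), ?_⟩
  · intro h
    exact ha (by linear_combination -h)
  · rw [pt_reparam]
    congr 1
    simp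

/-- **Base points can be removed.** -/
theorem exists_div_basePoint (hX : IsContactFano 𝒜 P) (d : ℕ)
    (Φ : R →ₐ[ℂ] MvPolynomial (Fin 2) κ)
    (hΦ : ∀ k, ∀ r ∈ 𝒜 k, (Φ r).IsHomogeneous ((d + 1) * k)) (u : Fin 2 → κ) (hu : u ≠ 0)
    (hb : ∀ k, 0 < k → ∀ r ∈ 𝒜 k, eval u (Φ r) = 0) :
    ∃ (Φ' : R →ₐ[ℂ] MvPolynomial (Fin 2) κ) (c : Fin 2 → κ), c ≠ 0 ∧
      c 0 * u 0 + c 1 * u 1 = 0 ∧ (∀ k, ∀ r ∈ 𝒜 k, (Φ' r).IsHomogeneous (d * k)) ∧
      ∀ k, ∀ r ∈ 𝒜 k, Φ r = (C (c 0) * X 0 + C (c 1) * X 1) ^ k * Φ' r := by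
  have : Infinite κ := by
    have := charZero_of_injective_algebraMap (algebraMap ℂ κ).injective
    infer_instance
  obtain ⟨a, ha⟩ := exists_basis_fin_two u hu
  set D := a 0 * u 1 - a 1 * u 0 with hD
  obtain ⟨Ψ, h1, h2⟩ := exists_div_X_zero_pow hX d (reparam a u Φ)
    (fun k r hr => isHomogeneous_reparamHom a u (hΦ k r hr)) (fun k hk r hr => by
      rw [reparam_apply, eval_reparamHom]
      have : (![0, 1] : Fin 2 → κ) 0 • a + (![0, 1] : Fin 2 → κ) 1 • u = u := by simp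
      rw [this]
      exact hb k hk r hr)
  let a' : Fin 2 → κ := ![u 1 / D, - a 1 / D]
  let b' : Fin 2 → κ := ![- u 0 / D, a 0 / D]
  have hinv : ∀ p, reparamHom a' b' (reparamHom a u p) = p := by
    intro p
    apply MvPolynomial.funext
    intro y
    rw [eval_reparamHom, eval_reparamHom]
    congr 1
    congr 1
    funext i
    fin_cases i
    · simp [a', b']
      field_simp
      rw [hD]; ring
    · simp [a', b']
      field_simp
      rw [hD]; ring
  refine ⟨reparam a' b' Ψ, ![u 1 / D, - u 0 / D], ?_, ?_, fun k r hr =>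
    isHomogeneous_reparamHom a' b' (h1 k r hr), fun k r hr => ?_⟩
  · intro h
    have e0 := congrFun h 0
    have e1 := congrFun h 1
    simp [ha] at e0 e1
    apply hu
    funext i
    fin_cases i
    · exact e1
    · exact e0
  · simp
    ring
  · have h3 := congrArg (reparamHom a' b') (h2 k r hr)
    rw [reparam_apply, hinv, map_mul, map_pow] at h3
    rw [h3]
    congr 2
    simp [reparamHom, a', b']

/-- Removing a base point, at the level of the values at given nonvertex points. -/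
theorem isCurve_or_exists_div (hX : IsContactFano 𝒜 P) (d : ℕ)
    (Φ : R →ₐ[ℂ] MvPolynomial (Fin 2) κ)
    (hΦ : ∀ k, ∀ r ∈ 𝒜 k, (Φ r).IsHomogeneous ((d + 1) * k)) :
    IsCurve 𝒜 (d + 1) Φ ∨ ∃ (Φ' : R →ₐ[ℂ] MvPolynomial (Fin 2) κ) (l : (Fin 2 → κ) → κ),
      (∀ k, ∀ r ∈ 𝒜 k, (Φ' r).IsHomogeneous (d * k)) ∧
      (∀ x, ∀ k, ∀ r ∈ 𝒜 k, eval x (Φ r) = l x ^ k * eval x (Φ' r)) ∧
      ∀ x, (∃ k, 0 < k ∧ ∃ r ∈ 𝒜 k, eval x (Φ r) ≠ 0) → l x ≠ 0 := by
  by_cases hb : ∀ x : Fin 2 → κ, x ≠ 0 → ∃ k, 0 < k ∧ ∃ r ∈ 𝒜 k, aeval x (Φ r) ≠ 0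
  · exact Or.inl ⟨hΦ, hb⟩
  · right
    push Not at hb
    obtain ⟨u, hu, hb⟩ := hb
    obtain ⟨Φ', c, -, -, h1, h2⟩ := exists_div_basePoint hX d Φ hΦ u hu (fun k hk r hr => by
      rw [← aeval_eq_eval]; exact hb k hk r hr)
    have h3 : ∀ x, ∀ k, ∀ r ∈ 𝒜 k, eval x (Φ r) =
        (c 0 * x 0 + c 1 * x 1) ^ k * eval x (Φ' r) := by
      intro x k r hr
      rw [h2 k r hr, map_mul, map_pow]
      congr 2
      simp
    refine ⟨Φ', fun x => c 0 * x 0 + c 1 * x 1, h1, h3, ?_⟩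
    rintro x ⟨k, hk, r, hr, h⟩ h0
    apply h
    have h0' : c 0 * x 0 + c 1 * x 1 = 0 := h0
    rw [h3 x k r hr, h0', zero_pow hk.ne', zero_mul]

omit [GradedAlgebra 𝒜] in
/-- A graded map of degree zero is constant. -/
theorem eval_eq_of_degree_zero (Φ : R →ₐ[ℂ] MvPolynomial (Fin 2) κ)
    (hΦ : ∀ k, ∀ r ∈ 𝒜 k, (Φ r).IsHomogeneous (0 * k)) (x y : Fin 2 → κ) (k : ℕ) (r : R)
    (hr : r ∈ 𝒜 k) : eval x (Φ r) = eval y (Φ r) := by
  have h := hΦ k r hr
  rw [zero_mul] at h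
  have h2 : Φ r = C (coeff 0 (Φ r)) := by
    rw [← totalDegree_eq_zero_iff_eq_C]
    exact Nat.le_zero.1 h.totalDegree_le
  rw [h2, eval_C, eval_C]

/-- **Degree one.** A graded map of degree one is a line, or all its nonvertex values are
proportional. -/
theorem isCurve_one_or (hX : IsContactFano 𝒜 P) (Φ : R →ₐ[ℂ] MvPolynomial (Fin 2) κ)
    (hΦ : ∀ k, ∀ r ∈ 𝒜 k, (Φ r).IsHomogeneous (1 * k)) (x y : Fin 2 → κ)
    (hx : ∃ k, 0 < k ∧ ∃ r ∈ 𝒜 k, eval x (Φ r) ≠ 0)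
    (hy : ∃ k, 0 < k ∧ ∃ r ∈ 𝒜 k, eval y (Φ r) ≠ 0) :
    IsCurve 𝒜 1 Φ ∨ ∃ c : κ, c ≠ 0 ∧ ∀ k, ∀ r ∈ 𝒜 k, eval y (Φ r) = c ^ k * eval x (Φ r) := by
  rcases isCurve_or_exists_div hX 0 Φ hΦ with h | ⟨Φ', l, h1, h2, h3⟩
  · exact Or.inl h
  · right
    refine ⟨l y / l x, div_ne_zero (h3 y hy) (h3 x hx), fun k r hr => ?_⟩
    rw [h2 x k r hr, h2 y k r hr, eval_eq_of_degree_zero Φ' h1 y x k r hr, div_pow]
    have := pow_ne_zero k (h3 x hx)
    field_simp

/-- The residue field of a place of an algebraically closed field is algebraically closed. -/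
theorem isAlgClosed_of_isPlace {L : Type v} [Field L] [Algebra ℂ L] [IsAlgClosed L] {κ : Type w}
    [Field κ] [Algebra ℂ κ] {Γ : Type*} [LinearOrderedCommGroupWithZero Γ] {v : Valuation L Γ}
    {res : L → κ} (hp : IsPlace v res) (hs : ∀ y, ∃ x, v x ≤ 1 ∧ res x = y) :
    IsAlgClosed κ := by
  classical
  refine IsAlgClosed.of_exists_root κ fun f hf hirr => ?_
  choose c hc1 hc2 using fun i => hs (f.coeff i)
  have hn : 0 < f.natDegree := hirr.natDegree_pos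
  set n := f.natDegree with hnd
  let g : Polynomial L := Polynomial.X ^ n + ∑ i ∈ Finset.range n, Polynomial.monomial i (c i)
  have hgdeg : (∑ i ∈ Finset.range n, Polynomial.monomial i (c i) : Polynomial L).degree < n := by
    refine lt_of_le_of_lt (Polynomial.degree_sum_le _ _) ?_
    refine (Finset.sup_lt_iff (WithBot.bot_lt_coe n)).2 ?_
    intro i hi
    exact lt_of_le_of_lt (Polynomial.degree_monomial_le _ _)
      (WithBot.coe_lt_coe.2 (Finset.mem_range.1 hi))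
  have hgn : g.degree = n := by
    have h := Polynomial.degree_add_eq_left_of_degree_lt (p := (Polynomial.X ^ n : Polynomial L))
      (q := ∑ i ∈ Finset.range n, Polynomial.monomial i (c i)) (by
        rw [Polynomial.degree_X_pow]; exact hgdeg)
    rw [Polynomial.degree_X_pow] at h
    exact h
  obtain ⟨x, hx⟩ := IsAlgClosed.exists_root g (by
    rw [hgn]
    exact_mod_cast hn.ne')
  have hgx : x ^ n + ∑ i ∈ Finset.range n, c i * x ^ i = 0 := by
    have h := hx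
    rw [Polynomial.IsRoot.def] at h
    simpa [g, Polynomial.eval_finsetSum] using h
  -- the root is integral
  have hvx : v x ≤ 1 := by
    by_contra hcon
    push Not at hcon
    have h1 : v (∑ i ∈ Finset.range n, c i * x ^ i) < v (x ^ n) := by
      refine v.map_sum_lt ?_ fun i hi => ?_
      · exact (Valuation.ne_zero_iff v).2 (pow_ne_zero _ (fun h => by
          rw [h, map_zero] at hcon; exact absurd hcon (not_lt.2 zero_le)))
      · rw [map_mul, map_pow, map_pow]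
        have h2 : v (c i) * v x ^ i ≤ v x ^ i := by
          calc v (c i) * v x ^ i ≤ 1 * v x ^ i := mul_le_mul_of_nonneg_right (hc1 i) zero_le
            _ = _ := one_mul _
        exact lt_of_le_of_lt h2 (pow_lt_pow_right₀ hcon (Finset.mem_range.1 hi))
    have h3 : v (∑ i ∈ Finset.range n, c i * x ^ i) = v (x ^ n) := by
      rw [eq_neg_of_add_eq_zero_right hgx, Valuation.map_neg]
    exact absurd h1 (by rw [h3]; exact lt_irrefl _)
  refine ⟨res x, ?_⟩
  have h4 := congrArg res hgx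
  have hpow : ∀ i, v (x ^ i) ≤ 1 := fun i => by rw [map_pow]; exact pow_le_one' hvx i
  have hterm : ∀ i, v (c i * x ^ i) ≤ 1 := fun i => by
    rw [map_mul]
    exact mul_le_one' (hc1 i) (hpow i)
  rw [hp.map_zero, hp.map_add _ _ (hpow n) (v.map_sum_le fun i _ => hterm i),
    hp.map_sum _ _ (fun i _ => hterm i), hp.map_pow x hvx] at h4
  rw [Polynomial.eval_eq_sum_range, ← hnd, Finset.sum_range_succ,
    show f.coeff n = 1 from hf, one_mul, add_comm, ← h4]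
  congr 1
  refine Finset.sum_congr rfl fun i _ => ?_
  rw [hp.map_mul _ _ (hc1 i) (hpow i), hc2, hp.map_pow x hvx]

end Vale.Agent.P292
end

section

/-! # Part II.a: small extensions -/

namespace Vale.Agent.P292.Mo

open TensorProduct

universe u v w

section expand
variable {k : Type*} [Field k] {K : Type*} [AddCommGroup K] [Module k K]
  {B : Type*} [CommRing B] [Algebra k B]

/-- induction on the coefficients in `B` -/
theorem coeff_induction {U : Set B} {p : B ⊗[k] K → Prop} {y : B ⊗[k] K}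
    (hy : ∀ l : K →ₗ[k] k, lamB B l y ∈ U) (h0 : p 0) (ht : ∀ c ∈ U, ∀ b, p (c ⊗ₜ b))
    (ha : ∀ x y, p x → p y → p (x + y)) : p y := by
  classical
  let b := Module.Basis.ofVectorSpace k K
  let bB := Algebra.TensorProduct.basis B b
  have hc : ∀ (x : B ⊗[k] K) i, bB.repr x i = lamB B (b.coord i) x := by
    intro x i
    induction x using TensorProduct.induction_on with
    | zero => simp
    | tmul c a =>
      rw [lamB_tmul, Algebra.TensorProduct.basis_repr_tmul]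
      simp [Algebra.smul_def, mul_comm]
    | add x y hx hy => rw [map_add, map_add, Finsupp.add_apply, hx, hy]
  have h1 := bB.linearCombination_repr y
  rw [← h1, Finsupp.linearCombination_apply, Finsupp.sum]
  refine Finset.sum_induction _ p ha h0 fun i _ => ?_
  rw [hc, Algebra.TensorProduct.basis_apply, TensorProduct.smul_tmul', smul_eq_mul, mul_one]
  exact ht _ (hy _) _

end expand

section small
variable {k : Type*} [Field k] {K : Type*} [CommRing K] [Algebra k K]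
  {O₁ O : Type*} [CommRing O₁] [CommRing O] [Algebra k O₁] [Algebra k O]

/-- contraction of the first factor with a functional -/
noncomputable def mu (K : Type*) [CommRing K] [Algebra k K] (l : O₁ →ₗ[k] k) : O₁ ⊗[k] K →ₗ[k] K :=
  (TensorProduct.lid k K).toLinearMap ∘ₗ l.rTensor K

@[simp] theorem mu_tmul (l : O₁ →ₗ[k] k) (a : O₁) (b : K) : mu K l (a ⊗ₜ b) = l a • b := by
  simp [mu]

theorem mu_mul (l : O₁ →ₗ[k] k) (a : K) (y : O₁ ⊗[k] K) :
    mu K l ((1 ⊗ₜ a) * y) = a * mu K l y := by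
  induction y using TensorProduct.induction_on with
  | zero => simp
  | tmul b c => simp
  | add x y hx hy => rw [mul_add, map_add, map_add, hx, hy, mul_add]

/-- evaluation at a point -/
noncomputable def ez (K : Type*) [CommRing K] [Algebra k K] (e : O₁ →ₐ[k] k) : O₁ ⊗[k] K →ₐ[k] K :=
  (Algebra.TensorProduct.lid k K).toAlgHom.comp (chg K e)

@[simp] theorem ez_tmul (e : O₁ →ₐ[k] k) (a : O₁) (b : K) : ez K e (a ⊗ₜ b) = e a • b := by
  simp [ez]

/-- a small extension of `k`-algebras -/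
structure IsSmall (π : O₁ →ₐ[k] O) (e₁ : O₁ →ₐ[k] k) : Prop where
  surj : Function.Surjective π
  small : ∀ w, π w = 0 → ∀ a, a * w = e₁ a • w
  le : ∀ w, π w = 0 → e₁ w = 0
  nil : IsNilpotent (RingHom.ker e₁)

variable {π : O₁ →ₐ[k] O} {e₁ : O₁ →ₐ[k] k}

theorem ker_induction (π : O₁ →ₐ[k] O) {p : O₁ ⊗[k] K → Prop} {y : O₁ ⊗[k] K}
    (hy : chg K π y = 0)
    (h0 : p 0) (ht : ∀ c, π c = 0 → ∀ b, p (c ⊗ₜ b)) (ha : ∀ x y, p x → p y → p (x + y)) :
    p y := by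
  refine coeff_induction (U := {c | π c = 0}) (fun l => ?_) h0 ht ha
  change π (lamB O₁ l y) = 0
  rw [← lamB_chg, hy, map_zero]

/-- elements of the kernel are multiplied through the residue field -/
theorem IsSmall.mul_ker (h : IsSmall π e₁) {y : O₁ ⊗[k] K} (hy : chg K π y = 0)
    (z : O₁ ⊗[k] K) : z * y = (1 ⊗ₜ ez K e₁ z) * y := by
  refine ker_induction π (p := fun y => z * y = (1 ⊗ₜ ez K e₁ z) * y) hy ?_ ?_ ?_
  · rw [mul_zero, mul_zero]
  · intro c hc b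
    induction z using TensorProduct.induction_on with
    | zero => simp
    | tmul a b' =>
      rw [ez_tmul, Algebra.TensorProduct.tmul_mul_tmul, Algebra.TensorProduct.tmul_mul_tmul,
        h.small c hc a, one_mul, TensorProduct.smul_tmul, smul_mul_assoc]
    | add x y hx hy => rw [add_mul, hx, hy, map_add, TensorProduct.tmul_add, add_mul]
  · intro x y hx hy
    rw [mul_add, mul_add, hx, hy]

theorem chg_surjective (h : IsSmall π e₁) : Function.Surjective (chg K π) := by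
  have := LinearMap.rTensor_surjective K (g := π.toLinearMap) h.surj
  exact this

/-- the kernel of `O₁ ⊗ K → O ⊗ K` has square zero -/
theorem IsSmall.ker_sq (h : IsSmall π e₁) :
    RingHom.ker (chg K π) ^ 2 = ⊥ := by
  rw [pow_two, eq_bot_iff, Ideal.mul_le]
  intro y hy z hz
  have hy' : chg K π y = 0 := hy
  have hz' : chg K π z = 0 := hz
  rw [Ideal.mem_bot, h.mul_ker hz']
  have h1 : ez K e₁ y = 0 := by
    refine ker_induction π (p := fun y => ez K e₁ y = 0) hy' (map_zero _) ?_ ?_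
    · intro c hc b
      rw [ez_tmul, h.le c hc, zero_smul]
    · intro x y hx hy
      rw [map_add, hx, hy, add_zero]
  rw [h1, TensorProduct.tmul_zero, zero_mul]

/-- elements which are units at the closed point are units -/
theorem isUnit_of_ez (hnil : IsNilpotent (RingHom.ker e₁)) {y : O₁ ⊗[k] K}
    (hy : IsUnit (ez K e₁ y)) : IsUnit y := by
  obtain ⟨N, hN⟩ := hnil
  obtain ⟨z, hz⟩ := hy.exists_right_inv
  have h1 : ez K e₁ (y * (1 ⊗ₜ z) - 1) = 0 := by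
    rw [map_sub, map_mul, ez_tmul, map_one, one_smul, hz, map_one, sub_self]
  -- the kernel of `ez` is nilpotent
  have key : ∀ x : O₁ ⊗[k] K, ez K e₁ x = 0 → ∀ j, x ^ j ∈
      (RingHom.ker e₁ ^ j).map (Algebra.TensorProduct.includeLeft :
        O₁ →ₐ[k] O₁ ⊗[k] K) := by
    intro x hx j
    rw [Ideal.map_pow]
    refine Ideal.pow_mem_pow ?_ j
    have h2 : chg K e₁ x = 0 := by
      apply (Algebra.TensorProduct.lid k K).injective
      rw [map_zero]
      exact hx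
    refine ker_induction e₁ (p := fun x => x ∈ (RingHom.ker e₁).map
      (Algebra.TensorProduct.includeLeft : O₁ →ₐ[k] O₁ ⊗[k] K)) h2 (zero_mem _) ?_
      (fun x y hx hy => add_mem hx hy)
    intro c hc b
    have h3 : (c ⊗ₜ[k] b : O₁ ⊗[k] K) = (c ⊗ₜ 1) * (1 ⊗ₜ b) := by simp
    rw [h3]
    exact Ideal.mul_mem_right _ _ (Ideal.mem_map_of_mem _ hc)
  have h4 : IsNilpotent (y * (1 ⊗ₜ z) - 1) := by
    refine ⟨N, ?_⟩
    have h5 := key _ h1 N
    rw [hN] at h5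
    simpa using h5
  have h6 : IsUnit (y * (1 ⊗ₜ z)) := by
    have h7 := h4.isUnit_one_add
    rwa [add_sub_cancel] at h7
  exact isUnit_of_mul_isUnit_left h6

end small

end Vale.Agent.P292.Mo
end

section

/-! # Part II.a: lifts of the universal family over a small extension -/

namespace Vale.Agent.P292.Mo

open TensorProduct

universe u v w

section aux
variable {k : Type*} [Field k] {K : Type*} [Field K] [Algebra k K]
  {B : Type*} [CommRing B] [Algebra k B]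

/-- membership in the second chart condition -/
theorem mem_InB_comap {A₁ : Subalgebra k K} {c : K} (hc : c ≠ 0) {x : B ⊗[k] K} :
    x ∈ InB B ((Subalgebra.toSubmodule A₁).comap (LinearMap.mulLeft k c)) ↔
      (1 ⊗ₜ c) * x ∈ subB B A₁ := by
  have h1 : ∀ (a : K) (l : K →ₗ[k] k) (x : B ⊗[k] K),
      lamB B l ((1 ⊗ₜ a) * x) = lamB B (l ∘ₗ LinearMap.mulLeft k a) x := by
    intro a l x
    induction x using TensorProduct.induction_on with
    | zero => simp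
    | tmul b c => simp
    | add x y hx hy => rw [mul_add, map_add, map_add, hx, hy]
  rw [mem_subB]
  constructor
  · intro h l hl
    rw [h1]
    exact h _ fun v hv => hl _ hv
  · intro h l hl
    have h2 := h (l ∘ₗ LinearMap.mulLeft k c⁻¹) (fun v hv => by
      refine hl _ ?_
      rw [Submodule.mem_comap, LinearMap.mulLeft_apply, LinearMap.mulLeft_apply,
        mul_inv_cancel_left₀ hc]
      exact hv)
    rw [h1] at h2
    have h3 : (l ∘ₗ LinearMap.mulLeft k c⁻¹) ∘ₗ LinearMap.mulLeft k c = l := by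
      ext x
      simp only [LinearMap.comp_apply, LinearMap.mulLeft_apply]
      rw [inv_mul_cancel_left₀ hc]
    rwa [h3] at h2

variable {R : Type*} [CommRing R] [Algebra k R] {M : ℕ} {x : Fin M → R}

/-- homomorphisms from `R` into a quotient -/
theorem exists_desc (hgen : Function.Surjective (MvPolynomial.aeval (R := k) x))
    {C : Type*} [CommRing C] [Algebra k C] (g : MvPolynomial (Fin M) k →ₐ[k] C) (L : Ideal C)
    (h : ∀ f, MvPolynomial.aeval x f = 0 → g f ∈ L) :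
    ∃ ψ : R →ₐ[k] C ⧸ L, ∀ f, ψ (MvPolynomial.aeval x f) = Ideal.Quotient.mk L (g f) := by
  let π : MvPolynomial (Fin M) k →ₐ[k] R := MvPolynomial.aeval x
  let e := Ideal.quotientKerAlgEquivOfSurjective (f := π) hgen
  let g' : (MvPolynomial (Fin M) k ⧸ RingHom.ker π) →ₐ[k] C ⧸ L :=
    Ideal.Quotient.liftₐ (RingHom.ker π) ((Ideal.Quotient.mkₐ k L).comp g)
      (fun f hf => Ideal.Quotient.eq_zero_iff_mem.2 (h f hf))
  refine ⟨g'.comp e.symm.toAlgHom, fun f => ?_⟩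
  have h1 : e.symm (π f) = Ideal.Quotient.mk _ f := by
    rw [AlgEquiv.symm_apply_eq]
    rfl
  change g' (e.symm (π f)) = _
  rw [h1]
  rfl

/-- lifting homomorphisms given on polynomials modulo a nilpotent ideal -/
theorem exists_lift_mod (hgen : Function.Surjective (MvPolynomial.aeval (R := k) x))
    {s : R} (hsm : Algebra.FormallySmooth k (Localization.Away s))
    {C : Type*} [CommRing C] [Algebra k C] (g : MvPolynomial (Fin M) k →ₐ[k] C) (L : Ideal C)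
    (hL : IsNilpotent L) (h : ∀ f, MvPolynomial.aeval x f = 0 → g f ∈ L)
    (hu : ∀ f, MvPolynomial.aeval x f = s → IsUnit (g f)) :
    ∃ Ψ : R →ₐ[k] C, ∀ f, Ψ (MvPolynomial.aeval x f) - g f ∈ L := by
  obtain ⟨ψ, hψ⟩ := exists_desc hgen g L h
  have hnil : IsNilpotent (RingHom.ker (Ideal.Quotient.mkₐ k L)) := by
    have h1 : RingHom.ker (Ideal.Quotient.mkₐ k L) = L := Ideal.mk_ker
    rwa [h1]
  have hunit : IsUnit (ψ s) := by
    obtain ⟨f, hf⟩ := hgen s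
    have hf' : MvPolynomial.aeval x f = s := hf
    rw [← hf', hψ]
    exact IsUnit.map _ (hu f hf')
  obtain ⟨Ψ', hΨ'⟩ := exists_lift_of_smooth hsm (Ideal.Quotient.mkₐ k L)
    (Ideal.Quotient.mkₐ_surjective k _) hnil ψ hunit
  exact ⟨Ψ', fun f => (Ideal.Quotient.mk_eq_mk_iff_sub_mem _ _).1
    ((hΨ' (MvPolynomial.aeval x f)).trans (hψ f))⟩

/-- polynomials in the generators: a subalgebra containing the values at the variables contains
all values -/
theorem mem_of_X {C : Type*} [CommRing C] [Algebra k C] (g : MvPolynomial (Fin M) k →ₐ[k] C)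
    (S : Subalgebra k C) (h : ∀ i, g (MvPolynomial.X i) ∈ S) (f : MvPolynomial (Fin M) k) :
    g f ∈ S := by
  induction f using MvPolynomial.induction_on with
  | C a =>
    rw [← MvPolynomial.algebraMap_eq, AlgHom.commutes]
    exact S.algebraMap_mem a
  | add p q hp hq => rw [map_add]; exact add_mem hp hq
  | mul_X p i hp => rw [map_mul]; exact mul_mem hp (h i)

/-- congruence modulo the marks -/
theorem sub_mem_of_X {A₀ : Subalgebra k K} {I : Submodule k K} (hI : ∀ a ∈ I, a ∈ A₀)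
    (hIm : ∀ a ∈ A₀, ∀ b ∈ I, a * b ∈ I) (φ : R →ₐ[k] K) (hφ : ∀ r, φ r ∈ A₀)
    (g : MvPolynomial (Fin M) k →ₐ[k] B ⊗[k] K)
    (h : ∀ i, g (MvPolynomial.X i) - 1 ⊗ₜ φ (x i) ∈ InB B I) (f : MvPolynomial (Fin M) k) :
    g f - 1 ⊗ₜ φ (MvPolynomial.aeval x f) ∈ InB B I := by
  have hg : ∀ f, g f ∈ subB B A₀ := by
    refine mem_of_X g (subB B A₀) fun i => ?_
    have h1 : g (MvPolynomial.X i) = (g (MvPolynomial.X i) - 1 ⊗ₜ φ (x i)) + 1 ⊗ₜ φ (x i) := by
      rw [sub_add_cancel]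
    rw [h1, mem_subB]
    exact add_mem (InB_mono B (fun a ha => hI a ha) (h i)) (tmul_mem_InB B _ (hφ _))
  induction f using MvPolynomial.induction_on with
  | C a =>
    rw [← MvPolynomial.algebraMap_eq, AlgHom.commutes, AlgHom.commutes, AlgHom.commutes,
      Algebra.TensorProduct.algebraMap_apply, Algebra.algebraMap_eq_smul_one,
      Algebra.algebraMap_eq_smul_one, TensorProduct.smul_tmul, sub_self]
    exact zero_mem _
  | add p q hp hq =>
    rw [map_add, map_add, map_add, TensorProduct.tmul_add, add_sub_add_comm]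
    exact add_mem hp hq
  | mul_X p i hp =>
    have h1 : g (p * MvPolynomial.X i) - 1 ⊗ₜ φ (MvPolynomial.aeval x (p * MvPolynomial.X i)) =
        g p * (g (MvPolynomial.X i) - 1 ⊗ₜ φ (x i)) +
          (1 ⊗ₜ φ (x i)) * (g p - 1 ⊗ₜ φ (MvPolynomial.aeval x p)) := by
      rw [map_mul, map_mul, map_mul, MvPolynomial.aeval_X]
      have h2 : (1 : B) ⊗ₜ[k] (φ (MvPolynomial.aeval x p) * φ (x i)) =
        (1 ⊗ₜ φ (x i)) * (1 ⊗ₜ φ (MvPolynomial.aeval x p)) := by
          rw [Algebra.TensorProduct.tmul_mul_tmul, mul_one, mul_comm]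
      rw [h2]
      ring
    rw [h1]
    have hIm' : ∀ a ∈ Subalgebra.toSubmodule A₀, ∀ b ∈ I, a * b ∈ I := hIm
    exact add_mem (mul_mem_InB hIm' (mem_subB.1 (hg p)) (h i))
      (mul_mem_InB hIm' (tmul_mem_InB B _ (hφ _)) hp)

end aux

section lifts
variable {k : Type*} [Field k] {R : Type*} [CommRing R] [Algebra k R] {𝒜 : ℕ → Submodule k R}
  [GradedAlgebra 𝒜] {K : Type*} [Field K] [Algebra k K] {M : ℕ} {x : Fin M → R}
  {A₀ A₁ : Subalgebra k K} {u : K} {I : Submodule k K} {φ : R →ₐ[k] K}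
  {O₁ O : Type*} [CommRing O₁] [CommRing O] [Algebra k O₁] [Algebra k O]
  {π : O₁ →ₐ[k] O} {e₁ : O₁ →ₐ[k] k}

theorem incB_chg (A₀ : Subalgebra k K) (π : O₁ →ₐ[k] O) (y : O₁ ⊗[k] A₀) :
    incB O A₀ (chg A₀ π y) = chg K π (incB O₁ A₀ y) := by
  induction y using TensorProduct.induction_on with
  | zero => simp
  | tmul a b => simp
  | add x y hx hy => rw [map_add, map_add, map_add, map_add, hx, hy]

theorem coe_ez (A₀ : Subalgebra k K) (e₁ : O₁ →ₐ[k] k) (y : O₁ ⊗[k] A₀) :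
    ((ez A₀ e₁ y : A₀) : K) = ez K e₁ (incB O₁ A₀ y) := by
  induction y using TensorProduct.induction_on with
  | zero => simp
  | tmul a b => simp
  | add x y hx hy => rw [map_add, map_add, map_add, ← hx, ← hy]; rfl

/-- the ideal of the elements of `O₁ ⊗ A₀` which vanish over `O` and at the marks -/
theorem exists_markIdeal (hs : IsSmall π e₁) (A₀ : Subalgebra k K) (I : Submodule k K)
    (hIm : ∀ a ∈ A₀, ∀ b ∈ I, a * b ∈ I) :
    ∃ L : Ideal (O₁ ⊗[k] A₀), IsNilpotent L ∧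
      ∀ y, y ∈ L ↔ chg K π (incB O₁ A₀ y) = 0 ∧ incB O₁ A₀ y ∈ InB O₁ I := by
  have hIm' : ∀ a ∈ Subalgebra.toSubmodule A₀, ∀ b ∈ I, a * b ∈ I := hIm
  refine ⟨RingHom.ker (chg A₀ π) ⊓
    { carrier := {y | incB O₁ A₀ y ∈ InB O₁ I}
      add_mem' := fun {a b} ha hb => by
        change incB O₁ A₀ (a + b) ∈ InB O₁ I
        rw [map_add]; exact add_mem ha hb
      zero_mem' := by
        change incB O₁ A₀ 0 ∈ InB O₁ I
        rw [map_zero]; exact zero_mem _
      smul_mem' := fun c y hy => by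
        change incB O₁ A₀ (c * y) ∈ InB O₁ I
        rw [map_mul]
        exact mul_mem_InB hIm' (mem_subB.1 (mem_subB_iff.2 ⟨c, rfl⟩)) hy }, ?_, ?_⟩
  · refine ⟨2, ?_⟩
    rw [Ideal.zero_eq_bot, ← le_bot_iff]
    exact (Ideal.pow_right_mono inf_le_left 2).trans (hs.ker_sq (K := A₀)).le
  · intro y
    rw [Ideal.mem_inf]
    refine and_congr ?_ Iff.rfl
    rw [RingHom.mem_ker, ← incB_chg]
    exact (map_eq_zero_iff _ (incB_injective A₀)).symm

/-- the lift on the first chart, with the right values at the marks -/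
theorem exists_lift0 (hs : IsSmall π e₁)
    (hgen : Function.Surjective (MvPolynomial.aeval (R := k) x))
    (hI : ∀ a ∈ I, a ∈ A₀) (hIm : ∀ a ∈ A₀, ∀ b ∈ I, a * b ∈ I) (hφ : ∀ r, φ r ∈ A₀)
    {s : R} (hsm : Algebra.FormallySmooth k (Localization.Away s)) (hs0 : φ s ≠ 0)
    (hs1 : (φ s)⁻¹ ∈ A₀) (Ψ : R →ₐ[k] O ⊗[k] K)
    (g : MvPolynomial (Fin M) k →ₐ[k] O₁ ⊗[k] K)
    (hg : ∀ i, g (MvPolynomial.X i) - 1 ⊗ₜ φ (x i) ∈ InB O₁ I)
    (hge : ∀ i, ez K e₁ (g (MvPolynomial.X i)) = φ (x i))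
    (hgΨ : ∀ f, chg K π (g f) = Ψ (MvPolynomial.aeval x f)) :
    ∃ Ψ₀ : R →ₐ[k] O₁ ⊗[k] K, (∀ r, Ψ₀ r ∈ subB O₁ A₀) ∧ (∀ r, chg K π (Ψ₀ r) = Ψ r) ∧
      (∀ r, Ψ₀ r - 1 ⊗ₜ φ r ∈ InB O₁ I) := by
  have hgI := sub_mem_of_X (x := x) hI hIm φ hφ g hg
  have hgA : ∀ f, g f ∈ subB O₁ A₀ := by
    refine mem_of_X g (subB O₁ A₀) fun i => ?_
    have h1 : g (MvPolynomial.X i) = (g (MvPolynomial.X i) - 1 ⊗ₜ φ (x i)) + 1 ⊗ₜ φ (x i) := by
      rw [sub_add_cancel]
    rw [h1, mem_subB]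
    exact add_mem (InB_mono O₁ (fun a ha => hI a ha) (hg i)) (tmul_mem_InB O₁ _ (hφ _))
  obtain ⟨g', hg'⟩ := exists_factor (S := A₀) g hgA
  obtain ⟨L, hLn, hL⟩ := exists_markIdeal hs A₀ I hIm
  have hdesc : ∀ f, MvPolynomial.aeval x f = 0 → g' f ∈ L := by
    intro f hf
    rw [hL, hg', hgΨ, hf, map_zero]
    refine ⟨rfl, ?_⟩
    have h1 := hgI f
    rwa [hf, map_zero, TensorProduct.tmul_zero, sub_zero] at h1
  obtain ⟨Ψ', hdiff⟩ := exists_lift_mod hgen hsm g' L hLn hdesc (fun f hf' => by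
    refine isUnit_of_ez hs.nil ?_
    have h1 : ((ez A₀ e₁ (g' f) : A₀) : K) = φ s := by
      rw [coe_ez, hg']
      have h3 : (ez K e₁).comp g = φ.comp (MvPolynomial.aeval x) := by
        refine MvPolynomial.algHom_ext fun i => ?_
        rw [AlgHom.comp_apply, AlgHom.comp_apply, hge, MvPolynomial.aeval_X]
      have h4 := DFunLike.congr_fun h3 f
      rw [AlgHom.comp_apply, AlgHom.comp_apply] at h4
      rw [h4, hf']
    refine isUnit_iff_exists_inv.2 ⟨⟨(φ s)⁻¹, hs1⟩, ?_⟩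
    apply Subtype.ext
    change ((ez A₀ e₁ (g' f) : A₀) : K) * (φ s)⁻¹ = 1
    rw [h1, mul_inv_cancel₀ hs0])
  refine ⟨(incB O₁ A₀).comp Ψ', fun r => mem_subB_iff.2 ⟨Ψ' r, rfl⟩, fun r => ?_, fun r => ?_⟩
  · obtain ⟨f, rfl⟩ := hgen r
    have h4 := ((hL _).1 (hdiff f)).1
    rw [map_sub, map_sub, hg', hgΨ, sub_eq_zero] at h4
    exact h4
  · obtain ⟨f, rfl⟩ := hgen r
    have h3 := ((hL _).1 (hdiff f)).2
    rw [map_sub, hg'] at h3
    have h4 := add_mem h3 (hgI f)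
    rw [sub_add_sub_cancel] at h4
    exact h4

end lifts

end Vale.Agent.P292.Mo
end

section

/-! # Part II.a: the tangent space of an ideal of polynomials at the origin -/

namespace Vale.Agent.P292.Mo

open TensorProduct MvPolynomial

section comm
variable {k : Type*} [Field k] {σ : Type*}

/-- polynomials without constant term -/
noncomputable abbrev m0 (k : Type*) [Field k] (σ : Type*) : Ideal (MvPolynomial σ k) :=
  RingHom.ker (MvPolynomial.constantCoeff (R := k) (σ := σ))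

/-- the Zariski tangent space at the origin -/
noncomputable def tanJ [Fintype σ] (J : Ideal (MvPolynomial σ k)) : Submodule k (σ → k) where
  carrier := {c | ∀ f ∈ J, ∑ s, c s * coeff (Finsupp.single s 1) f = 0}
  add_mem' := fun {a b} ha hb f hf => by
    simp only [Pi.add_apply, add_mul, Finset.sum_add_distrib]
    rw [ha f hf, hb f hf, add_zero]
  zero_mem' := fun f _ => by simp
  smul_mem' := fun a c hc f hf => by
    simp only [Pi.smul_apply, smul_eq_mul, mul_assoc]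
    rw [← Finset.mul_sum, hc f hf, mul_zero]

theorem mem_tanJ [Fintype σ] {J : Ideal (MvPolynomial σ k)} {c : σ → k} :
    c ∈ tanJ J ↔ ∀ f ∈ J, ∑ s, c s * coeff (Finsupp.single s 1) f = 0 := Iff.rfl

end comm

end Vale.Agent.P292.Mo
end

section

/-! # Part II.a: the obstruction map -/

namespace Vale.Agent.P292.Mo

open TensorProduct MvPolynomial

section key
variable {k : Type*} [Field k] {R : Type*} [CommRing R] [Algebra k R] {𝒜 : ℕ → Submodule k R}
  {K : Type*} [Field K] [Algebra k K] {M : ℕ} {x : Fin M → R} {d : Fin M → ℕ}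
  {A₀ A₁ : Subalgebra k K} {u : K} {I : Submodule k K} {φ : R →ₐ[k] K}
  {O₁ O : Type*} [CommRing O₁] [CommRing O] [Algebra k O₁] [Algebra k O]
  {π : O₁ →ₐ[k] O} {e₁ : O₁ →ₐ[k] k}

/-- the difference of two lifts -/
noncomputable def dd (Ψ₀ Ψ₁ : R →ₐ[k] O₁ ⊗[k] K) : R →ₗ[k] O₁ ⊗[k] K :=
  Ψ₁.toLinearMap - Ψ₀.toLinearMap

theorem dd_apply (Ψ₀ Ψ₁ : R →ₐ[k] O₁ ⊗[k] K) (r : R) : dd Ψ₀ Ψ₁ r = Ψ₁ r - Ψ₀ r := rfl

theorem chg_dd {Ψ : R →ₐ[k] O ⊗[k] K} {Ψ₀ Ψ₁ : R →ₐ[k] O₁ ⊗[k] K}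
    (h0 : ∀ r, chg K π (Ψ₀ r) = Ψ r) (h1 : ∀ r, chg K π (Ψ₁ r) = Ψ r) (r : R) :
    chg K π (dd Ψ₀ Ψ₁ r) = 0 := by
  rw [dd_apply, map_sub, h0, h1, sub_self]

theorem dd_mul (hs : IsSmall π e₁) {Ψ : R →ₐ[k] O ⊗[k] K} {Ψ₀ Ψ₁ : R →ₐ[k] O₁ ⊗[k] K}
    (h0 : ∀ r, chg K π (Ψ₀ r) = Ψ r) (h1 : ∀ r, chg K π (Ψ₁ r) = Ψ r)
    (he0 : ∀ r, ez K e₁ (Ψ₀ r) = φ r) (he1 : ∀ r, ez K e₁ (Ψ₁ r) = φ r) (r s : R) :
    dd Ψ₀ Ψ₁ (r * s) = (1 ⊗ₜ φ r) * dd Ψ₀ Ψ₁ s + (1 ⊗ₜ φ s) * dd Ψ₀ Ψ₁ r := by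
  rw [← he1 r, ← he0 s, ← hs.mul_ker (chg_dd h0 h1 s), ← hs.mul_ker (chg_dd h0 h1 r), dd_apply,
    dd_apply, dd_apply, map_mul, map_mul]
  ring

/-- the obstruction map, before passing to the quotient -/
noncomputable def obs (Ψ₀ Ψ₁ : R →ₐ[k] O₁ ⊗[k] K) : Module.Dual k O₁ →ₗ[k] (R →ₗ[k] K) where
  toFun l := mu K l ∘ₗ dd Ψ₀ Ψ₁
  map_add' l l' := by
    ext r
    simp only [LinearMap.comp_apply, LinearMap.add_apply]
    rw [mu, mu, mu, LinearMap.rTensor_add, LinearMap.comp_add, LinearMap.add_apply]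
  map_smul' c l := by
    ext r
    simp only [LinearMap.comp_apply, LinearMap.smul_apply, RingHom.id_apply]
    rw [mu, mu, LinearMap.rTensor_smul, LinearMap.comp_smul]
    rfl

theorem obs_apply (Ψ₀ Ψ₁ : R →ₐ[k] O₁ ⊗[k] K) (l : Module.Dual k O₁) (r : R) :
    obs Ψ₀ Ψ₁ l r = mu K l (Ψ₁ r - Ψ₀ r) := rfl

theorem obs_mem (hs : IsSmall π e₁) {Ψ : R →ₐ[k] O ⊗[k] K} {Ψ₀ Ψ₁ : R →ₐ[k] O₁ ⊗[k] K}
    (h0 : ∀ r, chg K π (Ψ₀ r) = Ψ r) (h1 : ∀ r, chg K π (Ψ₁ r) = Ψ r)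
    (he0 : ∀ r, ez K e₁ (Ψ₀ r) = φ r) (he1 : ∀ r, ez K e₁ (Ψ₁ r) = φ r) (l : Module.Dual k O₁) :
    obs Ψ₀ Ψ₁ l ∈ DerS φ := by
  rw [mem_DerS]
  intro r s
  change mu K l (dd Ψ₀ Ψ₁ (r * s)) = φ r * mu K l (dd Ψ₀ Ψ₁ s) + φ s * mu K l (dd Ψ₀ Ψ₁ r)
  rw [dd_mul hs h0 h1 he0 he1, map_add, mu_mul, mu_mul]

/-- extraction of coordinates -/
theorem coord_eps {B : Type*} [CommRing B] [Algebra k B] {ι : Type*} [Fintype ι]
    {W : Submodule k K} (b : Module.Basis ι k W) {a : ι → B} {ε : B} {γ : K}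
    (h : ∑ j, a j ⊗ₜ[k] (b j : K) = ε ⊗ₜ[k] γ) : ∃ c : ι → k, ∀ j, a j = c j • ε := by
  classical
  obtain ⟨p, hp⟩ := W.subtype.exists_leftInverse_of_injective (by simp)
  refine ⟨fun i => (b.coord i ∘ₗ p) γ, fun i => ?_⟩
  have h1 := congrArg (lamB B (b.coord i ∘ₗ p)) h
  rw [map_sum, lamB_tmul] at h1
  have h2 : ∀ j, (b.coord i ∘ₗ p) (b j : K) = if j = i then 1 else 0 := by
    intro j
    have h3 : p (b j : K) = b j := LinearMap.congr_fun hp (b j)
    rw [LinearMap.comp_apply, h3, Module.Basis.coord_apply, Module.Basis.repr_self,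
      Finsupp.single_apply]
  rw [← h1]
  simp [h2]

/-- the kernel of a functional on the kernel of a small extension -/
theorem exists_quot (hs : IsSmall π e₁) (l : Module.Dual k O₁) {w0 : O₁} (hw0 : π w0 = 0)
    (hl : l w0 = 1) : ∃ (L : Ideal O₁), (∀ w, π w = 0 →
      Ideal.Quotient.mk L w = l w • Ideal.Quotient.mk L w0) ∧
      (Ideal.Quotient.mk L w0 ≠ 0) := by
  let L : Ideal O₁ :=
    { carrier := {w | π w = 0 ∧ l w = 0}
      add_mem' := fun {a b} ha hb => ⟨by rw [map_add, ha.1, hb.1, add_zero],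
        by rw [map_add, ha.2, hb.2, add_zero]⟩
      zero_mem' := ⟨map_zero _, map_zero _⟩
      smul_mem' := fun c w hw => ⟨by rw [smul_eq_mul, map_mul, hw.1, mul_zero], by
        rw [smul_eq_mul, hs.small w hw.1, map_smul, hw.2, smul_zero]⟩ }
  refine ⟨L, ?_, ?_⟩
  · intro w hw
    have h1 : l w • Ideal.Quotient.mk L w0 = Ideal.Quotient.mk L (l w • w0) := rfl
    rw [h1, Ideal.Quotient.mk_eq_mk_iff_sub_mem]
    refine ⟨?_, ?_⟩
    · rw [map_sub, map_smul, hw, hw0, smul_zero, sub_zero]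
    · rw [map_sub, map_smul, hl, smul_eq_mul, mul_one, sub_self]
  · intro h
    rw [Ideal.Quotient.eq_zero_iff_mem] at h
    have h2 : l w0 = 0 := h.2
    rw [hl] at h2
    exact one_ne_zero h2

theorem mk_eps_mul (hs : IsSmall π e₁) {w0 : O₁} (hw0 : π w0 = 0) (L : Ideal O₁) (b : K)
    (z : O₁ ⊗[k] K) :
    chg K (Ideal.Quotient.mkₐ k L) z * (Ideal.Quotient.mk L w0 ⊗ₜ b) =
      (Ideal.Quotient.mk L w0) ⊗ₜ (ez K e₁ z * b) := by
  have h1 : (Ideal.Quotient.mk L w0 ⊗ₜ b : (O₁ ⧸ L) ⊗[k] K) =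
      chg K (Ideal.Quotient.mkₐ k L) (w0 ⊗ₜ b) := by
    rw [chg_tmul]
    rfl
  rw [h1, ← map_mul, hs.mul_ker (by rw [chg_tmul, hw0, TensorProduct.zero_tmul]),
    Algebra.TensorProduct.tmul_mul_tmul, one_mul, chg_tmul]
  rfl

theorem chg_mk_ker {l : Module.Dual k O₁} {w0 : O₁}
    {L : Ideal O₁} (hL : ∀ w, π w = 0 → Ideal.Quotient.mk L w = l w • Ideal.Quotient.mk L w0)
    {y : O₁ ⊗[k] K} (hy : chg K π y = 0) :
    chg K (Ideal.Quotient.mkₐ k L) y = Ideal.Quotient.mk L w0 ⊗ₜ mu K l y := by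
  refine ker_induction π (p := fun y => chg K (Ideal.Quotient.mkₐ k L) y =
    Ideal.Quotient.mk L w0 ⊗ₜ mu K l y) hy ?_ ?_ ?_
  · rw [map_zero, map_zero, TensorProduct.tmul_zero]
  · intro c hc b
    rw [chg_tmul, mu_tmul, TensorProduct.tmul_smul, TensorProduct.smul_tmul', ← hL c hc]
    rfl
  · intro x y hx hy
    rw [map_add, map_add, TensorProduct.tmul_add, hx, hy]

theorem key_claim [∀ i, Module.Finite k ↥(I ⊓ Sec A₀ A₁ u (d i))]
    (hs : IsSmall π e₁) (hx : ∀ i, x i ∈ 𝒜 (d i)) (hu : u ≠ 0) (hI : ∀ a ∈ I, a ∈ A₀)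
    (hφ : ∀ n, ∀ r ∈ 𝒜 n, φ r ∈ Sec A₀ A₁ u n)
    (q1 : MvPolynomial (Idx fun i => I ⊓ Sec A₀ A₁ u (d i)) k →ₐ[k] O₁)
    (hq1 : ∀ s, e₁ (q1 (X s)) = 0)
    (hqJ : ∀ f ∈ eqs x (fun i => I ⊓ Sec A₀ A₁ u (d i)) φ, π (q1 f) = 0)
    {Ψ : R →ₐ[k] O ⊗[k] K}
    (hΨ : ∀ i, Ψ (x i) = chg K π (chg K q1 (pre x (fun i => I ⊓ Sec A₀ A₁ u (d i)) φ (X i))))
    {Ψ₀ Ψ₁ : R →ₐ[k] O₁ ⊗[k] K}
    (h0 : ∀ r, chg K π (Ψ₀ r) = Ψ r) (h1 : ∀ r, chg K π (Ψ₁ r) = Ψ r)
    (he0 : ∀ r, ez K e₁ (Ψ₀ r) = φ r)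
    (h0I : ∀ r, Ψ₀ r - 1 ⊗ₜ φ r ∈ InB O₁ I)
    (h1A : ∀ n, ∀ r ∈ 𝒜 n, (1 ⊗ₜ (u ^ n)) * Ψ₁ r ∈ subB O₁ A₁)
    (l : Module.Dual k O₁) (hl : obs Ψ₀ Ψ₁ l ∈ Der0 φ I ⊔ Der1 𝒜 φ A₁ u) :
    ∃ c : (Idx fun i => I ⊓ Sec A₀ A₁ u (d i)) → k,
      ∀ f ∈ eqs x (fun i => I ⊓ Sec A₀ A₁ u (d i)) φ,
        l (q1 f) = - ∑ s, c s * coeff (Finsupp.single s 1) f := by
  by_cases hW : ∃ w, π w = 0 ∧ l w ≠ 0
  swap
  · push Not at hW
    exact ⟨0, fun f hf => by rw [hW _ (hqJ f hf)]; simp⟩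
  obtain ⟨w, hw, hlw⟩ := hW
  set w0 := (l w)⁻¹ • w with hw0d
  have hw0 : π w0 = 0 := by rw [hw0d, map_smul, hw, smul_zero]
  have hlw0 : l w0 = 1 := by rw [hw0d, map_smul, smul_eq_mul, inv_mul_cancel₀ hlw]
  obtain ⟨L, hL, hε0⟩ := exists_quot hs l hw0 hlw0
  obtain ⟨δ0, hδ0, δ1, hδ1, hδ⟩ := Submodule.mem_sup.1 hl
  rw [mem_Der0, mem_DerS] at hδ0
  rw [mem_Der1, mem_DerS] at hδ1
  set ε : O₁ ⧸ L := Ideal.Quotient.mk L w0 with hεd
  set ql := Ideal.Quotient.mkₐ k L with hql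
  have hεε : ε * ε = 0 := by
    have h3 : w0 * w0 = 0 := by rw [hs.small w0 hw0, hs.le w0 hw0, zero_smul]
    rw [hεd, ← map_mul, h3, map_zero]
  have hεa : ∀ a, ε * ql a = e₁ a • ε := by
    intro a
    have h3 : w0 * a = e₁ a • w0 := by rw [mul_comm, hs.small w0 hw0]
    change Ideal.Quotient.mk L w0 * Ideal.Quotient.mk L a = e₁ a • Ideal.Quotient.mk L w0
    rw [← map_mul, h3]
    rfl
  -- the homomorphism
  have hmul : ∀ r s, chg K ql (Ψ₀ (r * s)) + ε ⊗ₜ[k] δ0 (r * s) =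
      (chg K ql (Ψ₀ r) + ε ⊗ₜ[k] δ0 r) * (chg K ql (Ψ₀ s) + ε ⊗ₜ[k] δ0 s) := by
    intro r s
    have h3 := mk_eps_mul hs hw0 L (δ0 s) (Ψ₀ r)
    have h4 := mk_eps_mul hs hw0 L (δ0 r) (Ψ₀ s)
    have h5 : (ε ⊗ₜ[k] δ0 r) * (ε ⊗ₜ[k] δ0 s) = 0 := by
      rw [Algebra.TensorProduct.tmul_mul_tmul, hεε, TensorProduct.zero_tmul]
    rw [he0] at h3 h4
    rw [add_mul, mul_add, mul_add, h5, add_zero, h3, mul_comm (ε ⊗ₜ[k] δ0 r), h4, hδ0.1,
      map_mul, map_mul, TensorProduct.tmul_add]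
    ring
  have hδ0one : δ0 1 = 0 := by
    have h3 := hδ0.1 1 1
    rw [mul_one, map_one φ, one_mul] at h3
    exact left_eq_add.1 h3
  let Φ : R →ₐ[k] (O₁ ⧸ L) ⊗[k] K := AlgHom.ofLinearMap
    ((chg K ql).toLinearMap ∘ₗ Ψ₀.toLinearMap + (TensorProduct.mk k (O₁ ⧸ L) K ε) ∘ₗ δ0)
    (by
      change chg K ql (Ψ₀ 1) + ε ⊗ₜ[k] δ0 1 = 1
      rw [hδ0one, TensorProduct.tmul_zero, map_one, map_one, add_zero])
    (fun r s => hmul r s)
  have hΦ : ∀ r, Φ r = chg K ql (Ψ₀ r) + ε ⊗ₜ[k] δ0 r := fun r => rfl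
  have hΦ1 : ∀ r, Φ r = chg K ql (Ψ₁ r) - ε ⊗ₜ[k] δ1 r := by
    intro r
    have h3 := chg_mk_ker (K := K) hL (chg_dd h0 h1 r)
    have h4 : mu K l (dd Ψ₀ Ψ₁ r) = δ0 r + δ1 r := by
      have h5 := LinearMap.congr_fun hδ r
      rw [LinearMap.add_apply] at h5
      rw [h5]
      rfl
    rw [h4, dd_apply, map_sub, TensorProduct.tmul_add] at h3
    rw [hΦ, eq_sub_iff_add_eq, add_assoc]
    change _ + (ε ⊗ₜ[k] δ0 r + ε ⊗ₜ[k] δ1 r) = _
    rw [← h3]
    exact add_sub_cancel _ _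
  -- admissible
  have hadm : ∀ i, Φ (x i) - 1 ⊗ₜ φ (x i) ∈ InB (O₁ ⧸ L) (I ⊓ Sec A₀ A₁ u (d i)) := by
    intro i
    have hA : Φ (x i) - 1 ⊗ₜ φ (x i) ∈ InB (O₁ ⧸ L) I := by
      have h3 := chg_mem_InB ql (h0I (x i))
      rw [map_sub, chg_tmul, map_one] at h3
      rw [hΦ, add_sub_right_comm]
      exact add_mem h3 (tmul_mem_InB _ _ (hδ0.2 _))
    have hB : Φ (x i) - 1 ⊗ₜ φ (x i) ∈ InB (O₁ ⧸ L)
        ((Subalgebra.toSubmodule A₁).comap (LinearMap.mulLeft k (u ^ d i))) := by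
      rw [mem_InB_comap (pow_ne_zero _ hu), mul_sub, Algebra.TensorProduct.tmul_mul_tmul, hΦ1,
        mul_sub, Algebra.TensorProduct.tmul_mul_tmul, one_mul, one_mul]
      have h3 : (1 ⊗ₜ (u ^ d i)) * chg K ql (Ψ₁ (x i)) = chg K ql ((1 ⊗ₜ (u ^ d i)) * Ψ₁ (x i)) := by
        rw [map_mul, chg_tmul, map_one]
      rw [h3]
      refine sub_mem (sub_mem ?_ ?_) ?_
      · exact mem_subB.2 (chg_mem_InB ql (mem_subB.1 (h1A _ _ (hx i))))
      · exact mem_subB.2 (tmul_mem_InB _ _ (hδ1.2 _ _ (hx i)))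
      · exact mem_subB.2 (tmul_mem_InB _ _ (mem_Sec.1 (hφ _ _ (hx i))).2)
    refine mem_InB_inf _ hA (mem_InB_inf _ ?_ hB)
    exact InB_mono _ (fun a ha => hI a ha) hA
  obtain ⟨τ, hτJ, hτ⟩ := exists_point_of_hom x (fun i => I ⊓ Sec A₀ A₁ u (d i)) φ Φ hadm
  -- comparison
  have hcomp : ∀ i, ∃ γ : K, ∑ j, (τ (X ⟨i, j⟩) - ql (q1 (X ⟨i, j⟩))) ⊗ₜ[k]
      (Module.finBasis k ↥(I ⊓ Sec A₀ A₁ u (d i)) j : K) = ε ⊗ₜ[k] γ := by
    intro i
    have h3 : chg K π (Ψ₀ (x i) -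
        chg K q1 (pre x (fun i => I ⊓ Sec A₀ A₁ u (d i)) φ (X i))) = 0 := by
      rw [map_sub, h0, hΨ, sub_self]
    have h4 := chg_mk_ker (K := K) hL h3
    refine ⟨mu K l (Ψ₀ (x i) -
        chg K q1 (pre x (fun i => I ⊓ Sec A₀ A₁ u (d i)) φ (X i))) + δ0 (x i), ?_⟩
    rw [TensorProduct.tmul_add]
    change _ = Ideal.Quotient.mk L w0 ⊗ₜ[k] _ + ε ⊗ₜ[k] δ0 (x i)
    rw [← h4, map_sub, sub_add_eq_add_sub]
    change _ = (chg K ql (Ψ₀ (x i)) + ε ⊗ₜ[k] δ0 (x i)) - _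
    rw [← hΦ, hτ, chg_comp, chg_pre_X, add_sub_add_left_eq_sub, ← Finset.sum_sub_distrib]
    refine Finset.sum_congr rfl fun j _ => ?_
    rw [TensorProduct.sub_tmul]
    rfl
  choose γ hγ using hcomp
  choose c hc using fun i => coord_eps (Module.finBasis k ↥(I ⊓ Sec A₀ A₁ u (d i))) (hγ i)
  refine ⟨fun s => c s.1 s.2, fun f hf => ?_⟩
  have h5 := taylor τ (ql.comp q1) ε (fun s => c s.1 s.2) (fun s => by
    rw [AlgHom.comp_apply, hεa, hq1, zero_smul]) hεε (fun s => by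
      have h6 := hc s.1 s.2
      rw [sub_eq_iff_eq_add'] at h6
      exact h6) f
  have h6 : τ f = 0 := hτJ hf
  have h7 : (ql.comp q1) f = l (q1 f) • ε := hL _ (hqJ f hf)
  rw [h6, h7, ← add_smul] at h5
  have h8 := (smul_eq_zero.1 h5.symm).resolve_right hε0
  exact eq_neg_of_add_eq_zero_left h8

end key

end Vale.Agent.P292.Mo
end

section

/-! # Part II.a: lifts over a small extension, second chart -/

namespace Vale.Agent.P292.Mo

open TensorProduct

section lifts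
variable {k : Type*} [Field k] {R : Type*} [CommRing R] [Algebra k R] {𝒜 : ℕ → Submodule k R}
  [GradedAlgebra 𝒜] {K : Type*} [Field K] [Algebra k K]
  {A₁ : Subalgebra k K} {u : K} {φ : R →ₐ[k] K}
  {O₁ O : Type*} [CommRing O₁] [CommRing O] [Algebra k O₁] [Algebra k O]
  {π : O₁ →ₐ[k] O} {e₁ : O₁ →ₐ[k] k}

/-- the residue kernel of the smaller ring is nilpotent -/
theorem lift1_nil (hs : IsSmall π e₁) (e : O →ₐ[k] k) (he : ∀ a, e (π a) = e₁ a) :
    IsNilpotent (RingHom.ker e) := by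
  obtain ⟨N, hN⟩ := hs.nil
  refine ⟨N, ?_⟩
  have h1 : RingHom.ker e = (RingHom.ker e₁).map π := by
    apply le_antisymm
    · intro y hy
      obtain ⟨a, rfl⟩ := hs.surj y
      refine Ideal.mem_map_of_mem _ ?_
      rw [RingHom.mem_ker] at hy ⊢
      rw [← he]
      exact hy
    · rw [Ideal.map_le_iff_le_comap]
      intro a ha
      rw [Ideal.mem_comap, RingHom.mem_ker, he]
      exact ha
  rw [h1, ← Ideal.map_pow, hN, Ideal.zero_eq_bot, Ideal.map_bot, Ideal.zero_eq_bot]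

theorem lift1_pow {B : Type*} [CommRing B] [Algebra k B] (a : K) (n : ℕ) :
    ((1 : B) ⊗ₜ[k] a) ^ n = 1 ⊗ₜ (a ^ n) := by
  rw [Algebra.TensorProduct.tmul_pow, one_pow]

/-- the lift on the second chart -/
theorem exists_lift1 (hs : IsSmall π e₁) (hu : u ≠ 0) {n : ℕ} {s : R} (hsA : s ∈ 𝒜 n)
    (hsm : Algebra.FormallySmooth k (Localization.Away s)) (hs0 : φ s ≠ 0)
    (hs1 : (u ^ n * φ s)⁻¹ ∈ A₁) (e : O →ₐ[k] k) (he : ∀ a, e (π a) = e₁ a)
    (Ψ : R →ₐ[k] O ⊗[k] K) (hΨe : ∀ r, ez K e (Ψ r) = φ r)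
    (hΨ : ∀ n, ∀ r ∈ 𝒜 n, (1 ⊗ₜ (u ^ n)) * Ψ r ∈ subB O A₁) :
    ∃ Ψ₁ : R →ₐ[k] O₁ ⊗[k] K, (∀ r, chg K π (Ψ₁ r) = Ψ r) ∧
      (∀ n, ∀ r ∈ 𝒜 n, (1 ⊗ₜ (u ^ n)) * Ψ₁ r ∈ subB O₁ A₁) := by
  have hΦa : ∀ n, ∀ r ∈ 𝒜 n, tw 𝒜 (1 ⊗ₜ u) Ψ r = (1 ⊗ₜ (u ^ n)) * Ψ r := fun n r hr => by
    rw [tw_apply _ _ _ hr, lift1_pow]
  have hΦm : ∀ r, tw 𝒜 (1 ⊗ₜ u) Ψ r ∈ subB O A₁ := by
    classical
    intro r
    rw [← DirectSum.sum_support_decompose 𝒜 r, map_sum]
    refine sum_mem fun i _ => ?_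
    rw [hΦa i _ (SetLike.coe_mem _)]
    exact hΨ i _ (SetLike.coe_mem _)
  obtain ⟨g, hg⟩ := exists_factor (S := A₁) (tw 𝒜 (1 ⊗ₜ u) Ψ) hΦm
  have hunit : IsUnit (g s) := by
    refine isUnit_of_ez (lift1_nil hs e he) ?_
    have h1 : ((ez A₁ e (g s) : A₁) : K) = u ^ n * φ s := by
      rw [coe_ez, hg, hΦa n s hsA, map_mul, ez_tmul, map_one, one_smul, hΨe]
    refine isUnit_iff_exists_inv.2 ⟨⟨(u ^ n * φ s)⁻¹, hs1⟩, ?_⟩
    apply Subtype.ext
    change ((ez A₁ e (g s) : A₁) : K) * (u ^ n * φ s)⁻¹ = 1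
    rw [h1, mul_inv_cancel₀ (mul_ne_zero (pow_ne_zero _ hu) hs0)]
  have hnil : IsNilpotent (RingHom.ker (chg A₁ π)) :=
    ⟨2, by rw [Ideal.zero_eq_bot]; exact hs.ker_sq (K := A₁)⟩
  obtain ⟨g', hg'⟩ := exists_lift_of_smooth hsm (chg A₁ π) (chg_surjective hs) hnil g hunit
  refine ⟨tw 𝒜 (1 ⊗ₜ u⁻¹) ((incB O₁ A₁).comp g'), fun r => ?_, fun m r hr => ?_⟩
  · refine linearMap_eq_of_homog 𝒜
      ((chg K π).comp (tw 𝒜 (1 ⊗ₜ u⁻¹) ((incB O₁ A₁).comp g'))).toLinearMap Ψ.toLinearMap ?_ r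
    intro m r hr
    change chg K π (tw 𝒜 _ _ r) = Ψ r
    rw [tw_apply _ _ _ hr, map_mul, lift1_pow, chg_tmul, map_one, AlgHom.comp_apply, ← incB_chg,
      hg', hg, hΦa m r hr, ← mul_assoc, Algebra.TensorProduct.tmul_mul_tmul, mul_one, ← mul_pow,
      inv_mul_cancel₀ hu, one_pow, ← Algebra.TensorProduct.one_def, one_mul]
  · rw [tw_apply _ _ _ hr, lift1_pow, ← mul_assoc, Algebra.TensorProduct.tmul_mul_tmul, mul_one,
      ← mul_pow, mul_inv_cancel₀ hu, one_pow, ← Algebra.TensorProduct.one_def, one_mul,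
      AlgHom.comp_apply]
    exact mem_subB_iff.2 ⟨g' r, rfl⟩

end lifts

end Vale.Agent.P292.Mo
end

section

/-! # Part II.a (B): an artinian localisation at the origin -/

namespace Vale.Agent.P292.Mo

open TensorProduct MvPolynomial

theorem exists_pow_le {k : Type*} [Field k] {σ : Type*} [Fintype σ]
    (J : Ideal (MvPolynomial σ k)) (hJ : J ≤ m0 k σ)
    (e : (MvPolynomial σ k ⧸ J) →ₐ[k] k)
    (he : ∀ f, e (Ideal.Quotient.mk J f) = MvPolynomial.constantCoeff f)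
    (m : Ideal (MvPolynomial σ k ⧸ J)) [m.IsMaximal] (hm : m = RingHom.ker e)
    (hArt : IsArtinianRing (Localization.AtPrime m)) :
    ∃ N, 0 < N ∧ m0 k σ ^ N ≤ J ⊔ m0 k σ ^ (N + 1) := by
  have hnoeth : IsNoetherianRing (Localization.AtPrime m) :=
    IsLocalization.isNoetherianRing m.primeCompl _ inferInstance
  obtain ⟨N, hN⟩ := (isArtinianRing_iff_isNilpotent_maximalIdeal (Localization.AtPrime m)).mp hArt
  have hN' : IsLocalRing.maximalIdeal (Localization.AtPrime m) ^ (N + 1) = 0 := by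
    rw [pow_succ, hN, zero_mul]
  refine ⟨N + 1, Nat.succ_pos N, fun g hg => ?_⟩
  have hmem : ∀ f, Ideal.Quotient.mk J f ∈ m ↔ f ∈ m0 k σ := by
    intro f
    rw [hm, RingHom.mem_ker, RingHom.mem_ker, he]
  have h1 : Ideal.Quotient.mk J g ∈ m ^ (N + 1) := by
    have h2 : Ideal.map (Ideal.Quotient.mk J) (m0 k σ) ≤ m :=
      Ideal.map_le_iff_le_comap.mpr fun f hf => (hmem f).mpr hf
    have h3 : Ideal.Quotient.mk J g ∈ Ideal.map (Ideal.Quotient.mk J) (m0 k σ ^ (N + 1)) :=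
      Ideal.mem_map_of_mem _ hg
    rw [Ideal.map_pow] at h3
    exact Ideal.pow_right_mono h2 _ h3
  have h4 : algebraMap _ (Localization.AtPrime m) (Ideal.Quotient.mk J g) = 0 := by
    have h5 : algebraMap _ (Localization.AtPrime m) (Ideal.Quotient.mk J g) ∈
        IsLocalRing.maximalIdeal (Localization.AtPrime m) ^ (N + 1) := by
      rw [← Localization.AtPrime.map_eq_maximalIdeal, ← Ideal.map_pow]
      exact Ideal.mem_map_of_mem _ h1
    rw [hN'] at h5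
    exact h5
  rw [IsLocalization.map_eq_zero_iff m.primeCompl] at h4
  obtain ⟨s, hs⟩ := h4
  obtain ⟨t, ht⟩ := Ideal.Quotient.mk_surjective (s : MvPolynomial σ k ⧸ J)
  rw [← ht, ← map_mul, Ideal.Quotient.eq_zero_iff_mem] at hs
  have ht0 : constantCoeff t ≠ 0 := by
    intro h
    apply s.2
    rw [← ht]
    exact (hmem t).mpr h
  have h6 : t - C (constantCoeff t) ∈ m0 k σ := by
    rw [RingHom.mem_ker, map_sub, constantCoeff_C, sub_self]
  have h7 : C (constantCoeff t) * g ∈ J ⊔ m0 k σ ^ (N + 1 + 1) := by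
    have h8 : C (constantCoeff t) * g = t * g - (t - C (constantCoeff t)) * g := by ring
    rw [h8]
    refine Ideal.sub_mem _ (Ideal.mem_sup_left hs) (Ideal.mem_sup_right ?_)
    rw [pow_succ' _ (N + 1)]
    exact Ideal.mul_mem_mul h6 hg
  have h9 : g = C (constantCoeff t)⁻¹ * (C (constantCoeff t) * g) := by
    rw [← mul_assoc, ← C_mul, inv_mul_cancel₀ ht0, C_1, one_mul]
  rw [h9]
  exact Ideal.mul_mem_left _ _ h7

end Vale.Agent.P292.Mo
end

section

/-! # Part II.a: an artinian base gives a small extension with enough obstructions -/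

namespace Vale.Agent.P292.Mo

open TensorProduct MvPolynomial

section sc
variable {k : Type*} [Field k] {σ : Type*}

/-- evaluation at the origin -/
noncomputable def scEv (k : Type*) [Field k] (σ : Type*) : MvPolynomial σ k →ₐ[k] k :=
  MvPolynomial.aeval fun _ => 0

theorem scEv_apply (f : MvPolynomial σ k) : scEv k σ f = constantCoeff f := by
  rw [scEv, MvPolynomial.aeval_zero']
  rfl

/-- evaluation at the origin of a quotient -/
noncomputable def scE (A : Ideal (MvPolynomial σ k)) (hA : A ≤ m0 k σ) :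
    (MvPolynomial σ k ⧸ A) →ₐ[k] k :=
  Ideal.Quotient.liftₐ A (scEv k σ) (fun f hf => by
    rw [scEv_apply]
    exact hA hf)

theorem scE_mk (A : Ideal (MvPolynomial σ k)) (hA : A ≤ m0 k σ) (f : MvPolynomial σ k) :
    scE A hA (Ideal.Quotient.mk A f) = constantCoeff f := by
  rw [← scEv_apply]
  rfl

theorem sc_sub_mem (f : MvPolynomial σ k) : f - C (constantCoeff f) ∈ m0 k σ := by
  rw [RingHom.mem_ker, map_sub, constantCoeff_C, sub_self]

theorem sc_isSmall (L : Ideal (MvPolynomial σ k)) (hL : L ≤ m0 k σ) {N : ℕ}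
    (hN : m0 k σ ^ N ≤ L) :
    IsSmall (Ideal.Quotient.factorₐ k (Ideal.mul_le_right : m0 k σ * L ≤ L))
      (scE (m0 k σ * L) (Ideal.mul_le_right.trans hL)) := by
  constructor
  · exact Ideal.Quotient.factor_surjective (Ideal.mul_le_right : m0 k σ * L ≤ L)
  · intro w hw a
    obtain ⟨y, rfl⟩ := Ideal.Quotient.mk_surjective w
    obtain ⟨z, rfl⟩ := Ideal.Quotient.mk_surjective a
    have hy : y ∈ L := Ideal.Quotient.eq_zero_iff_mem.mp hw
    rw [scE_mk, ← map_mul, Algebra.smul_def]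
    change _ = Ideal.Quotient.mk _ (algebraMap k (MvPolynomial σ k) (constantCoeff z)) *
      Ideal.Quotient.mk _ y
    rw [← map_mul, Ideal.Quotient.mk_eq_mk_iff_sub_mem, ← sub_mul]
    exact Ideal.mul_mem_mul (sc_sub_mem z) hy
  · intro w hw
    obtain ⟨y, rfl⟩ := Ideal.Quotient.mk_surjective w
    have hy : y ∈ L := Ideal.Quotient.eq_zero_iff_mem.mp hw
    rw [scE_mk]
    exact hL hy
  · refine ⟨N + 1, ?_⟩
    rw [Ideal.zero_eq_bot, ← le_bot_iff]
    have h1 : RingHom.ker (scE (m0 k σ * L) (Ideal.mul_le_right.trans hL)) ≤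
        (m0 k σ).map (Ideal.Quotient.mk (m0 k σ * L)) := by
      intro w hw
      obtain ⟨y, rfl⟩ := Ideal.Quotient.mk_surjective w
      refine Ideal.mem_map_of_mem _ ?_
      have h2 : scE (m0 k σ * L) (Ideal.mul_le_right.trans hL) (Ideal.Quotient.mk _ y) = 0 := hw
      rwa [scE_mk] at h2
    refine (Ideal.pow_right_mono h1 (N + 1)).trans ?_
    rw [← Ideal.map_pow, Ideal.map_le_iff_le_comap, pow_succ']
    refine (Ideal.mul_mono_right hN).trans ?_
    intro y hy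
    rw [Ideal.mem_comap, Ideal.mem_bot]
    exact Ideal.Quotient.eq_zero_iff_mem.mpr hy

end sc

section obs
variable {k : Type*} [Field k] {σ : Type*} [Fintype σ]

/-- the functionals given by tangent vectors -/
noncomputable def scPhi (J : Ideal (MvPolynomial σ k)) :
    (σ → k) →ₗ[k] (↥(J.restrictScalars k) →ₗ[k] k) where
  toFun c := - (∑ s, c s • (MvPolynomial.lcoeff k (Finsupp.single s 1))) ∘ₗ
    (J.restrictScalars k).subtype
  map_add' a b := by
    ext f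
    simp [add_mul, Finset.sum_add_distrib]
    ring
  map_smul' a b := by
    ext f
    simp [mul_assoc, Finset.mul_sum]

theorem scPhi_apply (J : Ideal (MvPolynomial σ k)) (c : σ → k) (f : ↥(J.restrictScalars k)) :
    scPhi J c f = - ∑ s, c s * coeff (Finsupp.single s 1) (f : MvPolynomial σ k) := by
  simp [scPhi]

theorem ker_scPhi (J : Ideal (MvPolynomial σ k)) : LinearMap.ker (scPhi J) = tanJ J := by
  ext c
  rw [LinearMap.mem_ker, mem_tanJ]
  constructor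
  · intro h f hf
    have h1 := LinearMap.congr_fun h ⟨f, hf⟩
    rw [scPhi_apply, LinearMap.zero_apply, neg_eq_zero] at h1
    exact h1
  · intro h
    ext f
    rw [scPhi_apply, h f f.2, neg_zero, LinearMap.zero_apply]

/-- the subspace `L / 𝔪 L` -/
noncomputable def scW (L : Ideal (MvPolynomial σ k)) :
    Submodule k (MvPolynomial σ k ⧸ (m0 k σ * L)) :=
  (L.restrictScalars k).map (Ideal.Quotient.mkₐ k (m0 k σ * L)).toLinearMap

omit [Fintype σ] in
theorem mk_mem_scW {L : Ideal (MvPolynomial σ k)} {y : MvPolynomial σ k} (hy : y ∈ L) :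
    Ideal.Quotient.mk (m0 k σ * L) y ∈ scW L := ⟨y, hy, rfl⟩

/-- the map `J → L / 𝔪 L` -/
noncomputable def scRes (J L : Ideal (MvPolynomial σ k)) (h : J ≤ L) :
    ↥(J.restrictScalars k) →ₗ[k] ↥(scW L) :=
  ((Ideal.Quotient.mkₐ k (m0 k σ * L)).toLinearMap ∘ₗ (J.restrictScalars k).subtype).codRestrict
    (scW L) (fun y => mk_mem_scW (h y.2))

omit [Fintype σ] in
theorem scRes_coe (J L : Ideal (MvPolynomial σ k)) (h : J ≤ L) (y : ↥(J.restrictScalars k)) :
    ((scRes J L h y : ↥(scW L)) : MvPolynomial σ k ⧸ (m0 k σ * L)) =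
      Ideal.Quotient.mk (m0 k σ * L) (y : MvPolynomial σ k) := rfl

omit [Fintype σ] in
theorem scRes_surjective (J L : Ideal (MvPolynomial σ k)) (h : J ≤ L)
    (hJL : L ≤ J ⊔ m0 k σ * L) : Function.Surjective (scRes J L h) := by
  rintro ⟨w, y, hy, rfl⟩
  obtain ⟨a, ha, b, hb, hab⟩ := Submodule.mem_sup.mp (hJL hy)
  refine ⟨⟨a, ha⟩, Subtype.ext ?_⟩
  rw [scRes_coe]
  change Ideal.Quotient.mk _ a = Ideal.Quotient.mk _ y
  rw [Ideal.Quotient.mk_eq_mk_iff_sub_mem, ← hab]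
  have : a - (a + b) = -b := by ring
  rw [this]
  exact neg_mem hb

theorem scW_finite (L : Ideal (MvPolynomial σ k)) : Module.Finite k (scW L) := by
  obtain ⟨S, hS⟩ := (IsNoetherian.noetherian L : L.FG)
  have h1 : scW L ≤ Submodule.span k
      ((fun f => Ideal.Quotient.mk (m0 k σ * L) f) '' (S : Set (MvPolynomial σ k))) := by
    rintro _ ⟨y, hy, rfl⟩
    have hy' : y ∈ Submodule.span (MvPolynomial σ k) (S : Set (MvPolynomial σ k)) := by
      rw [hS]; exact hy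
    clear hy
    induction hy' using Submodule.span_induction with
    | mem x hx => exact Submodule.subset_span ⟨x, hx, rfl⟩
    | zero => rw [map_zero]; exact zero_mem _
    | add x y _ _ hx hy => rw [map_add]; exact add_mem hx hy
    | smul a x hx hx' =>
      have hxL : x ∈ L := by rw [← hS]; exact hx
      have h2 : (Ideal.Quotient.mkₐ k (m0 k σ * L)).toLinearMap (a • x) =
          constantCoeff a • (Ideal.Quotient.mkₐ k (m0 k σ * L)).toLinearMap x := by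
        rw [← map_smul]
        change Ideal.Quotient.mk _ (a • x) = Ideal.Quotient.mk _ (constantCoeff a • x)
        rw [Ideal.Quotient.mk_eq_mk_iff_sub_mem, smul_eq_mul, Algebra.smul_def, ← sub_mul]
        exact Ideal.mul_mem_mul (sc_sub_mem a) hxL
      rw [h2]
      exact Submodule.smul_mem _ _ hx'
  have h3 : Module.Finite k (Submodule.span k
      ((fun f => Ideal.Quotient.mk (m0 k σ * L) f) '' (S : Set (MvPolynomial σ k)))) :=
    Module.Finite.span_of_finite k (S.finite_toSet.image _)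
  exact Module.Finite.of_injective (Submodule.inclusion h1) (Submodule.inclusion_injective h1)

theorem card_le_scW (L : Ideal (MvPolynomial σ k)) (hL : L ≤ m0 k σ) {N : ℕ}
    (hN : m0 k σ ^ N ≤ L) : Fintype.card σ ≤ Module.finrank k (scW L) := by
  have hfin := scW_finite L
  let b := Module.finBasis k (scW L)
  have hb : ∀ i, ∃ y ∈ L, Ideal.Quotient.mk (m0 k σ * L) y =
      ((b i : scW L) : MvPolynomial σ k ⧸ (m0 k σ * L)) := by
    intro i
    obtain ⟨y, hy, hyb⟩ := (b i).2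
    exact ⟨y, hy, hyb⟩
  choose f hf hfb using hb
  have h := card_le_of_span (k := k) (σ := σ) L hN hL f hf ?_
  · rwa [Fintype.card_fin] at h
  · intro y hy
    have h1 := b.sum_repr ⟨_, mk_mem_scW hy⟩
    have h2 := congrArg (scW L).subtype h1
    rw [map_sum] at h2
    simp only [map_smul, Submodule.subtype_apply] at h2
    have h3 : y - ∑ i, C (b.repr ⟨_, mk_mem_scW hy⟩ i) * f i ∈ m0 k σ * L := by
      rw [← Ideal.Quotient.mk_eq_mk_iff_sub_mem]
      refine h2.symm.trans ?_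
      rw [map_sum]
      refine Finset.sum_congr rfl fun i _ => ?_
      rw [← hfb, ← MvPolynomial.smul_eq_C_mul]
      rfl
    have h4 : y = ∑ i, C (b.repr ⟨_, mk_mem_scW hy⟩ i) * f i +
        (y - ∑ i, C (b.repr ⟨_, mk_mem_scW hy⟩ i) * f i) := by ring
    rw [h4]
    refine Ideal.add_mem _ ?_ (Ideal.mem_sup_right h3)
    refine Ideal.sum_mem _ fun i _ => Ideal.mul_mem_left _ _ ?_
    exact Ideal.mem_sup_left (Ideal.subset_span ⟨i, rfl⟩)

/-- **Piece (C).** -/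
theorem exists_small_obs (J : Ideal (MvPolynomial σ k)) (hJ : J ≤ m0 k σ) {N : ℕ}
    (hN : 0 < N) (hart : m0 k σ ^ N ≤ J ⊔ m0 k σ ^ (N + 1)) :
    ∃ L : Ideal (MvPolynomial σ k), J ≤ L ∧ L ≤ m0 k σ ∧
      ∃ e₁ : (MvPolynomial σ k ⧸ (m0 k σ * L)) →ₐ[k] k,
        (∀ f, e₁ (Ideal.Quotient.mk _ f) = MvPolynomial.constantCoeff f) ∧
        IsSmall (Ideal.Quotient.factorₐ k (Ideal.mul_le_right : m0 k σ * L ≤ L)) e₁ ∧
        ∀ {E : Type*} [AddCommGroup E] [Module k E] [Module.Finite k E]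
          (obs : Module.Dual k (MvPolynomial σ k ⧸ (m0 k σ * L)) →ₗ[k] E),
          (∀ l, obs l = 0 → ∃ c : σ → k, ∀ f ∈ J,
            l (Ideal.Quotient.mk _ f) = - ∑ s, c s * coeff (Finsupp.single s 1) f) →
          Module.finrank k (tanJ J) ≤ Module.finrank k E := by
  classical
  let L : Ideal (MvPolynomial σ k) := J ⊔ m0 k σ ^ N
  have hJL : J ≤ L := le_sup_left
  have hNL : m0 k σ ^ N ≤ L := le_sup_right
  have hL : L ≤ m0 k σ := sup_le hJ (Ideal.pow_le_self hN.ne')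
  have hLJ : L ≤ J ⊔ m0 k σ * L := by
    refine sup_le le_sup_left (hart.trans (sup_le_sup_left ?_ J))
    rw [pow_succ']
    exact Ideal.mul_mono_right hNL
  refine ⟨L, hJL, hL, scE (m0 k σ * L) (Ideal.mul_le_right.trans hL), scE_mk _ _,
    sc_isSmall L hL hNL, ?_⟩
  intro E _ _ _ obs hobs
  have hfin := scW_finite L
  have hcard := card_le_scW L hL hNL
  obtain ⟨p, hp⟩ := (scW L).subtype.exists_leftInverse_of_injective (by simp)
  have hp' : ∀ w : scW L, p (w : MvPolynomial σ k ⧸ (m0 k σ * L)) = w := fun w =>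
    LinearMap.congr_fun hp w
  -- obstructions of functionals on `W`
  let obs' : Module.Dual k (scW L) →ₗ[k] E := obs ∘ₗ (Module.Dual.transpose p)
  -- restriction to `J`
  let Res : Module.Dual k (scW L) →ₗ[k] (↥(J.restrictScalars k) →ₗ[k] k) :=
    LinearMap.lcomp k k (scRes J L hJL)
  have hRes : Function.Injective Res := by
    intro a b hab
    ext w
    obtain ⟨y, rfl⟩ := scRes_surjective J L hJL hLJ w
    exact LinearMap.congr_fun hab y
  have hmap : (LinearMap.ker obs').map Res ≤ LinearMap.range (scPhi J) := by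
    rintro _ ⟨l, hl, rfl⟩
    obtain ⟨c, hc⟩ := hobs (l ∘ₗ p) hl
    refine ⟨c, ?_⟩
    ext f
    rw [scPhi_apply, ← hc f f.2]
    change l (p (Ideal.Quotient.mk _ (f : MvPolynomial σ k))) = l (scRes J L hJL f)
    rw [← scRes_coe J L hJL f, hp']
  have e1 := (LinearMap.ker obs').finrank_quotient_add_finrank
  have e2 := obs'.quotKerEquivRange.finrank_eq
  have e3 : Module.finrank k (LinearMap.range obs') ≤ Module.finrank k E :=
    Submodule.finrank_le _
  have e4 := (scPhi J).finrank_range_add_finrank_ker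
  rw [ker_scPhi, Module.finrank_fintype_fun_eq_card] at e4
  have e5 : Module.finrank k ((LinearMap.ker obs').map Res) =
      Module.finrank k (LinearMap.ker obs') :=
    (Submodule.equivMapOfInjective Res hRes (LinearMap.ker obs')).symm.finrank_eq
  have e6 : Module.finrank k ((LinearMap.ker obs').map Res) ≤
      Module.finrank k (LinearMap.range (scPhi J)) := Submodule.finrank_mono hmap
  have e7 : Module.finrank k (Module.Dual k (scW L)) = Module.finrank k (scW L) :=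
    Subspace.dual_finrank_eq
  omega

end obs

end Vale.Agent.P292.Mo
end
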