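import Vale.Agent.P292.Bn.N6
import Vale.Agent.P292.Bdl.B1
import Vale.Agent.P292.Bn.N7
import Vale.Agent.P292.Bn.N10
import Vale.Agent.P292.Bn.N5
import Vale.Agent.P292.Bn.N4
import Vale.Agent.P292.Bn.N8

set_option linter.all false

section

/-! # Base change of curves. -/

namespace Vale.Agent.P292

open MvPolynomial

universe u v w

variable {R : Type u} [CommRing R] [Algebra ℂ R] {𝒜 : ℕ → Submodule ℂ R} {d : ℕ}

/-- The curve condition from powers of the variables in the ideal of the base locus. -/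
theorem ni_isCurve {E : Type v} [Field E] [Algebra ℂ E] (φ : R →ₐ[ℂ] MvPolynomial (Fin 2) E)
    (hdeg : ∀ k, ∀ r ∈ 𝒜 k, (φ r).IsHomogeneous (d * k))
    (hpow : ∀ i : Fin 2, ∃ (N n : ℕ) (c : Fin n → MvPolynomial (Fin 2) E) (r : Fin n → R)
      (k : Fin n → ℕ), (∀ j, 0 < k j) ∧ (∀ j, r j ∈ 𝒜 (k j)) ∧
      ∑ j, c j * φ (r j) = (X i : MvPolynomial (Fin 2) E) ^ N) : IsCurve 𝒜 d φ := by
  refine ⟨hdeg, fun x hx => ?_⟩
  have hi : ∃ i, x i ≠ 0 := by
    by_contra h
    push Not at h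
    exact hx (funext h)
  obtain ⟨i, hi⟩ := hi
  obtain ⟨N, n, c, r, k, hk, hr, hsum⟩ := hpow i
  by_contra hcon
  push Not at hcon
  have h1 : aeval x (∑ j, c j * φ (r j)) = 0 := by
    rw [map_sum]
    refine Finset.sum_eq_zero fun j _ => ?_
    rw [map_mul, hcon (k j) (hk j) (r j) (hr j), mul_zero]
  rw [hsum, map_pow, aeval_X] at h1
  exact pow_ne_zero N hi h1

/-- Base change of a curve. -/
theorem ni_baseChange {k : Type v} {E : Type w} [Field k] [IsAlgClosed k] [Field E]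
    [Algebra ℂ k] [Algebra ℂ E] [Algebra k E] [IsScalarTower ℂ k E] {d : ℕ}
    {φ : R →ₐ[ℂ] MvPolynomial (Fin 2) k} (hφ : IsCurve 𝒜 d φ) :
    ∃ ψ : R →ₐ[ℂ] MvPolynomial (Fin 2) E, IsCurve 𝒜 d ψ ∧
      ∀ r, ψ r = map (algebraMap k E) (φ r) := by
  refine ⟨(mapAlgHom (IsScalarTower.toAlgHom ℂ k E)).comp φ, ?_, fun r => rfl⟩
  have happ : ∀ r, ((mapAlgHom (IsScalarTower.toAlgHom ℂ k E)).comp φ) r =
    map (algebraMap k E) (φ r) := fun r => rfl
  refine ni_isCurve _ (fun n r hr => ?_) (fun i => ?_)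
  · rw [happ]
    exact (hφ.degree n r hr).map _
  · obtain ⟨N, n, c, r, e, he, hr, hsum⟩ := hφ.exists_pow i
    refine ⟨N, n, fun j => map (algebraMap k E) (c j), r, e, he, hr, ?_⟩
    have := congrArg (map (algebraMap k E)) hsum
    rw [map_sum, map_pow, map_X] at this
    rw [← this]
    exact Finset.sum_congr rfl fun j _ => by rw [happ, map_mul]

end Vale.Agent.P292
end

section

/-! # Block I: preliminaries for the assembly. -/

namespace Vale.Agent.P292

open MvPolynomial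

universe u v w

section maps

variable {R : Type u} [CommRing R] [Algebra ℂ R] {𝒜 : ℕ → Submodule ℂ R} {d : ℕ}
  {k : Type v} {E : Type w} [Field k] [Field E] [Algebra ℂ k] [Algebra ℂ E]

/-- Change of the coefficients of a curve. -/
noncomputable def niMap (f : k →ₐ[ℂ] E) (φ : R →ₐ[ℂ] MvPolynomial (Fin 2) k) :
    R →ₐ[ℂ] MvPolynomial (Fin 2) E := (mapAlgHom f).comp φ

theorem niMap_apply (f : k →ₐ[ℂ] E) (φ : R →ₐ[ℂ] MvPolynomial (Fin 2) k) (r : R) :
    niMap f φ r = map (f : k →+* E) (φ r) := rfl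

theorem IsCurve.niMap [IsAlgClosed k] {φ : R →ₐ[ℂ] MvPolynomial (Fin 2) k}
    (hφ : IsCurve 𝒜 d φ) (f : k →ₐ[ℂ] E) : IsCurve 𝒜 d (P292.niMap f φ) := by
  refine ni_isCurve _ (fun n r hr => ?_) (fun i => ?_)
  · rw [niMap_apply]
    exact (hφ.degree n r hr).map _
  · obtain ⟨N, n, c, r, e, he, hr, hsum⟩ := hφ.exists_pow i
    refine ⟨N, n, fun j => map (f : k →+* E) (c j), r, e, he, hr, ?_⟩
    have := congrArg (map (f : k →+* E)) hsum
    rw [map_sum, map_pow, map_X] at this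
    rw [← this]
    exact Finset.sum_congr rfl fun j _ => by rw [niMap_apply, map_mul]

theorem niA_eval_map_10 (f : k →ₐ[ℂ] E) (p : MvPolynomial (Fin 2) k) :
    eval ![1, 0] (map (f : k →+* E) p) = f (eval ![1, 0] p) := by
  rw [eval_map]
  have := eval₂_comp_left (f : k →+* E) (RingHom.id k) ![1, 0] p
  rw [RingHom.comp_id] at this
  refine Eq.trans ?_ this.symm
  congr 1
  funext i
  fin_cases i <;> simp

theorem pt_niMap_10 (f : k →ₐ[ℂ] E) (φ : R →ₐ[ℂ] MvPolynomial (Fin 2) k) (r : R) :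
    pt (niMap f φ) ![1, 0] r = f (pt φ ![1, 0] r) := by
  rw [pt_apply, pt_apply, niMap_apply, niA_eval_map_10]

theorem evL_pd_niMap (f : k →ₐ[ℂ] E) (φ : R →ₐ[ℂ] MvPolynomial (Fin 2) k) (i : Fin 2) (r : R) :
    evL ![1, 0] (pd (niMap f φ) i) r = f (evL ![1, 0] (pd φ i) r) := by
  rw [evL_apply, evL_apply, pd_apply, pd_apply, niMap_apply, pderiv_map, niA_eval_map_10]

end maps

section ext

variable {R : Type u} [CommRing R] [Algebra ℂ R] [IsDomain R]

/-- Extension of an injective point to the algebraic closure of the fraction field. -/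
theorem ni_exists_embedding {L : Type v} [Field L] [IsAlgClosed L]
    [Algebra ℂ L] {η : R →ₐ[ℂ] L} (hη : Function.Injective η) :
    ∃ i : AlgebraicClosure (FractionRing R) →ₐ[ℂ] L, ∀ r : R, i (algebraMap R _ r) = η r := by
  let _ : Algebra R L := (η : R →+* L).toAlgebra
  have hmap : ∀ r, algebraMap R L r = η r := fun r => rfl
  have : IsScalarTower ℂ R L := IsScalarTower.of_algebraMap_eq fun c => (η.commutes c).symm
  have : FaithfulSMul R L := (faithfulSMul_iff_algebraMap_injective R L).2 hη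
  let _ : Algebra (FractionRing R) L := FractionRing.liftAlgebra R L
  have : IsScalarTower R (FractionRing R) L := FractionRing.isScalarTower_liftAlgebra R L
  have : IsScalarTower ℂ (FractionRing R) L := IsScalarTower.of_algebraMap_eq fun c => by
    rw [IsScalarTower.algebraMap_apply ℂ R L, IsScalarTower.algebraMap_apply ℂ R (FractionRing R),
      ← IsScalarTower.algebraMap_apply R (FractionRing R) L]
  let i : AlgebraicClosure (FractionRing R) →ₐ[FractionRing R] L := IsAlgClosed.lift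
  refine ⟨i.restrictScalars ℂ, fun r => ?_⟩
  rw [AlgHom.restrictScalars_apply, IsScalarTower.algebraMap_apply R (FractionRing R)
    (AlgebraicClosure (FractionRing R)), i.commutes,
    ← IsScalarTower.algebraMap_apply R (FractionRing R) L]
  rfl

/-- A derivation along the fraction field which vanishes on `R` is zero. -/
theorem ni_frac_killed {M : Type v} [Field M] [Algebra ℂ M] (i : FractionRing R →ₐ[ℂ] M)
    (D : FractionRing R →ₗ[ℂ] M) (hder : IsDer i D)
    (hD : ∀ r : R, D (algebraMap R _ r) = 0) (x : FractionRing R) : D x = 0 := by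
  obtain ⟨r, s, hs, rfl⟩ := IsFractionRing.div_surjective (A := R) x
  have hs0 : algebraMap R (FractionRing R) s ≠ 0 := by
    intro h
    rw [← map_zero (algebraMap R (FractionRing R))] at h
    exact nonZeroDivisors.ne_zero hs (IsFractionRing.injective R (FractionRing R) h)
  have h1 := hder (algebraMap R (FractionRing R) r / algebraMap R (FractionRing R) s)
    (algebraMap R (FractionRing R) s)
  rw [div_mul_cancel₀ _ hs0, hD, hD, mul_zero, zero_add] at h1
  have h2 : i (algebraMap R (FractionRing R) s) ≠ 0 := by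
    rw [Ne, map_eq_zero]
    exact hs0
  exact (mul_eq_zero.1 h1.symm).resolve_left h2

/-- A derivation which kills `R` kills the algebraic closure of the fraction field. -/
theorem ni_alg_killed {K : Type v} [Field K] [Algebra ℂ K]
    (i : AlgebraicClosure (FractionRing R) →ₐ[ℂ] K) (D : Derivation ℂ K K)
    (hD : ∀ r : R, D (i (algebraMap R _ r)) = 0) (a : AlgebraicClosure (FractionRing R)) :
    D (i a) = 0 := by
  have hF : ∀ x : FractionRing R, D (i (algebraMap (FractionRing R) _ x)) = 0 := by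
    intro x
    refine ni_frac_killed (i.comp (IsScalarTower.toAlgHom ℂ (FractionRing R)
      (AlgebraicClosure (FractionRing R))))
      ((D : K →ₗ[ℂ] K) ∘ₗ (i.comp (IsScalarTower.toAlgHom ℂ (FractionRing R)
      (AlgebraicClosure (FractionRing R)))).toLinearMap) ?_ ?_ x
    · intro x y
      change D (i (algebraMap _ _ (x * y))) = _
      rw [map_mul, map_mul, Derivation.leibniz, smul_eq_mul, smul_eq_mul]
      rfl
    · intro r
      change D (i (algebraMap _ _ (algebraMap R (FractionRing R) r))) = 0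
      rw [← IsScalarTower.algebraMap_apply]
      exact hD r
  have key : ∀ p : Polynomial (FractionRing R),
      D (i (Polynomial.aeval a p)) = i (Polynomial.aeval a p.derivative) * D (i a) := by
    intro p
    induction p using Polynomial.induction_on' with
    | add p q hp hq =>
      rw [map_add, map_add, map_add, hp, hq, Polynomial.derivative_add, map_add, map_add]
      ring
    | monomial n c =>
      rw [Polynomial.aeval_monomial, Polynomial.derivative_monomial, Polynomial.aeval_monomial,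
        map_mul, Derivation.leibniz, hF, smul_zero, add_zero, smul_eq_mul, map_pow,
        Derivation.leibniz_pow, map_mul, map_mul, map_mul, map_pow, map_natCast, map_natCast,
        nsmul_eq_mul, smul_eq_mul]
      ring
  have : CharZero (FractionRing R) :=
    charZero_of_injective_algebraMap (algebraMap ℂ (FractionRing R)).injective
  have hint : IsIntegral (FractionRing R) a := Algebra.IsIntegral.isIntegral a
  have h1 := key (minpoly (FractionRing R) a)
  rw [minpoly.aeval, map_zero, map_zero] at h1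
  have h2 : Polynomial.aeval a (minpoly (FractionRing R) a).derivative ≠ 0 :=
    (minpoly.irreducible hint).separable.aeval_derivative_ne_zero (minpoly.aeval _ _)
  have h3 : i (Polynomial.aeval a (minpoly (FractionRing R) a).derivative) ≠ 0 := by
    rwa [Ne, map_eq_zero]
  exact (mul_eq_zero.1 h1.symm).resolve_left h3

end ext

end Vale.Agent.P292
end

section

/-! # Tensor products of domains over the complex numbers -/

namespace Vale.Agent.P292

open TensorProduct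

universe u v w

section tensor

variable {A : Type u} {F : Type v} [CommRing A] [Algebra ℂ A] [CommRing F] [Algebra ℂ F]

/-- evaluation of the first factor at a complex point. -/
noncomputable def evFst (q : A →ₐ[ℂ] ℂ) : A ⊗[ℂ] F →ₐ[ℂ] F :=
  Algebra.TensorProduct.lift ((Algebra.ofId ℂ F).comp q) (AlgHom.id ℂ F)
    (fun _ _ => Commute.all _ _)

theorem evFst_tmul (q : A →ₐ[ℂ] ℂ) (a : A) (f : F) :
    evFst q (a ⊗ₜ[ℂ] f) = q a • f := by
  rw [evFst, Algebra.TensorProduct.lift_tmul, Algebra.smul_def]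
  rfl

theorem evFst_eq {ι : Type w} (b : Module.Basis ι ℂ F) (q : A →ₐ[ℂ] ℂ) (x : A ⊗[ℂ] F) (i : ι) :
    b.repr (evFst q x) i = q ((Algebra.TensorProduct.basis A b).repr x i) := by
  induction x using TensorProduct.induction_on with
  | zero => simp
  | tmul a f =>
    rw [evFst_tmul, Algebra.TensorProduct.basis_repr_tmul, map_smul, Finsupp.smul_apply,
      Finsupp.smul_apply, Finsupp.mapRange_apply, smul_eq_mul, smul_eq_mul, map_mul,
      AlgHom.commutes]
    rfl
  | add x y hx hy =>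
    rw [map_add, map_add, map_add, Finsupp.add_apply, Finsupp.add_apply, map_add, hx, hy]

/-- an element of the tensor product is zero if it vanishes at all points of the first factor. -/
theorem exists_evFst_ne_zero [IsDomain A] [Algebra.FiniteType ℂ A] {x : A ⊗[ℂ] F} (hx : x ≠ 0) :
    ∃ g : A, g ≠ 0 ∧ ∀ q : A →ₐ[ℂ] ℂ, q g ≠ 0 → evFst q x ≠ 0 := by
  let b := Module.Basis.ofVectorSpace ℂ F
  have h1 : (Algebra.TensorProduct.basis A b).repr x ≠ 0 := fun h => hx
    ((Algebra.TensorProduct.basis A b).repr.map_eq_zero_iff.1 h)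
  obtain ⟨i, hi⟩ := Finsupp.ne_iff.1 h1
  refine ⟨_, hi, fun q hq h0 => hq ?_⟩
  rw [← evFst_eq, h0]
  simp

/-- the tensor product of a finitely generated complex domain and a complex domain is a
domain. -/
theorem isDomain_tensor [IsDomain A] [Algebra.FiniteType ℂ A] [IsDomain F] :
    IsDomain (A ⊗[ℂ] F) := by
  have : Nontrivial (A ⊗[ℂ] F) := by
    refine ⟨⟨1, 0, fun h => ?_⟩⟩
    obtain ⟨q, -⟩ := exists_point_ne_zero (1 : A) one_ne_zero
    have h1 := congrArg (evFst q) h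
    rw [map_one, map_zero] at h1
    exact one_ne_zero h1
  have : NoZeroDivisors (A ⊗[ℂ] F) := by
    refine ⟨fun {x y} hxy => ?_⟩
    by_contra hcon
    push Not at hcon
    obtain ⟨g, hg, hgx⟩ := exists_evFst_ne_zero hcon.1
    obtain ⟨h, hh, hhy⟩ := exists_evFst_ne_zero hcon.2
    obtain ⟨q, hq⟩ := exists_point_ne_zero (g * h) (mul_ne_zero hg hh)
    rw [map_mul] at hq
    have h1 := mul_ne_zero (hgx q (left_ne_zero_of_mul hq)) (hhy q (right_ne_zero_of_mul hq))
    rw [← map_mul, hxy, map_zero] at h1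
    exact h1 rfl
  exact NoZeroDivisors.to_isDomain _

/-- a pair of homomorphisms into a domain. -/
theorem map_injective {A' : Type*} {F' : Type*} [CommRing A'] [Algebra ℂ A'] [CommRing F']
    [Algebra ℂ F'] (f : A →ₐ[ℂ] A') (g : F →ₐ[ℂ] F') (hf : Function.Injective f)
    (hg : Function.Injective g) : Function.Injective (Algebra.TensorProduct.map f g) := by
  have h1 := TensorProduct.map_injective_of_flat_flat (f : A →ₗ[ℂ] A') (g : F →ₗ[ℂ] F') hf hg
  exact h1

end tensor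

end Vale.Agent.P292
end

section

/-! # Generic ultrafilters on dense sets of closed points, and derivations of tensor products -/

namespace Vale.Agent.P292

open Filter TensorProduct

universe u v w

/-- The ultrafilter of a generic point in a dense set of closed points. -/
theorem mm_exists_ultrafilter (A : Type u) [CommRing A] [Algebra ℂ A] [IsDomain A]
    (T : Set (A →ₐ[ℂ] ℂ)) (hT : ∀ a : A, a ≠ 0 → ∃ s ∈ T, s a ≠ 0) :
    ∃ U : Ultrafilter T, ∀ a : A, a ≠ 0 →
      ∀ᶠ s in (U : Filter T), s.1 a ≠ 0 := by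
  classical
  let F : Filter T := Filter.generate {V | ∃ a : A, a ≠ 0 ∧ V = {s : T | s.1 a ≠ 0}}
  have hne : F.NeBot := by
    rw [Filter.generate_neBot_iff]
    intro t ht htf
    have key : ∀ t : Set (Set T), t.Finite →
        t ⊆ {V | ∃ a : A, a ≠ 0 ∧ V = {s : T | s.1 a ≠ 0}} →
        ∃ a : A, a ≠ 0 ∧ ∀ s : T, s.1 a ≠ 0 → s ∈ ⋂₀ t := by
      intro t htf
      induction t, htf using Set.Finite.induction_on with
      | empty => intro _; exact ⟨1, one_ne_zero, fun s _ => by simp⟩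
      | insert _ _ ih =>
        intro ht
        obtain ⟨a, ha, h1⟩ := ih fun x hx => ht (Set.mem_insert_of_mem _ hx)
        obtain ⟨b, hb, h2⟩ := ht (Set.mem_insert _ _)
        refine ⟨a * b, mul_ne_zero ha hb, fun s hs => ?_⟩
        rw [map_mul] at hs
        rw [Set.sInter_insert, h2]
        exact ⟨right_ne_zero_of_mul hs, h1 s (left_ne_zero_of_mul hs)⟩
    obtain ⟨a, ha, h1⟩ := key t htf ht
    obtain ⟨s, hsT, hs⟩ := hT a ha
    exact ⟨⟨s, hsT⟩, h1 ⟨s, hsT⟩ hs⟩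
  refine ⟨Ultrafilter.of F, fun a ha => ?_⟩
  exact Ultrafilter.of_le F (Filter.mem_generate_of_mem ⟨a, ha, rfl⟩)

/-- A derivation over the first factor extends to a tensor product, being zero on the second
factor, and further to the field. -/
theorem mm_exists_der_tensor {A : Type u} {B : Type v} [CommRing A] [Algebra ℂ A] [CommRing B]
    [Algebra ℂ B] {E : Type w} [Field E] [Algebra ℂ E] (i : A ⊗[ℂ] B →ₐ[ℂ] E)
    (hi : Function.Injective i) {δ : A →ₗ[ℂ] E}
    (hδ : IsDer (i.comp Algebra.TensorProduct.includeLeft) δ) :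
    ∃ D : Derivation ℂ E E, (∀ a, D (i (a ⊗ₜ[ℂ] 1)) = δ a) ∧ ∀ b, D (i (1 ⊗ₜ[ℂ] b)) = 0 := by
  have hδ' : ∀ r s, δ (r * s) = i (r ⊗ₜ[ℂ] 1) * δ s + i (s ⊗ₜ[ℂ] 1) * δ r := fun r s => hδ r s
  have h1 : δ 1 = 0 := by
    have := hδ' 1 1
    rw [mul_one, ← Algebra.TensorProduct.one_def, map_one i, one_mul] at this
    have h2 : δ 1 + 0 = δ 1 + δ 1 := by rw [add_zero]; exact this
    exact (add_left_cancel h2).symm
  let f : A →ₗ[ℂ] B →ₗ[ℂ] E := LinearMap.mk₂ ℂ (fun a b => δ a * i (1 ⊗ₜ[ℂ] b))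
    (fun a a' b => by rw [map_add, add_mul])
    (fun c a b => by rw [map_smul, Algebra.smul_mul_assoc])
    (fun a b b' => by rw [tmul_add, map_add, mul_add])
    (fun c a b => by rw [tmul_smul, map_smul, Algebra.mul_smul_comm])
  let Δ : A ⊗[ℂ] B →ₗ[ℂ] E := TensorProduct.lift f
  have hΔ : ∀ a b, Δ (a ⊗ₜ[ℂ] b) = δ a * i (1 ⊗ₜ[ℂ] b) := fun a b => TensorProduct.lift.tmul a b
  have hi2 : ∀ (a : A) (b : B), i (a ⊗ₜ[ℂ] b) = i (a ⊗ₜ[ℂ] 1) * i (1 ⊗ₜ[ℂ] b) := by
    intro a b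
    rw [← map_mul, Algebra.TensorProduct.tmul_mul_tmul, mul_one, one_mul]
  have hder : IsDer i Δ := by
    intro x y
    induction x using TensorProduct.induction_on with
    | zero => simp
    | add x x' hx hx' =>
      rw [add_mul, map_add, hx, hx', map_add, map_add]
      ring
    | tmul a b =>
      induction y using TensorProduct.induction_on with
      | zero => simp
      | add y y' hy hy' =>
        rw [mul_add, map_add, hy, hy', map_add, map_add]
        ring
      | tmul a' b' =>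
        rw [Algebra.TensorProduct.tmul_mul_tmul, hΔ, hΔ, hΔ, hδ', hi2 a b, hi2 a' b']
        have : i ((1 : A) ⊗ₜ[ℂ] (b * b')) = i (1 ⊗ₜ[ℂ] b) * i (1 ⊗ₜ[ℂ] b') := by
          rw [← map_mul, Algebra.TensorProduct.tmul_mul_tmul, mul_one]
        rw [this]
        ring
  obtain ⟨D, hD⟩ := exists_derivation_of_isDer hi hder
  have hD' : ∀ x, D (i x) = Δ x := fun x => LinearMap.congr_fun hD x
  refine ⟨D, fun a => ?_, fun b => ?_⟩
  · rw [hD', hΔ, ← Algebra.TensorProduct.one_def, map_one, mul_one]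
  · rw [hD', hΔ, h1, zero_mul]

end Vale.Agent.P292
end

section

/-! # The relations between the second end of a full line, over the first one. -/

namespace Vale.Agent.P292

open MvPolynomial TensorProduct

universe u v w

section alg

/-- A normalised linear relation of minimal support. -/
theorem ni_min_relation {ι : Type*} {k : Type v} {K : Type w} [Field k] [Field K] [Algebra k K]
    (w : ι → K) (h : ¬ LinearIndependent k w) :
    ∃ c : ι →₀ k, Finsupp.linearCombination k w c = 0 ∧ (∃ j, c j = 1) ∧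
      ∀ c' : ι →₀ k, Finsupp.linearCombination k w c' = 0 → c'.support ⊂ c.support → c' = 0 := by
  classical
  have h1 : ∃ n : ℕ, ∃ c : ι →₀ k, c ≠ 0 ∧ Finsupp.linearCombination k w c = 0 ∧
      c.support.card = n := by
    rw [linearIndependent_iff] at h
    push Not at h
    obtain ⟨c, hc, hc0⟩ := h
    exact ⟨_, c, hc0, hc, rfl⟩
  obtain ⟨c, hc0, hc, hn⟩ := Nat.find_spec h1
  obtain ⟨j, hj⟩ : ∃ j, c j ≠ 0 := by
    by_contra hcon
    push Not at hcon
    exact hc0 (Finsupp.ext hcon)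
  have hsupp : ((c j)⁻¹ • c).support = c.support :=
    Finsupp.support_smul_eq (inv_ne_zero hj)
  refine ⟨(c j)⁻¹ • c, ?_, ⟨j, ?_⟩, ?_⟩
  · rw [map_smul, hc, smul_zero]
  · rw [Finsupp.smul_apply, smul_eq_mul, inv_mul_cancel₀ hj]
  · intro c' hc' hlt
    by_contra hc'0
    rw [hsupp] at hlt
    have h2 := Finset.card_lt_card hlt
    rw [hn] at h2
    exact Nat.find_min h1 h2 ⟨c', hc'0, hc', rfl⟩

/-- A derivation which kills the vectors kills the minimal relation. -/
theorem ni_kill_relation {ι : Type*} {k : Type v} {K : Type w} [Field k] [Field K] [Algebra k K]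
    [Algebra ℂ k] [Algebra ℂ K] (w : ι → K) {c : ι →₀ k}
    (hc : Finsupp.linearCombination k w c = 0) {j : ι} (hj : c j = 1)
    (hmin : ∀ c' : ι →₀ k, Finsupp.linearCombination k w c' = 0 → c'.support ⊂ c.support → c' = 0)
    (D₀ : Derivation ℂ k k) (D : Derivation ℂ K K)
    (hD : ∀ a, D (algebraMap k K a) = algebraMap k K (D₀ a)) (hw : ∀ i, D (w i) = 0) (i : ι) :
    D₀ (c i) = 0 := by
  classical
  have h0 : D₀ 0 = 0 := map_zero D₀
  set c' : ι →₀ k := c.mapRange D₀ h0 with hc'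
  have h1 : Finsupp.linearCombination k w c' = 0 := by
    have h2 := congrArg D hc
    rw [map_zero, Finsupp.linearCombination_apply, Finsupp.sum, map_sum] at h2
    rw [Finsupp.linearCombination_apply, Finsupp.sum_of_support_subset (s := c.support) c'
      (by rw [hc']; exact Finsupp.support_mapRange) _ (by simp), ← h2]
    refine Finset.sum_congr rfl fun i _ => ?_
    rw [Algebra.smul_def, Algebra.smul_def, Derivation.leibniz, hw, hD, smul_zero, zero_add,
      smul_eq_mul, hc', Finsupp.mapRange_apply]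
    ring
  have h2 : c' = 0 := by
    refine hmin c' h1 ⟨by rw [hc']; exact Finsupp.support_mapRange, fun hsub => ?_⟩
    have h3 : j ∈ c'.support := hsub (by rw [Finsupp.mem_support_iff, hj]; exact one_ne_zero)
    rw [Finsupp.mem_support_iff, hc', Finsupp.mapRange_apply, hj, D₀.map_one_eq_zero] at h3
    exact h3 rfl
  have h3 := DFunLike.congr_fun h2 i
  rwa [hc', Finsupp.mapRange_apply] at h3

end alg

variable {R : Type u} [CommRing R] [Algebra ℂ R] {𝒜 : ℕ → Submodule ℂ R} [GradedAlgebra 𝒜]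
  {P : R →ₗ[ℂ] R →ₗ[ℂ] R} {K : Type v} [Field K] [IsAlgClosed K] [Algebra ℂ K]
  {ψ : R →ₐ[ℂ] MvPolynomial (Fin 2) K}

omit [IsAlgClosed K] in
/-- A derivation killing the first end. -/
theorem ni_der_div (h : IsCurve 𝒜 1 ψ) (D : Derivation ℂ K K)
    (hD : ∀ r, D (pt ψ ![1, 0] r) = 0) :
    ∃ τ, IsHDer 𝒜 1 ψ (-1) τ ∧ ∀ r, mapD D (ψ r) = X 1 * τ r := by
  obtain ⟨τ, h1, h2⟩ := exists_div_X_one h (isHDer_mapD h D) fun r => by
    change eval ![1, 0] (mapD D (ψ r)) = 0
    rw [eval_mapD_10, ← pt_apply, hD]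
  exact ⟨τ, h1, h2⟩

omit [IsAlgClosed K] [GradedAlgebra 𝒜] in
theorem ni_full_div (hfull : IsFull 𝒜 1 ψ) {τ : R →ₗ[ℂ] MvPolynomial (Fin 2) K}
    (hτ : IsHDer 𝒜 1 ψ (-1) τ) : ∃ D : Derivation ℂ K K, (∀ r, D (pt ψ ![1, 0] r) = 0) ∧
      ∀ r, mapD D (ψ r) = X 1 * τ r := by
  have h1 : IsHDer 𝒜 1 ψ 0 ((X 1 : MvPolynomial (Fin 2) K) • τ) :=
    (hτ.fr_smul (ZHom.of_nat (isHomogeneous_X K (1 : Fin 2)))).fr_congr (by norm_num)
  obtain ⟨D, hD⟩ := hfull _ h1
  refine ⟨D, fun r => ?_, fun r => ?_⟩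
  · rw [pt_apply, ← eval_mapD_10, hD, LinearMap.smul_apply, smul_eq_mul, map_mul, eval_X]
    simp
  · rw [hD, LinearMap.smul_apply, smul_eq_mul]

omit [IsAlgClosed K] in
theorem ni_eval_div {τ : R →ₗ[ℂ] MvPolynomial (Fin 2) K} {D : Derivation ℂ K K}
    (h : ∀ r, mapD D (ψ r) = X 1 * τ r) (r : R) :
    evL ![0, 1] τ r = D (pt ψ ![0, 1] r) := by
  rw [pt_apply, ← eval_mapD_01, h, map_mul, eval_X, evL_apply]
  simp

/-- The value of the form on derivations of degree `0` and `-1` is the same at both ends. -/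
theorem ni_om_const (hX : IsContactFano 𝒜 P) (h : IsCurve 𝒜 1 ψ)
    {δ τ : R →ₗ[ℂ] MvPolynomial (Fin 2) K} (hδ : IsHDer 𝒜 1 ψ 0 δ) (hτ : IsHDer 𝒜 1 ψ (-1) τ)
    {a b : Fin 2 → K} (ha : a ≠ 0) (hb : b ≠ 0) :
    om P (pt ψ a) (evL a δ) (evL a τ) = om P (pt ψ b) (evL b δ) (evL b τ) := by
  rw [omC_eval hX h hδ hτ a ha, omC_eval hX h hδ hτ b hb]
  have h1 : (omC P ψ δ τ).IsHomogeneous 0 := omC_homog hX h hδ hτ (by norm_num)
  rw [totalDegree_eq_zero_iff_eq_C.1 (Nat.le_zero.1 h1.totalDegree_le)]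
  simp

/-- Derivations of degree `-1` are orthogonal. -/
theorem ni_om_zero (hX : IsContactFano 𝒜 P) (h : IsCurve 𝒜 1 ψ)
    {τ τ' : R →ₗ[ℂ] MvPolynomial (Fin 2) K} (hτ : IsHDer 𝒜 1 ψ (-1) τ)
    (hτ' : IsHDer 𝒜 1 ψ (-1) τ') {a : Fin 2 → K} (ha : a ≠ 0) :
    om P (pt ψ a) (evL a τ) (evL a τ') = 0 := by
  rw [omC_eval hX h hτ hτ' a ha, omC_eq_zero hX h hτ hτ' (by norm_num), map_zero]

variable {k : Type w} [Field k] [Algebra ℂ k] [Algebra k K] [IsScalarTower ℂ k K]

omit [IsAlgClosed K] [IsScalarTower ℂ k K] in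
/-- Orthogonality to the tangent of the line gives orthogonality to the derivations of
degree `-1`. -/
theorem ni_orth (hX : IsContactFano 𝒜 P) (h : IsCurve 𝒜 1 ψ) {η₀ : R →ₐ[ℂ] k}
    (h0 : ∀ r, pt ψ ![1, 0] r = algebraMap k K (η₀ r)) {v : R →ₗ[ℂ] k} (hv : IsDer η₀ v)
    {v' : R →ₗ[ℂ] K} (hv' : ∀ r, v' r = algebraMap k K (v r))
    (hom : om P (pt ψ ![1, 0]) v' (evL ![1, 0] (pd ψ 1)) = 0) {D : Derivation ℂ K K}
    (hDk : ∀ a : k, D (algebraMap k K a) = 0) {τ : R →ₗ[ℂ] MvPolynomial (Fin 2) K}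
    (hτ : IsHDer 𝒜 1 ψ (-1) τ) (hDτ : ∀ r, mapD D (ψ r) = X 1 * τ r) :
    om P (pt ψ ![1, 0]) v' (evL ![1, 0] τ) = 0 := by
  have hNV := h.isNV_pt (vec10_ne (κ := K))
  have hNV0 : IsNV 𝒜 η₀ := by
    obtain ⟨n, hn, r, hr, hne⟩ := hNV
    refine ⟨n, hn, r, hr, fun h1 => hne ?_⟩
    rw [h0, h1, map_zero]
  obtain ⟨N, r, hr⟩ := exists_ham_rep hX hNV0
  obtain ⟨a, ha⟩ := hr v hv
  have hrep : ∀ s, v' s = ∑ i, algebraMap k K (a i) * pt ψ ![1, 0] (P (r i) s) := by
    intro s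
    rw [hv', ha, map_sum]
    refine Finset.sum_congr rfl fun i _ => ?_
    rw [map_mul, h0]
  rw [om_eq hX hNV ((isHDer_pd h 1).der.evL _) hrep] at hom
  rw [om_eq hX hNV (hτ.der.evL _) hrep]
  have h1 := congrArg D hom
  rw [map_zero, map_sum] at h1
  refine Eq.trans ?_ h1
  refine Finset.sum_congr rfl fun i _ => ?_
  rw [Derivation.leibniz, hDk, smul_zero, add_zero, smul_eq_mul, evL_apply, evL_apply, pd_apply,
    ← eval_mapD_10, mapD_pderiv, hDτ, Derivation.leibniz, pderiv_X_self]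
  simp

/-- The second end satisfies relations over the first end. -/
theorem ni_not_independent (hX : IsContactFano 𝒜 P) (h : IsCurve 𝒜 1 ψ) {η₀ : R →ₐ[ℂ] k}
    (h0 : ∀ r, pt ψ ![1, 0] r = algebraMap k K (η₀ r)) {ι : Type*} (b : Module.Basis ι ℂ R) :
    ¬ LinearIndependent k fun j => pt ψ ![0, 1] (b j) := by
  classical
  intro hli
  let i₀ : k ⊗[ℂ] R →ₐ[k] K := Algebra.TensorProduct.lift (Algebra.ofId k K) (pt ψ ![0, 1])
    (fun _ _ => Commute.all _ _)
  have hi₀ : ∀ a r, i₀ (a ⊗ₜ r) = algebraMap k K a * pt ψ ![0, 1] r := fun a r => by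
    rw [Algebra.TensorProduct.lift_tmul]
    rfl
  have hinj : Function.Injective i₀ := by
    rw [injective_iff_map_eq_zero]
    intro x hx
    let B := Algebra.TensorProduct.basis k b
    have h1 : x = ∑ j ∈ (B.repr x).support, B.repr x j • B j := (B.linearCombination_repr x).symm
    have h2 : Finsupp.linearCombination k (fun j => pt ψ ![0, 1] (b j)) (B.repr x) = 0 := by
      rw [Finsupp.linearCombination_apply, Finsupp.sum]
      refine Eq.trans ?_ hx
      conv_rhs => rw [h1]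
      rw [map_sum]
      refine Finset.sum_congr rfl fun j _ => ?_
      rw [map_smul, Algebra.TensorProduct.basis_apply, hi₀, map_one, one_mul]
    have h3 := linearIndependent_iff.1 hli _ h2
    rw [← B.repr.map_eq_zero_iff]
    exact h3
  let i : R ⊗[ℂ] k →ₐ[ℂ] K :=
    (i₀.restrictScalars ℂ).comp (Algebra.TensorProduct.comm ℂ R k).toAlgHom
  have hi : ∀ r a, i (r ⊗ₜ a) = algebraMap k K a * pt ψ ![0, 1] r := fun r a => hi₀ a r
  have hinj' : Function.Injective i :=
    hinj.comp (Algebra.TensorProduct.comm ℂ R k).injective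
  have hleft : i.comp Algebra.TensorProduct.includeLeft = pt ψ ![0, 1] := by
    ext r
    rw [AlgHom.comp_apply, Algebra.TensorProduct.includeLeft_apply, hi, map_one, one_mul]
  have hval : ∀ x : R →ₗ[ℂ] K, IsDer (pt ψ ![0, 1]) x →
      ∃ τ, IsHDer 𝒜 1 ψ (-1) τ ∧ evL ![0, 1] τ = x := by
    intro x hx
    obtain ⟨D, hD1, hD2⟩ := mm_exists_der_tensor i hinj' (δ := x) (by rw [hleft]; exact hx)
    have hD3 : ∀ a : k, D (algebraMap k K a) = 0 := fun a => by
      have := hD2 a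
      rwa [hi, map_one, mul_one] at this
    obtain ⟨τ, hτ, hDτ⟩ := ni_der_div h D fun r => by rw [h0, hD3]
    refine ⟨τ, hτ, ?_⟩
    ext r
    rw [ni_eval_div hDτ, ← hD1, hi, map_one, one_mul]
  have hNV := h.isNV_pt (vec01_ne (κ := K))
  have hzero : evL ![0, 1] (pd ψ 1) = 0 := by
    refine eq_zero_of_om hX hNV ((isHDer_pd h 1).der.evL _) fun x hx => ?_
    obtain ⟨τ, hτ, rfl⟩ := hval x hx
    exact ni_om_zero hX h (isHDer_pd h 1) hτ vec01_ne
  obtain ⟨n, hn, r, hr, hne⟩ := hNV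
  have h1 := (h.degree n r hr).sum_X_mul_pderiv
  have h2 := congrArg (eval ![0, 1]) h1
  rw [Fin.sum_univ_two, map_add, map_mul, map_mul, eval_X, eval_X] at h2
  have h3 := LinearMap.congr_fun hzero r
  rw [evL_apply, pd_apply, LinearMap.zero_apply] at h3
  rw [h3, map_nsmul] at h2
  have h4 : (1 * n) • eval ![0, 1] (ψ r) = 0 := by
    rw [← h2]
    simp
  have : CharZero K := charZero_of_injective_algebraMap (algebraMap ℂ K).injective
  rw [pt_apply] at hne
  rcases smul_eq_zero.1 h4 with h5 | h5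
  · omega
  · exact hne h5

/-- **The coefficient.** -/
theorem ni_coeff (hX : IsContactFano 𝒜 P) (h : IsCurve 𝒜 1 ψ) (hfull : IsFull 𝒜 1 ψ)
    (hinj : Function.Injective (pt ψ ![0, 1]))
    (hlag : ∀ x : R →ₗ[ℂ] K, IsDer (pt ψ ![0, 1]) x →
      (∀ τ, IsHDer 𝒜 1 ψ (-1) τ → om P (pt ψ ![0, 1]) x (evL ![0, 1] τ) = 0) →
      ∃ τ, IsHDer 𝒜 1 ψ (-1) τ ∧ evL ![0, 1] τ = x)
    {η₀ : R →ₐ[ℂ] k} (h0 : ∀ r, pt ψ ![1, 0] r = algebraMap k K (η₀ r))
    (halg : ∀ D : Derivation ℂ K K, (∀ r, D (algebraMap k K (η₀ r)) = 0) →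
      ∀ a : k, D (algebraMap k K a) = 0) :
    ∃ c : k, (∀ a : ℂ, c ≠ algebraMap ℂ k a) ∧ ∀ D₀ : Derivation ℂ k k,
      (∀ v' : R →ₗ[ℂ] K, (∀ r, v' r = algebraMap k K (D₀ (η₀ r))) →
        om P (pt ψ ![1, 0]) v' (evL ![1, 0] (pd ψ 1)) = 0) → D₀ c = 0 := by
  classical
  obtain ⟨ι, ⟨b⟩⟩ : ∃ ι : Type u, Nonempty (Module.Basis ι ℂ R) :=
    ⟨_, ⟨Module.Basis.ofVectorSpace ℂ R⟩⟩
  have : CharZero K := charZero_of_injective_algebraMap (algebraMap ℂ K).injective
  obtain ⟨c, hc, ⟨j, hj⟩, hmin⟩ := ni_min_relation (k := k) _ (ni_not_independent hX h h0 b)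
  have hex : ∃ i, ∀ a : ℂ, c i ≠ algebraMap ℂ k a := by
    by_contra hcon
    push Not at hcon
    choose a ha using hcon
    have h1 : pt ψ ![0, 1] (∑ i ∈ c.support, a i • b i) = 0 := by
      rw [Finsupp.linearCombination_apply, Finsupp.sum] at hc
      rw [map_sum]
      refine Eq.trans ?_ hc
      refine Finset.sum_congr rfl fun i _ => ?_
      rw [map_smul, ha, algebraMap_smul]
    have h2 := (injective_iff_map_eq_zero (pt ψ ![0, 1])).1 hinj _ h1
    have h3 := linearIndependent_iff'.1 b.linearIndependent c.support a h2 j (by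
      rw [Finsupp.mem_support_iff, hj]; exact one_ne_zero)
    have h4 := ha j
    rw [h3, map_zero, hj] at h4
    exact one_ne_zero h4
  obtain ⟨i, hi⟩ := hex
  refine ⟨c i, hi, fun D₀ hD₀ => ?_⟩
  let d : Derivation ℂ k K := (Algebra.linearMap k K).compDer D₀
  have hd : ∀ a, d a = algebraMap k K (D₀ a) := fun a => rfl
  obtain ⟨D, hD⟩ := exists_derivation_extend (k := ℂ) (A := k) (E := K)
    (algebraMap k K).injective d
  let v : R →ₗ[ℂ] k := alongAt η₀ D₀
  let v' : R →ₗ[ℂ] K := alongAt (pt ψ ![1, 0]) D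
  have hv' : ∀ r, v' r = algebraMap k K (v r) := fun r => by
    change D (pt ψ ![1, 0] r) = _
    rw [h0, hD, hd]
    rfl
  have hom := hD₀ v' fun r => hv' r
  -- `Dη'` lies in the values of degree `-1`
  have hδ := isHDer_mapD h D
  obtain ⟨τ, hτ, hτx⟩ := hlag (evL ![0, 1] ((mapD D : Derivation ℂ _ _).toLinearMap ∘ₗ
      ψ.toLinearMap)) (hδ.der.evL _) fun τ hτ => by
    rw [ni_om_const hX h hδ hτ vec01_ne vec10_ne]
    obtain ⟨D', hD', hD'τ⟩ := ni_full_div hfull hτ
    have h1 := ni_orth hX h h0 (isDer_alongAt η₀ D₀) hv' hom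
      (halg D' fun r => by rw [← h0, hD']) hτ hD'τ
    have h2 : evL ![1, 0] ((mapD D : Derivation ℂ _ _).toLinearMap ∘ₗ ψ.toLinearMap) = v' := by
      ext r
      rw [evL_apply]
      change eval ![1, 0] (mapD D (ψ r)) = D (pt ψ ![1, 0] r)
      rw [eval_mapD_10, pt_apply]
    rw [h2]
    exact h1
  obtain ⟨D', hD', hD'τ⟩ := ni_full_div hfull hτ
  have hD'k := halg D' fun r => by rw [← h0, hD']
  refine ni_kill_relation _ hc hj hmin D₀ (D - D') (fun a => ?_) (fun l => ?_) i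
  · rw [Derivation.sub_apply, hD'k, sub_zero, hD, hd]
  · rw [Derivation.sub_apply, ← ni_eval_div hD'τ, hτx, evL_apply]
    change D (pt ψ ![0, 1] (b l)) - eval ![0, 1] (mapD D (ψ (b l))) = 0
    rw [eval_mapD_01, pt_apply, sub_self]

end Vale.Agent.P292
end

section

/-! # Derivations and primes of height at most one. -/

namespace Vale.Agent.P292

open IsLocalRing

universe u v w

/-- Functionals on the cotangent space of a local ring come from derivations. -/
theorem ni8_exists_der {L : Type u} [CommRing L] [IsLocalRing L] [Algebra ℂ L]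
    (f : CotangentSpace L →ₗ[L] ResidueField L) :
    ∃ x : L →ₗ[ℂ] ResidueField L, (∀ a b, x (a * b) = residue L a * x b + residue L b * x a) ∧
      ∀ a : maximalIdeal L, x a = f ((maximalIdeal L).toCotangent a) := by
  set m := maximalIdeal L with hm
  let S := ResidueField L
  have hch : CharZero S := charZero_of_injective_algebraMap (algebraMap ℂ S).injective
  have hsm : Algebra.FormallySmooth ℂ S := formallySmooth_of_faithful
  let g₀ : L →ₐ[ℂ] S := IsScalarTower.toAlgHom ℂ L S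
  have hg₀ : ∀ a, g₀ a = residue L a := fun a => rfl
  have hg₀m : ∀ a ∈ m ^ 2, g₀ a = 0 := fun a ha => by
    rw [hg₀, residue_eq_zero_iff]
    exact Ideal.pow_le_self two_ne_zero ha
  let g : (L ⧸ m ^ 2) →ₐ[ℂ] S := Ideal.Quotient.liftₐ (m ^ 2) g₀ hg₀m
  have hg : ∀ a, g (Ideal.Quotient.mk (m ^ 2) a) = residue L a := fun a => rfl
  have hsurj : Function.Surjective g := fun s => by
    obtain ⟨a, rfl⟩ := residue_surjective s
    exact ⟨Ideal.Quotient.mk (m ^ 2) a, hg a⟩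
  have hker : ∀ b, g b = 0 ↔ b ∈ m.cotangentIdeal := by
    intro b
    obtain ⟨a, rfl⟩ := Ideal.Quotient.mk_surjective b
    rw [hg, residue_eq_zero_iff, Ideal.mk_mem_cotangentIdeal]
  have hnil : IsNilpotent (RingHom.ker (g : (L ⧸ m ^ 2) →+* S)) := by
    refine ⟨2, ?_⟩
    have : RingHom.ker (g : (L ⧸ m ^ 2) →+* S) = m.cotangentIdeal := by
      ext b
      rw [RingHom.mem_ker]
      exact hker b
    rw [this, Ideal.cotangentIdeal_square]
    rfl
  let σ : S →ₐ[ℂ] L ⧸ m ^ 2 := Algebra.FormallySmooth.liftOfSurjective (AlgHom.id ℂ S) g hsurj hnil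
  have hσ : ∀ s, g (σ s) = s := fun s =>
    Algebra.FormallySmooth.liftOfSurjective_apply (AlgHom.id ℂ S) g hsurj hnil s
  have hmem : ∀ a : L, Ideal.Quotient.mk (m ^ 2) a - σ (residue L a) ∈ m.cotangentIdeal := by
    intro a
    rw [← hker, map_sub, hσ, hg, sub_self]
  let D : L → m.cotangentIdeal := fun a => ⟨_, hmem a⟩
  have hD : ∀ a, (D a : L ⧸ m ^ 2) = Ideal.Quotient.mk (m ^ 2) a - σ (residue L a) := fun a => rfl
  have hDadd : ∀ a b, D (a + b) = D a + D b := by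
    intro a b
    apply Subtype.ext
    change (D (a + b) : L ⧸ m ^ 2) = (D a : L ⧸ m ^ 2) + (D b : L ⧸ m ^ 2)
    rw [hD, hD, hD, map_add, map_add, map_add]
    ring
  have hDmul : ∀ a b, D (a * b) = a • D b + b • D a := by
    intro a b
    apply Subtype.ext
    change (D (a * b) : L ⧸ m ^ 2) = Ideal.Quotient.mk (m ^ 2) a * (D b : L ⧸ m ^ 2) +
      Ideal.Quotient.mk (m ^ 2) b * (D a : L ⧸ m ^ 2)
    have h1 : (D a : L ⧸ m ^ 2) * (D b : L ⧸ m ^ 2) = 0 := by
      have := Ideal.mul_mem_mul (D a).2 (D b).2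
      rw [← pow_two, Ideal.cotangentIdeal_square] at this
      exact this
    rw [hD, hD] at h1
    rw [hD, hD, hD, map_mul, map_mul, map_mul]
    linear_combination -h1
  have hDC : ∀ c : ℂ, D (algebraMap ℂ L c) = 0 := by
    intro c
    apply Subtype.ext
    rw [hD]
    have h1 : residue L (algebraMap ℂ L c) = algebraMap ℂ S c := rfl
    rw [h1, AlgHom.commutes]
    exact sub_self _
  let F : m.cotangentIdeal →ₗ[L] S := f ∘ₗ (m.cotangentEquivIdeal.symm : _ →ₗ[L] m.Cotangent)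
  have hsmul : ∀ (a : L) (s : S), a • s = residue L a * s := fun a s => by
    rw [Algebra.smul_def]; rfl
  refine ⟨{ toFun := fun a => F (D a)
            map_add' := fun a b => by rw [hDadd, map_add]
            map_smul' := fun c a => by
              rw [RingHom.id_apply, Algebra.smul_def c a, hDmul, hDC, smul_zero, add_zero,
                map_smul, hsmul]
              rw [Algebra.smul_def c (F (D a))]
              rfl }, fun a b => ?_, fun a => ?_⟩
  · change F (D (a * b)) = residue L a * F (D b) + residue L b * F (D a)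
    rw [hDmul, map_add, map_smul, map_smul, hsmul, hsmul]
  · change F (D a) = _
    have h1 : residue L (a : L) = 0 := (residue_eq_zero_iff _).2 a.2
    have h2 : D a = ⟨(m ^ 2).mkQ (a : L), Submodule.mem_map_of_mem a.2⟩ := by
      apply Subtype.ext
      rw [hD, h1, map_zero, sub_zero]
      rfl
    rw [h2]
    change f (m.cotangentEquivIdeal.symm _) = _
    rw [Ideal.cotangentEquivIdeal_symm_apply]

variable {R : Type u} [CommRing R] [Algebra ℂ R] {𝒜 : ℕ → Submodule ℂ R} [GradedAlgebra 𝒜]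
  {P : R →ₗ[ℂ] R →ₗ[ℂ] R}

/-- Functionals on the cotangent space at a point come from derivations. -/
theorem ni8_exists_isDer {κ : Type v} [Field κ] [Algebra ℂ κ] (z : R →ₐ[ℂ] κ) (q : Ideal R)
    [q.IsPrime] (hq : ∀ r, r ∈ q ↔ z r = 0) :
    ∃ ι : ResidueField (Localization.AtPrime q) →+* κ,
      ∀ f : CotangentSpace (Localization.AtPrime q) →ₗ[Localization.AtPrime q]
        ResidueField (Localization.AtPrime q),
      ∃ x : R →ₗ[ℂ] κ, IsDer z x ∧ ∀ r (a : maximalIdeal (Localization.AtPrime q)),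
        (a : Localization.AtPrime q) = algebraMap R _ r →
        x r = ι (f ((maximalIdeal (Localization.AtPrime q)).toCotangent a)) := by
  let L := Localization.AtPrime q
  have hu : ∀ s : q.primeCompl, IsUnit ((z : R →+* κ) s) := fun s =>
    isUnit_iff_ne_zero.2 fun h => s.2 ((hq s).2 h)
  let ι₀ : L →+* κ := IsLocalization.lift hu
  have hι₀ : ∀ r, ι₀ (algebraMap R L r) = z r := fun r => IsLocalization.lift_eq hu r
  have hloc : IsLocalHom ι₀ := by
    refine ⟨fun a ha => ?_⟩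
    by_contra h
    have h1 : a ∈ maximalIdeal L := (mem_maximalIdeal a).2 h
    obtain ⟨⟨r, s⟩, hrs⟩ := IsLocalization.surj q.primeCompl a
    have h2 : algebraMap R L r ∈ maximalIdeal L := by
      rw [← hrs]
      exact Ideal.mul_mem_right _ _ h1
    have h3 : r ∈ q := (IsLocalization.AtPrime.to_map_mem_maximal_iff L q r).1 h2
    have h4 := congrArg ι₀ hrs
    rw [map_mul, hι₀, hι₀, (hq r).1 h3] at h4
    rcases mul_eq_zero.1 h4 with h5 | h5
    · rw [h5] at ha
      exact not_isUnit_zero ha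
    · exact s.2 ((hq s).2 h5)
  let ι : ResidueField L →+* κ := ResidueField.lift ι₀
  have hι : ∀ a, ι (residue L a) = ι₀ a := fun a => ResidueField.lift_residue_apply ι₀ a
  refine ⟨ι, fun f => ?_⟩
  obtain ⟨x, hx, hxm⟩ := ni8_exists_der f
  have hιC : ∀ c : ℂ, ι (algebraMap ℂ (ResidueField L) c) = algebraMap ℂ κ c := by
    intro c
    have h1 : algebraMap ℂ (ResidueField L) c = residue L (algebraMap R L (algebraMap ℂ R c)) := by
      rw [← IsScalarTower.algebraMap_apply ℂ R L]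
      rfl
    rw [h1, hι, hι₀, AlgHom.commutes]
  refine ⟨{ toFun := fun r => ι (x (algebraMap R L r))
            map_add' := fun r s => by rw [map_add, map_add, map_add]
            map_smul' := fun c r => by
              have h1 : algebraMap R L (c • r) = c • algebraMap R L r := by
                rw [Algebra.smul_def, map_mul, ← IsScalarTower.algebraMap_apply ℂ R L,
                  Algebra.smul_def]
              rw [RingHom.id_apply, h1, map_smul, Algebra.smul_def, map_mul, hιC,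
                Algebra.smul_def] }, fun r s => ?_, fun r a ha => ?_⟩
  · change ι (x (algebraMap R L (r * s))) = z r * ι (x (algebraMap R L s)) +
      z s * ι (x (algebraMap R L r))
    rw [map_mul, hx, map_add, map_mul, map_mul, hι, hι, hι₀, hι₀]
  · change ι (x (algebraMap R L r)) = _
    rw [← ha, hxm]

omit [Algebra ℂ R] in
/-- Every cotangent vector at a prime is a nonzero multiple of one given by an element of the
prime. -/
theorem ni8_exists_smul (q : Ideal R) [q.IsPrime] (e : CotangentSpace (Localization.AtPrime q)) :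
    ∃ r ∈ q, ∃ c : ResidueField (Localization.AtPrime q), c ≠ 0 ∧
      ∃ a : maximalIdeal (Localization.AtPrime q),
        (a : Localization.AtPrime q) = algebraMap R _ r ∧
        (maximalIdeal (Localization.AtPrime q)).toCotangent a = c • e := by
  let L := Localization.AtPrime q
  obtain ⟨b, rfl⟩ := (maximalIdeal L).toCotangent_surjective e
  obtain ⟨⟨r, s⟩, hrs⟩ := IsLocalization.surj q.primeCompl (b : L)
  have h2 : algebraMap R L r ∈ maximalIdeal L := by
    rw [← hrs]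
    exact Ideal.mul_mem_right _ _ b.2
  have h3 : r ∈ q := (IsLocalization.AtPrime.to_map_mem_maximal_iff L q r).1 h2
  refine ⟨r, h3, residue L (algebraMap R L s), ?_, ⟨_, h2⟩, rfl, ?_⟩
  · rw [Ne, residue_eq_zero_iff, IsLocalization.AtPrime.to_map_mem_maximal_iff L q]
    exact s.2
  · have h4 : (⟨algebraMap R L r, h2⟩ : maximalIdeal L) = algebraMap R L s • b := by
      apply Subtype.ext
      change algebraMap R L r = algebraMap R L s * (b : L)
      rw [← hrs, mul_comm]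
    rw [h4, map_smul]
    exact (algebraMap_smul (ResidueField L) (algebraMap R L s)
      ((maximalIdeal L).toCotangent b)).symm

/-- A point at which all derivations kill the kernel is injective. -/
theorem ni_injective (hX : IsContactFano 𝒜 P) [IsDomain R] {κ : Type v} [Field κ] [Algebra ℂ κ]
    (z : R →ₐ[ℂ] κ) (h : ∀ x : R →ₗ[ℂ] κ, IsDer z x → ∀ r, z r = 0 → x r = 0) :
    Function.Injective z := by
  have := hX.finiteType
  have : IsNoetherianRing R := Algebra.FiniteType.isNoetherianRing ℂ R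
  let q : Ideal R := RingHom.ker z
  have hqp : q.IsPrime := RingHom.ker_isPrime _
  have hq : ∀ r, r ∈ q ↔ z r = 0 := fun r => Iff.rfl
  let L := Localization.AtPrime q
  have hL : IsNoetherianRing L := IsLocalization.isNoetherianRing q.primeCompl L inferInstance
  obtain ⟨ι, hι⟩ := ni8_exists_isDer z q hq
  have hsub : Subsingleton (CotangentSpace L) := by
    refine ⟨fun e e' => ?_⟩
    suffices H : ∀ e : CotangentSpace L, e = 0 by rw [H e, H e']
    intro e
    by_contra he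
    obtain ⟨f, hf, -⟩ := Submodule.exists_le_ker_of_notMem (p := (⊥ : Submodule (ResidueField L)
      (CotangentSpace L))) (v := e) he
    obtain ⟨r, hr, c, hc, a, ha, hac⟩ := ni8_exists_smul q e
    obtain ⟨x, hx, hxr⟩ := hι (f.restrictScalars L)
    have h1 := hxr r a ha
    rw [h x hx r ((hq r).1 hr), hac] at h1
    have h2 : ι (f (c • e)) = 0 := h1.symm
    rw [map_eq_zero, map_smul, smul_eq_mul, mul_eq_zero] at h2
    exact h2.elim hc hf
  have hfield : IsField L := subsingleton_cotangentSpace_iff.1 hsub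
  have hbot : maximalIdeal L = ⊥ := isField_iff_maximalIdeal_eq.1 hfield
  have hinj : Function.Injective (algebraMap R L) :=
    IsLocalization.injective L (Ideal.primeCompl_le_nonZeroDivisors q)
  rw [injective_iff_map_eq_zero]
  intro r hr
  have h1 : algebraMap R L r ∈ maximalIdeal L :=
    (IsLocalization.AtPrime.to_map_mem_maximal_iff L q r).2 ((hq r).2 hr)
  rw [hbot, Ideal.mem_bot] at h1
  exact hinj (h1.trans (map_zero _).symm)

/-- A point at which all derivations are proportional on the kernel is injective or the generic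
point of a divisor. -/
theorem ni8_dvr (hX : IsContactFano 𝒜 P) [IsDomain R] {κ : Type v} [Field κ] [Algebra ℂ κ]
    (z : R →ₐ[ℂ] κ) (y : R →ₗ[ℂ] κ)
    (hy : ∀ x : R →ₗ[ℂ] κ, IsDer z x → ∃ c : κ, ∀ r, z r = 0 → x r = c * y r)
    (q : Ideal R) [q.IsPrime] (hq : ∀ r, r ∈ q ↔ z r = 0) {g : R} (hg0 : g ≠ 0) (hg : z g = 0) :
    IsDiscreteValuationRing (Localization.AtPrime q) := by
  have := hX.finiteType
  have : IsNoetherianRing R := Algebra.FiniteType.isNoetherianRing ℂ R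
  let L := Localization.AtPrime q
  have hL : IsNoetherianRing L := IsLocalization.isNoetherianRing q.primeCompl L inferInstance
  have hLd : IsDomain L := IsLocalization.isDomain_localization q.primeCompl_le_nonZeroDivisors
  have hinj : Function.Injective (algebraMap R L) :=
    IsLocalization.injective L (Ideal.primeCompl_le_nonZeroDivisors q)
  obtain ⟨ι, hι⟩ := ni8_exists_isDer z q hq
  have hfin : Module.finrank (ResidueField L) (CotangentSpace L) ≤ 1 := by
    by_cases h0 : ∀ e : CotangentSpace L, e = 0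
    · exact finrank_le_one 0 fun w => ⟨0, by rw [h0 w, smul_zero]⟩
    · push Not at h0
      obtain ⟨e, he⟩ := h0
      -- a nonzero functional
      obtain ⟨f, hf, -⟩ := Submodule.exists_le_ker_of_notMem (p := (⊥ : Submodule (ResidueField L)
        (CotangentSpace L))) (v := e) he
      obtain ⟨r, hr, c, hc, a, ha, hac⟩ := ni8_exists_smul q e
      obtain ⟨x, hx, hxr⟩ := hι (f.restrictScalars L)
      obtain ⟨t, ht⟩ := hy x hx
      have hyr : y r ≠ 0 := by
        intro h1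
        have h2 := hxr r a ha
        rw [ht r ((hq r).1 hr), h1, mul_zero, hac] at h2
        have h3 : ι (f (c • e)) = 0 := h2.symm
        rw [map_eq_zero, map_smul, smul_eq_mul, mul_eq_zero] at h3
        exact h3.elim hc hf
      refine finrank_le_one e fun w => ?_
      by_contra hw
      have hw' : w ∉ Submodule.span (ResidueField L) {e} := fun h =>
        hw (Submodule.mem_span_singleton.1 h)
      obtain ⟨f', hf', hf'e⟩ := Submodule.exists_le_ker_of_notMem hw'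
      have hf'e' : f' e = 0 := hf'e (Submodule.mem_span_singleton_self e)
      obtain ⟨x', hx', hxr'⟩ := hι (f'.restrictScalars L)
      obtain ⟨t', ht'⟩ := hy x' hx'
      have ht0 : t' = 0 := by
        have h2 := hxr' r a ha
        rw [ht' r ((hq r).1 hr), hac] at h2
        have h3 : t' * y r = ι (f' (c • e)) := h2
        rw [map_smul, hf'e', smul_zero, map_zero] at h3
        exact (mul_eq_zero.1 h3).resolve_right hyr
      obtain ⟨r', hr', c', hc', a', ha', hac'⟩ := ni8_exists_smul q w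
      have h2 := hxr' r' a' ha'
      rw [ht' r' ((hq r').1 hr'), hac', ht0, zero_mul] at h2
      have h3 : ι (f' (c' • w)) = 0 := h2.symm
      rw [map_eq_zero, map_smul, smul_eq_mul, mul_eq_zero] at h3
      exact h3.elim hc' hf'
  have hnf : ¬ IsField L := by
    intro hfield
    have hbot : maximalIdeal L = ⊥ := isField_iff_maximalIdeal_eq.1 hfield
    have h1 : algebraMap R L g ∈ maximalIdeal L :=
      (IsLocalization.AtPrime.to_map_mem_maximal_iff L q g).2 ((hq g).2 hg)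
    rw [hbot, Ideal.mem_bot] at h1
    exact hg0 (hinj (h1.trans (map_zero _).symm))
  have hone : Module.finrank (ResidueField L) (CotangentSpace L) = 1 := by
    have h0 : Module.finrank (ResidueField L) (CotangentSpace L) ≠ 0 := fun h =>
      hnf (finrank_cotangentSpace_eq_zero_iff.1 h)
    omega
  exact finrank_CotangentSpace_eq_one_iff.1 hone

/-- A point on a divisor at which all derivations are proportional on the kernel is the generic
point of the divisor. -/
theorem ni_dvr_or_field (hX : IsContactFano 𝒜 P) [IsDomain R] {κ : Type v} [Field κ] [Algebra ℂ κ]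
    (z : R →ₐ[ℂ] κ) (y : R →ₗ[ℂ] κ)
    (hy : ∀ x : R →ₗ[ℂ] κ, IsDer z x → ∃ c : κ, ∀ r, z r = 0 → x r = c * y r)
    (p : Ideal R) [p.IsPrime] (h0 : p ≠ ⊥) (hp : ∀ r ∈ p, z r = 0) : ∀ r, z r = 0 → r ∈ p := by
  obtain ⟨g, hgp, hg0⟩ := Submodule.exists_mem_ne_zero_of_ne_bot h0
  let q : Ideal R := RingHom.ker z
  have hqp : q.IsPrime := RingHom.ker_isPrime _
  have hq : ∀ r, r ∈ q ↔ z r = 0 := fun r => Iff.rfl
  have hdvr := ni8_dvr hX z y hy q hq hg0 (hp g hgp)
  intro r hr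
  rcases eq_bot_or_eq_of_dvr q hdvr p (fun a ha => hp a ha) with h1 | h1
  · exact absurd h1 h0
  · rw [h1]
    exact hr

/-- A point at which all derivations are proportional on the kernel does not lie on two coprime
divisors. -/
theorem ni_no_common_zero (hX : IsContactFano 𝒜 P) [IsDomain R] [UniqueFactorizationMonoid R]
    {κ : Type v} [Field κ] [Algebra ℂ κ] (z : R →ₐ[ℂ] κ) (y : R →ₗ[ℂ] κ)
    (hy : ∀ x : R →ₗ[ℂ] κ, IsDer z x → ∃ c : κ, ∀ r, z r = 0 → x r = c * y r)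
    {g h : R} (hgh : IsRelPrime g h) (hg : z g = 0) (hh : z h = 0) : False := by
  -- `g` is not zero
  have hg0 : g ≠ 0 := by
    rintro rfl
    have h1 : IsUnit h := hgh (dvd_zero h) dvd_rfl
    have h2 : IsUnit (z h) := h1.map z
    rw [hh] at h2
    exact not_isUnit_zero h2
  -- a prime factor of `g`
  obtain ⟨π, hπ, hπz, hπg⟩ : ∃ π : R, Prime π ∧ z π = 0 ∧ π ∣ g := by
    have key : ∀ a : R, a ≠ 0 → z a = 0 → ∃ π : R, Prime π ∧ z π = 0 ∧ π ∣ a := by
      intro a
      induction a using WfDvdMonoid.induction_on_irreducible with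
      | zero => exact fun h => absurd rfl h
      | unit u hu => exact fun _ h => absurd (h ▸ hu.map z) not_isUnit_zero
      | mul a i ha hi ih =>
        intro _ h
        rw [map_mul] at h
        rcases mul_eq_zero.1 h with h1 | h1
        · exact ⟨i, UniqueFactorizationMonoid.irreducible_iff_prime.1 hi, h1, Dvd.intro _ rfl⟩
        · obtain ⟨π, h2, h3, h4⟩ := ih ha h1
          exact ⟨π, h2, h3, h4.mul_left _⟩
    exact key g hg0 hg
  have hspan : (Ideal.span {π}).IsPrime := (Ideal.span_singleton_prime hπ.ne_zero).2 hπ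
  have hne : Ideal.span {π} ≠ ⊥ := fun h => hπ.ne_zero (Ideal.span_singleton_eq_bot.1 h)
  have hle : ∀ r ∈ Ideal.span {π}, z r = 0 := by
    intro r hr
    obtain ⟨t, rfl⟩ := Ideal.mem_span_singleton'.1 hr
    rw [map_mul, hπz, mul_zero]
  have hπh : π ∣ h := by
    rw [← Ideal.mem_span_singleton]
    exact ni_dvr_or_field hX z y hy (Ideal.span {π}) hne hle h hh
  exact hπ.not_isUnit (hgh hπg hπh)

end Vale.Agent.P292
end

section

/-! # Block I: two lines through the generic point which are not orthogonal. -/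

namespace Vale.Agent.P292

open MvPolynomial

universe u v w

variable {R : Type u} [CommRing R] [Algebra ℂ R] {𝒜 : ℕ → Submodule ℂ R} [GradedAlgebra 𝒜]
  {P : R →ₗ[ℂ] R →ₗ[ℂ] R}

/-- The Euler derivation of the fraction field. -/
theorem ni_exists_euler [IsDomain R] : ∃ E : Derivation ℂ (FractionRing R) (FractionRing R),
    ∀ r : R, E (algebraMap R _ r) = algebraMap R _ (euler 𝒜 r) := by
  have : CharZero (FractionRing R) :=
    charZero_of_injective_algebraMap (algebraMap ℂ (FractionRing R)).injective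
  let d : Derivation ℂ R (FractionRing R) := Derivation.mk'
    ((IsScalarTower.toAlgHom ℂ R (FractionRing R)).toLinearMap ∘ₗ euler 𝒜) (fun a b => by
      change algebraMap R (FractionRing R) (euler 𝒜 (a * b)) =
        a • algebraMap R (FractionRing R) (euler 𝒜 b) + b • algebraMap R (FractionRing R) (euler 𝒜 a)
      rw [euler_mul, Algebra.smul_def, Algebra.smul_def, map_add, map_mul, map_mul]
      ring)
  exact exists_derivation_extend (k := ℂ) (A := R) (E := FractionRing R)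
    (IsFractionRing.injective R (FractionRing R)) d

section reparam

variable {κ : Type v} [Field κ] [Algebra ℂ κ]

omit [Algebra ℂ κ] in
/-- Chain rule. -/
theorem ni_pderiv_reparamHom (a b : Fin 2 → κ) (p : MvPolynomial (Fin 2) κ) :
    pderiv 1 (reparamHom a b p) =
      C (b 0) * reparamHom a b (pderiv 0 p) + C (b 1) * reparamHom a b (pderiv 1 p) := by
  induction p using MvPolynomial.induction_on with
  | C c => simp [reparamHom]
  | add p q hp hq =>
    rw [map_add, map_add, hp, hq, map_add, map_add, map_add, map_add]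
    ring
  | mul_X p i hp =>
    have hX : reparamHom a b (X i) = C (a i) * X 0 + C (b i) * X 1 := by simp [reparamHom]
    rw [map_mul, Derivation.leibniz, hp, hX, Derivation.leibniz, Derivation.leibniz]
    fin_cases i
    · simp [pderiv_X, smul_eq_mul, reparamHom]
      ring
    · simp [pderiv_X, smul_eq_mul, reparamHom]
      ring

end reparam

/-- Conjugation of a derivation by an automorphism. -/
theorem ni_exists_conj {F : Type u} {L : Type v} [Field F] [Field L] [Algebra F L] [Algebra ℂ F]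
    [Algebra ℂ L] [IsScalarTower ℂ F L] (D : Derivation ℂ L L) (σ : L ≃ₐ[F] L) :
    ∃ D' : Derivation ℂ L L, ∀ x, D' x = σ.symm (D (σ x)) := by
  refine ⟨Derivation.mk' (((σ.symm.restrictScalars ℂ : L ≃ₐ[ℂ] L).toAlgHom.toLinearMap) ∘ₗ
    (D : L →ₗ[ℂ] L) ∘ₗ ((σ.restrictScalars ℂ : L ≃ₐ[ℂ] L).toAlgHom.toLinearMap)) fun a b => ?_,
    fun x => rfl⟩
  change σ.symm (D (σ (a * b))) = a * σ.symm (D (σ b)) + b * σ.symm (D (σ a))
  rw [map_mul, Derivation.leibniz, map_add, smul_eq_mul, smul_eq_mul, map_mul, map_mul,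
    AlgEquiv.symm_apply_apply, AlgEquiv.symm_apply_apply]

/-- An element of the fraction field which is constant along all lines through the generic
point. -/
theorem ni_exists_f (hX : IsContactFano 𝒜 P) [IsDomain R]
    {K : Type u} [Field K] [IsAlgClosed K] [Algebra ℂ K]
    {ψ : R →ₐ[ℂ] MvPolynomial (Fin 2) K} (h : IsAnch 𝒜 1 ψ) (hfull : IsFull 𝒜 1 ψ)
    (hinj : Function.Injective (pt ψ ![0, 1]))
    (hlag : ∀ x : R →ₗ[ℂ] K, IsDer (pt ψ ![0, 1]) x →
      (∀ τ, IsHDer 𝒜 1 ψ (-1) τ → om P (pt ψ ![0, 1]) x (evL ![0, 1] τ) = 0) →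
      ∃ τ, IsHDer 𝒜 1 ψ (-1) τ ∧ evL ![0, 1] τ = x)
    (iso : ∀ ψ₂ : R →ₐ[ℂ] MvPolynomial (Fin 2) K, IsAnch 𝒜 1 ψ₂ →
      pt ψ₂ ![1, 0] = pt ψ ![1, 0] →
      om P (pt ψ ![1, 0]) (evL ![1, 0] (pd ψ₂ 1)) (evL ![1, 0] (pd ψ 1)) = 0) :
    ∃ (E : Derivation ℂ (FractionRing R) (FractionRing R)) (f : FractionRing R),
      (∀ k, ∀ r ∈ 𝒜 k, E (algebraMap R _ r) = (k : FractionRing R) * algebraMap R _ r) ∧
      E f = 0 ∧ (∀ c : ℂ, f ≠ algebraMap ℂ (FractionRing R) c) ∧
      ∀ g h' : R, f * algebraMap R _ h' = algebraMap R _ g →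
      ∀ ψ₀ : R →ₐ[ℂ] MvPolynomial (Fin 2) (AlgebraicClosure (FractionRing R)), IsCurve 𝒜 1 ψ₀ →
        (∀ r, pt ψ₀ ![1, 0] r = algebraMap R _ r) →
        evL ![1, 0] (pd ψ₀ 1) g * algebraMap R _ h' =
          algebraMap R _ g * evL ![1, 0] (pd ψ₀ 1) h' := by
  classical
  have := hX.finiteType
  have hcF : CharZero (FractionRing R) :=
    charZero_of_injective_algebraMap (algebraMap ℂ (FractionRing R)).injective
  have hcL : CharZero (AlgebraicClosure (FractionRing R)) :=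
    charZero_of_injective_algebraMap
      (algebraMap ℂ (AlgebraicClosure (FractionRing R))).injective
  have hinjR : Function.Injective (algebraMap R (AlgebraicClosure (FractionRing R))) := by
    rw [IsScalarTower.algebraMap_eq R (FractionRing R) (AlgebraicClosure (FractionRing R))]
    exact (algebraMap (FractionRing R) _).injective.comp (IsFractionRing.injective R _)
  obtain ⟨i, hi⟩ := ni_exists_embedding h.inj
  let _ : Algebra (AlgebraicClosure (FractionRing R)) K := (i : _ →+* K).toAlgebra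
  have hst : IsScalarTower ℂ (AlgebraicClosure (FractionRing R)) K :=
    IsScalarTower.of_algebraMap_eq fun c => (i.commutes c).symm
  let η₀ : R →ₐ[ℂ] AlgebraicClosure (FractionRing R) :=
    IsScalarTower.toAlgHom ℂ R (AlgebraicClosure (FractionRing R))
  have h0 : ∀ r, pt ψ ![1, 0] r = algebraMap (AlgebraicClosure (FractionRing R)) K (η₀ r) :=
    fun r => (hi r).symm
  obtain ⟨c, hc, hkill⟩ := ni_coeff hX h.curve hfull hinj hlag h0
    (fun D hD a => ni_alg_killed i D hD a)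
  -- the derivations given by the lines
  let S : Set (Derivation ℂ (AlgebraicClosure (FractionRing R))
      (AlgebraicClosure (FractionRing R))) :=
    {D | ∃ ψ₂ : R →ₐ[ℂ] MvPolynomial (Fin 2) (AlgebraicClosure (FractionRing R)),
      IsCurve 𝒜 1 ψ₂ ∧ (∀ r, pt ψ₂ ![1, 0] r = algebraMap R _ r) ∧
      ∀ r : R, D (algebraMap R _ r) = evL ![1, 0] (pd ψ₂ 1) r}
  have hSex : ∀ ψ₂ : R →ₐ[ℂ] MvPolynomial (Fin 2) (AlgebraicClosure (FractionRing R)),
      IsCurve 𝒜 1 ψ₂ → (∀ r, pt ψ₂ ![1, 0] r = algebraMap R _ r) →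
      ∃ D ∈ S, ∀ r : R, D (algebraMap R _ r) = evL ![1, 0] (pd ψ₂ 1) r := by
    intro ψ₂ h1 h2
    let d : Derivation ℂ R (AlgebraicClosure (FractionRing R)) := Derivation.mk'
      (evL ![1, 0] (pd ψ₂ 1)) fun a b => by
        rw [((isHDer_pd h1 1).der.evL ![1, 0]) a b, h2, h2, Algebra.smul_def, Algebra.smul_def]
    obtain ⟨D, hD⟩ := exists_derivation_extend (k := ℂ) (A := R)
      (E := AlgebraicClosure (FractionRing R)) hinjR d
    exact ⟨D, ⟨ψ₂, h1, h2, hD⟩, hD⟩
  have hSc : ∀ D ∈ S, D c = 0 := by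
    rintro D ⟨ψ₂, h1, h2, h3⟩
    refine hkill D fun v' hv' => ?_
    have hv : v' = evL ![1, 0] (pd (niMap i ψ₂) 1) := by
      ext r
      rw [hv', evL_pd_niMap, ← h3]
      rfl
    have hpt : pt (niMap i ψ₂) ![1, 0] = pt ψ ![1, 0] := by
      ext r
      rw [pt_niMap_10, h2, hi]
    rw [hv]
    exact iso (niMap i ψ₂) ⟨h1.niMap i, by rw [hpt]; exact h.inj⟩ hpt
  have hSσ : ∀ D ∈ S, ∀ σ : AlgebraicClosure (FractionRing R) ≃ₐ[FractionRing R]
      AlgebraicClosure (FractionRing R), ∃ D' ∈ S, ∀ x, D' x = σ.symm (D (σ x)) := by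
    rintro D ⟨ψ₂, h1, h2, h3⟩ σ
    obtain ⟨D', hD'⟩ := ni_exists_conj D σ
    have hσ : ∀ r : R, σ.symm (algebraMap R _ r) = algebraMap R _ r := by
      intro r
      rw [IsScalarTower.algebraMap_apply R (FractionRing R)
        (AlgebraicClosure (FractionRing R)), AlgEquiv.commutes]
    have hσ' : ∀ r : R, σ (algebraMap R _ r) = algebraMap R _ r := by
      intro r
      rw [IsScalarTower.algebraMap_apply R (FractionRing R)
        (AlgebraicClosure (FractionRing R)), AlgEquiv.commutes]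
    refine ⟨D', ⟨niMap ((σ.symm.restrictScalars ℂ : _ ≃ₐ[ℂ] _) : _ →ₐ[ℂ] _) ψ₂, h1.niMap _,
      fun r => ?_, fun r => ?_⟩, hD'⟩
    · rw [pt_niMap_10, h2]
      exact hσ r
    · rw [hD', hσ', h3, evL_pd_niMap]
      rfl
  obtain ⟨f, hf, hSf⟩ := ni_galois S hSσ hSc hc
  -- there is a line over the algebraic closure
  obtain ⟨A₀, σ, ψ₂, hψ₂, hspec, -⟩ := ni_closed (k := AlgebraicClosure (FractionRing R))
    h.curve ∅ (by simp)
  have hψ₂' : ∀ r, pt ψ₂ ![1, 0] r = algebraMap R _ r := by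
    intro r
    have ha : ∀ j, (![1, 0] : Fin 2 → K) j ∈ A₀ := by
      intro j
      fin_cases j
      · exact A₀.one_mem
      · exact A₀.zero_mem
    obtain ⟨h1, h2⟩ := nic_eval_spec A₀ σ (ψ r) (ψ₂ r) (hspec r) ![1, 0] ha ![1, 0] (by
      intro j
      fin_cases j
      · exact (map_one σ).symm
      · exact (map_zero σ).symm)
    rw [pt_apply, h2]
    have h3 : (⟨eval ![1, 0] (ψ r), h1⟩ : A₀) =
        algebraMap (AlgebraicClosure (FractionRing R)) A₀
          (algebraMap R (AlgebraicClosure (FractionRing R)) r) := by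
      apply Subtype.val_injective
      change eval ![1, 0] (ψ r) = i (algebraMap R _ r)
      rw [hi, pt_apply]
    rw [h3]
    exact σ.commutes _
  -- the Euler derivation kills `f`
  obtain ⟨E, hE⟩ := ni_exists_euler (R := R) (𝒜 := 𝒜)
  have hEf : E f = 0 := by
    obtain ⟨D, hD, hDr⟩ := hSex ψ₂ hψ₂ hψ₂'
    have hψ₃ : IsCurve 𝒜 1 (reparam ![1, 0] ![1, 1] ψ₂) :=
      hψ₂.reparam _ _ (ne_zero_of_det (by simp))
    have hψ₃' : ∀ r, pt (reparam ![1, 0] ![1, 1] ψ₂) ![1, 0] r = algebraMap R _ r := by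
      intro r
      rw [pt_reparam, ← hψ₂' r]
      congr 2
      funext j
      fin_cases j <;> simp
    obtain ⟨D', hD', hDr'⟩ := hSex _ hψ₃ hψ₃'
    have hdiff : ∀ r : R, D' (algebraMap R _ r) - D (algebraMap R _ r) =
        algebraMap R _ (euler 𝒜 r) := by
      intro r
      rw [hDr, hDr']
      have h1 := mm_evL_pd_zero hψ₂ r
      rw [hψ₂', Nat.cast_one, one_mul] at h1
      rw [← h1, evL_apply, evL_apply, evL_apply, pd_apply, pd_apply, pd_apply, reparam_apply,
        ni_pderiv_reparamHom, map_add, map_mul, map_mul, eval_reparamHom, eval_reparamHom, eval_C,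
        eval_C]
      have h2 : ((![1, 0] : Fin 2 → AlgebraicClosure (FractionRing R)) 0 • ![1, 0] +
          (![1, 0] : Fin 2 → AlgebraicClosure (FractionRing R)) 1 • ![1, 1] :
          Fin 2 → AlgebraicClosure (FractionRing R)) = ![1, 0] := by
        funext j
        fin_cases j <;> simp
      rw [h2]
      simp
    have hj := ni_frac_killed (IsScalarTower.toAlgHom ℂ (FractionRing R)
        (AlgebraicClosure (FractionRing R)))
      (((D' : _ →ₗ[ℂ] _) - (D : _ →ₗ[ℂ] _)) ∘ₗ (IsScalarTower.toAlgHom ℂ (FractionRing R)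
        (AlgebraicClosure (FractionRing R))).toLinearMap - (IsScalarTower.toAlgHom ℂ
        (FractionRing R) (AlgebraicClosure (FractionRing R))).toLinearMap ∘ₗ
        (E : _ →ₗ[ℂ] _)) ?_ ?_ f
    · have h1 : D' (algebraMap _ _ f) - D (algebraMap _ _ f) -
          algebraMap (FractionRing R) (AlgebraicClosure (FractionRing R)) (E f) = 0 := hj
      rw [hSf D hD, hSf D' hD', sub_zero, zero_sub, neg_eq_zero, map_eq_zero] at h1
      exact h1
    · intro x y
      change D' (algebraMap _ _ (x * y)) - D (algebraMap _ _ (x * y)) -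
          algebraMap (FractionRing R) (AlgebraicClosure (FractionRing R)) (E (x * y)) =
        algebraMap _ _ x * (D' (algebraMap _ _ y) - D (algebraMap _ _ y) -
          algebraMap _ _ (E y)) +
        algebraMap _ _ y * (D' (algebraMap _ _ x) - D (algebraMap _ _ x) -
          algebraMap _ _ (E x))
      rw [Derivation.leibniz, map_mul, Derivation.leibniz, Derivation.leibniz, smul_eq_mul,
        smul_eq_mul, smul_eq_mul, smul_eq_mul, smul_eq_mul, smul_eq_mul, map_add, map_mul,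
        map_mul]
      ring
    · intro r
      change D' (algebraMap (FractionRing R) _ (algebraMap R _ r)) -
        D (algebraMap (FractionRing R) _ (algebraMap R _ r)) -
          algebraMap (FractionRing R) (AlgebraicClosure (FractionRing R))
            (E (algebraMap R _ r)) = 0
      rw [hE, ← IsScalarTower.algebraMap_apply, ← IsScalarTower.algebraMap_apply, hdiff, sub_self]
  refine ⟨E, f, fun k r hr => ?_, hEf, hf, fun g h' hfgh ψ₀ h1 h2 => ?_⟩
  · rw [hE, euler_apply k r hr, Algebra.smul_def, map_mul, ← IsScalarTower.algebraMap_apply,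
      map_natCast]
  · obtain ⟨D, hD, hDr⟩ := hSex ψ₀ h1 h2
    have h3 := hSf D hD
    have h4 : algebraMap (FractionRing R) (AlgebraicClosure (FractionRing R)) f *
        algebraMap R _ h' = algebraMap R _ g := by
      rw [IsScalarTower.algebraMap_apply R (FractionRing R) (AlgebraicClosure (FractionRing R)),
        IsScalarTower.algebraMap_apply R (FractionRing R) (AlgebraicClosure (FractionRing R)),
        ← map_mul, hfgh]
    have h5 := congrArg D h4
    rw [Derivation.leibniz, h3, smul_zero, add_zero, smul_eq_mul, hDr, hDr] at h5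
    rw [← h5, ← h4]
    ring

/-- The Wronskian vanishes. -/
theorem ni_wronskian (hX : IsContactFano 𝒜 P) [IsDomain R]
    {K : Type u} [Field K] [IsAlgClosed K] [Algebra ℂ K]
    {ψ : R →ₐ[ℂ] MvPolynomial (Fin 2) K} (h : IsAnch 𝒜 1 ψ) {k : ℕ} {g h' : R} (hg : g ∈ 𝒜 k)
    (hh : h' ∈ 𝒜 k)
    (hlin : ∀ ψ₀ : R →ₐ[ℂ] MvPolynomial (Fin 2) (AlgebraicClosure (FractionRing R)),
      IsCurve 𝒜 1 ψ₀ → (∀ r, pt ψ₀ ![1, 0] r = algebraMap R _ r) →
        evL ![1, 0] (pd ψ₀ 1) g * algebraMap R _ h' =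
          algebraMap R _ g * evL ![1, 0] (pd ψ₀ 1) h') :
    pderiv 1 (ψ g) * ψ h' = ψ g * pderiv 1 (ψ h') := by
  classical
  have := hX.finiteType
  have : Infinite K := IsAlgClosed.instInfinite
  -- the generic point of the line
  let e : Polynomial K →ₐ[ℂ] AlgebraicClosure (RatFunc K) :=
    (IsScalarTower.toAlgHom ℂ (RatFunc K) (AlgebraicClosure (RatFunc K))).comp
      (IsScalarTower.toAlgHom ℂ (Polynomial K) (RatFunc K))
  have he : Function.Injective e :=
    (algebraMap (RatFunc K) (AlgebraicClosure (RatFunc K))).injective.comp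
      (RatFunc.algebraMap_injective K)
  let j : K →ₐ[ℂ] AlgebraicClosure (RatFunc K) :=
    e.comp (IsScalarTower.toAlgHom ℂ K (Polynomial K))
  have hj : ∀ c, j c = e (Polynomial.C c) := fun c => rfl
  set lam : AlgebraicClosure (RatFunc K) := e Polynomial.X with hlam
  have key : ∀ p : MvPolynomial (Fin 2) K,
      eval ![1, lam] (map (j : K →+* AlgebraicClosure (RatFunc K)) p) = e (ni7D 1 p) := by
    intro p
    induction p using MvPolynomial.induction_on with
    | C c =>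
      have : ni7D (1 : K) (C c) = Polynomial.C c := (ni7D 1).commutes c
      rw [this, map_C, eval_C]
      exact hj c
    | add p q hp hq => rw [map_add, map_add, hp, hq, map_add, map_add]
    | mul_X p i hp =>
      have hXi : ni7D (1 : K) (X i) = ![Polynomial.C 1, Polynomial.X] i := by
        rw [ni7D, aeval_X]
      rw [map_mul, map_mul, hp, map_X, eval_X, map_mul, map_mul, hXi]
      congr 1
      fin_cases i
      · simp
      · simp [hlam]
  set φ₁ := reparam ![1, lam] ![0, 1] (niMap j ψ) with hφ₁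
  have hφ₁c : IsCurve 𝒜 1 φ₁ := (h.curve.niMap j).reparam _ _ (ne_zero_of_det (by simp))
  have hvec : ((![1, 0] : Fin 2 → AlgebraicClosure (RatFunc K)) 0 • ![1, lam] +
      (![1, 0] : Fin 2 → AlgebraicClosure (RatFunc K)) 1 • ![0, 1] :
      Fin 2 → AlgebraicClosure (RatFunc K)) = ![1, lam] := by
    funext l
    fin_cases l <;> simp
  have hpt : ∀ r, pt φ₁ ![1, 0] r = e (ni7D 1 (ψ r)) := by
    intro r
    rw [hφ₁, pt_reparam, hvec, pt_apply, niMap_apply, key]
  have hv : ∀ r, evL ![1, 0] (pd φ₁ 1) r = e (ni7D 1 (pderiv 1 (ψ r))) := by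
    intro r
    rw [evL_apply, pd_apply, hφ₁, reparam_apply, ni_pderiv_reparamHom, map_add, map_mul, map_mul,
      eval_reparamHom, eval_reparamHom, hvec, eval_C, eval_C, niMap_apply, pderiv_map, pderiv_map,
      key, key]
    simp
  have hinj₁ : Function.Injective (pt φ₁ ![1, 0]) := by
    rw [injective_iff_map_eq_zero]
    intro r hr
    rw [hpt] at hr
    have h1 : ni7D 1 (ψ r) = 0 := he (by rw [hr, map_zero])
    have h2 := ni7D_eval 1 0 (ψ r)
    rw [h1, Polynomial.eval_zero] at h2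
    exact (injective_iff_map_eq_zero (pt ψ ![1, 0])).1 h.inj r (by rw [pt_apply, ← h2])
  obtain ⟨i₁, hi₁⟩ := ni_exists_embedding hinj₁
  let _ : Algebra (AlgebraicClosure (FractionRing R)) (AlgebraicClosure (RatFunc K)) :=
    (i₁ : _ →+* _).toAlgebra
  have hst : IsScalarTower ℂ (AlgebraicClosure (FractionRing R)) (AlgebraicClosure (RatFunc K)) :=
    IsScalarTower.of_algebraMap_eq fun c => (i₁.commutes c).symm
  have h1 := ni_linear (k := AlgebraicClosure (FractionRing R))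
    (IsScalarTower.toAlgHom ℂ R (AlgebraicClosure (FractionRing R))) ![g, h']
    ![algebraMap R (AlgebraicClosure (FractionRing R)) h',
      -algebraMap R (AlgebraicClosure (FractionRing R)) g] (fun ψ₀ h2 h3 => by
      rw [Fin.sum_univ_two]
      have h4 := hlin ψ₀ h2 fun r => by rw [h3]; rfl
      simp only [Matrix.cons_val_zero, Matrix.cons_val_one]
      linear_combination h4) hφ₁c (fun r => (hi₁ r).symm)
  rw [Fin.sum_univ_two] at h1
  simp only [Matrix.cons_val_zero, Matrix.cons_val_one] at h1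
  have h2 : ∀ r : R, algebraMap (AlgebraicClosure (FractionRing R)) (AlgebraicClosure (RatFunc K))
      (algebraMap R _ r) = e (ni7D 1 (ψ r)) := fun r => (hi₁ r).trans (hpt r)
  rw [map_neg, h2, h2, hv, hv, ← map_mul, ← map_mul, neg_mul, ← map_mul, ← map_mul,
    ← sub_eq_add_neg, ← map_sub, ← map_sub] at h1
  have h3 : ni7D 1 (ψ h' * pderiv 1 (ψ g) - ψ g * pderiv 1 (ψ h')) = 0 :=
    he (by rw [h1, map_zero])
  have h4 : (ψ h' * pderiv 1 (ψ g) - ψ g * pderiv 1 (ψ h')).IsHomogeneous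
      (1 * k + (1 * k - 1)) :=
    ((h.curve.degree k h' hh).mul (h.curve.degree k g hg).pderiv).sub
      ((h.curve.degree k g hg).mul (h.curve.degree k h' hh).pderiv)
  by_contra hne
  refine ni7D_ne h4 ?_ one_ne_zero h3
  intro h5
  apply hne
  rw [mul_comm]
  exact sub_eq_zero.1 h5

end Vale.Agent.P292
end

section

/-! # Block I: two lines through the generic point which are not orthogonal. -/

namespace Vale.Agent.P292

open MvPolynomial

universe u v w

variable {R : Type u} [CommRing R] [Algebra ℂ R] {𝒜 : ℕ → Submodule ℂ R} [GradedAlgebra 𝒜]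
  {P : R →ₗ[ℂ] R →ₗ[ℂ] R}

/-- Coefficientwise derivation and evaluation. -/
theorem ni_eval_mapD {K : Type v} [Field K] [Algebra ℂ K] (D : Derivation ℂ K K) (u : Fin 2 → K)
    (p : MvPolynomial (Fin 2) K) : eval u (mapD D p) =
      D (eval u p) - D (u 0) * eval u (pderiv 0 p) - D (u 1) * eval u (pderiv 1 p) := by
  induction p using MvPolynomial.induction_on with
  | C c => simp [mapD_C]
  | add p q hp hq =>
    simp only [map_add, hp, hq]
    ring
  | mul_X p i hp =>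
    rw [Derivation.leibniz, mapD_X, smul_zero, zero_add, smul_eq_mul, map_mul, hp, map_mul,
      Derivation.leibniz, Derivation.leibniz, Derivation.leibniz, eval_X]
    fin_cases i
    · simp [pderiv_X, smul_eq_mul]
      ring
    · simp [pderiv_X, smul_eq_mul]
      ring

/-- At a point of a full anchored line all derivations are proportional on the kernel. -/
theorem ni_proportional_on_ker (hX : IsContactFano 𝒜 P) [IsDomain R] {K : Type v} [Field K]
    [IsAlgClosed K] [Algebra ℂ K] {ψ : R →ₐ[ℂ] MvPolynomial (Fin 2) K} (h : IsAnch 𝒜 1 ψ)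
    (hfull : IsFull 𝒜 1 ψ) {u : Fin 2 → K} (hu : u ≠ 0) (hu0 : ∀ D : Derivation ℂ K K, D (u 0) = 0)
    (x : R →ₗ[ℂ] K) (hx : IsDer (pt ψ u) x) :
    ∃ c : K, ∀ r, pt ψ u r = 0 → x r = c * evL u (pd ψ 1) r := by
  obtain ⟨δ, hδ, rfl⟩ := ni_exists_value hX h hu x hx
  obtain ⟨D, hD⟩ := hfull δ hδ
  refine ⟨-D (u 1), fun r hr => ?_⟩
  rw [pt_apply] at hr
  rw [evL_apply, ← hD, ni_eval_mapD, hr, map_zero, hu0, evL_apply, pd_apply]
  ring

/-- A zero of two forms can be normalised. -/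
theorem ni_normalise {K : Type v} [Field K] [Algebra ℂ K] {u : Fin 2 → K} (hu : u ≠ 0) :
    ∃ c : K, c ≠ 0 ∧ (fun i => c * u i) ≠ 0 ∧
      ∀ D : Derivation ℂ K K, D ((fun i => c * u i) 0) = 0 := by
  by_cases h0 : u 0 = 0
  · refine ⟨1, one_ne_zero, by simpa using hu, fun D => ?_⟩
    simp [h0]
  · refine ⟨(u 0)⁻¹, inv_ne_zero h0, fun h => ?_, fun D => ?_⟩
    · have := congrFun h 0
      simp [h0] at this
    · have : (u 0)⁻¹ * u 0 = 1 := inv_mul_cancel₀ h0
      change D ((u 0)⁻¹ * u 0) = 0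
      rw [this]
      exact D.map_one_eq_zero

/-- The second end of a full anchored line is generic. -/
theorem ni_second_end (hX : IsContactFano 𝒜 P) [IsDomain R] {K : Type v} [Field K]
    [IsAlgClosed K] [Algebra ℂ K] {ψ : R →ₐ[ℂ] MvPolynomial (Fin 2) K} (h : IsAnch 𝒜 1 ψ)
    (hfull : IsFull 𝒜 1 ψ) : Function.Injective (pt ψ ![0, 1]) := by
  refine ni_injective hX _ fun x hx r hr => ?_
  obtain ⟨δ, hδ, rfl⟩ := ni_exists_value hX h vec01_ne x hx
  obtain ⟨D, hD⟩ := hfull δ hδ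
  rw [evL_apply, ← hD, eval_mapD_01, ← pt_apply, hr, map_zero]

/-- **I: non-isotropy in the factorial case.** -/
theorem exists_lines_ne_zero (hX : IsContactFano 𝒜 P) [IsDomain R] [UniqueFactorizationMonoid R]
    (_hdim : 4 ≤ cdim R) {K : Type u} [Field K] [IsAlgClosed K] [Algebra ℂ K]
    {ψ : R →ₐ[ℂ] MvPolynomial (Fin 2) K} (h : IsAnch 𝒜 1 ψ) (hfull : IsFull 𝒜 1 ψ) :
    ∃ (Ω : Type u) (_ : Field Ω) (_ : IsAlgClosed Ω) (_ : Algebra ℂ Ω)
      (ψ₁ ψ₂ : R →ₐ[ℂ] MvPolynomial (Fin 2) Ω), IsAnch 𝒜 1 ψ₁ ∧ IsAnch 𝒜 1 ψ₂ ∧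
      pt ψ₁ ![1, 0] = pt ψ₂ ![1, 0] ∧
      om P (pt ψ₁ ![1, 0]) (evL ![1, 0] (pd ψ₁ 1)) (evL ![1, 0] (pd ψ₂ 1)) ≠ 0 := by
  by_contra hcon
  have hcK : CharZero K := charZero_of_injective_algebraMap (algebraMap ℂ K).injective
  obtain ⟨E, f, hE, hEf, hf, hlin⟩ := ni_exists_f hX h hfull (ni_second_end hX h hfull)
    (fun x hx ho => ni_lagrangian hX h vec01_ne x hx ho) (fun ψ₂ h2 hpt => by
      by_contra hne
      refine hcon ⟨K, inferInstance, inferInstance, inferInstance, ψ₂, ψ, h2, h, hpt, ?_⟩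
      rw [hpt]
      exact hne)
  obtain ⟨k, hk, g, hg, h', hh', hh0, hrel, hfgh⟩ := ni_exists_homog hX E hE hEf hf
  have hg0 : g ≠ 0 := by
    rintro rfl
    rw [map_zero] at hfgh
    have h1 : algebraMap R (FractionRing R) h' ≠ 0 := by
      rw [Ne, ← map_zero (algebraMap R (FractionRing R))]
      exact fun h1 => hh0 (IsFractionRing.injective R _ h1)
    have h2 := (mul_eq_zero.1 hfgh).resolve_right h1
    exact hf 0 (by rw [h2, map_zero])
  have hW := ni_wronskian hX h hg hh' (hlin g h' hfgh)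
  have hne : ∀ r : R, r ≠ 0 → ψ r ≠ 0 := by
    intro r hr h0
    apply hr
    apply (injective_iff_map_eq_zero (pt ψ ![1, 0])).1 h.inj
    rw [pt_apply, h0, map_zero]
  obtain ⟨u, hu, huG, huH⟩ := ni_common_zero (k := 1 * k) (by omega) (h.curve.degree k g hg)
    (h.curve.degree k h' hh') (hne g hg0) (hne h' hh0) hW
  obtain ⟨c, hc, hu', hD⟩ := ni_normalise hu
  refine ni_no_common_zero hX (pt ψ fun i => c * u i) _
    (ni_proportional_on_ker hX h hfull hu' hD) hrel ?_ ?_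
  · rw [pt_apply, ni7_eval_smul (h.curve.degree k g hg), huG, mul_zero]
  · rw [pt_apply, ni7_eval_smul (h.curve.degree k h' hh'), huH, mul_zero]

end Vale.Agent.P292
end

section

/-! # Block I-6 without unique factorisation: poles of an Euler invariant -/

namespace Vale.Agent.P292

open DirectSum

universe u

section
variable {R : Type u} [CommRing R] [Algebra ℂ R] {𝒜 : ℕ → Submodule ℂ R} [GradedAlgebra 𝒜]
  {P : R →ₗ[ℂ] R →ₗ[ℂ] R}

theorem ni6_euler_component (x : R) (i : ℕ) :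
    (decompose 𝒜 (euler 𝒜 x) i : R) = (i : ℂ) • (decompose 𝒜 x i : R) := by
  refine forall_of_homogeneous' (𝒜 := 𝒜)
    ((𝒜 i).subtype ∘ₗ (DirectSum.component ℂ ℕ (fun i => 𝒜 i) i) ∘ₗ
        (decomposeLinearEquiv 𝒜).toLinearMap ∘ₗ euler 𝒜)
    ((i : ℂ) • ((𝒜 i).subtype ∘ₗ (DirectSum.component ℂ ℕ (fun i => 𝒜 i) i) ∘ₗ
        (decomposeLinearEquiv 𝒜).toLinearMap)) (fun k r hr => ?_) x
  change (decompose 𝒜 (euler 𝒜 r) i : R) = (i : ℂ) • (decompose 𝒜 r i : R)
  rw [euler_apply k r hr, decompose_smul, DirectSum.smul_apply]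
  by_cases hik : k = i
  · subst hik
    rfl
  · have : (decompose 𝒜 r i : R) = 0 := decompose_of_mem_ne 𝒜 hr hik
    rw [Submodule.coe_smul, this, smul_zero, smul_zero]

/-- an Euler eigenvector is homogeneous. -/
theorem ni6_eigen [IsDomain R] (h0 : ∀ r ∈ 𝒜 0, ∃ c : ℂ, r = algebraMap ℂ R c) {g : R} {k : ℕ}
    (h : euler 𝒜 g = (k : ℂ) • g) : g ∈ 𝒜 k := by
  by_cases hg : g = 0
  · rw [hg]; exact zero_mem _
  · obtain ⟨l, hl, hlk⟩ := ni6_homog (𝒜 := 𝒜) h0 (q := algebraMap ℂ R k) hg (by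
      rw [h, Algebra.smul_def])
    have h1 := (algebraMap ℂ R).injective hlk
    have h2 : k = l := by exact_mod_cast h1
    rwa [h2]

open scoped Classical in
/-- I-6' homogeneous representation of an Euler invariant of the fraction field -/
theorem ni6_exists_rep (hX : IsContactFano 𝒜 P) [IsDomain R]
    (E : Derivation ℂ (FractionRing R) (FractionRing R))
    (hEu : ∀ r, E (algebraMap R _ r) = algebraMap R _ (euler 𝒜 r))
    {f : FractionRing R} (hf : E f = 0) (n : ℕ) :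
    ∀ g₀ h₀ : R, h₀ ≠ 0 → (decompose 𝒜 h₀).support.card ≤ n →
      f * algebraMap R _ h₀ = algebraMap R _ g₀ →
      ∃ k, ∃ g ∈ 𝒜 k, ∃ h ∈ 𝒜 k, h ≠ 0 ∧ f * algebraMap R _ h = algebraMap R _ g := by
  classical
  have hinj : Function.Injective (algebraMap R (FractionRing R)) :=
    IsFractionRing.injective R (FractionRing R)
  induction n with
  | zero =>
    intro g₀ h₀ hh hcard _
    exfalso
    apply hh
    rw [← DirectSum.sum_support_decompose 𝒜 h₀, Finset.card_eq_zero.1 (Nat.le_zero.1 hcard),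
      Finset.sum_empty]
  | succ n ih =>
    intro g₀ h₀ hh hcard hfg
    have hne : (decompose 𝒜 h₀).support.Nonempty := by
      rw [Finset.nonempty_iff_ne_empty]
      intro he
      apply hh
      rw [← DirectSum.sum_support_decompose 𝒜 h₀, he, Finset.sum_empty]
    obtain ⟨k, hk⟩ := hne
    have hderiv : f * algebraMap R _ (euler 𝒜 h₀) = algebraMap R _ (euler 𝒜 g₀) := by
      have h1 := congrArg E hfg
      rw [Derivation.leibniz, hf, smul_zero, add_zero, smul_eq_mul, hEu, hEu] at h1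
      exact h1
    have hfg' : f * algebraMap R _ (euler 𝒜 h₀ - (k : ℂ) • h₀) =
        algebraMap R _ (euler 𝒜 g₀ - (k : ℂ) • g₀) := by
      rw [map_sub, map_sub, mul_sub, hderiv, Algebra.smul_def, Algebra.smul_def, map_mul, map_mul,
        ← hfg]
      ring
    by_cases hz : euler 𝒜 h₀ - (k : ℂ) • h₀ = 0
    · have hg1 : euler 𝒜 g₀ - (k : ℂ) • g₀ = 0 := by
        apply hinj
        rw [map_zero, ← hfg', hz, map_zero, mul_zero]
      exact ⟨k, g₀, ni6_eigen hX.connected (sub_eq_zero.1 hg1), h₀,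
        ni6_eigen hX.connected (sub_eq_zero.1 hz), hh, hfg⟩
    · refine ih _ _ hz ?_ hfg'
      have hsub : (decompose 𝒜 (euler 𝒜 h₀ - (k : ℂ) • h₀)).support ⊆
          (decompose 𝒜 h₀).support.erase k := by
        intro i hi
        rw [DFinsupp.mem_support_iff] at hi
        have hcomp : (decompose 𝒜 (euler 𝒜 h₀ - (k : ℂ) • h₀) i : R) =
            ((i : ℂ) - k) • (decompose 𝒜 h₀ i : R) := by
          rw [decompose_sub, DirectSum.sub_apply, AddSubgroupClass.coe_sub, ni6_euler_component,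
            decompose_smul, DirectSum.smul_apply, Submodule.coe_smul, sub_smul]
        rw [Finset.mem_erase, DFinsupp.mem_support_iff]
        constructor
        · rintro rfl
          apply hi
          apply Subtype.ext
          rw [hcomp, sub_self, zero_smul]
          rfl
        · intro h0
          apply hi
          apply Subtype.ext
          rw [hcomp, h0]
          simp
      have h1 := Finset.card_le_card hsub
      rw [Finset.card_erase_of_mem hk] at h1
      omega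

/-- I-6'' an Euler invariant which is not a constant has a zero or a pole along a homogeneous
divisor. -/
theorem ni_exists_prime (hX : IsContactFano 𝒜 P) [IsDomain R]
    (E : Derivation ℂ (FractionRing R) (FractionRing R))
    (hE : ∀ k, ∀ r ∈ 𝒜 k, E (algebraMap R _ r) = (k : FractionRing R) * algebraMap R _ r)
    {f : FractionRing R} (hf : E f = 0)
    (hf' : ∀ c : ℂ, f ≠ algebraMap ℂ (FractionRing R) c) :
    ∃ (f' : FractionRing R) (𝔭 : Ideal R) (_ : 𝔭.IsPrime), (f' = f ∨ f' = f⁻¹) ∧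
      IsDiscreteValuationRing (Localization.AtPrime 𝔭) ∧ 𝔭.IsHomogeneous 𝒜 ∧
      (∃ g' h' : R, g' ∈ 𝔭 ∧ h' ∉ 𝔭 ∧ f' * algebraMap R _ h' = algebraMap R _ g') ∧
      ∃ k, ∃ g ∈ 𝒜 k, ∃ h ∈ 𝒜 k, g ≠ 0 ∧ h ≠ 0 ∧ f' * algebraMap R _ h = algebraMap R _ g := by
  classical
  have hft := hX.finiteType
  have hnoeth : IsNoetherianRing R := Algebra.FiniteType.isNoetherianRing ℂ R
  have hnorm := hX.normal
  have hinj : Function.Injective (algebraMap R (FractionRing R)) :=
    IsFractionRing.injective R (FractionRing R)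
  have hEu : ∀ r, E (algebraMap R _ r) = algebraMap R _ (euler 𝒜 r) := by
    intro r
    refine forall_of_homogeneous' (𝒜 := 𝒜)
      ((E : FractionRing R →ₗ[ℂ] FractionRing R) ∘ₗ
        (IsScalarTower.toAlgHom ℂ R (FractionRing R)).toLinearMap)
      ((IsScalarTower.toAlgHom ℂ R (FractionRing R)).toLinearMap ∘ₗ euler 𝒜)
      (fun k r hr => ?_) r
    change E (algebraMap R _ r) = algebraMap R _ (euler 𝒜 r)
    rw [hE k r hr, euler_apply k r hr, Algebra.smul_def, map_mul, ← IsScalarTower.algebraMap_apply]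
    simp
  obtain ⟨k, g, hg, h, hh, hh0, hfg⟩ : ∃ k, ∃ g ∈ 𝒜 k, ∃ h ∈ 𝒜 k, h ≠ 0 ∧
      f * algebraMap R _ h = algebraMap R _ g := by
    obtain ⟨⟨a, b⟩, hab⟩ := IsLocalization.surj (nonZeroDivisors R) f
    exact ni6_exists_rep hX E hEu hf _ a b (nonZeroDivisors.ne_zero b.2) le_rfl hab
  have hf0 : f ≠ 0 := fun h0 => hf' 0 (by rw [h0, map_zero])
  have hhK : algebraMap R (FractionRing R) h ≠ 0 := by
    rw [Ne, map_eq_zero_iff _ hinj]; exact hh0
  have hg0 : g ≠ 0 := by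
    rintro rfl
    rw [map_zero] at hfg
    exact (mul_ne_zero hf0 hhK) hfg
  have hgK : algebraMap R (FractionRing R) g ≠ 0 := by
    rw [Ne, map_eq_zero_iff _ hinj]; exact hg0
  -- a pole
  have hpole : ∃ (𝔭 : Ideal R) (_ : 𝔭.IsPrime), IsDiscreteValuationRing (Localization.AtPrime 𝔭) ∧
      ∀ a b : R, b ∉ 𝔭 → algebraMap R (FractionRing R) b * f ≠ algebraMap R _ a := by
    by_contra hcon
    push Not at hcon
    obtain ⟨r, hr⟩ := zb2a_mem (R := R) (K := FractionRing R) f (fun 𝔭 hp hdvr => by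
      obtain ⟨a, b, hb, hab⟩ := hcon 𝔭 hp hdvr
      exact ⟨a, b, hb, hab⟩)
    have h1 : euler 𝒜 r = ((0 : ℕ) : ℂ) • r := by
      apply hinj
      rw [← hEu, hr, hf]
      simp
    obtain ⟨c, hc⟩ := hX.connected r (ni6_eigen hX.connected h1)
    exact hf' c (by rw [← hr, hc, ← IsScalarTower.algebraMap_apply])
  obtain ⟨𝔭, hp, hdvr, hpole⟩ := hpole
  have hhom : 𝔭.IsHomogeneous 𝒜 := by
    have h2 : (𝔭.homogeneousCore 𝒜).toIdeal.IsPrime := hp.homogeneousCore
    have h3 : (𝔭.homogeneousCore 𝒜).toIdeal ≤ 𝔭 := Ideal.toIdeal_homogeneousCore_le 𝒜 𝔭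
    rcases eq_bot_or_eq_of_dvr 𝔭 hdvr _ h3 with h4 | h4
    · exfalso
      have h5 : h ∉ 𝔭 := by
        intro hmem
        have h6 : h ∈ (𝔭.homogeneousCore 𝒜).toIdeal :=
          Ideal.mem_homogeneousCore_of_homogeneous_of_mem ⟨k, hh⟩ hmem
        rw [h4, Ideal.mem_bot] at h6
        exact hh0 h6
      exact hpole g h h5 (by rw [mul_comm]; exact hfg)
    · rw [← h4]
      exact (𝔭.homogeneousCore 𝒜).isHomogeneous
  refine ⟨f⁻¹, 𝔭, hp, Or.inr rfl, hdvr, hhom, ?_, k, h, hh, g, hg, hh0, hg0, ?_⟩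
  · -- `g` and `h` in the discrete valuation ring
    let L := Localization.AtPrime 𝔭
    have hinjL : Function.Injective (algebraMap R L) :=
      IsLocalization.injective L (Ideal.primeCompl_le_nonZeroDivisors 𝔭)
    have hdiv : (algebraMap R L g) ∣ (algebraMap R L h) ∨ (algebraMap R L h) ∣ (algebraMap R L g) :=
      ValuationRing.dvd_total _ _
    have key : ∀ a b : R, algebraMap R L a ∣ algebraMap R L b →
        ∃ u v : R, v ∉ 𝔭 ∧ v * b = a * u := by
      intro a b hab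
      obtain ⟨z, hz⟩ := hab
      obtain ⟨⟨u, v⟩, hu⟩ := IsLocalization.surj 𝔭.primeCompl z
      refine ⟨u, v, v.2, ?_⟩
      apply hinjL
      rw [map_mul, map_mul, hz, ← hu]
      ring
    rcases hdiv with hd | hd
    · obtain ⟨u, v, hv, huv⟩ := key _ _ hd
      have huv' : algebraMap R (FractionRing R) v * algebraMap R _ h =
          algebraMap R _ g * algebraMap R _ u := by
        rw [← map_mul, huv, map_mul]
      have hfu : f * algebraMap R _ u = algebraMap R _ v := by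
        have h5 : f * (algebraMap R (FractionRing R) g * algebraMap R _ u) =
            algebraMap R _ v * algebraMap R _ g := by
          rw [← huv', ← hfg]; ring
        apply mul_left_cancel₀ hgK
        rw [mul_comm _ (algebraMap R (FractionRing R) v), ← h5]
        ring
      have hu𝔭 : u ∈ 𝔭 := by
        by_contra hu
        exact hpole v u hu (by rw [mul_comm]; exact hfu)
      refine ⟨u, v, hu𝔭, hv, ?_⟩
      rw [← hfu, ← mul_assoc, inv_mul_cancel₀ hf0, one_mul]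
    · exfalso
      obtain ⟨u, v, hv, huv⟩ := key _ _ hd
      refine hpole u v hv ?_
      have huv' : algebraMap R (FractionRing R) v * algebraMap R _ g =
          algebraMap R _ h * algebraMap R _ u := by
        rw [← map_mul, huv, map_mul]
      apply mul_left_cancel₀ hhK
      rw [← huv', ← hfg]
      ring
  · rw [← hfg, ← mul_assoc, inv_mul_cancel₀ hf0, one_mul]

end

end Vale.Agent.P292
end

section

/-! # Block I for Picard number one: two lines through the generic point which are not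
orthogonal. -/

namespace Vale.Agent.P292

open MvPolynomial

universe u v w

variable {R : Type u} [CommRing R] [Algebra ℂ R] {𝒜 : ℕ → Submodule ℂ R} [GradedAlgebra 𝒜]
  {P : R →ₗ[ℂ] R →ₗ[ℂ] R}

/-- Homogeneous ideals and rescaling of a point of a curve. -/
theorem ni_pt_smul {K : Type v} [Field K] [Algebra ℂ K] {d : ℕ}
    {ψ : R →ₐ[ℂ] MvPolynomial (Fin 2) K} (h : IsCurve 𝒜 d ψ) {𝔭 : Ideal R}
    (hhom : 𝔭.IsHomogeneous 𝒜) {a : Fin 2 → K} (ha : ∀ r ∈ 𝔭, pt ψ a r = 0) (c : K) :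
    ∀ r ∈ 𝔭, pt ψ (fun i => c * a i) r = 0 := by
  classical
  intro r hr
  rw [← DirectSum.sum_support_decompose 𝒜 r, map_sum]
  refine Finset.sum_eq_zero fun k _ => ?_
  have h1 := ha _ (hhom k hr)
  rw [pt_apply] at h1 ⊢
  rw [ni7_eval_smul (h.degree k _ (SetLike.coe_mem _)), h1, mul_zero]

/-- **I: non-isotropy, if the line meets all prime divisors.** -/
theorem exists_lines_ne_zero_of_meets (hX : IsContactFano 𝒜 P) [IsDomain R]
    {K : Type u} [Field K] [IsAlgClosed K] [Algebra ℂ K]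
    {ψ : R →ₐ[ℂ] MvPolynomial (Fin 2) K} (h : IsAnch 𝒜 1 ψ) (hfull : IsFull 𝒜 1 ψ)
    (hm : ∀ (𝔭 : Ideal R) [𝔭.IsPrime], IsDiscreteValuationRing (Localization.AtPrime 𝔭) →
      𝔭.IsHomogeneous 𝒜 → ∃ a : Fin 2 → K, a ≠ 0 ∧ ∀ r ∈ 𝔭, pt ψ a r = 0) :
    ∃ (Ω : Type u) (_ : Field Ω) (_ : IsAlgClosed Ω) (_ : Algebra ℂ Ω)
      (ψ₁ ψ₂ : R →ₐ[ℂ] MvPolynomial (Fin 2) Ω), IsAnch 𝒜 1 ψ₁ ∧ IsAnch 𝒜 1 ψ₂ ∧
      pt ψ₁ ![1, 0] = pt ψ₂ ![1, 0] ∧
      om P (pt ψ₁ ![1, 0]) (evL ![1, 0] (pd ψ₁ 1)) (evL ![1, 0] (pd ψ₂ 1)) ≠ 0 := by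
  by_contra hcon
  have hcK : CharZero K := charZero_of_injective_algebraMap (algebraMap ℂ K).injective
  obtain ⟨E, f, hE, hEf, hf, hlin⟩ := ni_exists_f hX h hfull (ni_second_end hX h hfull)
    (fun x hx ho => ni_lagrangian hX h vec01_ne x hx ho) (fun ψ₂ h2 hpt => by
      by_contra hne
      refine hcon ⟨K, inferInstance, inferInstance, inferInstance, ψ₂, ψ, h2, h, hpt, ?_⟩
      rw [hpt]
      exact hne)
  obtain ⟨f', 𝔭, h𝔭, hf', hdvr, hhom, ⟨g₁, h₁, hg₁, hh₁, hgh₁⟩, k, g, hg, h', hh', hg0, hh0,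
    hfgh⟩ := ni_exists_prime hX E hE hEf hf
  have hf0 : f ≠ 0 := fun h0 => hf 0 (by rw [h0, map_zero])
  have hinjF : Function.Injective (algebraMap R (FractionRing R)) := IsFractionRing.injective R _
  have hlin' : ∀ ψ₀ : R →ₐ[ℂ] MvPolynomial (Fin 2) (AlgebraicClosure (FractionRing R)),
      IsCurve 𝒜 1 ψ₀ → (∀ r, pt ψ₀ ![1, 0] r = algebraMap R _ r) →
        evL ![1, 0] (pd ψ₀ 1) g * algebraMap R _ h' =
          algebraMap R _ g * evL ![1, 0] (pd ψ₀ 1) h' := by
    intro ψ₀ h1 h2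
    rcases hf' with rfl | rfl
    · exact hlin g h' hfgh ψ₀ h1 h2
    · have h3 : f * algebraMap R _ g = algebraMap R _ h' := by
        rw [← hfgh, ← mul_assoc, mul_inv_cancel₀ hf0, one_mul]
      have h4 := hlin h' g h3 ψ₀ h1 h2
      linear_combination -h4
  have hW := ni_wronskian hX h hg hh' hlin'
  have hne : ∀ r : R, r ≠ 0 → ψ r ≠ 0 := by
    intro r hr h0
    apply hr
    apply (injective_iff_map_eq_zero (pt ψ ![1, 0])).1 h.inj
    rw [pt_apply, h0, map_zero]
  obtain ⟨c, hc, hgc⟩ := niw_forms (h.curve.degree k g hg) (h.curve.degree k h' hh')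
    (hne g hg0) (hne h' hh0) hW
  have hcross : g * h₁ = g₁ * h' := by
    apply hinjF
    rw [map_mul, map_mul, ← hfgh, ← hgh₁]
    ring
  have hg₁c : ψ g₁ = C c * ψ h₁ := by
    have h3 := congrArg ψ hcross
    rw [map_mul, map_mul, hgc] at h3
    refine mul_right_cancel₀ (hne h' hh0) ?_
    rw [← h3]
    ring
  obtain ⟨a, ha, ha𝔭⟩ := hm 𝔭 hdvr hhom
  obtain ⟨b, hb, hu', hD⟩ := ni_normalise ha
  have h𝔭0 : 𝔭 ≠ ⊥ := by
    rintro rfl
    have h2 := IsLocalization.AtPrime.ringKrullDim_eq_height (⊥ : Ideal R)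
      (Localization.AtPrime (⊥ : Ideal R))
    rw [IsDiscreteValuationRing.ringKrullDim_eq_one] at h2
    have h3 : (⊥ : Ideal R).height = 1 := by exact_mod_cast h2.symm
    simp at h3
  have hmem := ni_dvr_or_field hX (pt ψ fun i => b * a i) _
    (ni_proportional_on_ker hX h hfull hu' hD) 𝔭 h𝔭0 (ni_pt_smul h.curve hhom ha𝔭 b)
  apply hh₁
  apply hmem
  have h5 := ni_pt_smul h.curve hhom ha𝔭 b g₁ hg₁
  rw [pt_apply, hg₁c, map_mul, eval_C] at h5
  rw [pt_apply]
  exact (mul_eq_zero.1 h5).resolve_left hc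

/-- **I: non-isotropy for Picard number one.** -/
theorem exists_lines_ne_zero_pic (hX : IsContactFano 𝒜 P) [IsDomain R] (hpic : IsPicardOne 𝒜)
    {K : Type u} [Field K] [IsAlgClosed K] [Algebra ℂ K]
    {ψ : R →ₐ[ℂ] MvPolynomial (Fin 2) K} (h : IsAnch 𝒜 1 ψ) (hfull : IsFull 𝒜 1 ψ) :
    ∃ (Ω : Type u) (_ : Field Ω) (_ : IsAlgClosed Ω) (_ : Algebra ℂ Ω)
      (ψ₁ ψ₂ : R →ₐ[ℂ] MvPolynomial (Fin 2) Ω), IsAnch 𝒜 1 ψ₁ ∧ IsAnch 𝒜 1 ψ₂ ∧
      pt ψ₁ ![1, 0] = pt ψ₂ ![1, 0] ∧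
      om P (pt ψ₁ ![1, 0]) (evL ![1, 0] (pd ψ₁ 1)) (evL ![1, 0] (pd ψ₂ 1)) ≠ 0 :=
  exists_lines_ne_zero_of_meets hX h hfull fun 𝔭 _ hdvr hhom =>
    meets_of_pic hX hpic one_pos h.curve 𝔭 hdvr hhom

end Vale.Agent.P292
end

section

/-! # If a dense set of points lies on no line, then conics meet all divisors. -/

namespace Vale.Agent.P292

open MvPolynomial TensorProduct

universe u v w

variable {R : Type u} [CommRing R] [Algebra ℂ R] {𝒜 : ℕ → Submodule ℂ R} [GradedAlgebra 𝒜]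
  {P : R →ₗ[ℂ] R →ₗ[ℂ] R}

/-- If no closed line passes through the points where `g` does not vanish, then `g` vanishes on
all lines over all algebraically closed fields. -/
theorem line_apply_eq_zero (hX : IsContactFano 𝒜 P) {g : R}
    (hg : ∀ w : R →ₐ[ℂ] ℂ, w g ≠ 0 →
      ¬ ∃ ψ : R →ₐ[ℂ] MvPolynomial (Fin 2) ℂ, IsCurve 𝒜 1 ψ ∧ pt ψ ![1, 0] = w)
    {κ : Type v} [Field κ] [IsAlgClosed κ] [Algebra ℂ κ] {Ψ : R →ₐ[ℂ] MvPolynomial (Fin 2) κ}
    (hΨ : IsCurve 𝒜 1 Ψ) : Ψ g = 0 := by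
  have := hX.finiteType
  by_contra hne
  obtain ⟨m, hm⟩ := ne_zero_iff.1 hne
  obtain ⟨A₀, σ, ψ, hψ, h1, -, h2⟩ := hΨ.exists_closed' {coeff m (Ψ g)} (by simpa using hm)
  have h3 : ψ g ≠ 0 := by
    intro h
    obtain ⟨h4, h5⟩ := h1 g m
    obtain ⟨h6, h7⟩ := h2 (coeff m (Ψ g)) (by simp)
    rw [h, coeff_zero] at h5
    exact h7 h5.symm
  have h4 : (X 0 : MvPolynomial (Fin 2) ℂ) * ψ g ≠ 0 := mul_ne_zero (X_ne_zero 0) h3
  have h5 : ∃ u : Fin 2 → ℂ, eval u (X 0 * ψ g) ≠ 0 := by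
    by_contra hcon
    push Not at hcon
    exact h4 (MvPolynomial.funext fun x => by rw [hcon x, map_zero])
  obtain ⟨u, hu⟩ := h5
  rw [map_mul, eval_X] at hu
  have hu0 : u ≠ 0 := by
    rintro rfl
    exact hu (by simp)
  obtain ⟨φ', hφ', h6⟩ := hψ.exists_reparam u hu0
  refine hg (pt ψ u) ?_ ⟨φ', hφ', h6⟩
  rw [pt_apply]
  exact right_ne_zero_of_mul hu

theorem eval_one_zero_eq_coeff {κ : Type v} [Field κ] [Algebra ℂ κ] {p : MvPolynomial (Fin 2) κ}
    {N : ℕ} (hp : p.IsHomogeneous N) : eval ![1, 0] p = coeff (Finsupp.single 0 N) p := by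
  rw [nw_eval_one_zero, ← nwDehom_coeff 0 1 (by decide) hp (m := Finsupp.single 0 N) (by simp)]
  simp

theorem eval_zero_one_eq_coeff {κ : Type v} [Field κ] [Algebra ℂ κ] {p : MvPolynomial (Fin 2) κ}
    {N : ℕ} (hp : p.IsHomogeneous N) : eval ![0, 1] p = coeff (Finsupp.single 1 N) p := by
  rw [nw_eval_zero_one, ← nwDehom_coeff 1 0 (by decide) hp (m := Finsupp.single 1 N) (by simp)]
  simp

/-- **Case A.** If a dense set of closed points lies on no line, then every homogeneous divisor is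
met by conics. -/
theorem meets_conic (hX : IsContactFano 𝒜 P) [IsDomain R] (hdim : 3 ≤ cdim R)
    (hc : IsConicConnected 𝒜) (hno : NoLines 𝒜) : MeetsAll 𝒜 2 := by
  classical
  intro D hD 𝔭 h𝔭 hdvr hhom
  have := hX.finiteType
  obtain ⟨F, hF0, hF⟩ := hc
  obtain ⟨g, hg0, hg⟩ := hno
  have hdomRR : IsDomain (R ⊗[ℂ] R) := isDomain_tensor
  let p : R →ₐ[ℂ] R ⊗[ℂ] R := Algebra.TensorProduct.includeLeft
  let q : R →ₐ[ℂ] R ⊗[ℂ] R := Algebra.TensorProduct.includeRight
  have hft : Algebra.FiniteType ℂ (R ⊗[ℂ] R) :=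
    Algebra.FiniteType.trans (S := R) inferInstance inferInstance
  obtain ⟨Ω, _, _, _, i, φ, hi, hφ, h10, h01⟩ := exists_conic_of_isConicConnected hX hF p q (by
    rw [Algebra.TensorProduct.lift_includeLeft_includeRight]
    exact hF0)
  -- the valuation over the divisor `R ⊗ 𝔭`
  have hdomB : IsDomain (R ⊗[ℂ] (R ⧸ 𝔭)) := isDomain_tensor
  let π : R ⊗[ℂ] R →ₐ[ℂ] R ⊗[ℂ] (R ⧸ 𝔭) :=
    Algebra.TensorProduct.map (AlgHom.id ℂ R) (Ideal.Quotient.mkₐ ℂ 𝔭)
  have h𝔓 : (RingHom.ker π).IsPrime := RingHom.ker_isPrime _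
  obtain ⟨O, hO⟩ := exists_valuationSubring_prime i.toRingHom hi (RingHom.ker π)
  have hvi : ∀ a, O.valuation (i a) ≤ 1 := fun a => (O.valuation_le_one_iff _).2 (hO a).1
  obtain ⟨κ, _, _, res, hp, hs⟩ := exists_isPlace O.valuation (fun c => by
    rw [← i.commutes]; exact hvi _)
  have hκ : IsAlgClosed κ := isAlgClosed_of_isPlace hp hs
  have hres0 : ∀ a, res (i a) = 0 ↔ π a = 0 := fun a =>
    (hp.eq_zero_iff _ (hvi a)).trans (hO a).2.symm
  -- the end points
  have hW : ∀ r, eval ![1, 0] (φ r) = i (r ⊗ₜ 1) := fun r => by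
    rw [← pt_apply, h10]; rfl
  have hE : ∀ r, eval ![0, 1] (φ r) = i (1 ⊗ₜ r) := fun r => by
    rw [← pt_apply, h01]; rfl
  have hW0 : ∀ r, res (i (r ⊗ₜ 1)) = 0 → r = 0 := by
    intro r hr
    rw [hres0] at hr
    have h1 : (Algebra.TensorProduct.includeLeft : R →ₐ[ℂ] R ⊗[ℂ] (R ⧸ 𝔭)) r = 0 := by
      rw [← hr]
      simp [π]
    exact Algebra.TensorProduct.includeLeft_injective (S := ℂ)
      (algebraMap ℂ (R ⧸ 𝔭)).injective (by rw [h1, map_zero])
  have hE0 : ∀ r, res (i (1 ⊗ₜ r)) = 0 ↔ r ∈ 𝔭 := by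
    intro r
    rw [hres0]
    have h1 : π (1 ⊗ₜ r) = (Algebra.TensorProduct.includeRight : (R ⧸ 𝔭) →ₐ[ℂ] R ⊗[ℂ] (R ⧸ 𝔭))
        (Ideal.Quotient.mk 𝔭 r) := by simp [π]
    rw [h1, ← Ideal.Quotient.eq_zero_iff_mem]
    constructor
    · intro h
      exact Algebra.TensorProduct.includeRight_injective (algebraMap ℂ R).injective
        (by rw [h, map_zero])
    · intro h
      rw [h, map_zero]
  -- nonvertex points
  obtain ⟨w₀, hw₀⟩ := hX.nonempty
  have hWnv : ∃ k, 0 < k ∧ ∃ r ∈ 𝒜 k, r ≠ 0 := by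
    have h1 := hw₀
    unfold IsVertex at h1
    push Not at h1
    obtain ⟨k, hk, r, hr, h⟩ := h1
    exact ⟨k, hk, r, hr, fun h0 => h (by rw [h0, map_zero])⟩
  have hEnv : ∃ k, 0 < k ∧ ∃ r ∈ 𝒜 k, r ∉ 𝔭 := by
    by_contra hcon
    push Not at hcon
    refine not_le_of_dvr hX hdim w₀ hw₀ 𝔭 hdvr fun k r hr h => ?_
    rcases Nat.eq_zero_or_pos k with rfl | hk
    · obtain ⟨c, rfl⟩ := hX.connected r hr
      rw [AlgHom.commutes] at h
      have hc0 : c = 0 := h
      rw [hc0, map_zero]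
      exact 𝔭.zero_mem
    · exact hcon k hk r hr
  have h𝔭0 : ∃ k, ∃ r ∈ 𝒜 k, r ≠ 0 ∧ r ∈ 𝔭 := by
    have h1 : 𝔭 ≠ ⊥ := by
      intro h0
      apply IsDiscreteValuationRing.not_a_field (Localization.AtPrime 𝔭)
      rw [← IsLocalization.AtPrime.map_eq_maximalIdeal 𝔭 (Localization.AtPrime 𝔭)]
      refine (Ideal.map_eq_bot_iff_le_ker _).2 fun x hx => ?_
      rw [h0] at hx
      rw [(Submodule.mem_bot R).1 hx]
      exact Ideal.zero_mem _
    obtain ⟨r, hr, hr0⟩ := Submodule.exists_mem_ne_zero_of_ne_bot h1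
    have h2 : ∃ k, (DirectSum.decompose 𝒜 r k : R) ≠ 0 := by
      by_contra hcon
      push Not at hcon
      apply hr0
      rw [← DirectSum.sum_support_decompose 𝒜 r]
      exact Finset.sum_eq_zero fun k _ => hcon k
    obtain ⟨k, hk⟩ := h2
    exact ⟨k, _, SetLike.coe_mem _, hk, hhom k hr⟩
  have hcontra : ∀ c : κ, c ≠ 0 → ¬ ∀ k, ∀ r ∈ 𝒜 k, res (i (1 ⊗ₜ r)) = c ^ k * res (i (r ⊗ₜ 1)) := by
    intro c hc h
    obtain ⟨k, r, hr, hr0, hrp⟩ := h𝔭0
    have h1 := h k r hr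
    rw [(hE0 r).2 hrp] at h1
    exact mul_ne_zero (pow_ne_zero k hc) (fun h2 => hr0 (hW0 r h2)) h1.symm
  -- a line with the value `W` is impossible
  have hline : ∀ (Ψ : R →ₐ[ℂ] MvPolynomial (Fin 2) κ), IsCurve 𝒜 1 Ψ →
      ∀ x : Fin 2 → κ, ¬ ∀ k, ∀ r ∈ 𝒜 k, eval x (Ψ r) = res (i (r ⊗ₜ 1)) := by
    intro Ψ hΨ x h
    have h1 := nw_res_ext (𝒜 := 𝒜) hp (pt Ψ x).toLinearMap (i.comp p).toLinearMap
      (fun r => hvi _) (fun k r hr => by
        change pt Ψ x r = res (i (p r))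
        rw [pt_apply]; exact h k r hr) g
    change pt Ψ x g = res (i (p g)) at h1
    rw [pt_apply, line_apply_eq_zero hX hg hΨ, map_zero] at h1
    exact hg0 (hW0 g h1.symm)
  rcases good_or_chain hX hp hφ.degree (fun r => by rw [hW]; exact hvi _)
    (fun r => by rw [hE]; exact hvi _) with ⟨Φ₀, hΦ₀, hred⟩ | ⟨ρ, Ψ₁, Ψ₂, hch⟩
  · -- good reduction
    have e10 : ∀ k, ∀ r ∈ 𝒜 k, eval ![1, 0] (Φ₀ r) = res (i (r ⊗ₜ 1)) := by
      intro k r hr
      rw [eval_one_zero_eq_coeff (hΦ₀ k r hr), hred.coeff, ← hW,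
        eval_one_zero_eq_coeff (hφ.degree k r hr)]
    have e01 : ∀ k, ∀ r ∈ 𝒜 k, eval ![0, 1] (Φ₀ r) = res (i (1 ⊗ₜ r)) := by
      intro k r hr
      rw [eval_zero_one_eq_coeff (hΦ₀ k r hr), hred.coeff, ← hE,
        eval_zero_one_eq_coeff (hφ.degree k r hr)]
    have e10' : ∀ r, pt Φ₀ ![1, 0] r = res (i (r ⊗ₜ 1)) := nw_res_ext (𝒜 := 𝒜) hp
      (pt Φ₀ ![1, 0]).toLinearMap (i.comp p).toLinearMap (fun r => hvi _)
      (fun k r hr => by
        change pt Φ₀ ![1, 0] r = res (i (p r))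
        rw [pt_apply]; exact e10 k r hr)
    have e01' : ∀ r, pt Φ₀ ![0, 1] r = res (i (1 ⊗ₜ r)) := nw_res_ext (𝒜 := 𝒜) hp
      (pt Φ₀ ![0, 1]).toLinearMap (i.comp q).toLinearMap (fun r => hvi _)
      (fun k r hr => by
        change pt Φ₀ ![0, 1] r = res (i (q r))
        rw [pt_apply]; exact e01 k r hr)
    have n10 : ∃ k, 0 < k ∧ ∃ r ∈ 𝒜 k, eval ![1, 0] (Φ₀ r) ≠ 0 := by
      obtain ⟨k, hk, r, hr, h⟩ := hWnv
      exact ⟨k, hk, r, hr, fun h0 => h (hW0 r (by rw [← e10 k r hr, h0]))⟩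
    have n01 : ∃ k, 0 < k ∧ ∃ r ∈ 𝒜 k, eval ![0, 1] (Φ₀ r) ≠ 0 := by
      obtain ⟨k, hk, r, hr, h⟩ := hEnv
      exact ⟨k, hk, r, hr, fun h0 => h ((hE0 r).1 (by rw [← e01 k r hr, h0]))⟩
    rcases isCurve_or_exists_div hX 1 Φ₀ hΦ₀ with hcur | ⟨Φ', l, h1, h2, h3⟩
    · have hcur2 : IsCurve 𝒜 2 Φ₀ := hcur
      have hΦD : Φ₀ D ≠ 0 := by
        intro h
        have h4 := e10' D
        rw [pt_apply, h, map_zero] at h4
        exact hD (hW0 D h4.symm)
      obtain ⟨m, hm⟩ := ne_zero_iff.1 hΦD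
      obtain ⟨A₀, σ, ψ, hψ, h1, h2, h3⟩ := hcur2.exists_closed' {coeff m (Φ₀ D)} (by simpa using hm)
      refine ⟨ψ, hψ, ?_, ![0, 1], ?_, ?_⟩
      · intro h
        obtain ⟨h4, h5⟩ := h1 D m
        obtain ⟨h6, h7⟩ := h3 (coeff m (Φ₀ D)) (by simp)
        rw [h, coeff_zero] at h5
        exact h7 h5.symm
      · intro h
        have := congrFun h 1
        simp at this
      · intro r hr
        have h4 := h2 ![0, 1] r 0 (by
          have h5 : (fun i => algebraMap ℂ κ (![0, 1] i)) = (![0, 1] : Fin 2 → κ) := by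
            funext j; fin_cases j <;> simp
          rw [h5, aeval_eq_eval]
          change eval ![0, 1] (Φ₀ r) = _
          rw [← pt_apply, e01' r, (hE0 r).2 hr, map_zero])
        rw [aeval_eq_eval] at h4
        rw [pt_apply]
        exact h4
    · exfalso
      have l10 := h3 _ n10
      have l01 := h3 _ n01
      have m10 : ∃ k, 0 < k ∧ ∃ r ∈ 𝒜 k, eval ![1, 0] (Φ' r) ≠ 0 := by
        obtain ⟨k, hk, r, hr, h⟩ := n10
        exact ⟨k, hk, r, hr, fun h0 => h (by rw [h2 _ k r hr, h0, mul_zero])⟩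
      have m01 : ∃ k, 0 < k ∧ ∃ r ∈ 𝒜 k, eval ![0, 1] (Φ' r) ≠ 0 := by
        obtain ⟨k, hk, r, hr, h⟩ := n01
        exact ⟨k, hk, r, hr, fun h0 => h (by rw [h2 _ k r hr, h0, mul_zero])⟩
      rcases isCurve_one_or hX Φ' h1 ![1, 0] ![0, 1] m10 m01 with hcur | ⟨c, hc0, hc⟩
      · refine hline Φ' hcur (l ![1, 0] • ![1, 0]) fun k r hr => ?_
        rw [eval_smul_form (h1 k r hr), one_mul, ← e10 k r hr, h2 _ k r hr]
      · refine hcontra (l ![0, 1] * c / l ![1, 0]) (div_ne_zero (mul_ne_zero l01 hc0) l10)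
          fun k r hr => ?_
        rw [← e01 k r hr, ← e10 k r hr, h2 _ k r hr, h2 _ k r hr, hc k r hr, div_pow, mul_pow]
        have := pow_ne_zero k l10
        field_simp
  · -- chain
    exfalso
    have e1 : ∀ r, eval ![1, 0] (Ψ₁ r) = res (i (r ⊗ₜ 1)) := fun r => by rw [hch.end₁, hW]
    have e2 : ∀ r, eval ![1, 0] (Ψ₂ r) = res (i (1 ⊗ₜ r)) := fun r => by rw [hch.end₂, hE]
    have e3 := hch.node_eq hφ.degree
    have n1 : ∃ k, 0 < k ∧ ∃ r ∈ 𝒜 k, eval ![1, 0] (Ψ₁ r) ≠ 0 := by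
      obtain ⟨k, hk, r, hr, h⟩ := hWnv
      exact ⟨k, hk, r, hr, fun h0 => h (hW0 r (by rw [← e1, h0]))⟩
    have n2 : ∃ k, 0 < k ∧ ∃ r ∈ 𝒜 k, eval ![1, 0] (Ψ₂ r) ≠ 0 := by
      obtain ⟨k, hk, r, hr, h⟩ := hEnv
      exact ⟨k, hk, r, hr, fun h0 => h ((hE0 r).1 (by rw [← e2, h0]))⟩
    have n3 : ∃ k, 0 < k ∧ ∃ r ∈ 𝒜 k, eval ![0, 1] (Ψ₂ r) ≠ 0 := by
      obtain ⟨k, hk, r, hr, h⟩ := hch.node
      exact ⟨k, hk, r, hr, by rw [← e3]; exact h⟩
    rcases isCurve_one_or hX Ψ₁ hch.homog₁ ![1, 0] ![0, 1] n1 hch.node with hcur | ⟨c, hc0, hc⟩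
    · exact hline Ψ₁ hcur ![1, 0] fun k r hr => e1 r
    · rcases isCurve_one_or hX Ψ₂ hch.homog₂ ![1, 0] ![0, 1] n2 n3 with hcur | ⟨c', hc0', hc'⟩
      · refine hline Ψ₂ hcur (c⁻¹ • ![0, 1]) fun k r hr => ?_
        rw [eval_smul_form (hch.homog₂ k r hr), one_mul, ← e3, hc k r hr, e1, ← mul_assoc,
          ← mul_pow, inv_mul_cancel₀ hc0, one_pow, one_mul]
      · refine hcontra (c / c') (div_ne_zero hc0 hc0') fun k r hr => ?_
        have h4 := hc' k r hr
        rw [← e3, hc k r hr, e1, e2] at h4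
        rw [div_pow]
        have := pow_ne_zero k hc0'
        field_simp
        rw [mul_comm, ← h4]

end Vale.Agent.P292
end

section

/-! # A conic through a generic point which lies on no line does not move with fixed end points:
its coefficients are algebraic over the field of its end points. -/

namespace Vale.Agent.P292

open MvPolynomial

universe u v w

/-- An element which is transcendental over `K` is a pole of a place which is trivial on `K`. -/
theorem e2_exists_valuation {K : Type w} [Field K] {Ω : Type v} [Field Ω] [Algebra K Ω] {a : Ω}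
    (ha : Transcendental K a) : ∃ O : ValuationSubring Ω, 1 < O.valuation a ∧
      ∀ c : K, c ≠ 0 → O.valuation (algebraMap K Ω c) = 1 := by
  have ha0 : a ≠ 0 := by
    intro h0
    exact ha (by rw [h0]; exact isAlgebraic_zero)
  have hainv : Transcendental K a⁻¹ := by
    intro h
    exact ha (by simpa using h.inv)
  obtain ⟨O, hO⟩ := exists_valuationSubring_prime
    ((Polynomial.aeval a⁻¹ : Polynomial K →ₐ[K] Ω) : Polynomial K →+* Ω)
    (transcendental_iff_injective.1 hainv) (Ideal.span {(Polynomial.X : Polynomial K)})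
    (h𝔭 := (Ideal.span_singleton_prime Polynomial.X_ne_zero).2 Polynomial.prime_X)
  have hv1 : O.valuation a⁻¹ < 1 := by
    have h1 := ((hO Polynomial.X).2).1 (Ideal.mem_span_singleton_self _)
    have h2 : ((Polynomial.aeval a⁻¹ : Polynomial K →ₐ[K] Ω) : Polynomial K →+* Ω)
        Polynomial.X = a⁻¹ := Polynomial.aeval_X _
    rwa [h2] at h1
  have hKle : ∀ c : K, O.valuation (algebraMap K Ω c) ≤ 1 := by
    intro c
    have h1 := (hO (Polynomial.C c)).1
    have h2 : ((Polynomial.aeval a⁻¹ : Polynomial K →ₐ[K] Ω) : Polynomial K →+* Ω)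
        (Polynomial.C c) = algebraMap K Ω c := Polynomial.aeval_C _ _
    rw [h2] at h1
    exact (O.valuation_le_one_iff _).2 h1
  refine ⟨O, ?_, fun c hc => ?_⟩
  · rw [map_inv₀] at hv1
    have h2 : O.valuation a ≠ 0 := by
      rw [Ne, Valuation.zero_iff]
      exact ha0
    exact (inv_lt_one₀ (zero_lt_iff.2 h2)).1 hv1
  · refine le_antisymm (hKle c) ?_
    have h1 := hKle c⁻¹
    rw [map_inv₀, map_inv₀] at h1
    have h2 : O.valuation (algebraMap K Ω c) ≠ 0 := by
      rw [Ne, Valuation.zero_iff]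
      exact fun h => hc ((algebraMap K Ω).injective (by rw [h, map_zero]))
    exact (inv_le_one₀ (zero_lt_iff.2 h2)).1 h1

variable {R : Type u} [CommRing R] [Algebra ℂ R] {𝒜 : ℕ → Submodule ℂ R} [GradedAlgebra 𝒜]
  {P : R →ₗ[ℂ] R →ₗ[ℂ] R}

/-- The coefficients of a conic, one of whose end points is generic, are algebraic over the field
of its end points, if no line passes through a generic point. The end points are different points
of `Proj R`. -/
theorem isAlgebraic_coeff_of_noLines' (hX : IsContactFano 𝒜 P)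
    {Ω : Type v} [Field Ω] [IsAlgClosed Ω] [Algebra ℂ Ω]
    (hno : ∀ (κ : Type v) [Field κ] [IsAlgClosed κ] [Algebra ℂ κ]
      (Ψ : R →ₐ[ℂ] MvPolynomial (Fin 2) κ), IsCurve 𝒜 1 Ψ → ∀ x : Fin 2 → κ,
      ¬ Function.Injective (pt Ψ x))
    {φ : R →ₐ[ℂ] MvPolynomial (Fin 2) Ω}
    (hφ : IsCurve 𝒜 2 φ) (hinj : Function.Injective (pt φ ![1, 0]))
    (hne : ∃ k, ∃ r ∈ 𝒜 k, ∃ s ∈ 𝒜 k,
      pt φ ![0, 1] r * pt φ ![1, 0] s ≠ pt φ ![1, 0] r * pt φ ![0, 1] s)
    (K : Type w) [Field K] [Algebra ℂ K] [Algebra K Ω] [IsScalarTower ℂ K Ω]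
    (h10 : ∀ r, ∃ c : K, algebraMap K Ω c = pt φ ![1, 0] r)
    (h01 : ∀ r, ∃ c : K, algebraMap K Ω c = pt φ ![0, 1] r) (r : R) (m : Fin 2 →₀ ℕ) :
    IsAlgebraic K (coeff m (φ r)) := by
  classical
  by_contra hcon
  obtain ⟨O, hOa, hOK⟩ := e2_exists_valuation (K := K) (a := coeff m (φ r)) hcon
  have hKle : ∀ c : K, O.valuation (algebraMap K Ω c) ≤ 1 := fun c => by
    by_cases hc : c = 0
    · rw [hc, map_zero, map_zero]; exact zero_le
    · exact (hOK c hc).le
  obtain ⟨κ, _, _, res, hp, hs⟩ := exists_isPlace O.valuation (fun c => by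
    rw [IsScalarTower.algebraMap_apply ℂ K Ω]
    exact hKle _)
  have hκ : IsAlgClosed κ := isAlgClosed_of_isPlace hp hs
  have hresK : ∀ c : K, res (algebraMap K Ω c) = 0 → c = 0 := by
    intro c hc
    by_contra h0
    have h1 := (hp.eq_zero_iff _ (hKle c)).1 hc
    rw [hOK c h0] at h1
    exact lt_irrefl _ h1
  have v10 : ∀ r, O.valuation (eval ![1, 0] (φ r)) ≤ 1 := fun r => by
    obtain ⟨c, hc⟩ := h10 r
    rw [← pt_apply, ← hc]; exact hKle c
  have v01 : ∀ r, O.valuation (eval ![0, 1] (φ r)) ≤ 1 := fun r => by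
    obtain ⟨c, hc⟩ := h01 r
    rw [← pt_apply, ← hc]; exact hKle c
  have z10 : ∀ r, res (eval ![1, 0] (φ r)) = 0 → r = 0 := by
    intro r hr
    obtain ⟨c, hc⟩ := h10 r
    rw [← pt_apply, ← hc] at hr
    apply hinj
    rw [map_zero, ← hc, hresK c hr, map_zero]
  have z01 : ∀ r, res (eval ![0, 1] (φ r)) = 0 → eval ![0, 1] (φ r) = 0 := by
    intro r hr
    obtain ⟨c, hc⟩ := h01 r
    rw [← pt_apply, ← hc] at hr ⊢
    rw [hresK c hr, map_zero]
  rcases good_or_chain hX hp hφ.degree v10 v01 with ⟨Φ₀, -, hred⟩ | ⟨ρ, Ψ₁, Ψ₂, hch⟩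
  · exact absurd (hred.bound r m) (not_le.2 hOa)
  -- a chain
  have e1 : ∀ r, eval ![1, 0] (Ψ₁ r) = res (eval ![1, 0] (φ r)) := fun r => hch.end₁ r
  have e2 : ∀ r, eval ![1, 0] (Ψ₂ r) = res (eval ![0, 1] (φ r)) := fun r => hch.end₂ r
  have e3 := hch.node_eq hφ.degree
  -- a line with the value `res w` is impossible
  have hline : ∀ (Ψ : R →ₐ[ℂ] MvPolynomial (Fin 2) κ), IsCurve 𝒜 1 Ψ →
      ∀ x : Fin 2 → κ, ¬ ∀ k, ∀ r ∈ 𝒜 k, eval x (Ψ r) = res (eval ![1, 0] (φ r)) := by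
    intro Ψ hΨ x h
    refine hno κ Ψ hΨ x ?_
    rw [injective_iff_map_eq_zero]
    intro g hg
    have h1 := nw_res_ext (𝒜 := 𝒜) hp (pt Ψ x).toLinearMap (pt φ ![1, 0]).toLinearMap
      (fun r => by
        change O.valuation (pt φ ![1, 0] r) ≤ 1
        rw [pt_apply]; exact v10 r) (fun k r hr => by
        change pt Ψ x r = res (pt φ ![1, 0] r)
        rw [pt_apply, pt_apply]; exact h k r hr) g
    change pt Ψ x g = res (pt φ ![1, 0] g) at h1
    rw [hg, pt_apply] at h1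
    exact z10 g h1.symm
  have n1 : ∃ k, 0 < k ∧ ∃ r ∈ 𝒜 k, eval ![1, 0] (Ψ₁ r) ≠ 0 := by
    obtain ⟨w₀, hw₀⟩ := hX.nonempty
    unfold IsVertex at hw₀
    push Not at hw₀
    obtain ⟨k, hk, r, hr, h⟩ := hw₀
    refine ⟨k, hk, r, hr, fun h0 => h ?_⟩
    rw [z10 r (by rw [← e1, h0]), map_zero]
  have n2 : ∃ k, 0 < k ∧ ∃ r ∈ 𝒜 k, eval ![1, 0] (Ψ₂ r) ≠ 0 := by
    obtain ⟨k, hk, r, hr, h⟩ := hφ.bpf ![0, 1] (fun h => by
      have := congrFun h 1
      simp at this)
    rw [aeval_eq_eval] at h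
    exact ⟨k, hk, r, hr, fun h0 => h (z01 r (by rw [← e2, h0]))⟩
  have n3 : ∃ k, 0 < k ∧ ∃ r ∈ 𝒜 k, eval ![0, 1] (Ψ₂ r) ≠ 0 := by
    obtain ⟨k, hk, r, hr, h⟩ := hch.node
    exact ⟨k, hk, r, hr, by rw [← e3]; exact h⟩
  rcases isCurve_one_or hX Ψ₁ hch.homog₁ ![1, 0] ![0, 1] n1 hch.node with hcur | ⟨c, hc0, hc⟩
  · exact hline Ψ₁ hcur ![1, 0] fun k r hr => e1 r
  · rcases isCurve_one_or hX Ψ₂ hch.homog₂ ![1, 0] ![0, 1] n2 n3 with hcur | ⟨c', hc0', hc'⟩
    · refine hline Ψ₂ hcur (c⁻¹ • ![0, 1]) fun k r hr => ?_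
      rw [eval_smul_form (hch.homog₂ k r hr), one_mul, ← e3, hc k r hr, e1, ← mul_assoc,
        ← mul_pow, inv_mul_cancel₀ hc0, one_pow, one_mul]
    · obtain ⟨k, r, hr, s, hs', hrs⟩ := hne
      have h4 : ∀ r ∈ 𝒜 k, c' ^ k * res (eval ![0, 1] (φ r)) = c ^ k * res (eval ![1, 0] (φ r)) := by
        intro r hr
        have := hc' k r hr
        rw [← e3, hc k r hr, e1, e2] at this
        exact this.symm
      apply hrs
      obtain ⟨a1, ha1⟩ := h10 r
      obtain ⟨a2, ha2⟩ := h01 r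
      obtain ⟨b1, hb1⟩ := h10 s
      obtain ⟨b2, hb2⟩ := h01 s
      have h5 := h4 r hr
      have h6 := h4 s hs'
      rw [← pt_apply, ← pt_apply, ← ha1, ← ha2] at h5
      rw [← pt_apply, ← pt_apply, ← hb1, ← hb2] at h6
      have h7 : res (algebraMap K Ω a2) * res (algebraMap K Ω b1) =
          res (algebraMap K Ω a1) * res (algebraMap K Ω b2) := by
        apply mul_left_cancel₀ (mul_ne_zero (pow_ne_zero k hc0) (pow_ne_zero k hc0'))
        linear_combination c ^ k * res (algebraMap K Ω b1) * h5 -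
          c ^ k * res (algebraMap K Ω a1) * h6
      rw [← hp.map_mul _ _ (hKle _) (hKle _), ← hp.map_mul _ _ (hKle _) (hKle _), ← map_mul,
        ← map_mul] at h7
      have h8 : res (algebraMap K Ω (a2 * b1 - a1 * b2)) = 0 := by
        rw [sub_eq_add_neg, map_add, hp.map_add _ _ (hKle _) (hKle _), map_neg,
          hp.map_neg _ (hKle _), h7, add_neg_cancel]
      have h9 := hresK _ h8
      rw [← ha1, ← ha2, ← hb1, ← hb2, ← map_mul, ← map_mul]
      exact congrArg _ (sub_eq_zero.1 h9)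

/-- The coefficients of a conic, one of whose end points is generic, are algebraic over the field
of its end points, if a dense set of points lies on no line. -/
theorem isAlgebraic_coeff_of_noLines (hX : IsContactFano 𝒜 P) (hno : NoLines 𝒜)
    {Ω : Type v} [Field Ω] [IsAlgClosed Ω] [Algebra ℂ Ω] {φ : R →ₐ[ℂ] MvPolynomial (Fin 2) Ω}
    (hφ : IsCurve 𝒜 2 φ) (hinj : Function.Injective (pt φ ![1, 0]))
    (hne : ∃ k, ∃ r ∈ 𝒜 k, ∃ s ∈ 𝒜 k,
      pt φ ![0, 1] r * pt φ ![1, 0] s ≠ pt φ ![1, 0] r * pt φ ![0, 1] s)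
    (K : Type w) [Field K] [Algebra ℂ K] [Algebra K Ω] [IsScalarTower ℂ K Ω]
    (h10 : ∀ r, ∃ c : K, algebraMap K Ω c = pt φ ![1, 0] r)
    (h01 : ∀ r, ∃ c : K, algebraMap K Ω c = pt φ ![0, 1] r) (r : R) (m : Fin 2 →₀ ℕ) :
    IsAlgebraic K (coeff m (φ r)) := by
  obtain ⟨g, hg0, hg⟩ := hno
  refine isAlgebraic_coeff_of_noLines' hX (fun κ _ _ _ Ψ hΨ x hinj => hg0 (hinj ?_)) hφ hinj hne K
    h10 h01 r m
  rw [map_zero, pt_apply, line_apply_eq_zero hX hg hΨ, map_zero]

/-- A derivation kills the elements which are algebraic over its constants. -/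
theorem e2_derivation_eq_zero {K : Type v} [Field K] [CharZero K] [Algebra ℂ K]
    (D : Derivation ℂ K K) (F : IntermediateField ℂ K) (hF : ∀ x ∈ F, D x = 0) {c : K}
    (hc : IsAlgebraic F c) : D c = 0 := by
  have hint : IsIntegral F c := hc.isIntegral
  have h1 : Polynomial.aeval c (minpoly F c) = 0 := minpoly.aeval F c
  have h2 : ∀ p : Polynomial F, D (Polynomial.aeval c p) =
      Polynomial.aeval c (Polynomial.derivative p) * D c := by
    intro p
    induction p using Polynomial.induction_on' with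
    | add p q hp hq => rw [map_add, map_add, hp, hq, map_add, map_add, add_mul]
    | monomial n a =>
      rw [Polynomial.aeval_monomial, Polynomial.derivative_monomial, Polynomial.aeval_monomial,
        Derivation.leibniz, Derivation.leibniz_pow, map_mul]
      have h3 : D (algebraMap F K a) = 0 := hF _ a.2
      rw [h3, smul_zero, add_zero, smul_eq_mul, smul_eq_mul, nsmul_eq_mul, map_natCast]
      ring
  have h4 := h2 (minpoly F c)
  rw [h1, map_zero] at h4
  have h5 : Polynomial.aeval c (Polynomial.derivative (minpoly F c)) ≠ 0 :=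
    (minpoly.irreducible hint).separable.aeval_derivative_ne_zero h1
  exact (mul_eq_zero.1 h4.symm).resolve_left h5

/-- E2: if there are no anchored lines then the coefficients of an anchored conic with non
proportional ends are killed by the derivations killing both ends. -/
theorem e2_apply_coeff (hX : IsContactFano 𝒜 P)
    (hno : ∀ (κ : Type u) [Field κ] [IsAlgClosed κ] [Algebra ℂ κ]
      (ψ : R →ₐ[ℂ] MvPolynomial (Fin 2) κ), ¬ IsAnch 𝒜 1 ψ)
    {K : Type u} [Field K] [IsAlgClosed K] [Algebra ℂ K]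
    {φ : R →ₐ[ℂ] MvPolynomial (Fin 2) K} (hφ : IsAnch 𝒜 2 φ) (hp : NonProp 𝒜 φ)
    (D : Derivation ℂ K K) (h0 : ∀ r, D (pt φ ![1, 0] r) = 0) (h1 : ∀ r, D (pt φ ![0, 1] r) = 0)
    (r : R) (m : Fin 2 →₀ ℕ) : D (coeff m (φ r)) = 0 := by
  have hchar : CharZero K := charZero_of_injective_algebraMap (algebraMap ℂ K).injective
  -- the field of constants
  let F : IntermediateField ℂ K :=
    { carrier := {x | D x = 0}
      mul_mem' := fun {a b} ha hb => by
        change D (a * b) = 0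
        rw [Derivation.leibniz, show D a = 0 from ha, show D b = 0 from hb, smul_zero, smul_zero,
          add_zero]
      add_mem' := fun {a b} ha hb => by
        change D (a + b) = 0
        rw [map_add, show D a = 0 from ha, show D b = 0 from hb, add_zero]
      algebraMap_mem' := fun c => D.map_algebraMap c
      inv_mem' := fun a ha => by
        change D a⁻¹ = 0
        rw [Derivation.leibniz_inv, show D a = 0 from ha, smul_zero] }
  refine e2_derivation_eq_zero D F (fun x hx => hx) ?_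
  obtain ⟨k, r', hr', s', hs', hne⟩ := hp
  refine isAlgebraic_coeff_of_noLines' hX (fun κ _ _ _ Ψ hΨ x hinj => ?_) hφ.curve hφ.inj
    ⟨k, s', hs', r', hr', fun h => hne ?_⟩ F (fun r => ⟨⟨_, h0 r⟩, rfl⟩)
    (fun r => ⟨⟨_, h1 r⟩, rfl⟩) r m
  · have hx0 : x ≠ 0 := by
      rintro rfl
      obtain ⟨w₀, hw₀⟩ := hX.nonempty
      unfold IsVertex at hw₀
      push Not at hw₀
      obtain ⟨k, hk, r, hr, h⟩ := hw₀
      apply h
      have h2 : r = 0 := by
        apply hinj
        rw [map_zero, pt_apply]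
        have h3 := eval_smul_form (hΨ.degree k r hr) (0 : κ) (0 : Fin 2 → κ)
        rw [zero_smul, zero_pow (by omega), zero_mul] at h3
        exact h3
      rw [h2, map_zero]
    obtain ⟨φ', hφ', h6⟩ := hΨ.exists_reparam x hx0
    exact hno κ φ' ⟨hφ', by rw [h6]; exact hinj⟩
  · linear_combination h

/-- A curve of positive degree is not constant: some point is different from the point with
parameter `(1, 0)`. -/
theorem IsCurve.exists_ne {d : ℕ} (hd : 0 < d) {Ω : Type v} [Field Ω] [IsAlgClosed Ω]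
    [Algebra ℂ Ω] {φ : R →ₐ[ℂ] MvPolynomial (Fin 2) Ω} (hφ : IsCurve 𝒜 d φ) (a : Fin 2 → Ω)
    (ha : a ≠ 0) :
    ∃ u : Fin 2 → Ω, u ≠ 0 ∧ ∃ k, ∃ r ∈ 𝒜 k, ∃ s ∈ 𝒜 k,
      pt φ u r * pt φ a s ≠ pt φ a r * pt φ u s := by
  classical
  by_contra hcon
  push Not at hcon
  have : Infinite Ω := by
    have := charZero_of_injective_algebraMap (algebraMap ℂ Ω).injective
    infer_instance
  obtain ⟨k, hk, s, hs, hs0⟩ := hφ.bpf a ha
  rw [aeval_eq_eval] at hs0
  have hs0' : eval a (φ s) ≠ 0 := hs0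
  -- a zero of `φ s`
  obtain ⟨u, hu0, hu⟩ : ∃ u : Fin 2 → Ω, u ≠ 0 ∧ eval u (φ s) = 0 := by
    have hdeg : 0 < d * k := Nat.mul_pos hd hk
    by_cases h1 : eval ![0, 1] (φ s) = 0
    · exact ⟨![0, 1], fun h => by have := congrFun h 1; simp at this, h1⟩
    · have h2 : (nwDehom Ω 0 (φ s)).coeff (d * k) ≠ 0 := by
        rw [nwDehom_coeff_symm (hφ.degree k s hs) (i := d * k) (j := 0) (by omega),
          ← nw_eval_zero_one]
        exact h1
      have h3 : (nwDehom Ω 0 (φ s)).degree ≠ 0 := by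
        intro h4
        have h5 := Polynomial.le_degree_of_ne_zero h2
        rw [h4] at h5
        have h6 : (d * k : ℕ) ≤ 0 := by exact_mod_cast h5
        omega
      obtain ⟨x, hx⟩ := IsAlgClosed.exists_root _ h3
      refine ⟨![1, x], fun h => by have := congrFun h 0; simp at this, ?_⟩
      rw [← eval_nwDehom_zero]
      exact hx
  obtain ⟨l, hl, t, ht, ht0⟩ := hφ.bpf u hu0
  rw [aeval_eq_eval] at ht0
  have ht0' : eval u (φ t) ≠ 0 := ht0
  have h7 := hcon u hu0 (l * k) (t ^ k) (by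
    have := SetLike.pow_mem_graded k ht
    rwa [smul_eq_mul, mul_comm] at this) (s ^ l) (by
    have := SetLike.pow_mem_graded l hs
    rwa [smul_eq_mul] at this)
  simp only [pt_apply, map_pow] at h7
  rw [hu, zero_pow hl.ne', mul_zero] at h7
  exact mul_ne_zero (pow_ne_zero _ ht0') (pow_ne_zero _ hs0') h7

end Vale.Agent.P292
end

section

/-! # Block N2: a conic which breaks over a divisor gives a line through `w`. -/

namespace Vale.Agent.P292

universe u v w

set_option linter.all false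

variable {R : Type u} [CommRing R] [Algebra ℂ R] {𝒜 : ℕ → Submodule ℂ R} [GradedAlgebra 𝒜]
  {P : R →ₗ[ℂ] R →ₗ[ℂ] R}

/-- N2: a chain gives a line through `w` (over the residue field), if the centre of the valuation
has codimension at most one and the dimension is at least four. -/
theorem exists_line_of_not_mem [IsDomain R] {Ω : Type u} [Field Ω] [IsAlgClosed Ω] [Algebra ℂ Ω]
    {w : R →ₐ[ℂ] ℂ} {φ : R →ₐ[ℂ] MvPolynomial (Fin 2) Ω} (hX : IsContactFano 𝒜 P)
    (hdim : 4 ≤ cdim R)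
    (hφ : GenConicAt 𝒜 w φ) (v : ValuationSubring Ω)
    (hv : ∀ c : ℂ, algebraMap ℂ Ω c ∈ v) (h01 : ∀ r, pt φ ![0, 1] r ∈ v)
    (𝔭 : Ideal R) [𝔭.IsPrime] (h𝔭 : ∀ r, r ∈ 𝔭 ↔ v.valuation (pt φ ![0, 1] r) < 1)
    (hdvr : IsDiscreteValuationRing (Localization.AtPrime 𝔭))
    (k : ℕ) (r : R) (hr : r ∈ 𝒜 k) (i : ℕ) (hi : i ≤ 2 * k) (hn : cf (φ r) i (2 * k - i) ∉ v) :
    ∃ (κ : Type u) (_ : Field κ) (_ : IsAlgClosed κ) (_ : Algebra ℂ κ)
      (Ψ : R →ₐ[ℂ] MvPolynomial (Fin 2) κ), IsCurve 𝒜 1 Ψ ∧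
      ∀ r, pt Ψ ![1, 0] r = algebraMap ℂ κ (w r) := by
  rcases exists_line_or_le hX hφ.curve hφ.left v hv h01 k r hr i hi hn with h | h
  · exact h
  · have hwv : ¬ IsVertex 𝒜 w := by
      intro hw
      obtain ⟨k, hk, r, hr, h⟩ := hφ.curve.bpf ![1, 0] (by
        intro h
        have := congrFun h 0
        simp at this)
      apply h
      rw [MvPolynomial.aeval_eq_eval, ← pt_apply, hφ.left, hw k hk r hr, map_zero]
    exact (not_le_of_dvr hX (le_trans (by norm_num) hdim) w hwv 𝔭 hdvr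
      fun k r hr hwr => (h𝔭 r).mpr (h k r hr hwr)).elim

end Vale.Agent.P292
end

section

/-! # Joint closed specialisation of two curves. -/

namespace Vale.Agent.P292

open MvPolynomial

universe u v

variable {R : Type u} [CommRing R] [Algebra ℂ R] {𝒜 : ℕ → Submodule ℂ R}
  {E : Type v} [Field E] [Algebra ℂ E]

/-- Every curve over an algebraically closed field `E` has a finite set of elements of `E` such
that it specialises to a closed curve by every complex point of every subalgebra containing this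
set. -/
theorem pair_exists_finset [Algebra.FiniteType ℂ R] [IsAlgClosed E] {d : ℕ}
    {φ : R →ₐ[ℂ] MvPolynomial (Fin 2) E} (hφ : IsCurve 𝒜 d φ) :
    ∃ S : Finset E, ∀ A₀ : Subalgebra ℂ E, (S : Set E) ⊆ A₀ → ∀ σ : A₀ →ₐ[ℂ] ℂ,
      ∃ ψ : R →ₐ[ℂ] MvPolynomial (Fin 2) ℂ, IsCurve 𝒜 d ψ ∧
        ∀ r m, ∃ h : coeff m (φ r) ∈ A₀, coeff m (ψ r) = σ ⟨coeff m (φ r), h⟩ := by
  classical
  obtain ⟨G, hG⟩ := Algebra.FiniteType.out (R := ℂ) (A := R)
  obtain ⟨N0, n0, c0, r0, k0, hk0, hr0, h0⟩ := hφ.exists_pow 0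
  obtain ⟨N1, n1, c1, r1, k1, hk1, hr1, h1⟩ := hφ.exists_pow 1
  set S : Finset E := G.biUnion (fun g => (φ g).coeffs) ∪
    (Finset.univ.biUnion fun j => (c0 j).coeffs) ∪
    (Finset.univ.biUnion fun j => (c1 j).coeffs) with hS
  refine ⟨S, fun A₀ hSA σ => ?_⟩
  set M : MvPolynomial (Fin 2) A₀ →ₐ[ℂ] MvPolynomial (Fin 2) E := mapAlgHom A₀.val with hMdef
  have hMapp : ∀ p, M p = map (algebraMap A₀ E) p := fun p => rfl
  have hM : Function.Injective M := _root_.MvPolynomial.map_injective _ Subtype.val_injective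
  have hmem : ∀ p : MvPolynomial (Fin 2) E, (p.coeffs : Set E) ⊆ A₀ → ∃ q, M q = p := by
    intro p hp
    have : p ∈ Set.range (MvPolynomial.map (algebraMap A₀ E)) := by
      rw [mem_range_map_iff_coeffs_subset]
      intro e he
      exact ⟨⟨e, hp he⟩, rfl⟩
    exact this
  have hrange : ∀ r, φ r ∈ M.range := by
    intro r
    have h2 : φ.range ≤ M.range := by
      rw [← Algebra.map_top, ← hG, AlgHom.map_adjoin, Algebra.adjoin_le_iff]
      rintro _ ⟨g, hg, rfl⟩
      obtain ⟨q, hq⟩ := hmem (φ g) (by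
        refine subset_trans ?_ hSA
        rw [hS]
        intro e he
        simp only [Finset.coe_union, Set.mem_union, Finset.mem_coe, Finset.mem_biUnion]
        exact Or.inl (Or.inl ⟨g, hg, he⟩))
      exact ⟨q, hq⟩
    exact h2 ⟨r, rfl⟩
  set e := AlgEquiv.ofInjective M hM with he
  set φ₀ : R →ₐ[ℂ] MvPolynomial (Fin 2) A₀ :=
    (e.symm : M.range →ₐ[ℂ] MvPolynomial (Fin 2) A₀).comp (φ.codRestrict M.range hrange) with hφ₀
  have hφ₀M : ∀ r, M (φ₀ r) = φ r := by
    intro r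
    have : (e (φ₀ r) : MvPolynomial (Fin 2) E) = φ r := by
      rw [hφ₀]
      simp
    rw [← this]
    rfl
  have hcf : ∀ r m, ((coeff m (φ₀ r) : A₀) : E) = coeff m (φ r) := by
    intro r m
    rw [← hφ₀M r, hMapp, coeff_map]
    rfl
  have hmap : ∀ r, ((mapAlgHom σ).comp φ₀) r = map (σ : A₀ →+* ℂ) (φ₀ r) := fun r => rfl
  refine ⟨(mapAlgHom σ).comp φ₀, ⟨?_, ?_⟩, ?_⟩
  · intro k r hr m hm
    have hm' : coeff m (φ₀ r) ≠ 0 := by
      intro h
      apply hm
      rw [hmap, coeff_map, h, map_zero]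
    have h3 : coeff m (φ r) ≠ 0 := by
      rw [← hφ₀M r, hMapp, coeff_map]
      intro h
      apply hm'
      exact Subtype.val_injective (h.trans (map_zero (algebraMap A₀ E)).symm)
    exact hφ.degree k r hr h3
  · intro x hx
    have key : ∀ (i : Fin 2) (N n : ℕ) (c : Fin n → MvPolynomial (Fin 2) E) (r : Fin n → R)
        (k : Fin n → ℕ), (∀ j, 0 < k j) → (∀ j, r j ∈ 𝒜 (k j)) →
        ∑ j, c j * φ (r j) = (X i : MvPolynomial (Fin 2) E) ^ N →
        (∀ j, ((c j).coeffs : Set E) ⊆ A₀) → x i ≠ 0 →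
        ∃ k, 0 < k ∧ ∃ r ∈ 𝒜 k, aeval x (((mapAlgHom σ).comp φ₀) r) ≠ 0 := by
      intro i N n c r k hk hr hsum hc hxi
      choose q hq using fun j => hmem (c j) (hc j)
      have h5 : ∑ j, q j * φ₀ (r j) = X i ^ N := by
        apply hM
        rw [map_sum, map_pow]
        have : M (X i) = X i := by rw [hMapp, map_X]
        rw [this, ← hsum]
        exact Finset.sum_congr rfl fun j _ => by rw [map_mul, hq, hφ₀M]
      by_contra hcon
      push Not at hcon
      have h6 : aeval x ((mapAlgHom σ : MvPolynomial (Fin 2) A₀ →ₐ[ℂ] _)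
          (∑ j, q j * φ₀ (r j))) = 0 := by
        rw [map_sum, map_sum]
        refine Finset.sum_eq_zero fun j _ => ?_
        rw [map_mul, map_mul]
        have := hcon (k j) (hk j) (r j) (hr j)
        change aeval x ((mapAlgHom σ : MvPolynomial (Fin 2) A₀ →ₐ[ℂ] _) (φ₀ (r j))) = 0 at this
        rw [this, mul_zero]
      rw [h5, map_pow, map_pow] at h6
      have h7 : (mapAlgHom σ : MvPolynomial (Fin 2) A₀ →ₐ[ℂ] _) (X i) = X i := by
        change map (σ : A₀ →+* ℂ) (X i) = X i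
        rw [map_X]
      rw [h7, aeval_X] at h6
      exact pow_ne_zero N hxi h6
    have hx' : x 0 ≠ 0 ∨ x 1 ≠ 0 := by
      by_contra h
      push Not at h
      apply hx
      funext i
      fin_cases i
      · exact h.1
      · exact h.2
    rcases hx' with h | h
    · refine key 0 N0 n0 c0 r0 k0 hk0 hr0 h0 (fun j => ?_) h
      refine subset_trans ?_ hSA
      rw [hS]
      intro e he
      simp only [Finset.coe_union, Set.mem_union, Finset.mem_coe, Finset.mem_biUnion]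
      exact Or.inl (Or.inr ⟨j, Finset.mem_univ _, he⟩)
    · refine key 1 N1 n1 c1 r1 k1 hk1 hr1 h1 (fun j => ?_) h
      refine subset_trans ?_ hSA
      rw [hS]
      intro e he
      simp only [Finset.coe_union, Set.mem_union, Finset.mem_coe, Finset.mem_biUnion]
      exact Or.inr ⟨j, Finset.mem_univ _, he⟩
  · intro r m
    refine ⟨by rw [← hcf r m]; exact (coeff m (φ₀ r)).2, ?_⟩
    rw [hmap, coeff_map]
    change σ _ = σ _
    congr 1
    exact Subtype.ext (hcf r m)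

/-- Joint closed specialisation of two curves; a given finite set of nonzero elements stays
nonzero. -/
theorem exists_closed_pair [Algebra.FiniteType ℂ R] [IsAlgClosed E] {d₁ d₂ : ℕ}
    {φ₁ φ₂ : R →ₐ[ℂ] MvPolynomial (Fin 2) E} (h1 : IsCurve 𝒜 d₁ φ₁) (h2 : IsCurve 𝒜 d₂ φ₂)
    (F : Finset E) (hF : ∀ e ∈ F, e ≠ 0) :
    ∃ (A₀ : Subalgebra ℂ E) (σ : A₀ →ₐ[ℂ] ℂ) (ψ₁ ψ₂ : R →ₐ[ℂ] MvPolynomial (Fin 2) ℂ),
      IsCurve 𝒜 d₁ ψ₁ ∧ IsCurve 𝒜 d₂ ψ₂ ∧
      (∀ r m, ∃ h : coeff m (φ₁ r) ∈ A₀, coeff m (ψ₁ r) = σ ⟨coeff m (φ₁ r), h⟩) ∧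
      (∀ r m, ∃ h : coeff m (φ₂ r) ∈ A₀, coeff m (ψ₂ r) = σ ⟨coeff m (φ₂ r), h⟩) ∧
      (∀ e ∈ F, ∃ h : e ∈ A₀, σ ⟨e, h⟩ ≠ 0) := by
  classical
  obtain ⟨S₁, hS₁⟩ := pair_exists_finset h1
  obtain ⟨S₂, hS₂⟩ := pair_exists_finset h2
  set S : Finset E := S₁ ∪ S₂ ∪ (F ∪ F.image (fun e => e⁻¹)) with hS
  set A₀ : Subalgebra ℂ E := Algebra.adjoin ℂ (S : Set E) with hA
  have hSA : (S : Set E) ⊆ A₀ := Algebra.subset_adjoin
  have : Algebra.FiniteType ℂ A₀ :=
    (Subalgebra.fg_iff_finiteType A₀).mp (Subalgebra.fg_adjoin_finset _)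
  obtain ⟨σ, -⟩ := exists_point_ne_zero (1 : A₀) one_ne_zero
  obtain ⟨ψ₁, hψ₁, hc₁⟩ := hS₁ A₀ (fun e he => hSA (by
    rw [hS]
    exact Finset.mem_coe.2 (Finset.mem_union_left _ (Finset.mem_union_left _ he)))) σ
  obtain ⟨ψ₂, hψ₂, hc₂⟩ := hS₂ A₀ (fun e he => hSA (by
    rw [hS]
    exact Finset.mem_coe.2 (Finset.mem_union_left _ (Finset.mem_union_right _ he)))) σ
  refine ⟨A₀, σ, ψ₁, ψ₂, hψ₁, hψ₂, hc₁, hc₂, fun e he => ?_⟩
  have he1 : e ∈ A₀ := hSA (by
    rw [hS]
    exact Finset.mem_coe.2 (Finset.mem_union_right _ (Finset.mem_union_left _ he)))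
  have he2 : e⁻¹ ∈ A₀ := hSA (by
    rw [hS]
    exact Finset.mem_coe.2 (Finset.mem_union_right _ (Finset.mem_union_right _
      (Finset.mem_image_of_mem _ he))))
  refine ⟨he1, fun h => ?_⟩
  have h3 : (⟨e, he1⟩ : A₀) * ⟨e⁻¹, he2⟩ = 1 := Subtype.ext (mul_inv_cancel₀ (hF e he))
  have h4 := congrArg σ h3
  rw [map_mul, h, zero_mul, map_one] at h4
  exact zero_ne_one h4

end Vale.Agent.P292
end

section

/-! # There is no family of chains of two lines from the generic point to a fixed divisor -/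

namespace Vale.Agent.P292

open MvPolynomial TensorProduct Filter

universe u v w

variable {R : Type u} [CommRing R] [Algebra ℂ R] {𝒜 : ℕ → Submodule ℂ R} [GradedAlgebra 𝒜]
  {P : R →ₗ[ℂ] R →ₗ[ℂ] R}

/-- specialisation of values. -/
theorem mm_eval_spec' {κ : Type v} [Field κ] [Algebra ℂ κ] (A₀ : Subalgebra ℂ κ)
    (σ : A₀ →ₐ[ℂ] ℂ)
    (p : MvPolynomial (Fin 2) κ) (q : MvPolynomial (Fin 2) ℂ)
    (h : ∀ m, ∃ h : coeff m p ∈ A₀, coeff m q = σ ⟨coeff m p, h⟩)
    (a : Fin 2 → κ) (ha : ∀ i, a i ∈ A₀) (b : Fin 2 → ℂ) (hb : ∀ i, b i = σ ⟨a i, ha i⟩) :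
    ∃ h : eval a p ∈ A₀, eval b q = σ ⟨eval a p, h⟩ := by
  classical
  choose h1 h2 using h
  let p₀ : MvPolynomial (Fin 2) A₀ := ∑ m ∈ p.support, monomial m ⟨coeff m p, h1 m⟩
  have hp₀ : ∀ m, coeff m p₀ = ⟨coeff m p, h1 m⟩ := by
    intro m
    rw [show coeff m p₀ = ∑ n ∈ p.support, coeff m (monomial n (⟨coeff n p, h1 n⟩ : A₀)) from
      coeff_sum _ _ _]
    simp only [coeff_monomial]
    rw [Finset.sum_ite_eq' p.support m]
    split_ifs with hm
    · rfl
    · rw [notMem_support_iff] at hm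
      exact Subtype.ext hm.symm
  have hp : map (algebraMap A₀ κ) p₀ = p := by
    ext m
    rw [coeff_map, hp₀]
    rfl
  have hq : map (σ : A₀ →+* ℂ) p₀ = q := by
    ext m
    rw [coeff_map, hp₀, h2]
    rfl
  have h3 : ((eval (fun i => (⟨a i, ha i⟩ : A₀)) p₀ : A₀) : κ) = eval a p := by
    rw [← hp, eval_map]
    have := eval₂_comp_left (algebraMap A₀ κ) (RingHom.id A₀) (fun i => (⟨a i, ha i⟩ : A₀)) p₀
    rw [RingHom.comp_id] at this
    exact this
  have hmem : eval a p ∈ A₀ := by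
    rw [← h3]
    exact SetLike.coe_mem _
  refine ⟨hmem, ?_⟩
  have h4 : (⟨eval a p, hmem⟩ : A₀) = eval (fun i => (⟨a i, ha i⟩ : A₀)) p₀ := Subtype.ext h3.symm
  rw [h4, ← hq, eval_map]
  have h5 := eval₂_comp_left (σ : A₀ →+* ℂ) (RingHom.id A₀) (fun i => (⟨a i, ha i⟩ : A₀)) p₀
  rw [RingHom.comp_id] at h5
  have h6 : b = (σ : A₀ →+* ℂ) ∘ fun i => (⟨a i, ha i⟩ : A₀) := by
    funext i
    rw [hb]
    rfl
  rw [h6]
  exact h5.symm

theorem mm_mem_10 {κ : Type v} [Field κ] [Algebra ℂ κ] (A₀ : Subalgebra ℂ κ) (i : Fin 2) :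
    (![1, 0] : Fin 2 → κ) i ∈ A₀ := by
  fin_cases i
  · exact one_mem _
  · exact zero_mem _

theorem mm_mem_01 {κ : Type v} [Field κ] [Algebra ℂ κ] (A₀ : Subalgebra ℂ κ) (i : Fin 2) :
    (![0, 1] : Fin 2 → κ) i ∈ A₀ := by
  fin_cases i
  · exact zero_mem _
  · exact one_mem _

/-- Closed chains specialising a given chain. -/
theorem mm_closed_chain [Algebra.FiniteType ℂ R] {κ : Type v} [Field κ] [IsAlgClosed κ]
    [Algebra ℂ κ] {Ψ₁ Ψ₂ : R →ₐ[ℂ] MvPolynomial (Fin 2) κ} (h₁ : IsCurve 𝒜 1 Ψ₁)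
    (h₂ : IsCurve 𝒜 1 Ψ₂) (hν : pt Ψ₁ ![0, 1] = pt Ψ₂ ![0, 1]) (w : R →ₐ[ℂ] ℂ)
    (hw : ∀ r, pt Ψ₁ ![1, 0] r = algebraMap ℂ κ (w r)) (r₀ : R) (hr₀ : pt Ψ₂ ![1, 0] r₀ ≠ 0) :
    ∃ ψ₁ ψ₂ : R →ₐ[ℂ] MvPolynomial (Fin 2) ℂ, IsCurve 𝒜 1 ψ₁ ∧ IsCurve 𝒜 1 ψ₂ ∧
      pt ψ₁ ![0, 1] = pt ψ₂ ![0, 1] ∧ pt ψ₁ ![1, 0] = w ∧
      (∀ r, pt Ψ₂ ![1, 0] r = 0 → pt ψ₂ ![1, 0] r = 0) ∧ pt ψ₂ ![1, 0] r₀ ≠ 0 := by
  classical
  obtain ⟨A₀, σ, ψ₁, ψ₂, hψ₁, hψ₂, hc₁, hc₂, hF⟩ := exists_closed_pair h₁ h₂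
    ({pt Ψ₂ ![1, 0] r₀} : Finset κ) (fun e he => by
      rw [Finset.mem_singleton] at he
      rwa [he])
  have h10 : ∀ i, (![1, 0] : Fin 2 → ℂ) i = σ ⟨(![1, 0] : Fin 2 → κ) i, mm_mem_10 A₀ i⟩ := by
    intro i
    fin_cases i
    · exact (map_one σ).symm
    · exact (map_zero σ).symm
  have h01 : ∀ i, (![0, 1] : Fin 2 → ℂ) i = σ ⟨(![0, 1] : Fin 2 → κ) i, mm_mem_01 A₀ i⟩ := by
    intro i
    fin_cases i
    · exact (map_zero σ).symm
    · exact (map_one σ).symm
  refine ⟨ψ₁, ψ₂, hψ₁, hψ₂, ?_, ?_, ?_, ?_⟩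
  · ext r
    rw [pt_apply, pt_apply]
    obtain ⟨m1, e1⟩ := mm_eval_spec' A₀ σ (Ψ₁ r) (ψ₁ r) (hc₁ r) ![0, 1] (mm_mem_01 A₀) ![0, 1] h01
    obtain ⟨m2, e2⟩ := mm_eval_spec' A₀ σ (Ψ₂ r) (ψ₂ r) (hc₂ r) ![0, 1] (mm_mem_01 A₀) ![0, 1] h01
    rw [e1, e2]
    congr 1
    refine Subtype.ext ?_
    have := DFunLike.congr_fun hν r
    rwa [pt_apply, pt_apply] at this
  · ext r
    rw [pt_apply]
    obtain ⟨m1, e1⟩ := mm_eval_spec' A₀ σ (Ψ₁ r) (ψ₁ r) (hc₁ r) ![1, 0] (mm_mem_10 A₀) ![1, 0] h10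
    rw [e1]
    have h3 := hw r
    rw [pt_apply] at h3
    have h4 : (⟨eval ![1, 0] (Ψ₁ r), m1⟩ : A₀) = algebraMap ℂ A₀ (w r) := Subtype.ext h3
    rw [h4, AlgHom.commutes]
    rfl
  · intro r hr
    rw [pt_apply]
    obtain ⟨m2, e2⟩ := mm_eval_spec' A₀ σ (Ψ₂ r) (ψ₂ r) (hc₂ r) ![1, 0] (mm_mem_10 A₀) ![1, 0] h10
    rw [e2]
    rw [pt_apply] at hr
    have h4 : (⟨eval ![1, 0] (Ψ₂ r), m2⟩ : A₀) = 0 := Subtype.ext hr
    rw [h4, map_zero]
  · rw [pt_apply]
    obtain ⟨m2, e2⟩ := mm_eval_spec' A₀ σ (Ψ₂ r₀) (ψ₂ r₀) (hc₂ r₀) ![1, 0] (mm_mem_10 A₀) ![1, 0]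
      h10
    rw [e2]
    obtain ⟨m3, e3⟩ := hF _ (Finset.mem_singleton_self _)
    exact e3

/-- **No family of chains** from a generic closed point to a fixed subvariety. -/
theorem no_chain_family (hX : IsContactFano 𝒜 P) [IsDomain R] (𝔮 : Ideal R) [𝔮.IsPrime]
    (S : Set (R →ₐ[ℂ] ℂ)) (hS : ∀ g : R, g ≠ 0 → ∃ w ∈ S, w g ≠ 0)
    (h : ∀ w ∈ S, ∃ (κ : Type u) (_ : Field κ) (_ : IsAlgClosed κ) (_ : Algebra ℂ κ)
      (Ψ₁ Ψ₂ : R →ₐ[ℂ] MvPolynomial (Fin 2) κ), IsCurve 𝒜 1 Ψ₁ ∧ IsCurve 𝒜 1 Ψ₂ ∧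
      pt Ψ₁ ![0, 1] = pt Ψ₂ ![0, 1] ∧ (∀ r, pt Ψ₁ ![1, 0] r = algebraMap ℂ κ (w r)) ∧
      ∀ r, r ∈ 𝔮 ↔ pt Ψ₂ ![1, 0] r = 0) : False := by
  classical
  have := hX.finiteType
  let B := R ⧸ 𝔮
  have hdomA : IsDomain (R ⊗[ℂ] B) := isDomain_tensor
  let mk : R →ₐ[ℂ] B := Ideal.Quotient.mkₐ ℂ 𝔮
  let T : Set (R ⊗[ℂ] B →ₐ[ℂ] ℂ) := {s | ∃ ψ₁ ψ₂ : R →ₐ[ℂ] MvPolynomial (Fin 2) ℂ,
    IsCurve 𝒜 1 ψ₁ ∧ IsCurve 𝒜 1 ψ₂ ∧ pt ψ₁ ![0, 1] = pt ψ₂ ![0, 1] ∧
    (∀ r, pt ψ₁ ![1, 0] r = s (r ⊗ₜ[ℂ] 1)) ∧ ∀ r, pt ψ₂ ![1, 0] r = s (1 ⊗ₜ[ℂ] mk r)}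
  have hT : ∀ F : R ⊗[ℂ] B, F ≠ 0 → ∃ s ∈ T, s F ≠ 0 := by
    intro F hF
    obtain ⟨g, hg, hgF⟩ := exists_evFst_ne_zero hF
    obtain ⟨w, hwS, hwg⟩ := hS g hg
    have h1 := hgF w hwg
    obtain ⟨r₀, hr₀⟩ := Ideal.Quotient.mk_surjective (evFst w F)
    obtain ⟨κ, _, _, _, Ψ₁, Ψ₂, hΨ₁, hΨ₂, hν, hw, h𝔮⟩ := h w hwS
    have hr₀' : pt Ψ₂ ![1, 0] r₀ ≠ 0 := by
      rw [Ne, ← h𝔮]
      intro hmem
      apply h1
      rw [← hr₀]
      exact Ideal.Quotient.eq_zero_iff_mem.2 hmem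
    obtain ⟨ψ₁, ψ₂, hψ₁, hψ₂, hν', hw', hz, hne⟩ := mm_closed_chain hΨ₁ hΨ₂ hν w hw r₀ hr₀'
    let q : B →ₐ[ℂ] ℂ := Ideal.Quotient.liftₐ 𝔮 (pt ψ₂ ![1, 0]) (fun r hr => hz r ((h𝔮 r).1 hr))
    have hq : ∀ r, q (mk r) = pt ψ₂ ![1, 0] r := fun r => rfl
    let s : R ⊗[ℂ] B →ₐ[ℂ] ℂ := q.comp (evFst w)
    have hs1 : ∀ r, s (r ⊗ₜ[ℂ] 1) = w r := by
      intro r
      change q (evFst w (r ⊗ₜ[ℂ] (1 : B))) = w r
      rw [evFst_tmul, map_smul, map_one, smul_eq_mul, mul_one]
    have hs2 : ∀ b, s (1 ⊗ₜ[ℂ] b) = q b := by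
      intro b
      change q (evFst w ((1 : R) ⊗ₜ[ℂ] b)) = q b
      rw [evFst_tmul, map_one, one_smul]
    refine ⟨s, ⟨ψ₁, ψ₂, hψ₁, hψ₂, hν', fun r => ?_, fun r => ?_⟩, ?_⟩
    · rw [hs1, hw']
    · rw [hs2, hq]
    · change q (evFst w F) ≠ 0
      rw [← hr₀]
      exact hne
  obtain ⟨U, hU⟩ := mm_exists_ultrafilter (R ⊗[ℂ] B) T hT
  obtain ⟨Ω, _, _, g, hg⟩ := exists_isUP U
  have : IsAlgClosed Ω := hg.isAlgClosed
  choose ψ₁ ψ₂ hψ₁ hψ₂ hν hl hr using fun s : T => s.2
  obtain ⟨Φ₁, hΦ₁, -, he₁⟩ := hg.exists_curve hX.connected ψ₁ hψ₁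
  obtain ⟨Φ₂, hΦ₂, -, he₂⟩ := hg.exists_curve hX.connected ψ₂ hψ₂
  let i : R ⊗[ℂ] B →ₐ[ℂ] Ω :=
    { toFun := fun x => g fun s => s.1 x
      map_one' := by simp only [map_one]; exact map_one g
      map_zero' := by simp only [map_zero]; exact map_zero g
      map_mul' := fun x y => by simp only [map_mul]; exact map_mul g _ _
      map_add' := fun x y => by simp only [map_add]; exact map_add g _ _
      commutes' := fun c => by
        simp only [AlgHom.commutes]
        exact hg.const c }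
  have hi : ∀ x, i x = g fun s => s.1 x := fun x => rfl
  have hinj : Function.Injective i := by
    rw [injective_iff_map_eq_zero]
    intro x hx
    by_contra hx0
    rw [hi, hg.zero] at hx
    obtain ⟨s, h1, h2⟩ := (hx.and (hU x hx0)).exists
    exact h2 h1
  have e10 : (![1, 0] : Fin 2 → Ω) = fun j => g ((![1, 0] : Fin 2 → T → ℂ) j) := by
    funext j
    fin_cases j
    · simp
    · simp
  have e01 : (![0, 1] : Fin 2 → Ω) = fun j => g ((![0, 1] : Fin 2 → T → ℂ) j) := by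
    funext j
    fin_cases j
    · simp
    · simp
  have e10' : ∀ s : T, (fun j => (![1, 0] : Fin 2 → T → ℂ) j s) = ![1, 0] := by
    intro s
    funext j
    fin_cases j <;> simp
  have e01' : ∀ s : T, (fun j => (![0, 1] : Fin 2 → T → ℂ) j s) = ![0, 1] := by
    intro s
    funext j
    fin_cases j <;> simp
  have hl' : ∀ r, pt Φ₁ ![1, 0] r = i (r ⊗ₜ[ℂ] 1) := by
    intro r
    rw [pt_apply, hi, e10, he₁]
    congr 1
    funext s
    rw [e10', ← pt_apply, hl]
  have hr' : ∀ r, pt Φ₂ ![1, 0] r = i (1 ⊗ₜ[ℂ] mk r) := by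
    intro r
    rw [pt_apply, hi, e10, he₂]
    congr 1
    funext s
    rw [e10', ← pt_apply, hr]
  have hν' : pt Φ₁ ![0, 1] = pt Φ₂ ![0, 1] := by
    ext r
    rw [pt_apply, pt_apply, e01, he₁, he₂]
    congr 1
    funext s
    rw [e01', ← pt_apply, ← pt_apply, hν]
  refine no_two_chain hX hΦ₁ hΦ₂ hν' fun δ hδ => ?_
  have hcomp : pt Φ₁ ![1, 0] = i.comp Algebra.TensorProduct.includeLeft :=
    AlgHom.ext fun r => hl' r
  rw [hcomp] at hδ
  obtain ⟨D, hD1, hD2⟩ := mm_exists_der_tensor i hinj hδ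
  refine ⟨D, fun r => ?_, 0, fun r => ?_⟩
  · rw [hl', hD1]
  · rw [hr', hD2, zero_mul]

end Vale.Agent.P292
end
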