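import Vale.Agent.P292.Bn.N6
import Vale.Agent.P292.Bn.N7
import Vale.Agent.P292.Bn.N5
import Vale.Agent.P292.Defs
import Vale.Agent.P292.Bn.N10
import Vale.Agent.P292.Bn.N4

set_option linter.all false

section

/-! # Two lines through a generic point, block N2.4: the anchor of the smoothing. -/

namespace Vale.Agent.P292

open MvPolynomial

universe u v w

section anchor

variable {R : Type u} [CommRing R] [Algebra ℂ R] {𝒜 : ℕ → Submodule ℂ R} [GradedAlgebra 𝒜]

/-- A point with values in Laurent series whose leading part is generic is generic. -/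
theorem n24_injective {K : Type v} [Field K] [Algebra ℂ K] {y : R →ₐ[ℂ] K}
    (hy : Function.Injective y) (Z : R →+* LaurentSeries K)
    (h1 : ∀ k, ∀ r ∈ 𝒜 k, (Z r).coeff (-(k : ℤ)) = y r)
    (h2 : ∀ k, ∀ r ∈ 𝒜 k, ∀ l : ℤ, l < -(k : ℤ) → (Z r).coeff l = 0) :
    Function.Injective Z := by
  classical
  rw [injective_iff_map_eq_zero]
  intro r hr
  by_contra hr0
  have hne : (DirectSum.decompose 𝒜 r).support.Nonempty := by
    rw [Finset.nonempty_iff_ne_empty]
    intro h
    apply hr0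
    rw [← DirectSum.sum_support_decompose 𝒜 r, h, Finset.sum_empty]
  set k := (DirectSum.decompose 𝒜 r).support.max' hne with hk
  have hkm : k ∈ (DirectSum.decompose 𝒜 r).support := Finset.max'_mem _ _
  have hc : (Z r).coeff (-(k : ℤ)) = y (DirectSum.decompose 𝒜 r k : R) := by
    conv_lhs => rw [← DirectSum.sum_support_decompose 𝒜 r]
    rw [map_sum, HahnSeries.coeff_sum, Finset.sum_eq_single k]
    · exact h1 k _ (DirectSum.decompose 𝒜 r k).2
    · intro j hj hjk
      have hle : j ≤ k := Finset.le_max' _ _ hj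
      exact h2 j _ (DirectSum.decompose 𝒜 r j).2 _ (by omega)
    · intro h
      exact absurd hkm h
  rw [hr, HahnSeries.coeff_zero] at hc
  have h3 : (DirectSum.decompose 𝒜 r k : R) = 0 := hy (by rw [← hc, map_zero])
  rw [DFinsupp.mem_support_iff] at hkm
  exact hkm (Subtype.ext h3)

end anchor

/-! ### the constant `b` after a linear change of the parameter -/

section reparam

theorem n24_pderiv_lcSub {K : Type v} [Field K] (a c : Fin 2 → K) (p : MvPolynomial (Fin 2) K) :
    pderiv 0 (lcSub a c p) = C (a 0) * lcSub a c (pderiv 0 p) + C (a 1) * lcSub a c (pderiv 1 p) ∧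
    pderiv 1 (lcSub a c p) = C (c 0) * lcSub a c (pderiv 0 p) + C (c 1) * lcSub a c (pderiv 1 p) := by
  induction p using MvPolynomial.induction_on with
  | C r => simp [lcSub]
  | add p q hp hq =>
    constructor
    · simp only [map_add, hp.1, hq.1]; ring
    · simp only [map_add, hp.2, hq.2]; ring
  | mul_X p i hp =>
    have hX : lcSub a c (X i) = C (a i) * X 0 + C (c i) * X 1 := by simp [lcSub]
    constructor
    · rw [map_mul, hX, Derivation.leibniz, hp.1, Derivation.leibniz, Derivation.leibniz]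
      simp only [map_add, Derivation.leibniz, smul_eq_mul, pderiv_C, pderiv_X, map_mul, hX]
      fin_cases i <;> simp <;> ring
    · rw [map_mul, hX, Derivation.leibniz, hp.2, Derivation.leibniz, Derivation.leibniz]
      simp only [map_add, Derivation.leibniz, smul_eq_mul, pderiv_C, pderiv_X, map_mul, hX]
      fin_cases i <;> simp <;> ring

variable {R : Type u} [CommRing R] [Algebra ℂ R] {𝒜 : ℕ → Submodule ℂ R} [GradedAlgebra 𝒜]
  {P : R →ₗ[ℂ] R →ₗ[ℂ] R}

/-- The constant `b` is multiplied by the determinant. -/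
theorem n24_b_reparam (hX : IsContactFano 𝒜 P) {K : Type v} [Field K] [IsAlgClosed K]
    [Algebra ℂ K] {φ ψ : R →ₐ[ℂ] MvPolynomial (Fin 2) K} (hφ : IsCurve 𝒜 2 φ)
    (hψ : IsCurve 𝒜 2 ψ) (a c : Fin 2 → K) (ha : a ≠ 0)
    (h : ∀ (r : R) (x : Fin 2 → K), eval x (ψ r) = eval (x 0 • a + x 1 • c) (φ r)) {b : K}
    (hb : omC P φ (pd φ 0) (pd φ 1) = C b) :
    omC P ψ (pd ψ 0) (pd ψ 1) = C ((a 0 * c 1 - a 1 * c 0) * b) := by
  have h1 : ∀ r, ψ r = lcSub a c (φ r) := fun r => MvPolynomial.funext fun x => by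
    rw [h, eval_lcSub]
  obtain ⟨b', hb'⟩ := exists_b hX hψ
  rw [hb']
  congr 1
  have h2 := omC_eval hX hψ (isHDer_pd hψ 0) (isHDer_pd hψ 1) ![1, 0] vec10_ne
  rw [hb', eval_C] at h2
  have h3 := omC_eval hX hφ (isHDer_pd hφ 0) (isHDer_pd hφ 1) a ha
  rw [hb, eval_C] at h3
  have hpt : pt ψ ![1, 0] = pt φ a := by
    ext r
    rw [pt_apply, pt_apply, h]
    simp
  have e0 : evL ![1, 0] (pd ψ 0) = a 0 • evL a (pd φ 0) + a 1 • evL a (pd φ 1) := by
    ext r
    rw [evL_apply, pd_apply, h1, (n24_pderiv_lcSub a c _).1]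
    simp [eval_lcSub]
  have e1 : evL ![1, 0] (pd ψ 1) = c 0 • evL a (pd φ 0) + c 1 • evL a (pd φ 1) := by
    ext r
    rw [evL_apply, pd_apply, h1, (n24_pderiv_lcSub a c _).2]
    simp [eval_lcSub]
  have hnv : IsNV 𝒜 (pt φ a) := hφ.isNV_pt ha
  have d0 : IsDer (pt φ a) (evL a (pd φ 0)) := (isHDer_pd hφ 0).der.evL a
  have d1 : IsDer (pt φ a) (evL a (pd φ 1)) := (isHDer_pd hφ 1).der.evL a
  have d0' : ∀ t : K, IsDer (pt φ a) (t • evL a (pd φ 0)) := fun t => (DerAt _).smul_mem t d0
  have d1' : ∀ t : K, IsDer (pt φ a) (t • evL a (pd φ 1)) := fun t => (DerAt _).smul_mem t d1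
  have d2 : IsDer (pt φ a) (c 0 • evL a (pd φ 0) + c 1 • evL a (pd φ 1)) :=
    (DerAt _).add_mem (d0' _) (d1' _)
  rw [← h2, hpt, e0, e1, om_add_left hX hnv (d0' _) (d1' _) d2, om_smul_left hX hnv d0 d2,
    om_smul_left hX hnv d1 d2, om_add_right hX hnv d0 (d0' _) (d1' _),
    om_add_right hX hnv d1 (d0' _) (d1' _), om_smul_right hX hnv d0 d0,
    om_smul_right hX hnv d0 d1, om_smul_right hX hnv d1 d0, om_smul_right hX hnv d1 d1,
    om_self hX hnv d0, om_self hX hnv d1,
    om_antisymm hX hnv d1 d0, h3]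
  ring

end reparam

end Vale.Agent.P292
end

section

/-! # The dimension of the cone and the transcendence degree -/

namespace Vale.Agent.P292

open MvPolynomial Cardinal

universe u v

variable {R : Type u} [CommRing R] [Algebra ℂ R]

theorem IsDer.dim_map_algebraMap {E : Type v} [CommRing E] [Algebra ℂ E] {x : R →ₐ[ℂ] E}
    {δ : R →ₗ[ℂ] E} (h : IsDer x δ) (c : ℂ) : δ (algebraMap ℂ R c) = 0 := by
  have h1 := h 1 1
  have hx : x 1 = 1 := map_one x
  rw [hx, mul_one, one_mul] at h1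
  have h2 : δ 1 = 0 := by
    have h3 : δ 1 + 0 = δ 1 + δ 1 := by rw [add_zero]; exact h1
    exact (add_left_cancel h3).symm
  rw [Algebra.algebraMap_eq_smul_one, map_smul, h2, smul_zero]

theorem IsDer.dim_eq_zero_of_adjoin {E : Type v} [CommRing E] [Algebra ℂ E] {x : R →ₐ[ℂ] E}
    {δ : R →ₗ[ℂ] E} (h : IsDer x δ) {S : Set R} (hS : Algebra.adjoin ℂ S = ⊤)
    (h0 : ∀ s ∈ S, δ s = 0) : δ = 0 := by
  ext r
  have hr : r ∈ Algebra.adjoin ℂ S := by rw [hS]; trivial
  induction hr using Algebra.adjoin_induction with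
  | mem s hs => exact h0 s hs
  | algebraMap c => rw [h.dim_map_algebraMap]; rfl
  | add a b _ _ ha hb => rw [map_add, ha, hb]; simp
  | mul a b _ _ ha hb =>
    rw [h, ha, hb]
    simp

theorem dim_finite_DerAt {E : Type v} [Field E] [Algebra ℂ E] [hft : Algebra.FiniteType ℂ R]
    (x : R →ₐ[ℂ] E) : Module.Finite E (DerAt x) := by
  obtain ⟨S, hS⟩ := hft.out
  let f : DerAt x →ₗ[E] (S → E) :=
    { toFun := fun δ s => δ.1 s.1
      map_add' := fun _ _ => rfl
      map_smul' := fun _ _ => rfl }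
  have hf : Function.Injective f := by
    intro δ δ' h
    have h1 : δ.1 - δ'.1 = 0 := by
      refine IsDer.dim_eq_zero_of_adjoin (x := x) (sub_mem δ.2 δ'.2 : δ.1 - δ'.1 ∈ DerAt x) hS ?_
      intro s hs
      have := congrFun h ⟨s, hs⟩
      change δ.1 s = δ'.1 s at this
      rw [LinearMap.sub_apply, this, sub_self]
    exact Subtype.ext (sub_eq_zero.1 h1)
  exact Module.Finite.of_injective f hf

theorem dim_le_finrank_DerAt [Algebra.FiniteType ℂ R] {K : Type v} [Field K] [Algebra ℂ K]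
    (q : R →ₐ[ℂ] K) (hq : Function.Injective q) {n : ℕ} {x : Fin n → R}
    (hx : AlgebraicIndependent ℂ x) : n ≤ Module.finrank K (DerAt q) := by
  classical
  let ι : MvPolynomial (Fin n) ℂ →ₐ[ℂ] K := q.comp (aeval x)
  have hι : Function.Injective ι := hq.comp hx
  have hch : CharZero K := charZero_of_injective_algebraMap (algebraMap ℂ K).injective
  let _ : Algebra (MvPolynomial (Fin n) ℂ) K := ι.toRingHom.toAlgebra
  have hst : IsScalarTower ℂ (MvPolynomial (Fin n) ℂ) K := IsScalarTower.of_algebraMap_eq fun c => by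
    change _ = ι (algebraMap ℂ _ c)
    rw [ι.commutes]
  have hD : ∀ i : Fin n, ∃ D : Derivation ℂ K K, ∀ p, D (ι p) = ι (pderiv i p) := by
    intro i
    obtain ⟨D, hD⟩ := exists_derivation_extend (k := ℂ) (A := MvPolynomial (Fin n) ℂ) (E := K) hι
      ((Algebra.linearMap (MvPolynomial (Fin n) ℂ) K).compDer (pderiv i : Derivation ℂ _ _))
    exact ⟨D, fun p => hD p⟩
  choose D hD using hD
  have := dim_finite_DerAt q
  let b : Fin n → DerAt q := fun i => ⟨alongAt _ (D i), isDer_alongAt _ (D i)⟩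
  have hxj : ∀ j, q (x j) = ι (X j) := by
    intro j
    change _ = q (aeval x (X j))
    rw [aeval_X]
  let T : DerAt q →ₗ[K] (Fin n → K) :=
    { toFun := fun δ j => δ.1 (x j)
      map_add' := fun _ _ => rfl
      map_smul' := fun _ _ => rfl }
  have hTb : ∀ i, T (b i) = Pi.single i 1 := by
    intro i
    ext j
    change D i (q (x j)) = _
    rw [hxj, hD, pderiv_X]
    rcases eq_or_ne i j with rfl | hij
    · rw [Pi.single_eq_same, Pi.single_eq_same, map_one]
    · rw [Pi.single_eq_of_ne (Ne.symm hij), Pi.single_eq_of_ne (Ne.symm hij), map_zero]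
  have hT : Function.Surjective T := by
    intro g
    refine ⟨∑ i, g i • b i, ?_⟩
    rw [map_sum]
    simp only [map_smul, hTb]
    ext j
    simp [Finset.sum_apply, Pi.single_apply]
  have h2 := LinearMap.finrank_le_finrank_of_surjective hT
  rw [Module.finrank_fin_fun] at h2
  exact h2

theorem le_cdim_of_algebraicIndependent [IsDomain R] [Algebra.FiniteType ℂ R] {n : ℕ}
    {x : Fin n → R} (hx : AlgebraicIndependent ℂ x) : n ≤ cdim R :=
  dim_le_finrank_DerAt (IsScalarTower.toAlgHom ℂ R (FractionRing R))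
    (IsFractionRing.injective R (FractionRing R)) hx

theorem dim_exists_algebraicIndependent [Nontrivial R] {n : ℕ}
    (h : (n : Cardinal.{u}) ≤ Algebra.trdeg ℂ R) : ∃ x : Fin n → R, AlgebraicIndependent ℂ x := by
  by_contra hno
  have hall : ∀ s : Set R, AlgebraicIndepOn ℂ id s → #s < n := by
    intro s hs
    by_contra hlt
    rw [not_lt] at hlt
    rw [← Cardinal.lift_mk_fin, ← Cardinal.lift_id'.{0, u} #s, Cardinal.lift_mk_le'] at hlt
    obtain ⟨e⟩ := hlt
    exact hno ⟨fun i => (e i : R), hs.comp e e.injective⟩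
  rcases Nat.eq_zero_or_pos n with rfl | hn
  · exact hno ⟨Fin.elim0, algebraicIndependent_empty_type_iff.mpr
      (algebraMap ℂ R).injective⟩
  · have h1 : Algebra.trdeg ℂ R ≤ ((n - 1 : ℕ) : Cardinal.{u}) := by
      refine ciSup_le' fun s => ?_
      have h2 := hall s.1 s.2
      obtain ⟨m, hm⟩ := Cardinal.lt_aleph0.1 (h2.trans Cardinal.natCast_lt_aleph0)
      rw [hm] at h2 ⊢
      have h3 : m < n := by exact_mod_cast h2
      exact_mod_cast (by omega : m ≤ n - 1)
    have h2 : n ≤ n - 1 := by exact_mod_cast h.trans h1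
    omega

/-- The dimension of the cone is at least the transcendence degree. -/
theorem le_cdim_of_le_trdeg [IsDomain R] [Algebra.FiniteType ℂ R] {n : ℕ}
    (h : (n : Cardinal.{u}) ≤ Algebra.trdeg ℂ R) : n ≤ cdim R := by
  obtain ⟨x, hx⟩ := dim_exists_algebraicIndependent h
  exact le_cdim_of_algebraicIndependent hx

theorem four_le_cdim_of_trdeg {𝒜 : ℕ → Submodule ℂ R} [GradedAlgebra 𝒜] {P : R →ₗ[ℂ] R →ₗ[ℂ] R}
    (hX : IsContactFano 𝒜 P) [IsDomain R] (h : 4 ≤ Algebra.trdeg ℂ R) : 4 ≤ cdim R := by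
  have := hX.finiteType
  exact le_cdim_of_le_trdeg (n := 4) (by exact_mod_cast h)

end Vale.Agent.P292
end

section

/-! # Back transfer: curves over fields of large characteristic give an anchored curve. -/

namespace Vale.Agent.P292.Mo

open MvPolynomial Filter

universe u

/-- `Ω` is the ultraproduct of the fields `k s` over the ultrafilter `U`. -/
structure IsUltraProd {S : Type u} (U : Ultrafilter S) (k : S → Type) [∀ s, Field (k s)]
    {Ω : Type u} [Field Ω] (g : (∀ s, k s) →+* Ω) : Prop where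
  surj : Function.Surjective g
  zero : ∀ f, g f = 0 ↔ ∀ᶠ s in (U : Filter S), f s = 0

/-- The ideal of an ultrafilter. -/
def upIdeal {S : Type u} (U : Ultrafilter S) (k : S → Type) [∀ s, Field (k s)] :
    Ideal (∀ s, k s) where
  carrier := {f | ∀ᶠ s in (U : Filter S), f s = 0}
  zero_mem' := Eventually.of_forall fun _ => rfl
  add_mem' := fun {a b} ha hb => by
    have h1 : ∀ᶠ s in (U : Filter S), a s = 0 := ha
    have h2 : ∀ᶠ s in (U : Filter S), b s = 0 := hb
    change ∀ᶠ s in (U : Filter S), (a + b) s = 0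
    filter_upwards [h1, h2] with s h1 h2
    rw [Pi.add_apply, h1, h2, add_zero]
  smul_mem' := fun c x hx => by
    have h1 : ∀ᶠ s in (U : Filter S), x s = 0 := hx
    change ∀ᶠ s in (U : Filter S), (c * x) s = 0
    filter_upwards [h1] with s h1
    rw [Pi.mul_apply, h1, mul_zero]

theorem mem_upIdeal {S : Type u} (U : Ultrafilter S) (k : S → Type) [∀ s, Field (k s)]
    {f : ∀ s, k s} : f ∈ upIdeal U k ↔ ∀ᶠ s in (U : Filter S), f s = 0 := Iff.rfl

theorem upIdeal_isMaximal {S : Type u} (U : Ultrafilter S) (k : S → Type) [∀ s, Field (k s)] :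
    (upIdeal U k).IsMaximal := by
  classical
  rw [Ideal.isMaximal_iff]
  constructor
  · rw [mem_upIdeal]
    intro h
    obtain ⟨s, hs⟩ := h.exists
    exact one_ne_zero hs
  · intro J f hJ hf hfJ
    rw [mem_upIdeal, ← Ultrafilter.eventually_not] at hf
    have h1 : (1 - (fun s => (f s)⁻¹) * f : ∀ s, k s) ∈ upIdeal U k := by
      rw [mem_upIdeal]
      filter_upwards [hf] with s hs
      rw [Pi.sub_apply, Pi.mul_apply, Pi.one_apply, inv_mul_cancel₀ hs, sub_self]
    have h2 := J.add_mem (hJ h1) (J.mul_mem_left (fun s => (f s)⁻¹) hfJ)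
    rwa [sub_add_cancel] at h2

theorem exists_isUltraProd {S : Type u} (U : Ultrafilter S) (k : S → Type) [∀ s, Field (k s)] :
    ∃ (Ω : Type u) (_ : Field Ω) (g : (∀ s, k s) →+* Ω), IsUltraProd U k g := by
  have := upIdeal_isMaximal U k
  let _ : Field ((∀ s, k s) ⧸ upIdeal U k) := Ideal.Quotient.field _
  refine ⟨(∀ s, k s) ⧸ upIdeal U k, inferInstance, Ideal.Quotient.mk _, ?_, ?_⟩
  · exact Ideal.Quotient.mk_surjective
  · intro f
    rw [← mem_upIdeal]
    exact Ideal.Quotient.eq_zero_iff_mem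

namespace IsUltraProd

variable {S : Type u} {U : Ultrafilter S} {k : S → Type} [∀ s, Field (k s)] {Ω : Type u}
  [Field Ω] {g : (∀ s, k s) →+* Ω} (h : IsUltraProd U k g)
include h

theorem ne_zero {f : ∀ s, k s} : g f ≠ 0 ↔ ∀ᶠ s in (U : Filter S), f s ≠ 0 := by
  rw [Ne, h.zero, Ultrafilter.eventually_not]

theorem congr {f f' : ∀ s, k s} (hf : ∀ᶠ s in (U : Filter S), f s = f' s) : g f = g f' := by
  rw [← sub_eq_zero, ← map_sub, h.zero]
  filter_upwards [hf] with s hs
  rw [Pi.sub_apply, hs, sub_self]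

theorem isAlgClosed [∀ s, IsAlgClosed (k s)] : IsAlgClosed Ω := by
  refine IsAlgClosed.of_exists_root Ω fun p hp hirr => ?_
  choose f hf using fun i => h.surj (p.coeff i)
  have hn : 0 < p.natDegree := hirr.natDegree_pos
  have hx : ∀ s : S, ∃ x : k s, x ^ p.natDegree +
      ∑ i ∈ Finset.range p.natDegree, f i s * x ^ i = 0 := by
    intro s
    let q : Polynomial (k s) := Polynomial.X ^ p.natDegree +
      ∑ i ∈ Finset.range p.natDegree, Polynomial.C (f i s) * Polynomial.X ^ i
    have hlt : (∑ i ∈ Finset.range p.natDegree,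
        Polynomial.C (f i s) * Polynomial.X ^ i).degree < (p.natDegree : WithBot ℕ) := by
      refine lt_of_le_of_lt (Polynomial.degree_sum_le _ _) ?_
      rw [Finset.sup_lt_iff (by exact_mod_cast WithBot.bot_lt_coe p.natDegree)]
      intro i hi
      rw [Finset.mem_range] at hi
      refine lt_of_le_of_lt (Polynomial.degree_C_mul_X_pow_le _ _) ?_
      exact_mod_cast hi
    have hq : q.degree ≠ 0 := by
      have h1 : q.degree = (p.natDegree : WithBot ℕ) := by
        rw [Polynomial.degree_add_eq_left_of_degree_lt, Polynomial.degree_X_pow]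
        rw [Polynomial.degree_X_pow]; exact hlt
      rw [h1]
      exact_mod_cast hn.ne'
    obtain ⟨x, hx⟩ := IsAlgClosed.exists_root q hq
    refine ⟨x, ?_⟩
    have := hx
    simpa [q, Polynomial.IsRoot, Polynomial.eval_finsetSum] using this
  choose x hx using hx
  refine ⟨g x, ?_⟩
  have h1 : p.eval (g x) = g (x ^ p.natDegree +
      ∑ i ∈ Finset.range p.natDegree, f i * x ^ i) := by
    rw [Polynomial.eval_eq_sum_range, Finset.sum_range_succ, hp.coeff_natDegree, one_mul,
      map_add, map_pow, map_sum, add_comm]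
    congr 1
    refine Finset.sum_congr rfl fun i _ => ?_
    rw [map_mul, map_pow, hf]
  rw [h1, h.zero]
  refine Filter.Eventually.of_forall fun s => ?_
  have := hx s
  simpa using this

/-- The homomorphism from `ℂ` given by homomorphisms on subrings which eventually contain every
number. -/
theorem exists_embed (B : S → Subring ℂ) (π : ∀ s, B s →+* k s)
    (hB : ∀ c : ℂ, ∀ᶠ s in (U : Filter S), c ∈ B s) :
    ∃ j : ℂ →+* Ω, ∀ (c : ℂ) (f : ∀ s, k s),
      (∀ᶠ s in (U : Filter S), ∀ hc : c ∈ B s, f s = π s ⟨c, hc⟩) → g f = j c := by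
  classical
  let θ : ℂ → ∀ s, k s := fun c s => if hc : c ∈ B s then π s ⟨c, hc⟩ else 0
  have hθ : ∀ (c : ℂ) (s : S) (hc : c ∈ B s), θ c s = π s ⟨c, hc⟩ := fun c s hc => dif_pos hc
  refine ⟨⟨⟨⟨fun c => g (θ c), ?_⟩, ?_⟩, ?_, ?_⟩, ?_⟩
  · rw [← map_one g]
    refine h.congr ?_
    filter_upwards [hB 1] with s hs
    rw [hθ 1 s hs, Pi.one_apply]
    exact map_one (π s)
  · intro a b
    rw [← map_mul g]
    refine h.congr ?_
    filter_upwards [hB a, hB b] with s ha hb
    rw [hθ _ s ((B s).mul_mem ha hb), Pi.mul_apply, hθ a s ha, hθ b s hb, ← map_mul]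
    rfl
  · change g (θ 0) = 0
    rw [← map_zero g]
    refine h.congr ?_
    filter_upwards [hB 0] with s hs
    rw [hθ 0 s hs, Pi.zero_apply]
    exact map_zero (π s)
  · intro a b
    change g (θ (a + b)) = g (θ a) + g (θ b)
    rw [← map_add g]
    refine h.congr ?_
    filter_upwards [hB a, hB b] with s ha hb
    rw [hθ _ s ((B s).add_mem ha hb), Pi.add_apply, hθ a s ha, hθ b s hb, ← map_add]
    rfl
  · intro c f hf
    change g f = g (θ c)
    refine h.congr ?_
    filter_upwards [hf, hB c] with s h1 h2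
    rw [h1 h2, hθ c s h2]

/-- Values of polynomials with complex coefficients in the ultraproduct. -/
theorem aeval_eq {B : S → Subring ℂ} {π : ∀ s, B s →+* k s}
    (hB : ∀ c : ℂ, ∀ᶠ s in (U : Filter S), c ∈ B s) [Algebra ℂ Ω]
    (hj : ∀ (c : ℂ) (f : ∀ s, k s),
      (∀ᶠ s in (U : Filter S), ∀ hc : c ∈ B s, f s = π s ⟨c, hc⟩) → g f = algebraMap ℂ Ω c)
    {M : ℕ} (G : MvPolynomial (Fin M) ℂ) (β : Fin M → ∀ s, k s) (v : ∀ s, k s)
    (hv : ∀ᶠ s in (U : Filter S), ∀ G' : MvPolynomial (Fin M) (B s),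
      map (B s).subtype G' = G → eval (fun i => β i s) (map (π s) G') = v s) :
    aeval (fun i => g (β i)) G = g v := by
  classical
  let θ : ℂ → ∀ s, k s := fun c s => if hc : c ∈ B s then π s ⟨c, hc⟩ else 0
  have hθ : ∀ (c : ℂ) (s : S) (hc : c ∈ B s), θ c s = π s ⟨c, hc⟩ := fun c s hc => dif_pos hc
  have hθj : ∀ c, algebraMap ℂ Ω c = g (θ c) := fun c =>
    (hj c (θ c) (Eventually.of_forall fun s hc => hθ c s hc)).symm
  have h1 : aeval (fun i => g (β i)) G =
      g (∑ m ∈ G.support, θ (coeff m G) * ∏ i, β i ^ m i) := by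
    rw [aeval_def, eval₂_eq', map_sum]
    refine Finset.sum_congr rfl fun m _ => ?_
    rw [map_mul, map_prod, hθj]
    simp only [map_pow]
  rw [h1]
  refine h.congr ?_
  have h2 : ∀ᶠ s in (U : Filter S), ∀ c ∈ G.coeffs, c ∈ B s := by
    rw [Filter.eventually_all_finset]
    exact fun c _ => hB c
  filter_upwards [hv, h2] with s hs1 hs2
  obtain ⟨G', hG'⟩ : ∃ G' : MvPolynomial (Fin M) (B s), map (B s).subtype G' = G := by
    have : G ∈ Set.range (map (B s).subtype : MvPolynomial (Fin M) (B s) →+* _) := by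
      rw [MvPolynomial.mem_range_map_iff_coeffs_subset]
      intro c hc
      exact ⟨⟨c, hs2 c hc⟩, rfl⟩
    exact this
  rw [← hs1 G' hG', eval_map, eval₂_eq']
  have hsup : G'.support = G.support := by
    rw [← hG', support_map_of_injective]
    exact Subtype.val_injective
  rw [hsup, Finset.sum_apply]
  refine Finset.sum_congr rfl fun m _ => ?_
  rw [Pi.mul_apply, Finset.prod_apply]
  have h3 : coeff m G = (coeff m G' : B s) := by
    rw [← hG', coeff_map]
    rfl
  have h4 : coeff m G ∈ B s := by rw [h3]; exact (coeff m G').2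
  rw [hθ _ s h4]
  congr 1
  congr 1
  exact Subtype.ext h3

end IsUltraProd

/-- Values of monomials are homogeneous. -/
theorem aeval_monomial_mem {R : Type u} [CommRing R] [Algebra ℂ R] {𝒜 : ℕ → Submodule ℂ R}
    [GradedAlgebra 𝒜] {M : ℕ} {x : Fin M → R} {e : Fin M → ℕ} (hx : ∀ i, x i ∈ 𝒜 (e i))
    (m : Fin M →₀ ℕ) (c : ℂ) : aeval x (monomial m c) ∈ 𝒜 (Finsupp.weight e m) := by
  rw [aeval_monomial, ← Algebra.smul_def]
  apply Submodule.smul_mem
  rw [Finsupp.prod_fintype _ _ (fun i => pow_zero _), Finsupp.weight_apply,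
    Finsupp.sum_fintype _ _ (fun i => by simp)]
  exact SetLike.prod_pow_mem_graded 𝒜 e x _ fun i _ => hx i

/-- Components of values of polynomials. -/
theorem decompose_aeval {R : Type u} [CommRing R] [Algebra ℂ R] {𝒜 : ℕ → Submodule ℂ R}
    [GradedAlgebra 𝒜] {M : ℕ} {x : Fin M → R} {e : Fin M → ℕ} (hx : ∀ i, x i ∈ 𝒜 (e i)) (n : ℕ)
    (G : MvPolynomial (Fin M) ℂ) : (DirectSum.decompose 𝒜 (aeval x G) n : R) =
      aeval x (weightedHomogeneousComponent e n G) := by
  classical
  induction G using MvPolynomial.induction_on' with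
  | monomial m a =>
    have h1 := aeval_monomial_mem hx m a
    have h2 : weightedHomogeneousComponent e n (monomial m a : MvPolynomial (Fin M) ℂ) =
        if n = Finsupp.weight e m then monomial m a else 0 :=
      weightedHomogeneousComponent_of_mem (isWeightedHomogeneous_monomial e m a rfl)
    rw [h2]
    split_ifs with h
    · rw [h, DirectSum.decompose_of_mem_same 𝒜 h1]
    · rw [DirectSum.decompose_of_mem_ne 𝒜 h1 (Ne.symm h), map_zero]
  | add p q hp hq =>
    rw [map_add, DirectSum.decompose_add, DirectSum.add_apply, Submodule.coe_add, map_add,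
      map_add, hp, hq]

/-- Back transfer: if for all finite data there are curves of degree one or two in large
characteristic, then there is an anchored curve of degree one or two. -/
theorem exists_isAnch_of_reductions {R : Type u} [CommRing R] [IsDomain R] [Algebra ℂ R]
    {𝒜 : ℕ → Submodule ℂ R} [GradedAlgebra 𝒜] {M : ℕ} (x : Fin M → R) (e : Fin M → ℕ)
    (he : ∀ i, 0 < e i) (hx : ∀ i, x i ∈ 𝒜 (e i))
    (hgen : Function.Surjective (aeval x : MvPolynomial (Fin M) ℂ →ₐ[ℂ] R))
    (L : Finset (MvPolynomial (Fin M) ℂ))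
    (hL : Ideal.span (L : Set (MvPolynomial (Fin M) ℂ)) =
      RingHom.ker (aeval x : MvPolynomial (Fin M) ℂ →ₐ[ℂ] R))
    (H : ∀ (T : Finset ℂ) (F : MvPolynomial (Fin M) ℂ), aeval x F ≠ 0 →
      ∃ (B : Subring ℂ) (k : Type) (_ : Field k) (_ : IsAlgClosed k) (π : B →+* k) (d : ℕ)
        (ψ : Fin M → MvPolynomial (Fin 2) k), (T : Set ℂ) ⊆ B ∧ (d = 1 ∨ d = 2) ∧
        (∀ i, (ψ i).IsHomogeneous (d * e i)) ∧
        (∀ a : Fin 2 → k, a ≠ 0 → ∃ i, eval a (ψ i) ≠ 0) ∧
        (∀ G : MvPolynomial (Fin M) B, map B.subtype G ∈ L → aeval ψ (map π G) = 0) ∧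
        ∀ G : MvPolynomial (Fin M) B, map B.subtype G = F →
          eval (fun i => eval ![1, 0] (ψ i)) (map π G) ≠ 0) :
    ∃ (Ω : Type u) (_ : Field Ω) (_ : IsAlgClosed Ω) (_ : Algebra ℂ Ω) (d : ℕ)
      (φ : R →ₐ[ℂ] MvPolynomial (Fin 2) Ω), (d = 1 ∨ d = 2) ∧ IsAnch 𝒜 d φ := by
  classical
  choose rep hrep using hgen
  let S : Type u := Finset ℂ × Finset {r : R // r ≠ 0}
  let T : S → Finset ℂ := fun s =>
    s.1 ∪ (s.2.biUnion fun r => (rep r.1).coeffs) ∪ L.biUnion fun G => G.coeffs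
  let F : S → MvPolynomial (Fin M) ℂ := fun s => ∏ r ∈ s.2, rep r.1
  have hF : ∀ s, aeval x (F s) ≠ 0 := by
    intro s
    change aeval x (∏ r ∈ s.2, rep r.1) ≠ 0
    rw [map_prod, Finset.prod_ne_zero_iff]
    intro r _
    rw [hrep]
    exact r.2
  choose B k ik ia π d ψ h1 h2 h3 h4 h5 h6 using fun s : S => H (T s) (F s) (hF s)
  let U : Ultrafilter S := Ultrafilter.of atTop
  have hev : ∀ s₀ : S, ∀ᶠ s in (U : Filter S), s₀ ≤ s := fun s₀ =>
    Ultrafilter.of_le _ (eventually_ge_atTop s₀)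
  have hB : ∀ c : ℂ, ∀ᶠ s in (U : Filter S), c ∈ B s := by
    intro c
    filter_upwards [hev ({c}, ∅)] with s hs
    apply h1 s
    have : c ∈ s.1 := hs.1 (Finset.mem_singleton_self c)
    simp [T, this]
  obtain ⟨Ω, _, g, hg⟩ := exists_isUltraProd U k
  obtain ⟨j, hj⟩ := hg.exists_embed B π hB
  let _ : Algebra ℂ Ω := j.toAlgebra
  have hj' : ∀ (c : ℂ) (f : ∀ s, k s),
      (∀ᶠ s in (U : Filter S), ∀ hc : c ∈ B s, f s = π s ⟨c, hc⟩) → g f = algebraMap ℂ Ω c := hj
  have hac : IsAlgClosed Ω := hg.isAlgClosed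
  have hΩ : Infinite Ω := IsAlgClosed.instInfinite
  -- the coordinates of the curve
  let Ψ : Fin M → MvPolynomial (Fin 2) Ω := fun i =>
    ∑ m ∈ box (2 * e i), monomial m (g fun s => coeff m (ψ s i))
  have hbox : ∀ s i m, m ∉ box (2 * e i) → coeff m (ψ s i) = 0 := by
    intro s i m hm
    by_contra hne
    have h7 := h3 s i hne
    apply hm
    have h8 : m 0 + m 1 = d s * e i := by
      rw [← h7, Finsupp.weight_apply, Finsupp.sum_fintype _ _ (fun i => by simp),
        Fin.sum_univ_two]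
      simp
    have h9 : d s * e i ≤ 2 * e i := by
      apply Nat.mul_le_mul_right
      rcases h2 s with h | h <;> omega
    exact mem_box (by omega) (by omega)
  have hΨ : ∀ i m, coeff m (Ψ i) = g fun s => coeff m (ψ s i) := by
    intro i m
    change coeff m (∑ m ∈ box (2 * e i), monomial m (g fun s => coeff m (ψ s i))) = _
    rw [coeff_sum]
    simp only [coeff_monomial]
    rw [Finset.sum_ite_eq']
    split_ifs with hm
    · rfl
    · have : (fun s => coeff m (ψ s i)) = 0 := by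
        funext s
        exact hbox s i m hm
      rw [this, map_zero]
  have heval : ∀ (i : Fin M) (α : Fin 2 → ∀ s, k s), eval (fun l => g (α l)) (Ψ i) =
      g fun s => eval (fun l => α l s) (ψ s i) := by
    intro i α
    have h7 : ∀ m, m ∉ box (2 * e i) → coeff m (Ψ i) = 0 := by
      intro m hm
      rw [hΨ, show (fun s => coeff m (ψ s i)) = 0 from funext fun s => hbox s i m hm, map_zero]
    rw [eval_box h7]
    have : (fun s => eval (fun l => α l s) (ψ s i)) = ∑ m ∈ box (2 * e i),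
        (fun s => coeff m (ψ s i)) * (α 0 ^ m 0 * α 1 ^ m 1) := by
      funext s
      rw [eval_box (hbox s i)]
      simp
    rw [this, map_sum]
    refine Finset.sum_congr rfl fun m _ => ?_
    rw [map_mul, map_mul, map_pow, map_pow, hΨ]
  obtain ⟨d₀, hd₀, hd₀'⟩ : ∃ d₀, (d₀ = 1 ∨ d₀ = 2) ∧ ∀ᶠ s in (U : Filter S), d s = d₀ := by
    have h7 : ∀ᶠ s in (U : Filter S), d s = 1 ∨ d s = 2 := Eventually.of_forall h2
    rcases Ultrafilter.eventually_or.mp h7 with h | h
    · exact ⟨1, Or.inl rfl, h⟩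
    · exact ⟨2, Or.inr rfl, h⟩
  have hΨdeg : ∀ i, (Ψ i).IsHomogeneous (d₀ * e i) := by
    intro i m hm
    rw [hΨ, hg.ne_zero] at hm
    obtain ⟨s, hs1, hs2⟩ := (hm.and hd₀').exists
    rw [← hs2]
    exact h3 s i hs1
  have hpoly := fun (G : MvPolynomial (Fin M) ℂ) (β : Fin M → ∀ s, k s) (v : ∀ s, k s) =>
    hg.aeval_eq hB hj' G β v
  have hlift : ∀ a : Fin 2 → Ω, ∃ α : Fin 2 → ∀ s, k s, a = fun l => g (α l) := by
    intro a
    choose α hα using fun l => hg.surj (a l)
    exact ⟨α, funext fun l => (hα l).symm⟩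
  have hker : ∀ G ∈ RingHom.ker (aeval x : MvPolynomial (Fin M) ℂ →ₐ[ℂ] R), aeval Ψ G = 0 := by
    have h7 : Ideal.span (L : Set (MvPolynomial (Fin M) ℂ)) ≤ RingHom.ker
        (aeval Ψ : MvPolynomial (Fin M) ℂ →ₐ[ℂ] MvPolynomial (Fin 2) Ω) := by
      rw [Ideal.span_le]
      intro G hG
      rw [SetLike.mem_coe, RingHom.mem_ker]
      refine MvPolynomial.funext fun a => ?_
      obtain ⟨α, rfl⟩ := hlift a
      rw [map_zero]
      have h8 : eval (fun l => g (α l)) (aeval Ψ G) =
          aeval (fun i => g fun s => eval (fun l => α l s) (ψ s i)) G := by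
        have : ((aeval (fun l => g (α l)) : MvPolynomial (Fin 2) Ω →ₐ[Ω] Ω).restrictScalars ℂ).comp
            (aeval Ψ : MvPolynomial (Fin M) ℂ →ₐ[ℂ] MvPolynomial (Fin 2) Ω) =
            aeval (fun i => g fun s => eval (fun l => α l s) (ψ s i)) := by
          refine MvPolynomial.algHom_ext fun i => ?_
          rw [AlgHom.comp_apply, aeval_X, aeval_X]
          exact heval i α
        rw [← this]
        rfl
      rw [h8, hpoly G _ 0, map_zero]
      refine Eventually.of_forall fun s G' hG' => ?_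
      have h9 := h5 s G' (by rw [hG']; exact hG)
      have h10 := congrArg (eval fun l => α l s) h9
      rw [map_zero] at h10
      rw [Pi.zero_apply, ← h10]
      have : ((eval fun l => α l s).comp
          (aeval (ψ s) : MvPolynomial (Fin M) (k s) →ₐ[k s] MvPolynomial (Fin 2) (k s)).toRingHom) =
          eval (fun i => eval (fun l => α l s) (ψ s i)) := by
        refine MvPolynomial.ringHom_ext (fun c => ?_) fun i => ?_
        · simp
        · simp
      rw [← this]
      rfl
    intro G hG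
    rw [← hL] at hG
    exact h7 hG
  have hsurj : Function.Surjective (aeval x : MvPolynomial (Fin M) ℂ →ₐ[ℂ] R) := fun r =>
    ⟨rep r, hrep r⟩
  let Φ : R →ₐ[ℂ] MvPolynomial (Fin 2) Ω :=
    (Ideal.Quotient.liftₐ (RingHom.ker (aeval x : MvPolynomial (Fin M) ℂ →ₐ[ℂ] R))
      (aeval Ψ) hker).comp
      (Ideal.quotientKerAlgEquivOfSurjective hsurj).symm.toAlgHom
  have hΦ : ∀ G : MvPolynomial (Fin M) ℂ, Φ (aeval x G) = aeval Ψ G := by
    intro G
    change (Ideal.Quotient.liftₐ (RingHom.ker (aeval x : MvPolynomial (Fin M) ℂ →ₐ[ℂ] R))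
      (aeval Ψ) hker) ((Ideal.quotientKerAlgEquivOfSurjective hsurj).symm (aeval x G)) = _
    have : (Ideal.quotientKerAlgEquivOfSurjective hsurj).symm (aeval x G) =
        Ideal.Quotient.mk _ G := by
      rw [AlgEquiv.symm_apply_eq]
      rfl
    rw [this]
    rfl
  have hcomp : ∀ (a : Fin 2 → Ω) (G : MvPolynomial (Fin M) ℂ),
      eval a (Φ (aeval x G)) = aeval (fun i => eval a (Ψ i)) G := by
    intro a G
    rw [hΦ]
    have : ((aeval a : MvPolynomial (Fin 2) Ω →ₐ[Ω] Ω).restrictScalars ℂ).comp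
        (aeval Ψ : MvPolynomial (Fin M) ℂ →ₐ[ℂ] MvPolynomial (Fin 2) Ω) =
        aeval (fun i => eval a (Ψ i)) := by
      refine MvPolynomial.algHom_ext fun i => ?_
      rw [AlgHom.comp_apply, aeval_X, aeval_X]
      rfl
    rw [← this]
    rfl
  refine ⟨Ω, inferInstance, hac, inferInstance, d₀, Φ, hd₀, ⟨?_, ?_⟩, ?_⟩
  · -- degrees
    intro n r hr
    have h7 : r = aeval x (weightedHomogeneousComponent e n (rep r)) := by
      rw [← decompose_aeval hx (n := n) (G := rep r), hrep, DirectSum.decompose_of_mem_same 𝒜 hr]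
    rw [h7, hΦ, aeval_def, eval₂_eq']
    refine IsHomogeneous.sum _ _ _ fun m hm => ?_
    have h8 : Finsupp.weight e m = n :=
      weightedHomogeneousComponent_isWeightedHomogeneous n (rep r) (mem_support_iff.mp hm)
    have h9 : (∏ i, Ψ i ^ m i).IsHomogeneous (∑ i, d₀ * e i * m i) :=
      IsHomogeneous.prod _ _ _ fun i _ => (hΨdeg i).pow (m i)
    have h10 : ∑ i, d₀ * e i * m i = d₀ * n := by
      rw [← h8, Finsupp.weight_apply, Finsupp.sum_fintype _ _ (fun i => by simp),
        Finset.mul_sum]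
      refine Finset.sum_congr rfl fun i _ => ?_
      rw [smul_eq_mul]
      ring
    rw [h10] at h9
    exact h9.C_mul _
  · -- no base points
    intro a ha
    by_contra hcon
    push Not at hcon
    obtain ⟨α, rfl⟩ := hlift a
    have h7 : ∀ i, ∀ᶠ s in (U : Filter S), eval (fun l => α l s) (ψ s i) = 0 := by
      intro i
      rw [← hg.zero, ← heval]
      have h8 := hcon (e i) (he i) (x i) (hx i)
      have h9 : Φ (x i) = Ψ i := by
        have := hΦ (X i)
        rwa [aeval_X, aeval_X] at this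
      rw [h9] at h8
      exact h8
    have h8 := Filter.eventually_all.mpr h7
    have h9 : ∀ᶠ s in (U : Filter S), (fun l => α l s) ≠ 0 := by
      rw [Ultrafilter.eventually_not]
      intro h10
      apply ha
      funext l
      rw [Pi.zero_apply, hg.zero]
      filter_upwards [h10] with s hs
      exact congrFun hs l
    obtain ⟨s, hs1, hs2⟩ := (h8.and h9).exists
    obtain ⟨i, hi⟩ := h4 s _ hs2
    exact hi (hs1 i)
  · -- the end point is generic
    rw [injective_iff_map_eq_zero]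
    intro r hr
    by_contra hr0
    have h7 : eval ![1, 0] (Φ (aeval x (rep r))) = 0 := by
      rw [hrep]
      exact hr
    rw [hcomp] at h7
    have h8 : (![1, 0] : Fin 2 → Ω) = fun l => g ((![1, 0] : Fin 2 → ∀ s, k s) l) := by
      funext l
      fin_cases l
      · simp
      · simp
    have h9 : ∀ s, (fun l => (![1, 0] : Fin 2 → ∀ s, k s) l s) = ![1, 0] := by
      intro s
      funext l
      fin_cases l <;> simp
    have h10 : (fun i => eval ![1, 0] (Ψ i)) = fun i => g fun s => eval ![1, 0] (ψ s i) := by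
      funext i
      rw [h8, heval]
      simp only [h9]
    let v : ∀ s, k s := fun s => if hs : ∃ G' : MvPolynomial (Fin M) (B s),
      map (B s).subtype G' = rep r then eval (fun i => eval ![1, 0] (ψ s i))
        (map (π s) hs.choose) else 0
    have h11 : ∀ s (G' : MvPolynomial (Fin M) (B s)), map (B s).subtype G' = rep r →
        eval (fun i => eval ![1, 0] (ψ s i)) (map (π s) G') = v s := by
      intro s G' hG'
      have hs : ∃ G' : MvPolynomial (Fin M) (B s), map (B s).subtype G' = rep r := ⟨G', hG'⟩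
      change _ = dite _ _ _
      rw [dif_pos hs]
      have : G' = hs.choose := by
        apply map_injective (B s).subtype Subtype.val_injective
        rw [hG', hs.choose_spec]
      rw [← this]
    rw [h10, hpoly (rep r) _ v (Eventually.of_forall h11), hg.zero] at h7
    obtain ⟨s, hs1, hs2⟩ := (h7.and (hev (∅, {⟨r, hr0⟩}))).exists
    have hrs : (⟨r, hr0⟩ : {r : R // r ≠ 0}) ∈ s.2 := hs2.2 (Finset.mem_singleton_self _)
    have hlift' : ∀ q : {r : R // r ≠ 0}, q ∈ s.2 → ∃ G' : MvPolynomial (Fin M) (B s),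
        map (B s).subtype G' = rep q.1 := by
      intro q hq
      have : rep q.1 ∈ Set.range (map (B s).subtype : MvPolynomial (Fin M) (B s) →+* _) := by
        rw [MvPolynomial.mem_range_map_iff_coeffs_subset]
        intro c hc
        refine ⟨⟨c, h1 s ?_⟩, rfl⟩
        have : c ∈ s.2.biUnion fun r => (rep r.1).coeffs :=
          Finset.mem_biUnion.mpr ⟨q, hq, hc⟩
        change c ∈ s.1 ∪ (s.2.biUnion fun r => (rep r.1).coeffs) ∪ L.biUnion fun G => G.coeffs
        exact Finset.mem_union_left _ (Finset.mem_union_right _ this)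
      exact this
    let G : {r : R // r ≠ 0} → MvPolynomial (Fin M) (B s) := fun q =>
      if hq : q ∈ s.2 then (hlift' q hq).choose else 0
    have hG : ∀ q ∈ s.2, map (B s).subtype (G q) = rep q.1 := by
      intro q hq
      have h13 : G q = (hlift' q hq).choose := dif_pos hq
      rw [h13]
      exact (hlift' q hq).choose_spec
    have h12 := h6 s (∏ q ∈ s.2, G q) (by
      rw [map_prod]
      exact Finset.prod_congr rfl hG)
    rw [map_prod, map_prod, Finset.prod_ne_zero_iff] at h12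
    exact h12 _ hrs (by rw [h11 s _ (hG _ hrs), hs1])

end Vale.Agent.P292.Mo
end

section

/-! # Spreading out: validity of the data. -/

namespace Vale.Agent.P292.Mo

open MvPolynomial

universe u v w

/-- Weighted homogeneity descends along injective changes of the base ring. -/
theorem okspread_whom_of_map {σ : Type w} {A : Type u} {B : Type v} [CommRing A] [CommRing B]
    (f : A →+* B) (hf : Function.Injective f) (d : σ → ℕ) (p : MvPolynomial σ A) (n : ℕ)
    (h : IsWeightedHomogeneous d (MvPolynomial.map f p) n) : IsWeightedHomogeneous d p n := by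
  intro m hm
  refine h ?_
  rw [coeff_map]
  intro h0
  exact hm (hf (by rw [h0, map_zero]))

/-- Weighted homogeneity is stable under changes of the base ring. -/
theorem okspread_whom_map {σ : Type w} {A : Type u} {B : Type v} [CommRing A] [CommRing B]
    (f : A →+* B) (d : σ → ℕ) (p : MvPolynomial σ A) (n : ℕ)
    (h : IsWeightedHomogeneous d p n) : IsWeightedHomogeneous d (MvPolynomial.map f p) n := by
  intro m hm
  refine h ?_
  rw [coeff_map] at hm
  intro h0
  exact hm (by rw [h0, map_zero])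

/-- Validity of the data spreads out. -/
theorem Dat.isOK_spread {M L : ℕ} (D : Dat ℂ M L) (h : D.IsOK) :
    ∃ A₀ : Subalgebra ℤ ℂ, A₀.FG ∧ ∀ A : Subalgebra ℤ ℂ, A₀ ≤ A →
      (∃ D' : Dat A M L, D'.map (algebraMap A ℂ) = D) ∧
      ∀ D' : Dat A M L, D'.map (algebraMap A ℂ) = D →
        ∀ (k : Type v) [Field k] (j : A →+* k), (D'.map j).IsOK := by
  classical
  obtain ⟨B₁, hB₁, hB₁'⟩ := exists_lift_poly D.F
  obtain ⟨B₂, hB₂, hB₂'⟩ := exists_lift_poly (fun p : Fin M × Fin M => D.π p.1 p.2)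
  obtain ⟨B₃, hB₃, hB₃'⟩ := exists_fg_of_forall _ (fun p : Fin L × Fin M =>
    mem_spread.{0, v} D.F (∑ i, pderiv i (D.F p.1) * D.π i p.2) (h.desc p.1 p.2))
  refine ⟨B₁ ⊔ B₂ ⊔ B₃, (hB₁.sup hB₂).sup hB₃, fun A hA => ?_⟩
  have hA₁ : B₁ ≤ A := le_trans (le_trans le_sup_left le_sup_left) hA
  have hA₂ : B₂ ≤ A := le_trans (le_trans le_sup_right le_sup_left) hA
  have hA₃ : B₃ ≤ A := le_trans le_sup_right hA
  constructor
  · choose F' hF' using hB₁' A hA₁
    choose π' hπ' using hB₂' A hA₂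
    refine ⟨⟨D.d, D.e, F', fun i j => π' (i, j)⟩, ?_⟩
    have h1 : (fun l => MvPolynomial.map (algebraMap A ℂ) (F' l)) = D.F := funext hF'
    have h2 : (fun i j => MvPolynomial.map (algebraMap A ℂ) (π' (i, j))) = D.π := by
      funext i j
      exact hπ' (i, j)
    unfold Dat.map
    simp only [h1, h2]
  · rintro D' rfl k _ j
    have hinj := map_algebraMap_injective (σ := Fin M) A
    refine ⟨h.pos, fun l => ?_, fun i i' n hn => ?_, fun i => ?_, fun i i' => ?_, fun l i' => ?_⟩
    · exact okspread_whom_map _ _ _ _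
        (okspread_whom_of_map (algebraMap A ℂ) Subtype.val_injective _ _ _ (h.homF l))
    · exact okspread_whom_map _ _ _ _
        (okspread_whom_of_map (algebraMap A ℂ) Subtype.val_injective _ _ _ (h.homπ i i' n hn))
    · have h1 : D'.π i i = 0 := hinj (by rw [map_zero]; exact h.alt i)
      change MvPolynomial.map j (D'.π i i) = 0
      rw [h1, map_zero]
    · have h1 : D'.π i i' = - D'.π i' i := hinj (by rw [map_neg]; exact h.skew i i')
      change MvPolynomial.map j (D'.π i i') = - MvPolynomial.map j (D'.π i' i)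
      rw [h1, map_neg]
    · have h1 := (hB₃' A hA₃ (l, i') D'.F (∑ i, pderiv i (D'.F l) * D'.π i i') (fun _ => rfl) (by
        rw [map_sum]
        refine Finset.sum_congr rfl fun i _ => ?_
        rw [map_mul, ← pderiv_map]
        rfl)).2 k j
      rw [map_sum] at h1
      change ∑ i, pderiv i (MvPolynomial.map j (D'.F l)) * MvPolynomial.map j (D'.π i i') ∈
        Ideal.span (Set.range fun l => MvPolynomial.map j (D'.F l))
      convert h1 using 2 with i
      rw [map_mul, pderiv_map]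

end Vale.Agent.P292.Mo
end

section

/-!
# P292-Sp NN3: the multiplication table of a finite graded extension spreads out
-/

namespace Vale.Agent.P292.Mo

open MvPolynomial

universe u v w

theorem noetherspread_and (Q₁ Q₂ : Subalgebra ℤ ℂ → Prop)
    (h₁ : ∃ A₀ : Subalgebra ℤ ℂ, A₀.FG ∧ ∀ A : Subalgebra ℤ ℂ, A₀ ≤ A → Q₁ A)
    (h₂ : ∃ A₀ : Subalgebra ℤ ℂ, A₀.FG ∧ ∀ A : Subalgebra ℤ ℂ, A₀ ≤ A → Q₂ A) :
    ∃ A₀ : Subalgebra ℤ ℂ, A₀.FG ∧ ∀ A : Subalgebra ℤ ℂ, A₀ ≤ A → Q₁ A ∧ Q₂ A := by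
  obtain ⟨A₁, f₁, g₁⟩ := h₁
  obtain ⟨A₂, f₂, g₂⟩ := h₂
  exact ⟨A₁ ⊔ A₂, f₁.sup f₂, fun A hA =>
    ⟨g₁ A (le_sup_left.trans hA), g₂ A (le_sup_right.trans hA)⟩⟩

/-- Generation from a multiplication table. -/
theorem noetherspread_table {k : Type v} [Field k] {M L n s : ℕ} (E : Dat k M L)
    (y : Fin n → MvPolynomial (Fin M) k) (m : Fin s → MvPolynomial (Fin M) k)
    (a0 : Fin s → MvPolynomial (Fin n) k) (a : Fin M → Fin s → Fin s → MvPolynomial (Fin n) k)
    (h0 : 1 - ∑ l, aeval y (a0 l) * m l ∈ E.I)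
    (h1 : ∀ i j, X i * m j - ∑ l, aeval y (a i j l) * m l ∈ E.I) :
    Submodule.span (Algebra.adjoin k (Set.range fun i => E.q (y i)))
      (Set.range fun l => E.q (m l)) = ⊤ := by
  classical
  set T := Algebra.adjoin k (Set.range fun i => E.q (y i)) with hT
  set N := Submodule.span T (Set.range fun l => E.q (m l)) with hN
  have hy : ∀ p : MvPolynomial (Fin n) k, E.q (aeval y p) ∈ T := by
    intro p
    have h2 : E.q (aeval y p) = aeval (fun i => E.q (y i)) p := by
      have : E.q.comp (aeval y) = aeval (fun i => E.q (y i)) := by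
        apply MvPolynomial.algHom_ext
        intro i
        simp
      exact DFunLike.congr_fun this p
    rw [h2, hT, Algebra.adjoin_range_eq_range_aeval]
    exact ⟨p, rfl⟩
  have hm : ∀ l, E.q (m l) ∈ N := fun l => Submodule.subset_span ⟨l, rfl⟩
  have hsmul : ∀ (p : MvPolynomial (Fin n) k) (x : E.Rg), x ∈ N → E.q (aeval y p) * x ∈ N := by
    intro p x hx
    exact N.smul_mem (⟨E.q (aeval y p), hy p⟩ : T) hx
  have hmk : ∀ p ∈ E.I, E.q p = 0 := fun p hp => Ideal.Quotient.eq_zero_iff_mem.mpr hp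
  have hone : (1 : E.Rg) ∈ N := by
    have h2 := hmk _ h0
    rw [map_sub, map_one, sub_eq_zero, map_sum] at h2
    rw [h2]
    exact N.sum_mem fun l _ => by rw [map_mul]; exact hsmul _ _ (hm l)
  have hX : ∀ (i : Fin M) (x : E.Rg), x ∈ N → E.q (X i) * x ∈ N := by
    intro i x hx
    induction hx using Submodule.span_induction with
    | mem x hx =>
      obtain ⟨l, rfl⟩ := hx
      have h2 := hmk _ (h1 i l)
      rw [map_sub, sub_eq_zero, map_sum, map_mul] at h2
      show E.q (X i) * E.q (m l) ∈ N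
      rw [h2]
      exact N.sum_mem fun l' _ => by rw [map_mul]; exact hsmul _ _ (hm l')
    | zero => rw [mul_zero]; exact N.zero_mem
    | add x y _ _ hx hy => rw [mul_add]; exact N.add_mem hx hy
    | smul c x _ hx => rw [mul_smul_comm]; exact N.smul_mem c hx
  rw [eq_top_iff]
  rintro x -
  obtain ⟨p, rfl⟩ := Ideal.Quotient.mkₐ_surjective k E.I x
  have key : ∀ p : MvPolynomial (Fin M) k, E.q p ∈ N := by
    intro p
    induction p using MvPolynomial.induction_on with
    | C c =>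
      have h2 := hsmul (C c) 1 hone
      rw [mul_one, aeval_C] at h2
      exact h2
    | add p q hp hq => rw [map_add]; exact N.add_mem hp hq
    | mul_X p i hp => rw [map_mul, mul_comm]; exact hX i _ hp
  exact key p

theorem noetherspread_map_aeval {A : Type u} [CommRing A] {B : Type v} [CommRing B] {M n : ℕ}
    (y' : Fin n → MvPolynomial (Fin M) A) (θ : A →+* B) (p : MvPolynomial (Fin n) A) :
    MvPolynomial.map θ (aeval y' p) =
      aeval (fun i => MvPolynomial.map θ (y' i)) (MvPolynomial.map θ p) := by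
  induction p using MvPolynomial.induction_on with
  | C c => simp
  | add p q hp hq => rw [map_add, map_add, hp, hq, map_add, map_add]
  | mul_X p i hp => rw [map_mul, map_mul, hp, map_mul, map_mul, map_X, aeval_X, aeval_X]

variable {R : Type u} [CommRing R] [Algebra ℂ R] {𝒜 : ℕ → Submodule ℂ R} [GradedAlgebra 𝒜]
  {P : R →ₗ[ℂ] R →ₗ[ℂ] R}

omit [GradedAlgebra 𝒜] in
/-- NN3: the multiplication table spreads out. -/
theorem noether_spread {M L : ℕ} {D : Dat ℂ M L} {ev : MvPolynomial (Fin M) ℂ →ₐ[ℂ] R}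
    (hD : IsPres 𝒜 P D ev) {n : ℕ} (y : Fin n → MvPolynomial (Fin M) ℂ)
    (hS : ∃ S : Finset R, Submodule.span
      (Algebra.adjoin ℂ (Set.range fun i => ev (y i))) (S : Set R) = ⊤) :
    ∃ s : ℕ, ∃ A₀ : Subalgebra ℤ ℂ, A₀.FG ∧ ∀ A : Subalgebra ℤ ℂ, A₀ ≤ A →
      ∀ (D' : Dat A M L) (y' : Fin n → MvPolynomial (Fin M) A),
        D'.map (algebraMap A ℂ) = D → (∀ i, MvPolynomial.map (algebraMap A ℂ) (y' i) = y i) →
        ∀ (k : Type v) [Field k] (j : A →+* k), ∃ S : Finset (D'.map j).Rg, S.card ≤ s ∧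
          Submodule.span (Algebra.adjoin k
            (Set.range fun i => (D'.map j).q (MvPolynomial.map j (y' i))))
            (S : Set (D'.map j).Rg) = ⊤ := by
  classical
  obtain ⟨S, hS⟩ := hS
  -- lifts of the generators
  have hlift : ∀ r : R, ∃ p, ev p = r := hD.surj
  choose lift hlift using hlift
  let s := S.card
  let r : Fin s → R := fun l => (S.equivFin.symm l : R)
  have hr : (S : Set R) = Set.range r := by
    ext x
    constructor
    · intro hx
      exact ⟨S.equivFin ⟨x, hx⟩, by simp [r]⟩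
    · rintro ⟨l, rfl⟩
      exact (S.equivFin.symm l).2
  let m : Fin s → MvPolynomial (Fin M) ℂ := fun l => lift (r l)
  have hm : ∀ l, ev (m l) = r l := fun l => hlift _
  have hspan : ∀ x : R, ∃ c : Fin s → MvPolynomial (Fin n) ℂ,
      x = ∑ l, ev (aeval y (c l)) * r l := by
    intro x
    have hx : x ∈ Submodule.span (Algebra.adjoin ℂ (Set.range fun i => ev (y i)))
        (Set.range r) := by rw [← hr, hS]; trivial
    rw [Submodule.mem_span_range_iff_exists_fun] at hx
    obtain ⟨c, hc⟩ := hx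
    have hc' : ∀ l, ∃ p : MvPolynomial (Fin n) ℂ, ev (aeval y p) = c l := by
      intro l
      obtain ⟨p, hp⟩ := (Algebra.adjoin_range_eq_range_aeval ℂ (fun i => ev (y i))).le (c l).2
      refine ⟨p, ?_⟩
      rw [← hp]
      have : ev.comp (aeval y) = aeval (fun i => ev (y i)) := by
        apply MvPolynomial.algHom_ext
        intro i
        simp
      exact DFunLike.congr_fun this p
    choose p hp using hc'
    refine ⟨p, ?_⟩
    rw [← hc]
    refine Finset.sum_congr rfl fun l _ => ?_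
    rw [hp l]
    rfl
  obtain ⟨a0, ha0⟩ := hspan 1
  have hax : ∀ (i : Fin M) (l : Fin s), ∃ c : Fin s → MvPolynomial (Fin n) ℂ,
      ev (X i) * r l = ∑ l', ev (aeval y (c l')) * r l' := fun i l => hspan _
  choose a ha using hax
  have hI0 : 1 - ∑ l, aeval y (a0 l) * m l ∈ D.I := by
    rw [← hD.ker, map_sub, map_one, map_sum, sub_eq_zero, ha0]
    exact Finset.sum_congr rfl fun l _ => by rw [map_mul, hm]
  have hI1 : ∀ i j, X i * m j - ∑ l, aeval y (a i j l) * m l ∈ D.I := by
    intro i j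
    rw [← hD.ker, map_sub, map_mul, map_sum, sub_eq_zero, hm, ha]
    exact Finset.sum_congr rfl fun l _ => by rw [map_mul, hm]
  -- the subring
  have e1 := exists_lift_poly m
  have e2 := exists_lift_poly a0
  have e3 := exists_lift_poly (fun q : Fin M × Fin s × Fin s => a q.1 q.2.1 q.2.2)
  have e4 := mem_spread.{0, v, 0} D.F _ hI0
  have e5 := exists_fg_of_forall _ (fun q : Fin M × Fin s => mem_spread.{0, v, 0} D.F _ (hI1 q.1 q.2))
  obtain ⟨A₀, hfg, hA⟩ := noetherspread_and _ _ e1 (noetherspread_and _ _ e2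
    (noetherspread_and _ _ e3 (noetherspread_and _ _ e4 e5)))
  refine ⟨s, A₀, hfg, fun A hle D' y' hD' hy' k _ j => ?_⟩
  obtain ⟨h1, h2, h3, h4, h5⟩ := hA A hle
  choose m' hm' using h1
  choose a0' ha0' using h2
  choose a' ha' using h3
  have hF : ∀ i, MvPolynomial.map (algebraMap A ℂ) (D'.F i) = D.F i := by
    intro i
    rw [← hD']
    rfl
  have hyy : (fun i => MvPolynomial.map (algebraMap A ℂ) (y' i)) = y := funext hy'
  have g0 := (h4 D'.F (1 - ∑ l, aeval y' (a0' l) * m' l) hF (by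
    rw [map_sub, map_one, map_sum]
    congr 1
    refine Finset.sum_congr rfl fun l _ => ?_
    rw [map_mul, noetherspread_map_aeval, ha0', hm', hyy])).2 k j
  have g1 : ∀ i l, MvPolynomial.map j (X i * m' l - ∑ l', aeval y' (a' (i, l, l')) * m' l') ∈
      Ideal.span (Set.range fun l => MvPolynomial.map j (D'.F l)) := by
    intro i l
    refine (h5 (i, l) D'.F (X i * m' l - ∑ l', aeval y' (a' (i, l, l')) * m' l') hF ?_).2 k j
    rw [map_sub, map_mul, map_X, map_sum, hm']
    congr 1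
    refine Finset.sum_congr rfl fun l' _ => ?_
    rw [map_mul, noetherspread_map_aeval, ha', hm', hyy]
  have key := noetherspread_table (D'.map j) (fun i => MvPolynomial.map j (y' i))
    (fun l => MvPolynomial.map j (m' l)) (fun l => MvPolynomial.map j (a0' l))
    (fun i l l' => MvPolynomial.map j (a' (i, l, l')))
    (by
      rw [map_sub, map_one, map_sum] at g0
      refine (congrArg (· ∈ (D'.map j).I) ?_).mp g0
      congr 1
      refine Finset.sum_congr rfl fun l _ => ?_
      rw [map_mul, noetherspread_map_aeval])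
    (by
      intro i l
      have g := g1 i l
      rw [map_sub, map_mul, map_X, map_sum] at g
      refine (congrArg (· ∈ (D'.map j).I) ?_).mp g
      congr 1
      refine Finset.sum_congr rfl fun l' _ => ?_
      rw [map_mul, noetherspread_map_aeval])
  refine ⟨Finset.univ.image fun l => (D'.map j).q (MvPolynomial.map j (m' l)), ?_, ?_⟩
  · exact Finset.card_image_le.trans (by simp)
  · rw [Finset.coe_image, Finset.coe_univ, Set.image_univ]
    exact key

end Vale.Agent.P292.Mo
end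

section

/-! # Spreading out: every nonzero element divides a nonzero polynomial in a Noether system. -/

namespace Vale.Agent.P292.Mo

open MvPolynomial

universe u v w

section

variable {R : Type u} [CommRing R] [Algebra ℂ R]

/-- a nonzero element divides a nonzero element of the subring over which the ring is finite -/
theorem divides_zero [IsDomain R] {n : ℕ} (z : Fin n → R)
    (hS : ∃ S : Finset R, Submodule.span (Algebra.adjoin ℂ (Set.range z)) (S : Set R) = ⊤)
    (f : R) (hf : f ≠ 0) :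
    ∃ (r : R) (G : MvPolynomial (Fin n) ℂ), G ≠ 0 ∧ f * r = aeval z G := by
  obtain ⟨S, hS⟩ := hS
  have : Module.Finite (Algebra.adjoin ℂ (Set.range z)) R := ⟨⟨S, hS⟩⟩
  have hint : IsIntegral (Algebra.adjoin ℂ (Set.range z)) f := IsIntegral.of_finite _ f
  have h1 : (Ideal.span {f} : Ideal R).comap
      (algebraMap (Algebra.adjoin ℂ (Set.range z)) R) ≠ ⊥ :=
    Ideal.comap_ne_bot_of_integral_mem hf (Ideal.mem_span_singleton_self f) hint
  obtain ⟨g, hg, hg0⟩ := Submodule.exists_mem_ne_zero_of_ne_bot h1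
  rw [Ideal.mem_comap, Ideal.mem_span_singleton] at hg
  obtain ⟨r, hr⟩ := hg
  have hgm : (g : R) ∈ (aeval z : MvPolynomial (Fin n) ℂ →ₐ[ℂ] R).range :=
    (Algebra.adjoin_range_eq_range_aeval ℂ z) ▸ g.2
  obtain ⟨G, hG⟩ := hgm
  refine ⟨r, G, ?_, ?_⟩
  · rintro rfl
    apply hg0
    ext
    rw [← hG]
    simp
  · rw [← hr]
    exact hG.symm

variable {𝒜 : ℕ → Submodule ℂ R} [GradedAlgebra 𝒜] {P : R →ₗ[ℂ] R →ₗ[ℂ] R}

/-- HF: every nonzero element divides a nonzero polynomial in the `y i`; spread out. -/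
theorem divides_spread (hX : IsContactFano 𝒜 P) {M L : ℕ} {D : Dat ℂ M L}
    {ev : MvPolynomial (Fin M) ℂ →ₐ[ℂ] R} (hD : IsPres 𝒜 P D ev) {n : ℕ}
    (y : Fin n → MvPolynomial (Fin M) ℂ) (hy : AlgebraicIndependent ℂ fun i => ev (y i))
    (hS : ∃ S : Finset R, Submodule.span
      (Algebra.adjoin ℂ (Set.range fun i => ev (y i))) (S : Set R) = ⊤)
    (f : MvPolynomial (Fin M) ℂ) (hf : ev f ≠ 0) :
    ∃ (b : ℂ) (A₀ : Subalgebra ℤ ℂ), b ≠ 0 ∧ A₀.FG ∧ ∀ A : Subalgebra ℤ ℂ, A₀ ≤ A →
      ∃ hb : b ∈ A, ∀ (D' : Dat A M L) (y' : Fin n → MvPolynomial (Fin M) A)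
        (f' : MvPolynomial (Fin M) A),
        D'.map (algebraMap A ℂ) = D → (∀ i, MvPolynomial.map (algebraMap A ℂ) (y' i) = y i) →
        MvPolynomial.map (algebraMap A ℂ) f' = f →
        ∀ (k : Type v) [Field k] (j : A →+* k), j ⟨b, hb⟩ ≠ 0 →
          ∃ h : (D'.map j).Rg, ∃ G : MvPolynomial (Fin n) k, G ≠ 0 ∧
            (D'.map j).q (MvPolynomial.map j f') * h =
              aeval (fun i => (D'.map j).q (MvPolynomial.map j (y' i))) G := by
  classical
  have := hX.domain
  obtain ⟨r, G, hG, hr⟩ := divides_zero (fun i => ev (y i)) hS (ev f) hf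
  obtain ⟨h₀, rfl⟩ := hD.surj r
  obtain ⟨mm, hmm⟩ := MvPolynomial.ne_zero_iff.1 hG
  have hmem : f * h₀ - aeval y G ∈ Ideal.span (Set.range D.F) := by
    have h2 : ev (f * h₀ - aeval y G) = 0 := by
      rw [map_sub, map_mul, hr, ← MvPolynomial.comp_aeval_apply, sub_self]
    exact (hD.ker _).1 h2
  obtain ⟨A₁, hA₁, h₁⟩ := mem_spread.{0, v, 0} D.F _ hmem
  obtain ⟨A₂, hA₂, h₂⟩ := exists_lift_poly (ι := Unit) fun _ => h₀
  obtain ⟨A₃, hA₃, h₃⟩ := exists_lift_poly (ι := Unit) fun _ => G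
  refine ⟨coeff mm G, A₁ ⊔ A₂ ⊔ A₃, hmm, (hA₁.sup hA₂).sup hA₃, fun A hA => ?_⟩
  obtain ⟨G', hG'⟩ := h₃ A (le_sup_right.trans hA) ()
  obtain ⟨h', hh'⟩ := h₂ A ((le_sup_right.trans le_sup_left).trans hA) ()
  have hb : coeff mm G ∈ A := by
    rw [← hG', coeff_map]
    exact (coeff mm G').2
  refine ⟨hb, fun D' y' f' hD' hy' hf' k _ j hj => ?_⟩
  have e1 : ∀ l, MvPolynomial.map (algebraMap A ℂ) (D'.F l) = D.F l := by
    intro l
    rw [← hD']
    rfl
  have e2 : MvPolynomial.map (algebraMap A ℂ) (f' * h' - aeval y' G') = f * h₀ - aeval y G := by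
    rw [map_sub, map_mul, hf', hh', ← hG']
    congr 1
    have e3 : y = fun i => MvPolynomial.map (algebraMap A ℂ) (y' i) := funext fun i => (hy' i).symm
    rw [e3, aeval_def, aeval_def, eval₂_map]
    rw [MvPolynomial.eval₂_comp_left]
    congr 1
    ext a
    simp
  obtain ⟨-, h4⟩ := h₁ A ((le_sup_left.trans le_sup_left).trans hA) D'.F _ e1 e2
  have h5 := h4 k j
  refine ⟨(D'.map j).q (MvPolynomial.map j h'), MvPolynomial.map j G', ?_, ?_⟩
  · intro h6
    apply hj
    have h7 := congrArg (coeff mm) h6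
    rw [coeff_map, coeff_zero] at h7
    have e4 : coeff mm G' = ⟨coeff mm G, hb⟩ := by
      apply Subtype.ext
      have e6 : ((coeff mm G' : A) : ℂ) = coeff mm (MvPolynomial.map (algebraMap A ℂ) G') := by
        rw [coeff_map]
        rfl
      rw [e6, hG']
    rwa [e4] at h7
  · have h6 : (D'.map j).q (MvPolynomial.map j (f' * h' - aeval y' G')) = 0 :=
      Ideal.Quotient.eq_zero_iff_mem.2 h5
    rw [map_sub, map_sub, map_mul, map_mul, sub_eq_zero] at h6
    rw [h6]
    have e5 : MvPolynomial.map j (aeval y' G')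
        = aeval (fun i => MvPolynomial.map j (y' i)) (MvPolynomial.map j G') := by
      rw [aeval_def, aeval_def, eval₂_map, MvPolynomial.eval₂_comp_left]
      congr 1
      ext a
      simp
    rw [e5, ← MvPolynomial.comp_aeval_apply]

end

end Vale.Agent.P292.Mo
end

section

/-! # S0: contact Fano cones are smooth outside the vertex. -/

namespace Vale.Agent.P292.Mo

open MvPolynomial

universe u v w

section taylor

variable {k : Type u} [CommRing k] {M : ℕ}

/-- Taylor expansion along a square zero ideal. -/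
theorem sm0_taylor {B : Type v} [CommRing B] [Algebra k B] {K : Ideal B} (hK : K ^ 2 = ⊥)
    (b δ : Fin M → B) (hδ : ∀ m, δ m ∈ K) (F : MvPolynomial (Fin M) k) :
    aeval (b + δ) F = aeval b F + ∑ m, aeval b (pderiv m F) * δ m := by
  have hz : ∀ x ∈ K, ∀ y ∈ K, x * y = 0 := fun x hx y hy => by
    have h1 : x * y ∈ K ^ 2 := by rw [sq]; exact Ideal.mul_mem_mul hx hy
    rwa [hK] at h1
  induction F using MvPolynomial.induction_on with
  | C a => simp
  | add p q hp hq =>
    simp only [map_add, hp, hq, add_mul, Finset.sum_add_distrib]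
    ring
  | mul_X p i hp =>
    have h1 : (∑ m, aeval b (pderiv m p) * δ m) * δ i = 0 := by
      rw [Finset.sum_mul]
      refine Finset.sum_eq_zero fun m _ => ?_
      rw [mul_assoc, hz _ (hδ m) _ (hδ i), mul_zero]
    have h2 : (∑ m, aeval b (pderiv m (p * X i)) * δ m) =
        (∑ m, aeval b (pderiv m p) * δ m) * b i + aeval b p * δ i := by
      have h3 : ∀ m, aeval b (pderiv m (p * X i)) * δ m =
          aeval b (pderiv m p) * δ m * b i + (if m = i then aeval b p * δ i else 0) := by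
        intro m
        rw [pderiv_mul, map_add, map_mul, map_mul, aeval_X]
        by_cases hm : m = i
        · subst hm
          rw [pderiv_X_self, if_pos rfl, map_one]
          ring
        · rw [pderiv_X_of_ne (Ne.symm hm), if_neg hm, map_zero]
          ring
      rw [Finset.sum_congr rfl fun m _ => h3 m, Finset.sum_add_distrib, ← Finset.sum_mul,
        Finset.sum_ite_eq' Finset.univ i, if_pos (Finset.mem_univ i)]
    rw [map_mul, map_mul, aeval_X, aeval_X, hp, h2, Pi.add_apply]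
    linear_combination h1

end taylor

section lift

variable {k : Type u} [Field k] {M : ℕ} {R : Type v} [CommRing R] [Algebra k R]

/-- The Jacobian matrix. -/
noncomputable def smz_jacM (y : Fin M → MvPolynomial (Fin M) k) :
    Matrix (Fin M) (Fin M) (MvPolynomial (Fin M) k) :=
  Matrix.of fun l m => pderiv m (y l)

theorem smz_exists_factor {A : Type*} [CommRing A] [Algebra k A] {B : Type*} [CommRing B] [Algebra k B]
    (ev : A →ₐ[k] R) (hev : Function.Surjective ev) (g : A →ₐ[k] B)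
    (h : ∀ a, ev a = 0 → g a = 0) : ∃ ψ : R →ₐ[k] B, ∀ a, ψ (ev a) = g a := by
  refine ⟨(Ideal.Quotient.liftₐ (RingHom.ker ev) g h).comp
    (Ideal.quotientKerAlgEquivOfSurjective hev).symm.toAlgHom, fun a => ?_⟩
  have h1 : (Ideal.quotientKerAlgEquivOfSurjective hev).symm (ev a) =
      Ideal.Quotient.mk (RingHom.ker ev) a := by
    rw [AlgEquiv.symm_apply_eq]
    rfl
  change Ideal.Quotient.liftₐ (RingHom.ker ev) g h
    ((Ideal.quotientKerAlgEquivOfSurjective hev).symm (ev a)) = _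
  rw [h1]
  rfl

/-- A complete intersection with invertible Jacobian is smooth. -/
theorem sm0_formallySmooth (ev : MvPolynomial (Fin M) k →ₐ[k] R) (hev : Function.Surjective ev)
    (y : Fin M → MvPolynomial (Fin M) k) (T : Set (Fin M)) (hT : ∀ l ∈ T, ev (y l) = 0)
    (h : MvPolynomial (Fin M) k) (hh : ∀ F, ev F = 0 → h * F ∈ Ideal.span (y '' T)) :
    Algebra.FormallySmooth k (Localization.Away (ev (h * (smz_jacM y).det))) := by
  classical
  set s := ev (h * (smz_jacM y).det) with hs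
  refine Algebra.FormallySmooth.of_comp_surjective fun B _ _ K hK => ?_
  intro u
  have hz : ∀ x ∈ K, ∀ y ∈ K, x * y = 0 := fun x hx y hy => by
    have h1 : x * y ∈ K ^ 2 := by rw [sq]; exact Ideal.mul_mem_mul hx hy
    rwa [hK] at h1
  have hnil : ∀ x : B, IsUnit (Ideal.Quotient.mk K x) → IsUnit x := by
    intro x hx
    obtain ⟨y, hy⟩ := hx.exists_right_inv
    obtain ⟨y, rfl⟩ := Ideal.Quotient.mk_surjective y
    have h1 : x * y - 1 ∈ K := by
      rw [← Ideal.Quotient.eq_zero_iff_mem, map_sub, map_mul, hy, map_one, sub_self]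
    have h2 : x * (y * (2 - x * y)) = 1 := by
      have := hz _ h1 _ h1
      linear_combination -this
    exact IsUnit.of_mul_eq_one _ h2
  -- the composition
  let A := Localization.Away s
  let π : R →ₐ[k] A := IsScalarTower.toAlgHom k R A
  choose b hb using fun m => Ideal.Quotient.mk_surjective (u (π (ev (X m))))
  have hφ : ∀ F, Ideal.Quotient.mk K (aeval b F) = u (π (ev F)) := by
    intro F
    have h1 : (Ideal.Quotient.mkₐ k K).comp (aeval b) = (u.comp π).comp ev := by
      apply MvPolynomial.algHom_ext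
      intro m
      simp only [AlgHom.comp_apply, aeval_X]
      exact hb m
    exact congrArg (fun f => f F) h1
  have hunit : IsUnit (π s) := IsLocalization.Away.algebraMap_isUnit s
  have hu1 : IsUnit (aeval b (h * (smz_jacM y).det)) := by
    apply hnil
    rw [hφ]
    exact hunit.map u
  rw [map_mul] at hu1
  have hu2 : IsUnit (aeval b (smz_jacM y).det) := isUnit_of_mul_isUnit_right hu1
  have hu3 : IsUnit (aeval b h) := isUnit_of_mul_isUnit_left hu1
  obtain ⟨c, hc⟩ := hu2.exists_right_inv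
  let Jb : Matrix (Fin M) (Fin M) B := (smz_jacM y).map (aeval b)
  have hJ : Jb.det = aeval b (smz_jacM y).det := by
    rw [AlgHom.map_det]; rfl
  let κ : Fin M → B := fun l => if l ∈ T then aeval b (y l) else 0
  have hκ : ∀ l, κ l ∈ K := by
    intro l
    simp only [κ]
    split_ifs with hl
    · rw [← Ideal.Quotient.eq_zero_iff_mem, hφ, hT l hl, map_zero, map_zero]
    · exact zero_mem _
  let δ : Fin M → B := fun m => - (c * (Jb.adjugate.mulVec κ) m)
  have hδ : ∀ m, δ m ∈ K := by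
    intro m
    refine neg_mem (Ideal.mul_mem_left _ _ ?_)
    rw [Matrix.mulVec, dotProduct]
    exact sum_mem fun l _ => Ideal.mul_mem_left _ _ (hκ l)
  have hδ2 : ∀ l, ∑ m, aeval b (pderiv m (y l)) * δ m = - κ l := by
    intro l
    have h1 : ∑ m, aeval b (pderiv m (y l)) * δ m =
        - (c * (Jb.mulVec (Jb.adjugate.mulVec κ)) l) := by
      rw [Matrix.mulVec, dotProduct, Finset.mul_sum, ← Finset.sum_neg_distrib]
      refine Finset.sum_congr rfl fun m _ => ?_
      simp only [δ, Jb, smz_jacM, Matrix.map_apply, Matrix.of_apply]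
      ring
    rw [h1, Matrix.mulVec_mulVec, Matrix.mul_adjugate, Matrix.smul_mulVec, Matrix.one_mulVec,
      Pi.smul_apply, smul_eq_mul, hJ]
    linear_combination - κ l * hc
  have hy0 : ∀ l ∈ T, aeval (b + δ) (y l) = 0 := by
    intro l hl
    rw [sm0_taylor hK b δ hδ, hδ2]
    simp only [κ, if_pos hl]
    ring
  have hsp : ∀ F ∈ Ideal.span (y '' T), aeval (b + δ) F = 0 := by
    intro F hF
    have h1 : Ideal.span (y '' T) ≤ RingHom.ker (aeval (b + δ) : MvPolynomial (Fin M) k →ₐ[k] B) := by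
      rw [Ideal.span_le]
      rintro _ ⟨l, hl, rfl⟩
      exact hy0 l hl
    exact h1 hF
  have hbK : ∀ F : MvPolynomial (Fin M) k, Ideal.Quotient.mk K (aeval (b + δ) F) = Ideal.Quotient.mk K (aeval b F) := by
    intro F
    rw [sm0_taylor hK b δ hδ, map_add, Ideal.Quotient.eq_zero_iff_mem.mpr
      (sum_mem fun m _ => Ideal.mul_mem_left _ _ (hδ m)), add_zero]
  have hh3 : IsUnit (aeval (b + δ) h) := by
    apply hnil
    rw [hbK]
    exact hu3.map _
  have hker : ∀ F, ev F = 0 → aeval (b + δ) F = 0 := by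
    intro F hF
    have h1 := hsp _ (hh F hF)
    rw [map_mul] at h1
    exact (hh3.mul_right_eq_zero).mp h1
  obtain ⟨ψ, hψ⟩ := smz_exists_factor ev hev
    (aeval (b + δ) : MvPolynomial (Fin M) k →ₐ[k] B) hker
  have hψs : IsUnit (ψ s) := by
    rw [hs, hψ, map_mul]
    refine hh3.mul (hnil _ ?_)
    rw [hbK]
    exact hu2.map _
  let Ψ : A →ₐ[k] B := IsLocalization.liftAlgHom (M := Submonoid.powers s) (f := ψ) (by
    rintro ⟨_, n, rfl⟩
    simp only [map_pow]
    exact hψs.pow n)
  have hΨ : ∀ r, Ψ (π r) = ψ r := fun r => IsLocalization.lift_eq _ _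
  refine ⟨Ψ, ?_⟩
  have h5 : ∀ r, (Ideal.Quotient.mkₐ k K).comp Ψ (π r) = u (π r) := by
    intro r
    obtain ⟨F, rfl⟩ := hev r
    rw [AlgHom.comp_apply, hΨ, hψ, ← hφ, ← hbK]
    rfl
  apply AlgHom.coe_ringHom_injective
  apply IsLocalization.ringHom_ext (Submonoid.powers s)
  ext r
  exact h5 r

end lift

section core

variable {M : ℕ} (a : Fin M → ℂ)

/-- First order Taylor formula at a point. -/
theorem sm0_taylor_point (F : MvPolynomial (Fin M) ℂ) :
    F - C (eval a F) - ∑ n, C (eval a (pderiv n F)) * (X n - C (a n)) ∈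
      (RingHom.ker (eval a)) ^ 2 := by
  induction F using MvPolynomial.induction_on with
  | C c => simp
  | add p q hp hq =>
    have h1 := add_mem hp hq
    convert h1 using 1
    simp only [map_add, add_mul, Finset.sum_add_distrib]
    ring
  | mul_X p i hp =>
    have h1 : ∑ n, C (eval a (pderiv n (p * X i))) * (X n - C (a n)) =
        C (a i) * ∑ n, C (eval a (pderiv n p)) * (X n - C (a n)) +
          C (eval a p) * (X i - C (a i)) := by
      have h3 : ∀ n, C (eval a (pderiv n (p * X i))) * (X n - C (a n)) =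
          C (a i) * (C (eval a (pderiv n p)) * (X n - C (a n))) +
            (if n = i then C (eval a p) * (X i - C (a i)) else 0) := by
        intro n
        rw [pderiv_mul, map_add, map_mul, map_mul, eval_X]
        by_cases hn : n = i
        · subst hn
          rw [pderiv_X_self, if_pos rfl, map_one]
          simp only [map_add, map_mul, mul_one]
          ring
        · rw [pderiv_X_of_ne (Ne.symm hn), if_neg hn, map_zero]
          simp only [map_add, map_mul, map_zero, mul_zero]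
          ring
      rw [Finset.sum_congr rfl fun n _ => h3 n, Finset.sum_add_distrib, ← Finset.mul_sum,
        Finset.sum_ite_eq' Finset.univ i, if_pos (Finset.mem_univ i)]
    have hX : ∀ n, (X n - C (a n) : MvPolynomial (Fin M) ℂ) ∈ RingHom.ker (eval a) := by
      intro n
      rw [RingHom.mem_ker, map_sub, eval_X, eval_C, sub_self]
    have h2 : (∑ n, C (eval a (pderiv n p)) * (X n - C (a n))) * (X i - C (a i)) ∈
        (RingHom.ker (eval a)) ^ 2 := by
      rw [sq]
      exact Ideal.mul_mem_mul (sum_mem fun n _ => Ideal.mul_mem_left _ _ (hX n)) (hX i)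
    have h4 := add_mem (Ideal.mul_mem_right (X i) _ hp) h2
    convert h4 using 1
    rw [h1, map_mul, eval_X, map_mul]
    ring

variable (y : Fin M → MvPolynomial (Fin M) ℂ) (T : Set (Fin M))

/-- the coefficient of the Euler type derivation -/
noncomputable def smCo (l : Fin M) : MvPolynomial (Fin M) ℂ :=
  open Classical in if l ∈ T then 0 else y l - C (eval a (y l))

theorem smz_der_sum_apply {ι : Type*} (s : Finset ι)
    (D : ι → Derivation ℂ (MvPolynomial (Fin M) ℂ) (MvPolynomial (Fin M) ℂ))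
    (F : MvPolynomial (Fin M) ℂ) : (∑ i ∈ s, D i) F = ∑ i ∈ s, D i F := by
  classical
  induction s using Finset.induction_on with
  | empty => simp
  | insert a s ha ih =>
    rw [Finset.sum_insert ha, Finset.sum_insert ha, Derivation.add_apply, ih]

/-- the derivations dual to the family `y` -/
noncomputable def smDual (l : Fin M) :
    Derivation ℂ (MvPolynomial (Fin M) ℂ) (MvPolynomial (Fin M) ℂ) :=
  ∑ m, (smz_jacM y).adjugate m l • pderiv m

theorem smDual_apply (l : Fin M) (F : MvPolynomial (Fin M) ℂ) :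
    smDual y l F = ∑ m, (smz_jacM y).adjugate m l * pderiv m F := by
  rw [smDual, smz_der_sum_apply]
  rfl

theorem smDual_self (l j : Fin M) : smDual y j (y l) = if l = j then (smz_jacM y).det else 0 := by
  rw [smDual_apply]
  have h1 : ∑ m, (smz_jacM y).adjugate m j * pderiv m (y l) = ((smz_jacM y) * (smz_jacM y).adjugate) l j := by
    rw [Matrix.mul_apply]
    exact Finset.sum_congr rfl fun m _ => by rw [smz_jacM, Matrix.of_apply]; ring
  rw [h1, Matrix.mul_adjugate, Matrix.smul_apply, Matrix.one_apply]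
  split_ifs <;> simp

/-- Cramer's rule. -/
theorem smDual_cramer (F : MvPolynomial (Fin M) ℂ) (n : Fin M) :
    (smz_jacM y).det * pderiv n F = ∑ l, smDual y l F * pderiv n (y l) := by
  have h1 : ∑ l, smDual y l F * pderiv n (y l) =
      ∑ m, pderiv m F * ((smz_jacM y).adjugate * (smz_jacM y)) m n := by
    simp only [smDual_apply, Finset.sum_mul, Matrix.mul_apply, Finset.mul_sum]
    rw [Finset.sum_comm]
    refine Finset.sum_congr rfl fun m _ => Finset.sum_congr rfl fun l _ => ?_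
    rw [show smz_jacM y l n = pderiv n (y l) from rfl]
    ring
  rw [h1, Matrix.adjugate_mul]
  simp only [Matrix.smul_apply, Matrix.one_apply, smul_eq_mul, mul_ite, mul_one, mul_zero]
  rw [Finset.sum_ite_eq' Finset.univ n, if_pos (Finset.mem_univ n)]
  ring

/-- the Euler type derivation -/
noncomputable def smTheta : Derivation ℂ (MvPolynomial (Fin M) ℂ) (MvPolynomial (Fin M) ℂ) :=
  ∑ l, smCo a y T l • smDual y l

theorem smTheta_apply (F : MvPolynomial (Fin M) ℂ) :
    smTheta a y T F = ∑ l, smCo a y T l * smDual y l F := by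
  rw [smTheta, smz_der_sum_apply]
  rfl

theorem smCo_mem (l : Fin M) : smCo a y T l ∈ RingHom.ker (eval a) := by
  classical
  unfold smCo
  split_ifs
  · exact zero_mem _
  · rw [RingHom.mem_ker, map_sub, eval_C, sub_self]

theorem smTheta_mem (F : MvPolynomial (Fin M) ℂ) : smTheta a y T F ∈ RingHom.ker (eval a) := by
  rw [smTheta_apply]
  exact sum_mem fun l _ => Ideal.mul_mem_right _ _ (smCo_mem a y T l)

variable {a y T}

theorem smTheta_sub_mem (hT : ∀ l ∈ T, eval a (y l) = 0) (u : MvPolynomial (Fin M) ℂ)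
    (hu : u ∈ RingHom.ker (eval a)) :
    smTheta a y T u - C (eval a (smz_jacM y).det) * u ∈
      Ideal.span (y '' T) ⊔ (RingHom.ker (eval a)) ^ 2 := by
  classical
  set 𝔪 := RingHom.ker (eval a) with h𝔪
  set J := Ideal.span (y '' T) with hJ
  have hy : ∀ l, y l - C (eval a (y l)) ∈ 𝔪 := fun l => by
    rw [RingHom.mem_ker, map_sub, eval_C, sub_self]
  -- `θ u ≡ ∑ v(β_l) (y_l - v y_l)`
  have h1 : smTheta a y T u - ∑ l, C (eval a (smDual y l u)) * (y l - C (eval a (y l))) ∈
      J ⊔ 𝔪 ^ 2 := by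
    rw [smTheta_apply, ← Finset.sum_sub_distrib]
    refine sum_mem fun l _ => ?_
    by_cases hl : l ∈ T
    · rw [smCo, if_pos hl, zero_mul, zero_sub, hT l hl, map_zero, sub_zero]
      exact Ideal.mem_sup_left (neg_mem (Ideal.mul_mem_left _ _ (Ideal.subset_span ⟨l, hl, rfl⟩)))
    · rw [smCo, if_neg hl]
      apply Ideal.mem_sup_right
      have h2 : (y l - C (eval a (y l))) * smDual y l u -
          C (eval a (smDual y l u)) * (y l - C (eval a (y l))) =
          (y l - C (eval a (y l))) * (smDual y l u - C (eval a (smDual y l u))) := by ring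
      rw [h2, sq]
      refine Ideal.mul_mem_mul (hy l) ?_
      rw [RingHom.mem_ker, map_sub, eval_C, sub_self]
  have h2 : ∑ l, C (eval a (smDual y l u)) * (y l - C (eval a (y l))) -
      C (eval a (smz_jacM y).det) * u ∈ 𝔪 ^ 2 := by
    have h3 : ∀ l, (y l - C (eval a (y l))) - ∑ n, C (eval a (pderiv n (y l))) * (X n - C (a n)) ∈
        𝔪 ^ 2 := fun l => sm0_taylor_point a (y l)
    have h4 := sm0_taylor_point a u
    have hu0 : eval a u = 0 := hu
    rw [hu0, map_zero, sub_zero] at h4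
    have h5 : ∑ l, C (eval a (smDual y l u)) * ((y l - C (eval a (y l))) -
        ∑ n, C (eval a (pderiv n (y l))) * (X n - C (a n))) -
        C (eval a (smz_jacM y).det) * (u - ∑ n, C (eval a (pderiv n u)) * (X n - C (a n))) ∈ 𝔪 ^ 2 :=
      sub_mem (sum_mem fun l _ => Ideal.mul_mem_left _ _ (h3 l)) (Ideal.mul_mem_left _ _ h4)
    convert h5 using 1
    have h6 : ∑ l, C (eval a (smDual y l u)) *
        ∑ n, C (eval a (pderiv n (y l))) * (X n - C (a n)) =
        C (eval a (smz_jacM y).det) * ∑ n, C (eval a (pderiv n u)) * (X n - C (a n)) := by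
      rw [Finset.mul_sum]
      simp_rw [Finset.mul_sum]
      rw [Finset.sum_comm]
      refine Finset.sum_congr rfl fun n _ => ?_
      have h7 := congrArg (eval a) (smDual_cramer y u n)
      rw [map_mul, map_sum] at h7
      simp_rw [map_mul] at h7
      have h8 : (C (eval a (smz_jacM y).det) : MvPolynomial (Fin M) ℂ) * C (eval a (pderiv n u)) =
          ∑ l, C (eval a (smDual y l u)) * C (eval a (pderiv n (y l))) := by
        rw [← C_mul, h7, map_sum]
        exact Finset.sum_congr rfl fun l _ => C_mul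
      rw [← mul_assoc, h8, Finset.sum_mul]
      exact Finset.sum_congr rfl fun l _ => by ring
    have h9 : ∀ l, C (eval a (smDual y l u)) * ((y l - C (eval a (y l))) -
        ∑ n, C (eval a (pderiv n (y l))) * (X n - C (a n))) =
        C (eval a (smDual y l u)) * (y l - C (eval a (y l))) - C (eval a (smDual y l u)) *
        ∑ n, C (eval a (pderiv n (y l))) * (X n - C (a n)) := fun l => mul_sub _ _ _
    rw [Finset.sum_congr rfl fun l _ => h9 l, Finset.sum_sub_distrib, h6]
    ring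
  have h3 := add_mem h1 (Ideal.mem_sup_right (S := J) h2)
  convert h3 using 1
  ring

theorem smTheta_sub_mem_pow (hT : ∀ l ∈ T, eval a (y l) = 0) (n : ℕ)
    (u : MvPolynomial (Fin M) ℂ) (hu : u ∈ (RingHom.ker (eval a)) ^ n) :
    smTheta a y T u - (n : MvPolynomial (Fin M) ℂ) * C (eval a (smz_jacM y).det) * u ∈
      Ideal.span (y '' T) ⊔ (RingHom.ker (eval a)) ^ (n + 1) := by
  set 𝔪 := RingHom.ker (eval a) with h𝔪
  set J := Ideal.span (y '' T) with hJ
  induction n generalizing u with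
  | zero =>
    rw [Nat.cast_zero, zero_mul, zero_mul, sub_zero, zero_add, pow_one]
    exact Ideal.mem_sup_right (smTheta_mem a y T u)
  | succ n ih =>
    rw [pow_succ] at hu
    refine Submodule.mul_induction_on hu ?_ ?_
    · intro u' hu' m hm
      have h1 := ih u' hu'
      have h2 := smTheta_sub_mem hT m hm
      have h3 : u' * (smTheta a y T m - C (eval a (smz_jacM y).det) * m) ∈ J ⊔ 𝔪 ^ (n + 2) := by
        obtain ⟨j, hj, e, he, hje⟩ := Submodule.mem_sup.mp h2
        rw [← hje, mul_add]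
        refine add_mem (Ideal.mem_sup_left (Ideal.mul_mem_left _ _ hj)) (Ideal.mem_sup_right ?_)
        rw [pow_add]
        exact Ideal.mul_mem_mul hu' he
      have h4 : m * (smTheta a y T u' -
          (n : MvPolynomial (Fin M) ℂ) * C (eval a (smz_jacM y).det) * u') ∈ J ⊔ 𝔪 ^ (n + 2) := by
        obtain ⟨j, hj, e, he, hje⟩ := Submodule.mem_sup.mp h1
        rw [← hje, mul_add]
        refine add_mem (Ideal.mem_sup_left (Ideal.mul_mem_left _ _ hj)) (Ideal.mem_sup_right ?_)
        rw [show n + 2 = 1 + (n + 1) by ring, pow_add, pow_one]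
        exact Ideal.mul_mem_mul hm he
      have h5 := add_mem h3 h4
      convert h5 using 1
      rw [Derivation.leibniz, smul_eq_mul, smul_eq_mul]
      push_cast
      ring
    · intro x x' hx hx'
      have h5 := add_mem hx hx'
      convert h5 using 1
      rw [map_add]
      ring

/-- The ideal is contained in `J + 𝔪 ^ n`. -/
theorem sm0_le_sup_pow (I : Ideal (MvPolynomial (Fin M) ℂ)) (hI : ∀ F ∈ I, eval a F = 0)
    (hT : ∀ l ∈ T, y l ∈ I) (hdet : eval a (smz_jacM y).det ≠ 0)
    (stab : ∀ j ∉ T, ∀ F ∈ I, smDual y j F ∈ I) (n : ℕ) :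
    I ≤ Ideal.span (y '' T) ⊔ (RingHom.ker (eval a)) ^ n := by
  classical
  set 𝔪 := RingHom.ker (eval a) with h𝔪
  set J := Ideal.span (y '' T) with hJ
  have hT0 : ∀ l ∈ T, eval a (y l) = 0 := fun l hl => hI _ (hT l hl)
  have hI𝔪 : I ≤ 𝔪 := fun F hF => hI F hF
  have hθJ : ∀ j ∈ J, smTheta a y T j ∈ J := by
    intro j hj
    refine Submodule.span_induction ?_ ?_ ?_ ?_ hj
    · rintro _ ⟨l, hl, rfl⟩
      rw [smTheta_apply]
      refine sum_mem fun l' _ => ?_
      rw [smDual_self]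
      by_cases h : l = l'
      · subst h
        rw [smCo, if_pos hl, zero_mul]; exact zero_mem _
      · rw [if_neg h, mul_zero]; exact zero_mem _
    · rw [map_zero]; exact zero_mem _
    · intro x x' _ _ hx hx'
      rw [map_add]; exact add_mem hx hx'
    · intro c x hx h
      rw [smul_eq_mul, Derivation.leibniz, smul_eq_mul, smul_eq_mul]
      exact add_mem (Ideal.mul_mem_left _ _ h) (Ideal.mul_mem_right _ _ hx)
  have hθI : ∀ F ∈ I, smTheta a y T F ∈ 𝔪 * I := by
    intro F hF
    rw [smTheta_apply]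
    refine sum_mem fun l _ => ?_
    by_cases hl : l ∈ T
    · rw [smCo, if_pos hl, zero_mul]; exact zero_mem _
    · exact Ideal.mul_mem_mul (smCo_mem a y T l) (stab l hl F hF)
  induction n with
  | zero => rw [pow_zero, Ideal.one_eq_top, sup_top_eq]; exact le_top
  | succ n ih =>
    rcases Nat.eq_zero_or_pos n with rfl | hn
    · rw [zero_add, pow_one]
      exact le_trans hI𝔪 le_sup_right
    intro F hF
    obtain ⟨j, hj, u, hu, rfl⟩ := Submodule.mem_sup.mp (ih hF)
    have h1 : smTheta a y T (j + u) ∈ J ⊔ 𝔪 ^ (n + 1) := by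
      have h2 := hθI _ hF
      have h3 : 𝔪 * I ≤ J ⊔ 𝔪 ^ (n + 1) := by
        refine le_trans (Ideal.mul_mono_right ih) ?_
        rw [Ideal.mul_sup, pow_succ']
        exact sup_le_sup Ideal.mul_le_right le_rfl
      exact h3 h2
    have h2 : smTheta a y T u ∈ J ⊔ 𝔪 ^ (n + 1) := by
      rw [map_add] at h1
      have := sub_mem h1 (Ideal.mem_sup_left (T := 𝔪 ^ (n + 1)) (hθJ j hj))
      rwa [add_sub_cancel_left] at this
    have h3 := sub_mem h2 (smTheta_sub_mem_pow hT0 n u hu)
    rw [sub_sub_cancel] at h3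
    have h4 : u ∈ J ⊔ 𝔪 ^ (n + 1) := by
      have h5 := Ideal.mul_mem_left _ (C (((n : ℂ) * eval a (smz_jacM y).det)⁻¹)) h3
      have h6 : ((n : ℂ) * eval a (smz_jacM y).det) ≠ 0 :=
        mul_ne_zero (Nat.cast_ne_zero.mpr hn.ne') hdet
      have h7 : (C (((n : ℂ) * eval a (smz_jacM y).det)⁻¹) : MvPolynomial (Fin M) ℂ) *
          ((n : MvPolynomial (Fin M) ℂ) * C (eval a (smz_jacM y).det) * u) = u := by
        have h8 : ((n : MvPolynomial (Fin M) ℂ)) = C (n : ℂ) := (map_natCast C n).symm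
        rw [h8, ← mul_assoc, ← mul_assoc, ← C_mul, ← C_mul, mul_assoc,
          inv_mul_cancel₀ h6, C_1, one_mul]
      rwa [h7] at h5
    exact add_mem (Ideal.mem_sup_left hj) h4

/-- Krull's intersection theorem. -/
theorem sm0_core (I : Ideal (MvPolynomial (Fin M) ℂ)) (hI : ∀ F ∈ I, eval a F = 0)
    (hT : ∀ l ∈ T, y l ∈ I) (hdet : eval a (smz_jacM y).det ≠ 0)
    (stab : ∀ j ∉ T, ∀ F ∈ I, smDual y j F ∈ I) :
    ∃ h, eval a h ≠ 0 ∧ ∀ F ∈ I, h * F ∈ Ideal.span (y '' T) := by
  classical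
  set 𝔪 := RingHom.ker (eval a) with h𝔪
  set J := Ideal.span (y '' T) with hJ
  have h1 : ∀ F ∈ I, ∃ h, eval a h ≠ 0 ∧ h * F ∈ J := by
    intro F hF
    have h2 : (Ideal.Quotient.mk J F) ∈
        (⨅ i : ℕ, 𝔪 ^ i • ⊤ : Submodule (MvPolynomial (Fin M) ℂ) (MvPolynomial (Fin M) ℂ ⧸ J)) := by
      rw [Submodule.mem_iInf]
      intro n
      obtain ⟨j, hj, u, hu, rfl⟩ := Submodule.mem_sup.mp (sm0_le_sup_pow I hI hT hdet stab n hF)
      rw [map_add, Ideal.Quotient.eq_zero_iff_mem.mpr hj, zero_add]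
      have h3 : Ideal.Quotient.mk J u = u • (1 : MvPolynomial (Fin M) ℂ ⧸ J) := by
        change _ = Ideal.Quotient.mk J (u • 1)
        rw [smul_eq_mul, mul_one]
      rw [h3]
      exact Submodule.smul_mem_smul hu trivial
    obtain ⟨⟨r, hr⟩, hrF⟩ := (Ideal.mem_iInf_smul_pow_eq_bot_iff 𝔪 _).mp h2
    refine ⟨1 - r, ?_, ?_⟩
    · have : eval a r = 0 := hr
      rw [map_sub, map_one, this, sub_zero]
      exact one_ne_zero
    · rw [← Ideal.Quotient.eq_zero_iff_mem, map_mul, map_sub, map_one]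
      have h4 : Ideal.Quotient.mk J r * Ideal.Quotient.mk J F = Ideal.Quotient.mk J F := by
        rw [← map_mul]
        exact hrF
      rw [sub_mul, one_mul, h4, sub_self]
  obtain ⟨S, hS⟩ : I.FG := IsNoetherian.noetherian I
  have hSI : ∀ F ∈ S, F ∈ I := fun F hF => hS ▸ Submodule.subset_span hF
  choose! h hh1 hh2 using h1
  refine ⟨∏ F ∈ S, h F, ?_, fun F hF => ?_⟩
  · rw [map_prod]
    exact Finset.prod_ne_zero_iff.mpr fun F hF => hh1 F (hSI F hF)
  · rw [← hS] at hF
    refine Submodule.span_induction ?_ ?_ ?_ ?_ hF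
    · intro F hF
      obtain ⟨c, hc⟩ := Finset.dvd_prod_of_mem h hF
      rw [hc, mul_assoc, mul_comm c, ← mul_assoc]
      exact Ideal.mul_mem_right _ _ (hh2 F (hSI F hF))
    · rw [mul_zero]; exact zero_mem _
    · intro x x' _ _ hx hx'
      rw [mul_add]; exact add_mem hx hx'
    · intro c x _ hx
      rw [smul_eq_mul, mul_left_comm]
      exact Ideal.mul_mem_left _ _ hx

theorem smz_der_chain {R : Type*} [CommRing R] [Algebra ℂ R]
    (ev : MvPolynomial (Fin M) ℂ →ₐ[ℂ] R) (E : Derivation ℂ R R) (G : MvPolynomial (Fin M) ℂ) :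
    E (ev G) = ∑ m, ev (pderiv m G) * E (ev (X m)) := by
  classical
  induction G using MvPolynomial.induction_on with
  | C c => simp [MvPolynomial.algHom_C]
  | add p q hp hq =>
    simp only [map_add, hp, hq, add_mul, Finset.sum_add_distrib]
  | mul_X p i hp =>
    have h2 : (∑ m, ev (pderiv m (p * X i)) * E (ev (X m))) =
        (∑ m, ev (pderiv m p) * E (ev (X m))) * ev (X i) + ev p * E (ev (X i)) := by
      have h3 : ∀ m, ev (pderiv m (p * X i)) * E (ev (X m)) =
          ev (pderiv m p) * E (ev (X m)) * ev (X i) +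
            (if m = i then ev p * E (ev (X i)) else 0) := by
        intro m
        rw [pderiv_mul, map_add, map_mul, map_mul]
        by_cases hm : m = i
        · subst hm
          rw [pderiv_X_self, if_pos rfl, map_one]
          ring
        · rw [pderiv_X_of_ne (Ne.symm hm), if_neg hm, map_zero]
          ring
      rw [Finset.sum_congr rfl fun m _ => h3 m, Finset.sum_add_distrib, ← Finset.sum_mul,
        Finset.sum_ite_eq' Finset.univ i, if_pos (Finset.mem_univ i)]
    rw [map_mul, Derivation.leibniz, hp, h2, smul_eq_mul, smul_eq_mul]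
    ring

/-- The dual derivations preserve the ideal as soon as there are dual derivations on the
quotient. -/
theorem sm0_stab {R : Type*} [CommRing R] [IsDomain R] [Algebra ℂ R]
    (ev : MvPolynomial (Fin M) ℂ →ₐ[ℂ] R) (y : Fin M → MvPolynomial (Fin M) ℂ) (j : Fin M)
    (E : Derivation ℂ R R) (D : R) (hD : D ≠ 0)
    (hE : ∀ l, E (ev (y l)) = if l = j then D else 0) (F : MvPolynomial (Fin M) ℂ)
    (hF : ev F = 0) : ev (smDual y j F) = 0 := by
  classical
  have hch := smz_der_chain ev E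
  have h1 : ev (smz_jacM y).det * E (ev F) = ev (smDual y j F) * D := by
    have h2 : ev (smz_jacM y).det * E (ev F) = ∑ l, ev (smDual y l F) * E (ev (y l)) := by
      rw [hch F, Finset.mul_sum]
      have h3 : ∀ l, ev (smDual y l F) * E (ev (y l)) =
          ∑ m, ev (smDual y l F) * ev (pderiv m (y l)) * E (ev (X m)) := by
        intro l
        rw [hch (y l), Finset.mul_sum]
        exact Finset.sum_congr rfl fun m _ => by ring
      rw [Finset.sum_congr rfl fun l _ => h3 l, Finset.sum_comm]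
      refine Finset.sum_congr rfl fun m _ => ?_
      rw [← Finset.sum_mul, ← mul_assoc, ← map_mul, smDual_cramer, map_sum]
      simp_rw [map_mul]
    rw [h2]
    simp_rw [hE]
    simp
  rw [hF, map_zero, mul_zero] at h1
  exact (mul_eq_zero.mp h1.symm).resolve_right hD

end core

section point

variable {R : Type u} [CommRing R] [Algebra ℂ R] {𝒜 : ℕ → Submodule ℂ R} [GradedAlgebra 𝒜]
  {P : R →ₗ[ℂ] R →ₗ[ℂ] R} {M : ℕ}

/-- the differential at a point -/
noncomputable def smz_dv (a : Fin M → ℂ) : MvPolynomial (Fin M) ℂ →ₗ[ℂ] (Fin M → ℂ) :=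
  LinearMap.pi fun m => (aeval a : MvPolynomial (Fin M) ℂ →ₐ[ℂ] ℂ).toLinearMap ∘ₗ
    (pderiv m : Derivation ℂ (MvPolynomial (Fin M) ℂ) (MvPolynomial (Fin M) ℂ)).toLinearMap

theorem smz_dv_apply (a : Fin M → ℂ) (F : MvPolynomial (Fin M) ℂ) (m : Fin M) :
    smz_dv a F m = eval a (pderiv m F) := by
  rw [smz_dv, LinearMap.pi_apply]
  simp [MvPolynomial.aeval_eq_eval]

theorem smz_dv_mul (a : Fin M → ℂ) (F G : MvPolynomial (Fin M) ℂ) :
    smz_dv a (F * G) = eval a F • smz_dv a G + eval a G • smz_dv a F := by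
  funext m
  rw [smz_dv_apply, pderiv_mul, map_add, map_mul, map_mul, Pi.add_apply, Pi.smul_apply, Pi.smul_apply,
    smz_dv_apply, smz_dv_apply, smul_eq_mul, smul_eq_mul]
  ring

theorem smz_exists_factor_lin {V W : Type*} [AddCommGroup V] [Module ℂ V] [AddCommGroup W]
    [Module ℂ W] (f : V →ₗ[ℂ] R) (hf : Function.Surjective f) (g : V →ₗ[ℂ] W)
    (h : ∀ v, f v = 0 → g v = 0) : ∃ ψ : R →ₗ[ℂ] W, ∀ v, ψ (f v) = g v := by
  refine ⟨(LinearMap.ker f).liftQ g h ∘ₗ (f.quotKerEquivOfSurjective hf).symm.toLinearMap,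
    fun v => ?_⟩
  have h1 : (f.quotKerEquivOfSurjective hf).symm (f v) = (LinearMap.ker f).mkQ v := by
    rw [LinearEquiv.symm_apply_eq]
    rfl
  change (LinearMap.ker f).liftQ g h ((f.quotKerEquivOfSurjective hf).symm (f v)) = _
  rw [h1]
  rfl

/-- Local complete intersection presentation at a nonvertex closed point. -/
theorem smz_exists_lci (hX : IsContactFano 𝒜 P) (p : R →ₐ[ℂ] ℂ) (hp : ¬ IsVertex 𝒜 p)
    (ev : MvPolynomial (Fin M) ℂ →ₐ[ℂ] R) (hev : Function.Surjective ev) :
    ∃ (y : Fin M → MvPolynomial (Fin M) ℂ) (T : Set (Fin M)), (∀ l ∈ T, ev (y l) = 0) ∧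
      p (ev (smz_jacM y).det) ≠ 0 ∧
      ∀ j ∉ T, ∃ (E : Derivation ℂ R R) (D : R), D ≠ 0 ∧
        ∀ l, E (ev (y l)) = if l = j then D else 0 := by
  classical
  obtain ⟨N, x, k, g, l, hx, hg, hpg, hdet, hgen⟩ := exists_chart hX p hp
  choose xt hxt using fun i => hev (x i)
  let a : Fin M → ℂ := fun m => p (ev (X m))
  have hpev : ∀ F, p (ev F) = eval a F := by
    intro F
    have h1 : p.comp ev = aeval a := by
      apply MvPolynomial.algHom_ext
      intro m
      rw [AlgHom.comp_apply, aeval_X]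
    have h2 := congrArg (fun f => f F) h1
    simp only [AlgHom.comp_apply] at h2
    rw [h2, MvPolynomial.aeval_eq_eval]
  let I : Submodule ℂ (MvPolynomial (Fin M) ℂ) := LinearMap.ker ev.toLinearMap
  have hI : ∀ F, F ∈ I ↔ ev F = 0 := fun F => Iff.rfl
  let W : Submodule ℂ (Fin M → ℂ) := I.map (smz_dv a)
  have hdetD : (Matrix.det (Matrix.of fun i j => P (x i) (x j))) ≠ 0 := fun h => hdet (by
    rw [h, map_zero])
  -- claim 1
  have c1 : Submodule.span ℂ (Set.range fun i => smz_dv a (xt i)) ⊔ W = ⊤ := by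
    by_contra hne
    obtain ⟨f, hf0, hf⟩ := Submodule.exists_le_ker_of_lt_top _ (lt_top_iff_ne_top.mpr hne)
    obtain ⟨δ, hδ⟩ := smz_exists_factor_lin ev.toLinearMap hev (f ∘ₗ smz_dv a) (fun F hF => by
      have h1 : smz_dv a F ∈ W := ⟨F, hF, rfl⟩
      exact hf (Submodule.mem_sup_right h1))
    have hδ' : ∀ F, δ (ev F) = f (smz_dv a F) := hδ
    have hder : ∀ r s, δ (r * s) = p r • δ s + p s • δ r := by
      intro r s
      obtain ⟨F, rfl⟩ := hev r
      obtain ⟨G, rfl⟩ := hev s
      rw [← map_mul, hδ', smz_dv_mul, map_add, map_smul, map_smul, hδ', hδ', hpev, hpev]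
    have hδ0 : ∀ r, δ r = 0 := by
      intro r
      obtain ⟨c, hc⟩ := hgen r
      have h1 := relation_along p δ hder hc
      have h2 : ∀ i, δ (x i) = 0 := fun i => by
        rw [← hxt i, hδ']
        exact hf (Submodule.mem_sup_left (Submodule.subset_span ⟨i, rfl⟩))
      rw [Finset.sum_eq_zero fun i _ => by rw [h2 i, smul_zero]] at h1
      exact (smul_eq_zero.mp h1).resolve_left hpg
    apply hf0
    apply LinearMap.pi_ext'
    intro m
    ext
    have h1 := hδ0 (ev (X m))
    rw [hδ'] at h1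
    have h2 : smz_dv a (X m) = Pi.single m 1 := by
      funext n
      rw [smz_dv_apply, pderiv_X]
      by_cases h : n = m
      · subst h; simp
      · rw [Pi.single_eq_of_ne (fun h' => h h'.symm), Pi.single_eq_of_ne h, map_zero]
    rw [h2] at h1
    simpa using h1
  -- claim 2
  have c2 : ∀ α : Fin N → ℂ, ∑ i, α i • smz_dv a (xt i) ∈ W → α = 0 := by
    intro α hα
    obtain ⟨F, hF, hFα⟩ := hα
    have hlam : ∀ (j : Fin N) (G : MvPolynomial (Fin M) ℂ),
        p (P (x j) (ev G)) = ∑ m, smz_dv a G m * p (P (x j) (ev (X m))) := by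
      intro j G
      have h1 := smz_der_chain ev (hX.ham (x j)) G
      rw [IsContactFano.ham_apply] at h1
      rw [h1, map_sum]
      refine Finset.sum_congr rfl fun m _ => ?_
      rw [map_mul, IsContactFano.ham_apply, hpev, smz_dv_apply]
    have h2 : (Matrix.of fun i j => p (P (x i) (x j))).mulVec α = 0 := by
      funext j
      rw [Matrix.mulVec, dotProduct, Pi.zero_apply]
      have h3 := hlam j F
      rw [show ev F = 0 from hF, map_zero, map_zero, hFα] at h3
      have h4 : ∑ m, (∑ i, α i • smz_dv a (xt i)) m * p (P (x j) (ev (X m))) =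
          ∑ i, Matrix.of (fun i j => p (P (x i) (x j))) j i * α i := by
        have h5 : ∀ i, Matrix.of (fun i j => p (P (x i) (x j))) j i * α i =
            ∑ m, α i * (smz_dv a (xt i) m * p (P (x j) (ev (X m)))) := by
          intro i
          rw [Matrix.of_apply, ← hxt i, hlam j (xt i), Finset.sum_mul]
          exact Finset.sum_congr rfl fun m _ => by ring
        rw [Finset.sum_congr rfl fun i _ => h5 i, Finset.sum_comm]
        refine Finset.sum_congr rfl fun m _ => ?_
        rw [Finset.sum_apply, Finset.sum_mul]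
        refine Finset.sum_congr rfl fun i _ => ?_
        rw [Pi.smul_apply, smul_eq_mul]
        ring
      rw [← h4, ← h3]
    have h3 : (Matrix.of fun i j => p (P (x i) (x j))).det ≠ 0 := by
      have h4 : (Matrix.of fun i j => p (P (x i) (x j))).det =
          p (Matrix.det (Matrix.of fun i j => P (x i) (x j))) := by
        rw [AlgHom.map_det]; rfl
      rw [h4]; exact hdet
    exact Matrix.eq_zero_of_mulVec_eq_zero h3 h2
  -- a basis
  let bW := Module.finBasis ℂ W
  have hbW : ∀ j, ∃ F, ev F = 0 ∧ smz_dv a F = (bW j : Fin M → ℂ) := by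
    intro j
    obtain ⟨F, hF, h⟩ := (bW j).2
    exact ⟨F, hF, h⟩
  choose Fb hFb0 hFb using hbW
  have li1 : LinearIndependent ℂ (fun i => smz_dv a (xt i)) := by
    rw [Fintype.linearIndependent_iff]
    intro α hα i
    have := c2 α (by rw [hα]; exact zero_mem _)
    rw [this]; rfl
  have li2 : LinearIndependent ℂ (fun j => smz_dv a (Fb j)) := by
    have h1 := bW.linearIndependent.map' W.subtype (Submodule.ker_subtype _)
    have h2 : (fun j => smz_dv a (Fb j)) = (W.subtype ∘ bW) := by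
      funext j
      exact hFb j
    rw [h2]
    exact h1
  have hspW : Submodule.span ℂ (Set.range fun j => smz_dv a (Fb j)) = W := by
    have h1 : (Set.range fun j => smz_dv a (Fb j)) = W.subtype '' Set.range bW := by
      rw [← Set.range_comp]
      congr 1
      funext j
      exact hFb j
    rw [h1, Submodule.span_image, bW.span_eq, Submodule.map_top, Submodule.range_subtype]
  have li : LinearIndependent ℂ (Sum.elim (fun i => smz_dv a (xt i)) (fun j => smz_dv a (Fb j))) := by
    refine LinearIndependent.sum_type li1 li2 ?_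
    rw [hspW, Submodule.disjoint_def]
    intro z hz hzW
    obtain ⟨α, rfl⟩ := (Submodule.mem_span_range_iff_exists_fun ℂ).mp hz
    rw [c2 α hzW]
    simp
  have hsp : ⊤ ≤ Submodule.span ℂ
      (Set.range (Sum.elim (fun i => smz_dv a (xt i)) (fun j => smz_dv a (Fb j)))) := by
    rw [Set.Sum.elim_range, Submodule.span_union, hspW, c1]
  let b := Module.Basis.mk li hsp
  let e := (Pi.basisFun ℂ (Fin M)).indexEquiv b
  let y : Fin M → MvPolynomial (Fin M) ℂ := fun l => Sum.elim xt Fb (e l)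
  let T : Set (Fin M) := {l | ∃ j, e l = Sum.inr j}
  have hyT : ∀ l ∈ T, ev (y l) = 0 := by
    rintro l ⟨j, hj⟩
    simp only [y, hj, Sum.elim_inr]
    exact hFb0 j
  refine ⟨y, T, hyT, ?_, ?_⟩
  · rw [hpev, RingHom.map_det]
    have h1 : LinearIndependent ℂ (fun l => smz_dv a (y l)) := by
      have h2 := li.comp e e.injective
      convert h2 using 1
      funext l
      simp only [y, Function.comp]
      rcases e l with i | j <;> rfl
    have h3 : (RingHom.mapMatrix (eval a)) (smz_jacM y) = Matrix.of fun l => smz_dv a (y l) := by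
      ext l m
      rw [RingHom.mapMatrix_apply, Matrix.map_apply, smz_jacM, Matrix.of_apply, Matrix.of_apply,
        smz_dv_apply]
    rw [h3]
    have h4 := Matrix.linearIndependent_rows_iff_isUnit.mp
      (show LinearIndependent ℂ (Matrix.of fun l => smz_dv a (y l)).row from h1)
    exact ((Matrix.isUnit_iff_isUnit_det _).mp h4).ne_zero
  · intro j hj
    have hj' : ∃ i, e j = Sum.inl i := by
      rcases hej : e j with i | i
      · exact ⟨i, rfl⟩
      · exact absurd ⟨i, hej⟩ hj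
    obtain ⟨i, hi⟩ := hj'
    let Pm : Matrix (Fin N) (Fin N) R := Matrix.of fun i j => P (x i) (x j)
    let E : Derivation ℂ R R := ∑ l, Pm.adjugate i l • hX.ham (x l)
    have hE : ∀ r, E r = ∑ l, Pm.adjugate i l * P (x l) r := by
      intro r
      have h1 : ∀ s : Finset (Fin N), (∑ l ∈ s, Pm.adjugate i l • hX.ham (x l)) r =
          ∑ l ∈ s, Pm.adjugate i l * P (x l) r := by
        intro s
        induction s using Finset.induction_on with
        | empty => simp
        | insert c s hc ih =>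
          rw [Finset.sum_insert hc, Finset.sum_insert hc, Derivation.add_apply, ih,
            Derivation.smul_apply, IsContactFano.ham_apply, smul_eq_mul]
      exact h1 _
    refine ⟨E, Pm.det, hdetD, fun l => ?_⟩
    rcases hel : e l with i' | j'
    · have h1 : ev (y l) = x i' := by
        simp only [y, hel, Sum.elim_inl]
        exact hxt i'
      have h2 : E (ev (y l)) = (Pm.adjugate * Pm) i i' := by
        rw [hE, h1, Matrix.mul_apply]
        rfl
      rw [h2, Matrix.adjugate_mul, Matrix.smul_apply, Matrix.one_apply]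
      by_cases h : l = j
      · subst h
        have : i = i' := by
          rw [hi] at hel
          exact Sum.inl.inj hel
        rw [if_pos this, if_pos rfl, smul_eq_mul, mul_one]
      · have : i ≠ i' := by
          intro h3
          apply h
          apply e.injective
          rw [hel, hi, h3]
        rw [if_neg this, if_neg h, smul_zero]
    · have h1 : ev (y l) = 0 := hyT l ⟨j', hel⟩
      rw [h1, map_zero, if_neg]
      intro h
      subst h
      rw [hi] at hel
      exact Sum.inl_ne_inr hel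

/-- Smoothness near a nonvertex closed point. -/
theorem smz_exists_smooth_nhds (hX : IsContactFano 𝒜 P) (p : R →ₐ[ℂ] ℂ) (hp : ¬ IsVertex 𝒜 p) :
    ∃ s : R, p s ≠ 0 ∧ Algebra.FormallySmooth ℂ (Localization.Away s) := by
  classical
  have := hX.finiteType
  have := hX.domain
  obtain ⟨M, ev, hev⟩ := Algebra.FiniteType.iff_quotient_mvPolynomial''.mp hX.finiteType
  obtain ⟨y, T, hT, hdet, hE⟩ := smz_exists_lci hX p hp ev hev
  let a : Fin M → ℂ := fun m => p (ev (X m))
  have hpev : ∀ F, p (ev F) = eval a F := by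
    intro F
    have h1 : p.comp ev = aeval a := by
      apply MvPolynomial.algHom_ext
      intro m
      rw [AlgHom.comp_apply, aeval_X]
    have h2 := congrArg (fun f => f F) h1
    simp only [AlgHom.comp_apply] at h2
    rw [h2, MvPolynomial.aeval_eq_eval]
  obtain ⟨h, hh, hh2⟩ := sm0_core (a := a) (y := y) (T := T) (RingHom.ker ev)
    (fun F hF => by rw [← hpev, show ev F = 0 from hF, map_zero]) hT (by rw [← hpev]; exact hdet)
    (fun j hj F hF => by
      obtain ⟨E, D, hD, hED⟩ := hE j hj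
      exact sm0_stab ev y j E D hD hED F hF)
  refine ⟨ev (h * (smz_jacM y).det), ?_, sm0_formallySmooth ev hev y T hT h fun F hF => hh2 F hF⟩
  rw [map_mul, map_mul, hpev h]
  exact mul_ne_zero hh hdet

/-- S0: contact Fano cones are smooth outside the vertex. -/
theorem smooth_zero (hX : IsContactFano 𝒜 P) (n : ℕ) (hn : 0 < n) (s : R) (hs : s ∈ 𝒜 n) :
    Algebra.FormallySmooth ℂ (Localization.Away s) := by
  classical
  have := hX.finiteType
  have : Algebra.FinitePresentation ℂ R := Algebra.FinitePresentation.of_finiteType.mp inferInstance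
  rw [← Algebra.basicOpen_subset_smoothLocus_iff]
  intro q hq
  by_contra hns
  have hcl : IsClosed ((Algebra.smoothLocus ℂ R)ᶜ) := Algebra.isOpen_smoothLocus.isClosed_compl
  obtain ⟨S, hS⟩ := (PrimeSpectrum.isClosed_iff_zeroLocus _).mp hcl
  have hqS : q ∈ PrimeSpectrum.zeroLocus S := by rw [← hS]; exact hns
  have h1 : s ∈ (Ideal.span S).radical := by
    refine mem_radical_of_forall _ _ fun p hpS => ?_
    by_contra hps
    have hnv : ¬ IsVertex 𝒜 p := fun h => hps (h n hn s hs)
    obtain ⟨t, ht, hsm⟩ := smz_exists_smooth_nhds hX p hnv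
    have hprime : (RingHom.ker p).IsPrime := RingHom.ker_isPrime p
    let 𝔭 : PrimeSpectrum R := ⟨RingHom.ker p, hprime⟩
    have h2 : 𝔭 ∈ Algebra.smoothLocus ℂ R :=
      (Algebra.basicOpen_subset_smoothLocus_iff.mpr hsm) ht
    have h3 : 𝔭 ∈ (Algebra.smoothLocus ℂ R)ᶜ := by
      rw [hS, PrimeSpectrum.mem_zeroLocus]
      intro r hr
      exact hpS r (Ideal.subset_span hr)
    exact h3 h2
  obtain ⟨m, hm⟩ := h1
  apply hq
  have h2 : Ideal.span S ≤ q.asIdeal := by
    rw [Ideal.span_le]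
    exact hqS
  exact q.isPrime.mem_of_pow_mem m (h2 hm)

end point

end Vale.Agent.P292.Mo
end

section

/-! # Spreading out: finitely many frames suffice. -/

namespace Vale.Agent.P292.Mo

open MvPolynomial

universe u v w

variable {R : Type u} [CommRing R] [Algebra ℂ R] {𝒜 : ℕ → Submodule ℂ R} [GradedAlgebra 𝒜]
  {P : R →ₗ[ℂ] R →ₗ[ℂ] R}

/-- A derivation of the quotient of a polynomial ring in terms of partial derivatives. -/
theorem framecover_der {M : ℕ} (ev : MvPolynomial (Fin M) ℂ →ₐ[ℂ] R) (δ : R →ₗ[ℂ] R)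
    (hδ : ∀ b c, δ (b * c) = δ b * c + b * δ c) (a : MvPolynomial (Fin M) ℂ) :
    δ (ev a) = ∑ j, ev (pderiv j a) * δ (ev (X j)) := by
  have h1 : δ 1 = 0 := by
    have h := hδ 1 1
    rw [mul_one, one_mul, mul_one] at h
    exact left_eq_add.mp h
  induction a using MvPolynomial.induction_on with
  | C c =>
    have h2 : ev (C c) = c • (1 : R) := by
      rw [← MvPolynomial.algebraMap_eq, AlgHom.commutes, Algebra.algebraMap_eq_smul_one]
    rw [h2, map_smul, h1, smul_zero]
    exact (Finset.sum_eq_zero fun j _ => by rw [pderiv_C, map_zero, zero_mul]).symm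
  | add p q hp hq =>
    rw [map_add, map_add, hp, hq, ← Finset.sum_add_distrib]
    exact Finset.sum_congr rfl fun j _ => by rw [map_add, map_add, add_mul]
  | mul_X p n hp =>
    rw [map_mul, hδ, hp, Finset.sum_mul]
    have h3 : ev p * δ (ev (X n)) =
        ∑ j, ev p * ev (pderiv j (X n : MvPolynomial (Fin M) ℂ)) * δ (ev (X j)) := by
      rw [Finset.sum_eq_single n]
      · rw [pderiv_X_self, map_one, mul_one]
      · intro j _ hj
        rw [pderiv_X_of_ne (Ne.symm hj), map_zero, mul_zero, zero_mul]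
      · intro h
        exact absurd (Finset.mem_univ n) h
    rw [h3, ← Finset.sum_add_distrib]
    refine Finset.sum_congr rfl fun j _ => ?_
    rw [pderiv_mul, map_add, map_mul, map_mul]
    ring

theorem framecover_skew (halt : ∀ a, P a a = 0) (a b : R) : P a b = - P b a := by
  have h := halt (a + b)
  rw [map_add, map_add, LinearMap.add_apply, LinearMap.add_apply, halt, halt, zero_add,
    add_zero] at h
  exact eq_neg_of_add_eq_zero_right h

/-- The bracket of polynomials is the bracket of the algebra. -/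
theorem framecover_pbr (halt : ∀ a, P a a = 0)
    (hleib : ∀ a b c, P a (b * c) = P a b * c + b * P a c) {M L : ℕ} {D : Dat ℂ M L}
    {ev : MvPolynomial (Fin M) ℂ →ₐ[ℂ] R}
    (hbr : ∀ i j, ev (D.π i j) = P (ev (X i)) (ev (X j))) (a b : MvPolynomial (Fin M) ℂ) :
    ev (D.pbr a b) = P (ev a) (ev b) := by
  have h1 : ∀ j, P (ev a) (ev (X j)) = ∑ i, ev (pderiv i a) * P (ev (X i)) (ev (X j)) := by
    intro j
    rw [framecover_skew halt, framecover_der ev (P (ev (X j))) (hleib _) a,
      ← Finset.sum_neg_distrib]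
    refine Finset.sum_congr rfl fun i _ => ?_
    rw [framecover_skew halt (ev (X i)), mul_neg]
  rw [Dat.pbr, framecover_der ev (P (ev a)) (hleib _) b, Finset.sum_comm, map_sum]
  refine Finset.sum_congr rfl fun j _ => ?_
  rw [h1, map_sum, Finset.mul_sum]
  refine Finset.sum_congr rfl fun i _ => ?_
  rw [map_mul, map_mul, hbr]
  ring

theorem framecover_det (halt : ∀ a, P a a = 0)
    (hleib : ∀ a b c, P a (b * c) = P a b * c + b * P a c) {M L : ℕ} {D : Dat ℂ M L}
    {ev : MvPolynomial (Fin M) ℂ →ₐ[ℂ] R}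
    (hbr : ∀ i j, ev (D.π i j) = P (ev (X i)) (ev (X j))) {N : ℕ}
    (x : Fin N → MvPolynomial (Fin M) ℂ) :
    ev (D.pbrM x).det = (brM P fun i => ev (x i)).det := by
  rw [AlgHom.map_det]
  congr 1
  ext i j
  exact framecover_pbr halt hleib hbr (x i) (x j)

/-- FC: finitely many frames suffice. -/
theorem frame_cover (hX : IsContactFano 𝒜 P) {M L : ℕ} {D : Dat ℂ M L}
    {ev : MvPolynomial (Fin M) ℂ →ₐ[ℂ] R} (hD : IsPres 𝒜 P D ev) :
    ∃ (T : ℕ) (N : Fin T → ℕ) (x : ∀ a, Fin (N a) → MvPolynomial (Fin M) ℂ)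
      (dx : ∀ a, Fin (N a) → ℕ) (g : Fin T → MvPolynomial (Fin M) ℂ),
      (∀ a i, IsWeightedHomogeneous D.d (x a i) (dx a i)) ∧
      (∀ a, IsFr 𝒜 (fun i => ev (x a i)) (dx a) (ev (g a))) ∧
      ∀ i, ∃ n, (X i : MvPolynomial (Fin M) ℂ) ^ n ∈
        Ideal.span (Set.range (Sum.elim D.F fun a => g a * (D.pbrM (x a)).det)) := by
  classical
  have := hX.finiteType
  -- the set of products
  let S : Set R := {r | ∃ (N : ℕ) (x : Fin N → MvPolynomial (Fin M) ℂ) (dx : Fin N → ℕ)
    (g : MvPolynomial (Fin M) ℂ), (∀ i, IsWeightedHomogeneous D.d (x i) (dx i)) ∧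
    IsFr 𝒜 (fun i => ev (x i)) dx (ev g) ∧ ev (g * (D.pbrM x).det) = r}
  have hS : ∀ i, ∃ n, ev (X i) ^ n ∈ Ideal.span S := by
    intro i
    refine mem_radical_of_forall (Ideal.span S) (ev (X i)) fun p hp => ?_
    by_contra hne
    have hv : ¬ IsVertex 𝒜 p := fun hv => hne (hv _ (hD.ok.pos i) _ (hD.hom i))
    obtain ⟨N, x, k, g, l, hx, hg, hpg, hpd, hgen⟩ := exists_chart hX p hv
    choose x' hx' hx'' using fun i => hD.lift (k i) (x i) (hx i)
    obtain ⟨g', hg', hg''⟩ := hD.lift l g hg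
    have hxe : (fun i => ev (x' i)) = x := funext hx''
    have hmem : g * (brM P x).det ∈ S := by
      refine ⟨N, x', k, g', hx', ?_, ?_⟩
      · rw [hxe, hg'']
        exact ⟨hx, ⟨l, hg⟩, hgen⟩
      · rw [map_mul, framecover_det hX.alternating hX.leibniz hD.br, hxe, hg'']
    have h0 := hp _ (Ideal.subset_span hmem)
    rw [map_mul] at h0
    exact (mul_ne_zero hpg hpd) h0
  choose n hn using hS
  choose W hWS hW using fun i => Submodule.mem_span_finite_of_mem_span (hn i)
  let U : Finset R := Finset.univ.biUnion W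
  have hU : ∀ r ∈ U, r ∈ S := by
    intro r hr
    obtain ⟨i, -, hi⟩ := Finset.mem_biUnion.mp hr
    exact hWS i hi
  let f : Fin U.card → R := fun a => (U.equivFin.symm a : R)
  have hf : ∀ a, f a ∈ S := fun a => hU _ (U.equivFin.symm a).2
  choose N x dx g hx hfr hval using hf
  refine ⟨U.card, N, x, dx, g, hx, hfr, fun i => ⟨n i, ?_⟩⟩
  have hmem : ev (X i) ^ n i ∈ Ideal.span (Set.range f) := by
    refine (Ideal.span_mono ?_) (hW i)
    intro r hr
    have hrU : r ∈ U := Finset.mem_biUnion.mpr ⟨i, Finset.mem_univ i, hr⟩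
    refine ⟨U.equivFin ⟨r, hrU⟩, ?_⟩
    change ((U.equivFin.symm (U.equivFin ⟨r, hrU⟩) : U) : R) = r
    rw [Equiv.symm_apply_apply]
  obtain ⟨c, hc⟩ := Ideal.mem_span_range_iff_exists_fun.mp hmem
  choose c' hc' using fun a => hD.surj (c a)
  have hker : X i ^ n i - ∑ a, c' a * (g a * (D.pbrM (x a)).det) ∈ D.I := by
    rw [← hD.ker, map_sub, map_pow, ← hc, map_sum, sub_eq_zero]
    exact Finset.sum_congr rfl fun a _ => by rw [map_mul, hc', hval]
  have h1 : D.I ≤ Ideal.span (Set.range (Sum.elim D.F fun a => g a * (D.pbrM (x a)).det)) := by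
    refine Ideal.span_mono ?_
    rintro _ ⟨l, rfl⟩
    exact ⟨Sum.inl l, rfl⟩
  have h2 : ∑ a, c' a * (g a * (D.pbrM (x a)).det) ∈
      Ideal.span (Set.range (Sum.elim D.F fun a => g a * (D.pbrM (x a)).det)) :=
    sum_mem fun a _ => Ideal.mul_mem_left _ _ (Ideal.subset_span ⟨Sum.inr a, rfl⟩)
  have h3 := add_mem (h1 hker) h2
  rwa [sub_add_cancel] at h3

end Vale.Agent.P292.Mo
end

section

/-! # Spreading out, block PM: the algebras over fields of large characteristic are as required. -/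

namespace Vale.Agent.P292.Mo

open MvPolynomial

universe u v w

/-! ### Combination of finitely generated subalgebras -/

theorem pmspread_and {Φ Ψ : Subalgebra ℤ ℂ → Prop}
    (h1 : ∃ A₀ : Subalgebra ℤ ℂ, A₀.FG ∧ ∀ A : Subalgebra ℤ ℂ, A₀ ≤ A → Φ A)
    (h2 : ∃ A₀ : Subalgebra ℤ ℂ, A₀.FG ∧ ∀ A : Subalgebra ℤ ℂ, A₀ ≤ A → Ψ A) :
    ∃ A₀ : Subalgebra ℤ ℂ, A₀.FG ∧ ∀ A : Subalgebra ℤ ℂ, A₀ ≤ A → Φ A ∧ Ψ A := by
  obtain ⟨A₁, h1, h1'⟩ := h1
  obtain ⟨A₂, h2, h2'⟩ := h2
  exact ⟨A₁ ⊔ A₂, Subalgebra.FG.sup h1 h2, fun A hA =>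
    ⟨h1' A (le_trans le_sup_left hA), h2' A (le_trans le_sup_right hA)⟩⟩

/-! ### Base change of the data -/

section basechange

variable {A : Type u} [CommRing A] {B : Type v} [CommRing B] {M L : ℕ}

theorem pmspread_hom_map {d : Fin M → ℕ} (j : A →+* B) {p : MvPolynomial (Fin M) A} {n : ℕ}
    (h : IsWeightedHomogeneous d p n) : IsWeightedHomogeneous d (MvPolynomial.map j p) n := by
  intro m hm
  rw [coeff_map] at hm
  exact h (fun h0 => hm (by rw [h0, map_zero]))

theorem pmspread_hom_of_map {d : Fin M → ℕ} (j : A →+* B) (hj : Function.Injective j)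
    {p : MvPolynomial (Fin M) A} {n : ℕ} (h : IsWeightedHomogeneous d (MvPolynomial.map j p) n) :
    IsWeightedHomogeneous d p n := by
  intro m hm
  exact h (by rw [coeff_map]; exact fun h0 => hm (hj (by rw [h0, map_zero])))

theorem pmspread_map_pbr (D : Dat A M L) (j : A →+* B) (a b : MvPolynomial (Fin M) A) :
    MvPolynomial.map j (D.pbr a b) =
      (D.map j).pbr (MvPolynomial.map j a) (MvPolynomial.map j b) := by
  simp only [Dat.pbr, Dat.map, map_sum, map_mul, pderiv_map]

theorem pmspread_map_det (D : Dat A M L) (j : A →+* B) {N : ℕ}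
    (x : Fin N → MvPolynomial (Fin M) A) :
    MvPolynomial.map j (D.pbrM x).det =
      ((D.map j).pbrM fun i => MvPolynomial.map j (x i)).det := by
  rw [RingHom.map_det]
  congr 1
  ext1 i l
  simp only [RingHom.mapMatrix_apply, Matrix.map_apply, Dat.pbrM, Matrix.of_apply,
    pmspread_map_pbr]

end basechange

/-! ### The algebra of the data over a field -/

section field

variable {k : Type u} [Field k] {M L : ℕ}

theorem pmspread_mem_span {D : Dat k M L} {n : ℕ} (hn : 0 < n) {s : D.Rg} (hs : s ∈ D.gr n) :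
    s ∈ Ideal.span (Set.range fun i => D.q (X i)) := by
  obtain ⟨p, hp, rfl⟩ := hs
  have hp' : IsWeightedHomogeneous D.d p n := hp
  have h1 : p ∈ Ideal.span (MvPolynomial.X '' Set.univ : Set (MvPolynomial (Fin M) k)) := by
    rw [mem_ideal_span_X_image]
    intro m hm
    by_contra hcon
    push Not at hcon
    have hm0 : m = 0 := by
      ext i
      exact hcon i (Set.mem_univ i)
    have := hp' (mem_support_iff.mp hm)
    rw [hm0, map_zero] at this
    omega
  have h2 := Ideal.mem_map_of_mem (D.q : MvPolynomial (Fin M) k →+* D.Rg) h1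
  rw [Ideal.map_span] at h2
  refine (Ideal.span_le.mpr ?_ : _ ≤ Ideal.span (Set.range fun i => D.q (X i))) h2
  rintro _ ⟨_, ⟨i, -, rfl⟩, rfl⟩
  exact Ideal.subset_span ⟨i, rfl⟩

theorem pmspread_NV {D : Dat k M L} (y : D.Rg →ₐ[k] k) (hy : NV D.gr y) :
    ∃ i, y (D.q (X i)) ≠ 0 := by
  obtain ⟨n, hn, r, hr, hyr⟩ := hy
  by_contra hcon
  push Not at hcon
  apply hyr
  have h1 := pmspread_mem_span hn hr
  have h2 : Ideal.span (Set.range fun i => D.q (X i)) ≤ RingHom.ker y := by
    rw [Ideal.span_le]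
    rintro _ ⟨i, rfl⟩
    exact hcon i
  exact h2 h1

/-- A product cover meets every nonvertex point. -/
theorem pmspread_cover {D : Dat k M L} {T : ℕ} {c : Fin T → MvPolynomial (Fin M) k}
    (hc : ∀ i, ∃ n, (X i : MvPolynomial (Fin M) k) ^ n ∈ Ideal.span (Set.range (Sum.elim D.F c)))
    (y : D.Rg →ₐ[k] k) (hy : NV D.gr y) : ∃ t, y (D.q (c t)) ≠ 0 := by
  obtain ⟨i, hi⟩ := pmspread_NV y hy
  by_contra hcon
  push Not at hcon
  obtain ⟨n, hn⟩ := hc i
  have h2 : Ideal.span (Set.range (Sum.elim D.F c)) ≤ RingHom.ker (y.comp D.q) := by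
    rw [Ideal.span_le]
    rintro _ ⟨s, rfl⟩
    rcases s with l | t
    · have : D.q (D.F l) = 0 := Ideal.Quotient.eq_zero_iff_mem.mpr (Ideal.subset_span ⟨l, rfl⟩)
      show y (D.q (D.F l)) = 0
      rw [this, map_zero]
    · exact hcon t
  have h3 : (y.comp D.q) ((X i) ^ n) = 0 := h2 hn
  rw [map_pow] at h3
  exact hi (eq_zero_of_pow_eq_zero h3)

end field

/-! ### The structure over a field -/

theorem pmspread_isPM {k : Type u} [Field k] {M L : ℕ} (D : Dat k M L) [GradedAlgebra D.gr]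
    (Q : D.Rg →ₗ[k] D.Rg →ₗ[k] D.Rg) (hQ : ∀ a b, Q (D.q a) (D.q b) = D.q (D.pbr a b))
    (halt : ∀ a, Q a a = 0) (hleib : ∀ a b c, Q a (b * c) = Q a b * c + b * Q a c)
    (hdeg : ∀ i j n, i + j = n + 1 → ∀ a ∈ D.gr i, ∀ b ∈ D.gr j, Q a b ∈ D.gr n)
    (hconn : ∀ r ∈ D.gr 0, ∃ c : k, r = algebraMap k D.Rg c)
    (hsm : ∀ i, Algebra.FormallySmooth k (Localization.Away (D.q (X i))))
    (hfr : ∃ (T : ℕ) (N : Fin T → ℕ) (x : ∀ a, Fin (N a) → MvPolynomial (Fin M) k)
      (dx : ∀ a, Fin (N a) → ℕ) (g : Fin T → MvPolynomial (Fin M) k) (lg : Fin T → ℕ),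
      (∀ a i, IsWeightedHomogeneous D.d (x a i) (dx a i)) ∧
      (∀ a, IsWeightedHomogeneous D.d (g a) (lg a)) ∧
      (∀ a (r : D.Rg), ∃ c : Fin (N a) → D.Rg, D.q (g a) • KaehlerDifferential.D k D.Rg r =
        ∑ i, c i • KaehlerDifferential.D k D.Rg (D.q (x a i))) ∧
      ∀ i, ∃ n, (X i : MvPolynomial (Fin M) k) ^ n ∈
        Ideal.span (Set.range (Sum.elim D.F fun a => g a * (D.pbrM (x a)).det)))
    (hlb : ∃ (T : ℕ) (a b : Fin T → MvPolynomial (Fin M) k) (da db : Fin T → ℕ),
      (∀ t, IsWeightedHomogeneous D.d (a t) (da t)) ∧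
      (∀ t, IsWeightedHomogeneous D.d (b t) (db t)) ∧ (∀ t, (da t).Coprime (db t)) ∧
      ∀ i, ∃ n, (X i : MvPolynomial (Fin M) k) ^ n ∈
        Ideal.span (Set.range (Sum.elim D.F fun t => a t * b t))) :
    IsPM D.gr Q := by
  refine ⟨inferInstance, hconn, halt, hleib, hdeg, ?_, ?_, ?_⟩
  · intro y hy
    obtain ⟨T, N, x, dx, g, lg, hx, hg, hgen, hcov⟩ := hfr
    obtain ⟨t, ht⟩ := pmspread_cover hcov y hy
    refine ⟨N t, fun i => D.q (x t i), dx t, D.q (g t),
      ⟨fun i => ⟨x t i, hx t i, rfl⟩, ⟨lg t, ⟨g t, hg t, rfl⟩⟩, hgen t⟩, ?_⟩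
    have h1 : brM Q (fun i => D.q (x t i)) =
        (D.q : MvPolynomial (Fin M) k →+* D.Rg).mapMatrix (D.pbrM (x t)) := by
      ext1 i l
      exact hQ _ _
    rw [h1, ← RingHom.map_det]
    rw [map_mul] at ht
    exact ht
  · intro n hn s hs
    exact smooth_of_mem_span (fun i => D.q (X i)) hsm s (pmspread_mem_span hn hs)
  · intro y hy d hdiv
    obtain ⟨T, a, b, da, db, ha, hb, hab, hcov⟩ := hlb
    obtain ⟨t, ht⟩ := pmspread_cover hcov y hy
    rw [map_mul, map_mul] at ht
    have h1 := hdiv (da t) _ ⟨a t, ha t, rfl⟩ (left_ne_zero_of_mul ht)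
    have h2 := hdiv (db t) _ ⟨b t, hb t, rfl⟩ (right_ne_zero_of_mul ht)
    exact Nat.eq_one_of_dvd_coprimes (hab t) h1 h2

/-! ### Transport along algebra homomorphisms -/

theorem pmspread_kd {k : Type u} [Field k] {R : Type v} [CommRing R] [Algebra k R] {S : Type w}
    [CommRing S] [Algebra k S] (ψ : R →ₐ[k] S) {N : ℕ} (g r : R) (c x : Fin N → R)
    (h : g • KaehlerDifferential.D k R r = ∑ i, c i • KaehlerDifferential.D k R (x i)) :
    ψ g • KaehlerDifferential.D k S (ψ r) =
      ∑ i, ψ (c i) • KaehlerDifferential.D k S (ψ (x i)) := by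
  let _ : Algebra R S := ψ.toRingHom.toAlgebra
  have : IsScalarTower k R S := IsScalarTower.of_algebraMap_eq fun a => (ψ.commutes a).symm
  have h1 := congrArg (KaehlerDifferential.map k k R S) h
  rw [map_smul, map_sum, KaehlerDifferential.map_D] at h1
  simp only [map_smul, KaehlerDifferential.map_D] at h1
  have h2 : ∀ (a : R) (ω : Ω[S⁄k]), a • ω = ψ a • ω := fun a ω =>
    (algebraMap_smul S a ω).symm
  rw [h2] at h1
  simp only [h2] at h1
  exact h1

theorem pmspread_smooth_equiv {k : Type u} [Field k] {R : Type v} [CommRing R] [Algebra k R]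
    {S : Type w} [CommRing S] [Algebra k S] (ψ : R ≃ₐ[k] S) (s : R)
    (h : Algebra.FormallySmooth k (Localization.Away s)) :
    Algebra.FormallySmooth k (Localization.Away (ψ s)) :=
  Algebra.FormallySmooth.of_equiv
    (IsLocalization.algEquivOfAlgEquiv (M := Submonoid.powers s) (T := Submonoid.powers (ψ s))
      (Localization.Away s) (Localization.Away (ψ s)) ψ (Submonoid.map_powers ψ s))

/-! ### Characteristic zero -/

section zero

variable {R : Type u} [CommRing R] [Algebra ℂ R] {𝒜 : ℕ → Submodule ℂ R} [GradedAlgebra 𝒜]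
  {P : R →ₗ[ℂ] R →ₗ[ℂ] R}

omit [GradedAlgebra 𝒜] in
theorem pmspread_equiv {M L : ℕ} {D : Dat ℂ M L} {ev : MvPolynomial (Fin M) ℂ →ₐ[ℂ] R}
    (hD : IsPres 𝒜 P D ev) : ∃ φ : D.Rg ≃ₐ[ℂ] R, ∀ p, φ (D.q p) = ev p := by
  let f : D.Rg →ₐ[ℂ] R := Ideal.Quotient.liftₐ D.I ev (fun a ha => (hD.ker a).mpr ha)
  have hb : Function.Bijective f := by
    constructor
    · rw [injective_iff_map_eq_zero]
      intro a ha
      obtain ⟨p, rfl⟩ := Ideal.Quotient.mk_surjective a
      exact Ideal.Quotient.eq_zero_iff_mem.mpr ((hD.ker p).mp ha)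
    · intro r
      obtain ⟨p, rfl⟩ := hD.surj r
      exact ⟨D.q p, rfl⟩
  exact ⟨AlgEquiv.ofBijective f hb, fun p => rfl⟩

theorem pmspread_smooth_gen (hX : IsContactFano 𝒜 P) {M L : ℕ} {D : Dat ℂ M L}
    {ev : MvPolynomial (Fin M) ℂ →ₐ[ℂ] R} (hD : IsPres 𝒜 P D ev) (i : Fin M) :
    Algebra.FormallySmooth ℂ
      (Localization.Away (Ideal.Quotient.mk (Ideal.span (Set.range D.F)) (X i))) := by
  obtain ⟨φ, hφ⟩ := pmspread_equiv hD
  have h1 := pmspread_smooth_equiv φ.symm _
    (smooth_zero hX (D.d i) (hD.ok.pos i) (ev (X i)) (hD.hom i))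
  rw [← hφ, AlgEquiv.symm_apply_apply] at h1
  exact h1

omit [GradedAlgebra 𝒜] in
theorem pmspread_frame_gen {M L : ℕ} {D : Dat ℂ M L}
    {ev : MvPolynomial (Fin M) ℂ →ₐ[ℂ] R} (hD : IsPres 𝒜 P D ev) {N : ℕ}
    {x : Fin N → MvPolynomial (Fin M) ℂ} {dx : Fin N → ℕ} {g : MvPolynomial (Fin M) ℂ}
    (h : IsFr 𝒜 (fun i => ev (x i)) dx (ev g)) (i : Fin M) :
    ∃ c : Fin N → MvPolynomial (Fin M) ℂ ⧸ Ideal.span (Set.range D.F),
      Ideal.Quotient.mk (Ideal.span (Set.range D.F)) g • KaehlerDifferential.D ℂ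
        (MvPolynomial (Fin M) ℂ ⧸ Ideal.span (Set.range D.F)) (Ideal.Quotient.mk _ (X i)) =
        ∑ l, c l • KaehlerDifferential.D ℂ (MvPolynomial (Fin M) ℂ ⧸ Ideal.span (Set.range D.F))
          (Ideal.Quotient.mk _ (x l)) := by
  obtain ⟨φ, hφ⟩ := pmspread_equiv hD
  obtain ⟨c, hc⟩ := h.gen (ev (X i))
  have h1 := pmspread_kd φ.symm.toAlgHom _ _ _ _ hc
  have h2 : ∀ p, φ.symm.toAlgHom (ev p) = D.q p := fun p => by
    rw [← hφ]
    exact φ.symm_apply_apply _
  simp only [h2] at h1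
  exact ⟨_, h1⟩

theorem pmspread_elim {A : Type u} [CommRing A] {B : Type v} [CommRing B] {M L T : ℕ}
    (D : Dat A M L) (j : A →+* B) (c : Fin T → MvPolynomial (Fin M) A) :
    (fun s => MvPolynomial.map j (Sum.elim D.F c s)) =
      Sum.elim (D.map j).F fun t => MvPolynomial.map j (c t) := by
  funext s
  rcases s with l | t <;> rfl

/-- Spreading out a cover. -/
theorem pmspread_cover_spread {M L T : ℕ} (D : Dat ℂ M L) (c : Fin T → MvPolynomial (Fin M) ℂ)
    (h : ∀ i, ∃ n, (X i : MvPolynomial (Fin M) ℂ) ^ n ∈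
      Ideal.span (Set.range (Sum.elim D.F c))) :
    ∃ A₀ : Subalgebra ℤ ℂ, A₀.FG ∧ ∀ A : Subalgebra ℤ ℂ, A₀ ≤ A →
      ∀ (D' : Dat A M L), D'.map (algebraMap A ℂ) = D →
        ∀ (c' : Fin T → MvPolynomial (Fin M) A),
          (∀ t, MvPolynomial.map (algebraMap A ℂ) (c' t) = c t) →
          ∀ (k : Type v) [Field k] (j : A →+* k), ∀ i, ∃ n,
            (X i : MvPolynomial (Fin M) k) ^ n ∈ Ideal.span
              (Set.range (Sum.elim (D'.map j).F fun t => MvPolynomial.map j (c' t))) := by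
  choose n hn using h
  obtain ⟨A₀, hfg, hA₀⟩ := exists_fg_of_forall _ fun i : Fin M =>
    mem_spread.{0, v, 0} (Sum.elim D.F c) (X i ^ n i) (hn i)
  refine ⟨A₀, hfg, fun A hA D' hD' c' hc' k _ j i => ⟨n i, ?_⟩⟩
  have h1 := (hA₀ A hA i (Sum.elim D'.F c') (X i ^ n i) (fun s => ?_)
    (by rw [map_pow, map_X])).2 k j
  · rw [map_pow, map_X, pmspread_elim] at h1
    exact h1
  · have h2 := congrFun (pmspread_elim D' (algebraMap A ℂ) c') s
    rw [h2, hD']
    simp only [hc']

theorem pmspread_hom {M L : ℕ} {D : Dat ℂ M L} {A : Subalgebra ℤ ℂ} {D' : Dat A M L}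
    (hD' : D'.map (algebraMap A ℂ) = D) {k : Type v} [Field k] (j : A →+* k)
    {p : MvPolynomial (Fin M) A} {n : ℕ}
    (hp : IsWeightedHomogeneous D.d (MvPolynomial.map (algebraMap A ℂ) p) n) :
    IsWeightedHomogeneous (D'.map j).d (MvPolynomial.map j p) n := by
  have hd : D'.d = D.d := by rw [← hD']; rfl
  have h1 := pmspread_hom_map j
    (pmspread_hom_of_map (algebraMap A ℂ) Subtype.val_injective hp)
  rw [← hd] at h1
  exact h1

theorem pmspread_smooth (hX : IsContactFano 𝒜 P) {M L : ℕ} {D : Dat ℂ M L}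
    {ev : MvPolynomial (Fin M) ℂ →ₐ[ℂ] R} (hD : IsPres 𝒜 P D ev) :
    ∃ A₀ : Subalgebra ℤ ℂ, A₀.FG ∧ ∀ A : Subalgebra ℤ ℂ, A₀ ≤ A →
      ∀ (D' : Dat A M L), D'.map (algebraMap A ℂ) = D →
        ∀ (k : Type v) [Field k] (j : A →+* k), ∀ i,
          Algebra.FormallySmooth k (Localization.Away ((D'.map j).q (X i))) := by
  obtain ⟨A₀, hfg, hA₀⟩ := exists_fg_of_forall _ fun i =>
    smooth_spread.{v} D.F (X i) (pmspread_smooth_gen hX hD i)
  refine ⟨A₀, hfg, fun A hA D' hD' k _ j i => ?_⟩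
  have h1 := hA₀ A hA i D'.F (X i) (fun l => by rw [← hD']; rfl) (map_X _ _) k j
  rw [map_X] at h1
  exact h1

theorem pmspread_lb (hX : IsContactFano 𝒜 P) {M L : ℕ} {D : Dat ℂ M L}
    {ev : MvPolynomial (Fin M) ℂ →ₐ[ℂ] R} (hD : IsPres 𝒜 P D ev) :
    ∃ A₀ : Subalgebra ℤ ℂ, A₀.FG ∧ ∀ A : Subalgebra ℤ ℂ, A₀ ≤ A →
      ∀ (D' : Dat A M L), D'.map (algebraMap A ℂ) = D →
        ∀ (k : Type v) [Field k] (j : A →+* k),
          ∃ (T : ℕ) (a b : Fin T → MvPolynomial (Fin M) k) (da db : Fin T → ℕ),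
            (∀ t, IsWeightedHomogeneous (D'.map j).d (a t) (da t)) ∧
            (∀ t, IsWeightedHomogeneous (D'.map j).d (b t) (db t)) ∧
            (∀ t, (da t).Coprime (db t)) ∧
            ∀ i, ∃ n, (X i : MvPolynomial (Fin M) k) ^ n ∈
              Ideal.span (Set.range (Sum.elim (D'.map j).F fun t => a t * b t)) := by
  obtain ⟨T, a, b, da, db, ha, hb, hab, hlb⟩ := lb_cover hX hD
  obtain ⟨A₀, hfg, hA₀⟩ := pmspread_and (pmspread_cover_spread.{v} D _ hlb)
    (pmspread_and (exists_lift_poly a) (exists_lift_poly b))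
  refine ⟨A₀, hfg, fun A hA D' hD' k _ j => ?_⟩
  obtain ⟨h1, h2, h3⟩ := hA₀ A hA
  choose a1 ha1 using h2
  choose b1 hb1 using h3
  refine ⟨T, fun t => MvPolynomial.map j (a1 t), fun t => MvPolynomial.map j (b1 t), da, db,
    fun t => pmspread_hom hD' j (by rw [ha1]; exact ha t),
    fun t => pmspread_hom hD' j (by rw [hb1]; exact hb t), hab, ?_⟩
  have h4 := h1 D' hD' (fun t => a1 t * b1 t) (fun t => by rw [map_mul, ha1, hb1]) k j
  simp only [map_mul] at h4
  exact h4

theorem pmspread_fr (hX : IsContactFano 𝒜 P) {M L : ℕ} {D : Dat ℂ M L}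
    {ev : MvPolynomial (Fin M) ℂ →ₐ[ℂ] R} (hD : IsPres 𝒜 P D ev) :
    ∃ A₀ : Subalgebra ℤ ℂ, A₀.FG ∧ ∀ A : Subalgebra ℤ ℂ, A₀ ≤ A →
      ∀ (D' : Dat A M L), D'.map (algebraMap A ℂ) = D →
        ∀ (k : Type v) [Field k] (j : A →+* k),
          ∃ (T : ℕ) (N : Fin T → ℕ) (x : ∀ a, Fin (N a) → MvPolynomial (Fin M) k)
            (dx : ∀ a, Fin (N a) → ℕ) (g : Fin T → MvPolynomial (Fin M) k) (lg : Fin T → ℕ),
            (∀ a i, IsWeightedHomogeneous (D'.map j).d (x a i) (dx a i)) ∧
            (∀ a, IsWeightedHomogeneous (D'.map j).d (g a) (lg a)) ∧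
            (∀ a (r : (D'.map j).Rg), ∃ c : Fin (N a) → (D'.map j).Rg,
              (D'.map j).q (g a) • KaehlerDifferential.D k (D'.map j).Rg r =
              ∑ i, c i • KaehlerDifferential.D k (D'.map j).Rg ((D'.map j).q (x a i))) ∧
            ∀ i, ∃ n, (X i : MvPolynomial (Fin M) k) ^ n ∈
              Ideal.span (Set.range (Sum.elim (D'.map j).F fun a =>
                g a * ((D'.map j).pbrM (x a)).det)) := by
  obtain ⟨T, N, x, dx, g, hx, hfr, hcov⟩ := frame_cover hX hD
  have hg2 : ∀ a, ∃ p l, IsWeightedHomogeneous D.d p l ∧ ev p = ev (g a) := fun a => by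
    obtain ⟨l, hl⟩ := (hfr a).ghom
    obtain ⟨p, hp, hpe⟩ := hD.lift l _ hl
    exact ⟨p, l, hp, hpe⟩
  choose g2 lg hg2 hg2e using hg2
  have hfr2 : ∀ a, IsFr 𝒜 (fun i => ev (x a i)) (dx a) (ev (g2 a)) := fun a => by
    rw [hg2e a]; exact hfr a
  have hcov2 : ∀ i, ∃ n, (X i : MvPolynomial (Fin M) ℂ) ^ n ∈
      Ideal.span (Set.range (Sum.elim D.F fun a => g2 a * (D.pbrM (x a)).det)) := fun i => by
    obtain ⟨n, hn⟩ := hcov i
    refine ⟨n, (Ideal.span_le.mpr ?_ : _ ≤ Ideal.span
      (Set.range (Sum.elim D.F fun a => g2 a * (D.pbrM (x a)).det))) hn⟩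
    rintro _ ⟨s, rfl⟩
    rcases s with l | a
    · exact Ideal.subset_span ⟨Sum.inl l, rfl⟩
    · have h1 : g a - g2 a ∈ D.I := (hD.ker _).mp (by rw [map_sub, hg2e a, sub_self])
      have h2 : D.I ≤ Ideal.span
          (Set.range (Sum.elim D.F fun a => g2 a * (D.pbrM (x a)).det)) := by
        refine Ideal.span_mono ?_
        rintro _ ⟨l, rfl⟩
        exact ⟨Sum.inl l, rfl⟩
      have h3 : g a * (D.pbrM (x a)).det =
          (g a - g2 a) * (D.pbrM (x a)).det + g2 a * (D.pbrM (x a)).det := by ring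
      show g a * (D.pbrM (x a)).det ∈ _
      rw [h3]
      exact add_mem (Ideal.mul_mem_right _ _ (h2 h1)) (Ideal.subset_span ⟨Sum.inr a, rfl⟩)
  obtain ⟨A₀, hfg, hA₀⟩ := pmspread_and (pmspread_cover_spread.{v} D _ hcov2)
    (pmspread_and (exists_fg_of_forall _ fun a =>
      frame_spread.{v} D.F (g2 a) (x a) (pmspread_frame_gen hD (hfr2 a)))
    (pmspread_and (exists_lift_poly (fun s : Σ a, Fin (N a) => x s.1 s.2))
      (exists_lift_poly g2)))
  refine ⟨A₀, hfg, fun A hA D' hD' k _ j => ?_⟩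
  obtain ⟨h1, h2, h3, h4⟩ := hA₀ A hA
  choose x1 hx1 using h3
  choose g1 hg1 using h4
  refine ⟨T, N, fun a i => MvPolynomial.map j (x1 ⟨a, i⟩), dx,
    fun a => MvPolynomial.map j (g1 a), lg,
    fun a i => pmspread_hom hD' j (by rw [hx1]; exact hx a i),
    fun a => pmspread_hom hD' j (by rw [hg1]; exact hg2 a), fun a r => ?_, ?_⟩
  · exact h2 a D'.F (g1 a) (fun i => x1 ⟨a, i⟩) (fun l => by rw [← hD']; rfl) (hg1 a)
      (fun i => hx1 ⟨a, i⟩) k j r
  · have h5 := h1 D' hD' (fun a => g1 a * (D'.pbrM fun i => x1 ⟨a, i⟩).det) (fun a => by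
      rw [map_mul, pmspread_map_det, hg1, hD']
      simp only [hx1]) k j
    simp only [map_mul, pmspread_map_det] at h5
    exact h5

/-- PM: the algebras of the data over fields of large characteristic are as required. -/
theorem isPM_spread (hX : IsContactFano 𝒜 P) {M L : ℕ} {D : Dat ℂ M L}
    {ev : MvPolynomial (Fin M) ℂ →ₐ[ℂ] R} (hD : IsPres 𝒜 P D ev) :
    ∃ A₀ : Subalgebra ℤ ℂ, A₀.FG ∧ ∀ A : Subalgebra ℤ ℂ, A₀ ≤ A →
      ∀ (D' : Dat A M L), D'.map (algebraMap A ℂ) = D →
        ∀ (k : Type v) [Field k] [IsAlgClosed k] (j : A →+* k) [GradedAlgebra (D'.map j).gr]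
          (Q : (D'.map j).Rg →ₗ[k] (D'.map j).Rg →ₗ[k] (D'.map j).Rg),
          (∀ a b, Q ((D'.map j).q a) ((D'.map j).q b) = (D'.map j).q ((D'.map j).pbr a b)) →
          (∀ a, Q a a = 0) → (∀ a b c, Q a (b * c) = Q a b * c + b * Q a c) →
          (∀ i i' n, i + i' = n + 1 → ∀ a ∈ (D'.map j).gr i, ∀ b ∈ (D'.map j).gr i',
            Q a b ∈ (D'.map j).gr n) → IsPM (D'.map j).gr Q := by
  obtain ⟨A₀, hfg, hA₀⟩ := pmspread_and (Dat.isOK_spread.{v} D hD.ok)
    (pmspread_and (pmspread_smooth.{u, v} hX hD)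
      (pmspread_and (pmspread_fr.{u, v} hX hD) (pmspread_lb.{u, v} hX hD)))
  refine ⟨A₀, hfg, fun A hA D' hD' k _ _ j _ Q hQ halt hleib hdeg => ?_⟩
  obtain ⟨⟨-, hok⟩, hsm, hfr, hlb⟩ := hA₀ A hA
  exact pmspread_isPM (D'.map j) Q hQ halt hleib hdeg
    (Dat.connected (D'.map j) (hok D' hD' k j)) (hsm D' hD' k j) (hfr D' hD' k j)
    (hlb D' hD' k j)

end zero

end Vale.Agent.P292.Mo
end

section

/-! # Spreading out: the final assembly. -/

namespace Vale.Agent.P292.Mo

open MvPolynomial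

universe u v w

section main

variable {R : Type u} [CommRing R] [Algebra ℂ R] {𝒜 : ℕ → Submodule ℂ R} [GradedAlgebra 𝒜]
  {P : R →ₗ[ℂ] R →ₗ[ℂ] R}

/-- Some generator is not zero. -/
theorem asm_exists_gen (hX : IsContactFano 𝒜 P) {M L : ℕ} {D : Dat ℂ M L}
    {ev : MvPolynomial (Fin M) ℂ →ₐ[ℂ] R} (hD : IsPres 𝒜 P D ev) : ∃ i, ev (X i) ≠ 0 := by
  by_contra hcon
  push Not at hcon
  obtain ⟨p, hp⟩ := hX.nonempty
  apply hp
  intro n hn r hr
  obtain ⟨f, hf, rfl⟩ := hD.lift n r hr
  have h1 : ev f = aeval (fun i => ev (X i)) f := by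
    conv_lhs => rw [aeval_unique ev]
    rfl
  have h2 : ev f = 0 := by
    rw [h1]
    exact asm_eval_zero (algebraMap ℂ R) hn hf hcon
  rw [h2, map_zero]

/-- The reduction of the data modulo a large prime and the curve over its field. -/
theorem asm_reduction (hX : IsContactFano 𝒜 P) (hdim : 2 ≤ Algebra.trdeg ℂ R)
    (mori : ∀ (k : Type) [Field k] [IsAlgClosed k] (p : ℕ) [CharP k p], p ≠ 2 → p ≠ 0 →
      ∀ (S : Type) [CommRing S] [Algebra k S] (ℬ : ℕ → Submodule k S) [GradedAlgebra ℬ]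
        (Q : S →ₗ[k] S →ₗ[k] S), IsPM ℬ Q → ∀ (e n : ℕ) (y : Fin n → S), IsNoe ℬ p e y →
        ∀ f : S, (∃ h, ∃ G : MvPolynomial (Fin n) k, G ≠ 0 ∧ f * h = aeval y G) →
          ∃ w : S →ₐ[k] k, w f ≠ 0 ∧ Hit ℬ w)
    {M L : ℕ} {D : Dat ℂ M L} {ev : MvPolynomial (Fin M) ℂ →ₐ[ℂ] R} (hD : IsPres 𝒜 P D ev)
    (T : Finset ℂ) (F : MvPolynomial (Fin M) ℂ) (hF : ev F ≠ 0) :
    ∃ (A : Subalgebra ℤ ℂ) (k : Type) (_ : Field k) (_ : IsAlgClosed k) (j : A →+* k) (d : ℕ)
      (ψ : Fin M → MvPolynomial (Fin 2) k), (T : Set ℂ) ⊆ A ∧ (d = 1 ∨ d = 2) ∧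
      (∀ i, (ψ i).IsHomogeneous (d * D.d i)) ∧
      (∀ a : Fin 2 → k, a ≠ 0 → ∃ i, eval a (ψ i) ≠ 0) ∧
      (∀ l, ∀ G : MvPolynomial (Fin M) A, MvPolynomial.map (algebraMap A ℂ) G = D.F l →
        aeval ψ (MvPolynomial.map j G) = 0) ∧
      ∀ G : MvPolynomial (Fin M) A, MvPolynomial.map (algebraMap A ℂ) G = F →
        eval (fun i => eval ![1, 0] (ψ i)) (MvPolynomial.map j G) ≠ 0 := by
  classical
  have := hX.domain
  obtain ⟨e, n, y, he, hy, hyi, hyS⟩ := exists_noether hX
  choose Y hYh hYe using fun i => hD.lift e (y i) (hy i)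
  have hyY : (fun i => ev (Y i)) = y := funext hYe
  obtain ⟨hdet, hn⟩ := det_ne_zero_of_noether hX y hyi hyS
  obtain ⟨A1, hA1, h1⟩ := Dat.isOK_spread.{0} D hD.ok
  obtain ⟨A2, hA2, h2⟩ := isPM_spread.{u, 0} hX hD
  obtain ⟨s, A3, hA3, h3⟩ := noether_spread.{u, 0} hD Y (by rwa [hyY])
  obtain ⟨b, A4, hb, hA4, h4⟩ := divides_spread.{u, 0} hX hD Y (by rwa [hyY]) (by rwa [hyY]) F hF
  obtain ⟨A5, hA5, h5⟩ := exists_lift_poly Y
  obtain ⟨A6, hA6, h6⟩ := exists_lift_poly fun _ : Unit => F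
  obtain ⟨A7, hA7, h7⟩ := exists_fg_of_finite (T : Set ℂ) T.finite_toSet
  obtain ⟨A, hA, hA1', hA2', hA3', hA4', hA5', hA6', hA7'⟩ : ∃ A : Subalgebra ℤ ℂ, A.FG ∧
      A1 ≤ A ∧ A2 ≤ A ∧ A3 ≤ A ∧ A4 ≤ A ∧ A5 ≤ A ∧ A6 ≤ A ∧ A7 ≤ A := by
    refine ⟨A1 ⊔ (A2 ⊔ (A3 ⊔ (A4 ⊔ (A5 ⊔ (A6 ⊔ A7))))), ?_, ?_, ?_, ?_, ?_, ?_, ?_, ?_⟩
    · exact hA1.sup (hA2.sup (hA3.sup (hA4.sup (hA5.sup (hA6.sup hA7)))))
    · exact le_sup_left
    · exact le_sup_left.trans le_sup_right
    · exact (le_sup_left.trans le_sup_right).trans le_sup_right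
    · exact ((le_sup_left.trans le_sup_right).trans le_sup_right).trans le_sup_right
    · exact (((le_sup_left.trans le_sup_right).trans le_sup_right).trans le_sup_right).trans
        le_sup_right
    · exact ((((le_sup_left.trans le_sup_right).trans le_sup_right).trans le_sup_right).trans
        le_sup_right).trans le_sup_right
    · exact ((((le_sup_right.trans le_sup_right).trans le_sup_right).trans le_sup_right).trans
        le_sup_right).trans le_sup_right
  obtain ⟨⟨D', hD'⟩, h1⟩ := h1 A hA1'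
  have h1 := h1 D' hD'
  have h2 := h2 A hA2' D' hD'
  choose Y' hY' using h5 A hA5'
  obtain ⟨F', hF'⟩ := h6 A hA6' ()
  have h3 := h3 A hA3' D' Y' hD' hY'
  obtain ⟨hbA, h4⟩ := h4 A hA4'
  have h4 := h4 D' Y' F' hD' hY' hF'
  have h7 := h7 A hA7'
  have hinj := map_algebraMap_injective (σ := Fin M) A
  have hdD : D'.d = D.d := by rw [← hD']; rfl
  -- the ring and its homomorphism to a field of characteristic zero
  obtain ⟨i₀, hi₀⟩ := asm_exists_gen hX hD
  let G' : MvPolynomial (Fin M) A := MvPolynomial.C ⟨b, hbA⟩ * ((D'.pbrM Y').det * X i₀)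
  let g : D'.Rg := D'.q G'
  let ρ : D'.Rg →+* R := Ideal.Quotient.lift D'.I
    (ev.toRingHom.comp (MvPolynomial.map (algebraMap A ℂ))) (by
      intro a ha
      have h8 : D'.I ≤ RingHom.ker (ev.toRingHom.comp (MvPolynomial.map (algebraMap A ℂ))) := by
        rw [Dat.I, Ideal.span_le]
        rintro _ ⟨l, rfl⟩
        rw [SetLike.mem_coe, RingHom.mem_ker]
        have h9 : MvPolynomial.map (algebraMap A ℂ) (D'.F l) = D.F l := by
          rw [← hD']
          rfl
        change ev (MvPolynomial.map (algebraMap A ℂ) (D'.F l)) = 0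
        rw [h9, hD.ker]
        exact Ideal.subset_span ⟨l, rfl⟩
      exact h8 ha)
  have hρ : ∀ p, ρ (D'.q p) = ev (MvPolynomial.map (algebraMap A ℂ) p) := fun p => rfl
  have hρg : ρ g ≠ 0 := by
    rw [hρ, map_mul, map_mul, map_mul, map_mul, map_C, map_X]
    refine mul_ne_zero ?_ (mul_ne_zero ?_ hi₀)
    · have h8 : ev (C ((algebraMap A ℂ) ⟨b, hbA⟩)) = algebraMap ℂ R b := ev.commutes b
      rw [h8]
      exact (map_ne_zero_iff _ (algebraMap ℂ R).injective).mpr hb
    · rw [← asm_det_map, hD']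
      have h8 : (fun i => MvPolynomial.map (algebraMap A ℂ) (Y' i)) = Y := funext hY'
      rw [h8]
      have h9 : ev (D.pbrM Y).det = (brM P y).det := by
        have h10 : ev.toRingHom.mapMatrix (D.pbrM Y) = brM P y := by
          ext1 i i'
          change ev (D.pbr (Y i) (Y i')) = P (y i) (y i')
          rw [asm_ev_pbr hX.alternating hX.leibniz hD, hYe, hYe]
        rw [← h10, ← RingHom.map_det]
        rfl
      rw [h9]
      exact hdet
  have hft := asm_finiteType_int (asm_finiteType hA D' g)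
  let f : Localization.Away g →+* FractionRing R := IsLocalization.Away.lift g
    (g := (algebraMap R (FractionRing R)).comp ρ) (IsUnit.mk0 _ (by
      rw [RingHom.comp_apply]
      exact (map_ne_zero_iff _ (IsFractionRing.injective R (FractionRing R))).mpr hρg))
  obtain ⟨k, _, _, p, hp, hpp, _, ⟨φ⟩⟩ :=
    exists_hom_large_char (Localization.Away g) (FractionRing R) f (max s 2)
  -- the point
  let θ : MvPolynomial (Fin M) A →+* k :=
    φ.comp ((algebraMap D'.Rg (Localization.Away g)).comp D'.q.toRingHom)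
  let j : A →+* k := θ.comp MvPolynomial.C
  let z : Fin M → k := fun i => θ (X i)
  have hθ : ∀ p, θ p = eval₂ j z p := by
    intro p
    have : θ = eval₂Hom j z := by
      refine MvPolynomial.ringHom_ext (fun a => ?_) fun i => ?_
      · rw [coe_eval₂Hom, eval₂_C]; rfl
      · rw [coe_eval₂Hom, eval₂_X]
    rw [this]
    rfl
  have hz : ∀ l, eval₂ j z (D'.F l) = 0 := by
    intro l
    rw [← hθ]
    change φ (algebraMap D'.Rg (Localization.Away g) (D'.q (D'.F l))) = 0
    have h8 : D'.q (D'.F l) = 0 := Ideal.Quotient.eq_zero_iff_mem.mpr (Ideal.subset_span ⟨l, rfl⟩)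
    rw [h8, map_zero, map_zero]
  obtain ⟨w, hw⟩ := asm_exists_point j D' z hz
  have hG' : θ G' ≠ 0 := by
    have h8 : IsUnit (algebraMap D'.Rg (Localization.Away g) g) :=
      IsLocalization.Away.algebraMap_isUnit g
    exact (h8.map φ).ne_zero
  rw [map_mul, map_mul] at hG'
  have hjb : j ⟨b, hbA⟩ ≠ 0 := left_ne_zero_of_mul hG'
  have hwdet : θ (D'.pbrM Y').det ≠ 0 := left_ne_zero_of_mul (right_ne_zero_of_mul hG')
  have hwi : θ (X i₀) ≠ 0 := right_ne_zero_of_mul (right_ne_zero_of_mul hG')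
  -- the graded algebra over the field
  have hOK := h1 k j
  obtain ⟨_⟩ := Dat.nonempty_gradedAlgebra (D'.map j) hOK
  obtain ⟨Q, hQ1, hQ2, hQ3, hQ4⟩ := Dat.exists_bracket (D'.map j) hOK
  have hPM := h2 k j Q hQ1 hQ2 hQ3 hQ4
  have hXgr : ∀ i, (D'.map j).q (X i) ∈ (D'.map j).gr (D'.d i) := fun i =>
    Submodule.mem_map_of_mem (isWeightedHomogeneous_X k (D'.map j).d i)
  have hNV : NV (D'.map j).gr w := by
    refine ⟨D'.d i₀, hOK.pos i₀, _, hXgr i₀, ?_⟩
    have h8 := hw (X i₀)
    rw [map_X] at h8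
    rw [h8, ← hθ]
    exact hwi
  have hYgr : ∀ i, (D'.map j).q (MvPolynomial.map j (Y' i)) ∈ (D'.map j).gr e := by
    intro i
    refine Submodule.mem_map_of_mem ?_
    refine asm_wh_map j (asm_wh_of_map (j := algebraMap A ℂ) Subtype.val_injective ?_)
    rw [hY' i]
    have h8 : (D'.map j).d = D.d := hdD
    rw [h8]
    exact hYh i
  have hn2 : 2 ≤ n := by
    have h8 := hdim
    rw [← hn] at h8
    exact_mod_cast h8
  have hNoe : IsNoe (D'.map j).gr p e fun i => (D'.map j).q (MvPolynomial.map j (Y' i)) := by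
    refine ⟨he, hn2, hYgr, ?_, ?_⟩
    · refine indep_of_det hPM _ w hNV ?_
      rw [asm_det_q (D'.map j) Q hQ1, asm_det_map, hw, ← hθ]
      exact hwdet
    · obtain ⟨S, hS1, hS2⟩ := h3 k j
      exact ⟨S, lt_of_le_of_lt (hS1.trans (le_max_left _ _)) hp, hS2⟩
  obtain ⟨w', hw', d, hd, ψ, hψ1, hψ2, hψ3⟩ := mori k p (by have := le_max_right s 2; omega)
    hpp.ne_zero (D'.map j).Rg (D'.map j).gr Q hPM e n _ hNoe _ (h4 k j hjb)
  refine ⟨A, k, inferInstance, inferInstance, j, d, fun i => ψ ((D'.map j).q (X i)), h7, hd,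
    ?_, ?_, ?_, ?_⟩
  · intro i
    rw [← hdD]
    exact hψ1 _ _ (hXgr i)
  · intro a ha
    by_contra hcon
    push Not at hcon
    obtain ⟨m, hm, r, hr, hne⟩ := hψ2 a ha
    obtain ⟨q, hq, rfl⟩ := hr
    apply hne
    have h8 : (MvPolynomial.eval a).comp ((ψ : (D'.map j).Rg →+* MvPolynomial (Fin 2) k).comp
        ((D'.map j).q : MvPolynomial (Fin M) k →+* (D'.map j).Rg)) =
        eval₂Hom (RingHom.id k) fun i => eval a (ψ ((D'.map j).q (X i))) := by
      refine MvPolynomial.ringHom_ext (fun c => ?_) fun i => ?_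
      · rw [coe_eval₂Hom, eval₂_C]
        have h9 : (D'.map j).q (C c) = algebraMap k _ c := (D'.map j).q.commutes c
        change eval a (ψ ((D'.map j).q (C c))) = _
        rw [h9, AlgHom.commutes]
        exact eval_C c
      · rw [coe_eval₂Hom, eval₂_X]
        rfl
    have h9 := RingHom.congr_fun h8 q
    exact h9.trans (asm_eval_zero (RingHom.id k) hm hq hcon)
  · intro l G hG
    have h8 : G = D'.F l := hinj (by rw [hG, ← hD']; rfl)
    rw [h8]
    have h9 : (aeval fun i => ψ ((D'.map j).q (X i)) :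
        MvPolynomial (Fin M) k →ₐ[k] MvPolynomial (Fin 2) k) = ψ.comp (D'.map j).q := by
      refine MvPolynomial.algHom_ext fun i => ?_
      rw [aeval_X]
      rfl
    rw [h9, AlgHom.comp_apply]
    have h10 : (D'.map j).q (MvPolynomial.map j (D'.F l)) = 0 :=
      Ideal.Quotient.eq_zero_iff_mem.mpr (Ideal.subset_span ⟨l, rfl⟩)
    rw [h10, map_zero]
  · intro G hG
    have h8 : G = F' := hinj (by rw [hG, hF'])
    rw [h8]
    have h9 : (eval fun i => eval ![1, 0] (ψ ((D'.map j).q (X i)))) (MvPolynomial.map j F') =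
        w' ((D'.map j).q (MvPolynomial.map j F')) := by
      have h10 : (w'.comp (D'.map j).q) = aeval fun i => eval ![1, 0] (ψ ((D'.map j).q (X i))) := by
        refine MvPolynomial.algHom_ext fun i => ?_
        rw [aeval_X, hψ3]
        rfl
      rw [← AlgHom.comp_apply, h10]
      rfl
    rw [h9]
    exact hw'

/-- ASM: the final theorem of Part II. -/
theorem exists_isAnch_of_mori (hX : IsContactFano 𝒜 P) (hdim : 2 ≤ Algebra.trdeg ℂ R)
    (mori : ∀ (k : Type) [Field k] [IsAlgClosed k] (p : ℕ) [CharP k p], p ≠ 2 → p ≠ 0 →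
      ∀ (S : Type) [CommRing S] [Algebra k S] (ℬ : ℕ → Submodule k S) [GradedAlgebra ℬ]
        (Q : S →ₗ[k] S →ₗ[k] S), IsPM ℬ Q → ∀ (e n : ℕ) (y : Fin n → S), IsNoe ℬ p e y →
        ∀ f : S, (∃ h, ∃ G : MvPolynomial (Fin n) k, G ≠ 0 ∧ f * h = aeval y G) →
          ∃ w : S →ₐ[k] k, w f ≠ 0 ∧ Hit ℬ w) :
    ∃ (Ω : Type u) (_ : Field Ω) (_ : IsAlgClosed Ω) (_ : Algebra ℂ Ω) (d : ℕ)
      (φ : R →ₐ[ℂ] MvPolynomial (Fin 2) Ω), (d = 1 ∨ d = 2) ∧ IsAnch 𝒜 d φ := by
  classical
  have := hX.domain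
  obtain ⟨M, L, D, ev, hD⟩ := exists_isPres hX
  have hev : (aeval fun i => ev (X i) : MvPolynomial (Fin M) ℂ →ₐ[ℂ] R) = ev :=
    (aeval_unique ev).symm
  refine exists_isAnch_of_reductions (fun i => ev (X i)) D.d hD.ok.pos hD.hom
    (by rw [hev]; exact hD.surj) (Finset.univ.image D.F) ?_ ?_
  · rw [hev, Finset.coe_image, Finset.coe_univ, Set.image_univ]
    ext p
    rw [RingHom.mem_ker]
    exact (hD.ker p).symm
  · intro T F hF
    rw [hev] at hF
    obtain ⟨A, k, ik, ia, j, d, ψ, h1, h2, h3, h4, h5, h6⟩ := asm_reduction hX hdim mori hD T F hF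
    refine ⟨A.toSubring, k, ik, ia, j, d, ψ, h1, h2, h3, h4, ?_, ?_⟩
    · intro G hG
      obtain ⟨l, -, hl⟩ := Finset.mem_image.mp hG
      exact h5 l G hl.symm
    · intro G hG
      exact h6 G hG

end main

end Vale.Agent.P292.Mo
end
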