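import Mathlib
import Vale.Agent.P292.Bdl.B4
import Vale.Agent.P292.Bn.N6
import Vale.Agent.P292.Bn.N2
import Vale.Agent.P292.Bn.N3
import Vale.Agent.P292.Bn.N1

set_option linter.all false

section

/-! Frames at nonvertex points: the differential of any function is a combination of the
Hamiltonian vector fields (Kähler differentials version), and the chart formula for derivations
along a homomorphism. -/

namespace Vale.Agent.P292

open Module
open scoped KaehlerDifferential Pointwise

universe u v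

variable {R : Type u} [CommRing R] [Algebra ℂ R] {𝒜 : ℕ → Submodule ℂ R} [GradedAlgebra 𝒜]
  {P : R →ₗ[ℂ] R →ₗ[ℂ] R}

/-- The pair of a function `δ` and a family `y` is a chart if on the open set `δ ≠ 0` the
Hamiltonian derivations of the `y j` span all derivations. -/
def IsChart (P : R →ₗ[ℂ] R →ₗ[ℂ] R) {N : ℕ} (y : Fin N → R) (δ : R) : Prop :=
  ∃ a : Fin N → Ω[R⁄ℂ], ∀ r, δ • KaehlerDifferential.D ℂ R r = ∑ j, P (y j) r • a j

/-- There is a chart at every nonvertex point. -/
theorem exists_isChart_at (hX : IsContactFano 𝒜 P) {p : R →ₐ[ℂ] ℂ} (hp : ¬ IsVertex 𝒜 p) :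
    ∃ (N : ℕ) (y : Fin N → R) (δ : R), p δ ≠ 0 ∧ IsChart P y δ := by
  classical
  obtain ⟨N, x, y, hx, hxy, hgen⟩ := exists_dual_bases_at hX hp
  have hft := hX.finiteType
  set 𝔪 : Ideal R := RingHom.ker p with h𝔪
  let Dd := KaehlerDifferential.D ℂ R
  let W : Submodule R Ω[R⁄ℂ] := Submodule.span R (Set.range fun i => Dd (x i))
  have hsq : ∀ z ∈ 𝔪 ^ 2, Dd z ∈ 𝔪 • (⊤ : Submodule R Ω[R⁄ℂ]) := by
    intro z hz
    rw [sq] at hz
    refine Submodule.mul_induction_on (C := fun z => Dd z ∈ 𝔪 • (⊤ : Submodule R Ω[R⁄ℂ])) hz ?_ ?_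
    · intro a ha b hb
      rw [Derivation.leibniz]
      exact add_mem (Submodule.smul_mem_smul ha trivial) (Submodule.smul_mem_smul hb trivial)
    · intro a b ha hb
      rw [map_add]
      exact add_mem ha hb
  have hle : (⊤ : Submodule R Ω[R⁄ℂ]) ≤ W ⊔ 𝔪 • ⊤ := by
    rw [← KaehlerDifferential.span_range_derivation, Submodule.span_le,
      KaehlerDifferential.span_range_derivation]
    rintro _ ⟨u, rfl⟩
    have hu : p (u - algebraMap ℂ R (p u)) = 0 := by simp
    have h1 := hsq _ (hgen _ hu)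
    have h2 : Dd u = Dd (u - algebraMap ℂ R (p u) -
        ∑ i, p (P (y i) (u - algebraMap ℂ R (p u))) • x i) +
        ∑ i, p (P (y i) (u - algebraMap ℂ R (p u))) • Dd (x i) := by
      rw [map_sub, map_sub, Derivation.map_algebraMap, sub_zero, map_sum]
      simp only [Derivation.map_smul]
      rw [sub_add_cancel]
    change Dd u ∈ _
    rw [h2, add_comm]
    refine Submodule.add_mem_sup (sum_mem fun i _ => ?_) h1
    rw [← algebraMap_smul R]
    exact Submodule.smul_mem _ _ (Submodule.subset_span ⟨i, rfl⟩)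
  obtain ⟨r, hr, hrW⟩ := Submodule.exists_sub_one_mem_and_smul_le_of_fg_of_le_sup
    (N := W) (Module.Finite.fg_top (R := R) (M := Ω[R⁄ℂ])) le_rfl hle
  have hpr : p r = 1 := by
    have h1 : p (r - 1) = 0 := hr
    rw [map_sub, map_one, sub_eq_zero] at h1
    exact h1
  have hc : ∀ u : R, ∃ c : Fin N → R, r • Dd u = ∑ i, c i • Dd (x i) := by
    intro u
    have h1 : r • Dd u ∈ W := hrW (Submodule.smul_mem_pointwise_smul _ _ _ trivial)
    obtain ⟨c, hc⟩ := (Submodule.mem_span_range_iff_exists_fun R).1 h1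
    exact ⟨c, hc.symm⟩
  choose c hc using hc
  -- the brackets as derivations
  let Py : Fin N → Derivation ℂ R R := fun j => Derivation.mk' (P (y j)) (fun a b => by
    rw [hX.leibniz, smul_eq_mul, smul_eq_mul]
    ring)
  have hPy : ∀ j r, (Py j).liftKaehlerDifferential (Dd r) = P (y j) r := fun j r => by
    rw [Derivation.liftKaehlerDifferential_comp_D]
    rfl
  set A : Matrix (Fin N) (Fin N) R := Matrix.of fun j i => P (y j) (x i) with hA
  have hdet : p A.det = 1 := by
    have h1 : p A.det = (p.toRingHom.mapMatrix A).det := RingHom.map_det p.toRingHom A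
    have h2 : p.toRingHom.mapMatrix A = 1 := by
      ext i j
      simp only [RingHom.mapMatrix_apply, Matrix.map_apply, hA, Matrix.of_apply, Matrix.one_apply]
      exact hxy i j
    rw [h1, h2, Matrix.det_one]
  have hc2 : ∀ u j, r * P (y j) u = ∑ i, A j i * c u i := by
    intro u j
    have h1 := congrArg (Py j).liftKaehlerDifferential (hc u)
    rw [map_smul, map_sum, hPy, smul_eq_mul] at h1
    rw [h1]
    refine Finset.sum_congr rfl fun i _ => ?_
    rw [map_smul, hPy, smul_eq_mul, hA, Matrix.of_apply, mul_comm]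
  have hc3 : ∀ u i, A.det * c u i = ∑ j, A.adjugate i j * (r * P (y j) u) := by
    intro u i
    have h1 : (A.adjugate * A).mulVec (c u) i = A.det * c u i := by
      rw [Matrix.adjugate_mul, Matrix.smul_mulVec, Matrix.one_mulVec, Pi.smul_apply, smul_eq_mul]
    rw [← h1, ← Matrix.mulVec_mulVec, Matrix.mulVec, dotProduct]
    refine Finset.sum_congr rfl fun j _ => ?_
    rw [hc2]
    rfl
  refine ⟨N, y, A.det * r, by rw [map_mul, hdet, hpr, one_mul]; exact one_ne_zero,
    fun j => ∑ i, (A.adjugate i j * r) • Dd (x i), fun u => ?_⟩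
  change (A.det * r) • Dd u = _
  rw [mul_smul, hc, Finset.smul_sum]
  have h1 : ∀ i, A.det • c u i • Dd (x i) =
      ∑ j, P (y j) u • (A.adjugate i j * r) • Dd (x i) := by
    intro i
    rw [smul_smul, hc3, Finset.sum_smul]
    refine Finset.sum_congr rfl fun j _ => ?_
    rw [smul_smul]
    congr 1
    ring
  rw [Finset.sum_congr rfl fun i _ => h1 i, Finset.sum_comm]
  refine Finset.sum_congr rfl fun j _ => ?_
  rw [Finset.smul_sum]

/-- The chart formula for a derivation along a homomorphism. -/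
theorem IsChart.formula {N : ℕ} {y : Fin N → R} {δ : R} (h : IsChart P y δ) {A : Type v}
    [CommRing A] [Algebra ℂ A] (φ : R →ₐ[ℂ] A) (d : R →ₗ[ℂ] A)
    (hd : ∀ a b, d (a * b) = φ a * d b + φ b * d a) :
    ∃ g : Fin N → A, ∀ r, φ δ * d r = ∑ j, g j * φ (P (y j) r) := by
  obtain ⟨a, ha⟩ := h
  let _ : Module R A := Module.compHom A φ.toRingHom
  have hsm : ∀ (r : R) (z : A), r • z = φ r * z := fun _ _ => rfl
  have _ : IsScalarTower ℂ R A := ⟨fun c r z => by
    rw [hsm, hsm, map_smul, smul_mul_assoc]⟩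
  let D' : Derivation ℂ R A := Derivation.mk' d (fun a b => by rw [hsm, hsm]; exact hd a b)
  have hD' : ∀ r, D'.liftKaehlerDifferential (KaehlerDifferential.D ℂ R r) = d r := fun r => by
    rw [Derivation.liftKaehlerDifferential_comp_D]
    rfl
  refine ⟨fun j => D'.liftKaehlerDifferential (a j), fun r => ?_⟩
  have h1 := congrArg D'.liftKaehlerDifferential (ha r)
  rw [map_smul, map_sum, hD', hsm] at h1
  rw [h1]
  refine Finset.sum_congr rfl fun j _ => ?_
  rw [map_smul, hsm, mul_comm]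

end Vale.Agent.P292
end

section

/-! # Very free conics: definitions and homogeneous parts of derivations. -/

namespace Vale.Agent.P292

open MvPolynomial

universe u v w

/-- The conic `φ` is very free: every tangent vector of the cone at a point of the conic is the
value of a section of degree `-1` of the pulled back tangent bundle, that is, of a derivation
along `φ` which maps the elements of degree `k + 1` to forms of degree `2 (k + 1) - 1`. In other
words, the pull back of the tangent bundle by the conic is ample. -/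
def IsVeryFree {R : Type u} [CommRing R] [Algebra ℂ R] (𝒜 : ℕ → Submodule ℂ R)
    (φ : R →ₐ[ℂ] MvPolynomial (Fin 2) ℂ) : Prop :=
  ∀ a : Fin 2 → ℂ, a ≠ 0 → ∀ d : R →ₗ[ℂ] ℂ,
    (∀ r s, d (r * s) = pt φ a r * d s + pt φ a s * d r) →
    ∃ D : R →ₗ[ℂ] MvPolynomial (Fin 2) ℂ, (∀ r s, D (r * s) = φ r * D s + φ s * D r) ∧
      (∀ k, ∀ r ∈ 𝒜 (k + 1), (D r).IsHomogeneous (2 * k + 1)) ∧ ∀ r, eval a (D r) = d r

namespace VF

variable {R : Type u} [CommRing R] [Algebra ℂ R] {𝒜 : ℕ → Submodule ℂ R}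
  {A : Type v} [CommRing A] [Algebra ℂ A] {B : Type w} [CommRing B] [Algebra ℂ B]

/-- `D` is a derivation of degree `K - 1` along `Φ`. -/
structure HD (𝒜 : ℕ → Submodule ℂ R) (Φ : R →ₐ[ℂ] MvPolynomial (Fin 2) A) (K : ℕ)
    (D : R →ₗ[ℂ] MvPolynomial (Fin 2) A) : Prop where
  der : IsDer Φ D
  deg : ∀ k, ∀ r ∈ 𝒜 (k + 1), (D r).IsHomogeneous (2 * k + 1 + K)

theorem isDer_one {E : Type*} [CommRing E] [Algebra ℂ E] {x : R →ₐ[ℂ] E} {δ : R →ₗ[ℂ] E}
    (h : IsDer x δ) : δ 1 = 0 := by
  have h1 := h 1 1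
  simp only [mul_one, map_one, one_mul] at h1
  exact left_eq_add.mp h1

theorem isDer_algebraMap {E : Type*} [CommRing E] [Algebra ℂ E] {x : R →ₐ[ℂ] E} {δ : R →ₗ[ℂ] E}
    (h : IsDer x δ) (c : ℂ) : δ (algebraMap ℂ R c) = 0 := by
  rw [Algebra.algebraMap_eq_smul_one, map_smul, isDer_one h, smul_zero]

theorem HD.smul {Φ : R →ₐ[ℂ] MvPolynomial (Fin 2) A} {K j : ℕ}
    {D : R →ₗ[ℂ] MvPolynomial (Fin 2) A} (h : HD 𝒜 Φ K D) {f : MvPolynomial (Fin 2) A}
    (hf : f.IsHomogeneous j) : HD 𝒜 Φ (j + K) (f • D) where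
  der := (DerAt Φ).smul_mem f h.der
  deg k r hr := by
    have := hf.mul (h.deg k r hr)
    rw [show 2 * k + 1 + (j + K) = j + (2 * k + 1 + K) by ring]
    exact this

theorem HD.add {Φ : R →ₐ[ℂ] MvPolynomial (Fin 2) A} {K : ℕ}
    {D D' : R →ₗ[ℂ] MvPolynomial (Fin 2) A} (h : HD 𝒜 Φ K D) (h' : HD 𝒜 Φ K D') :
    HD 𝒜 Φ K (D + D') where
  der := (DerAt Φ).add_mem h.der h'.der
  deg k r hr := (h.deg k r hr).add (h'.deg k r hr)

theorem HD.sub {Φ : R →ₐ[ℂ] MvPolynomial (Fin 2) A} {K : ℕ}
    {D D' : R →ₗ[ℂ] MvPolynomial (Fin 2) A} (h : HD 𝒜 Φ K D) (h' : HD 𝒜 Φ K D') :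
    HD 𝒜 Φ K (D - D') where
  der := (DerAt Φ).sub_mem h.der h'.der
  deg k r hr := (h.deg k r hr).sub (h'.deg k r hr)

theorem HD.zero {Φ : R →ₐ[ℂ] MvPolynomial (Fin 2) A} {K : ℕ} : HD 𝒜 Φ K 0 where
  der := (DerAt Φ).zero_mem
  deg _ _ _ := isHomogeneous_zero _ _ _

omit [Algebra ℂ A] in
/-- homogeneous component of a product with a form -/
theorem homogeneousComponent_mul_left {m n : ℕ} {p : MvPolynomial (Fin 2) A}
    (hp : p.IsHomogeneous m) (q : MvPolynomial (Fin 2) A) :
    homogeneousComponent (m + n) (p * q) = p * homogeneousComponent n q := by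
  conv_lhs => rw [← sum_homogeneousComponent q]
  rw [Finset.mul_sum, map_sum]
  have h1 : ∀ i, homogeneousComponent (m + n) (p * homogeneousComponent i q) =
      if i = n then p * homogeneousComponent n q else 0 := by
    intro i
    rw [homogeneousComponent_of_mem (hp.mul (homogeneousComponent_isHomogeneous i q))]
    by_cases h : i = n
    · subst h
      simp
    · rw [if_neg h, if_neg (by omega)]
  rw [Finset.sum_congr rfl fun i _ => h1 i]
  by_cases h : n ∈ Finset.range (q.totalDegree + 1)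
  · rw [Finset.sum_ite_eq' _ n, if_pos h]
  · rw [Finset.sum_ite_eq' _ n, if_neg h, homogeneousComponent_eq_zero n q
      (by rw [Finset.mem_range] at h; omega), mul_zero]

/-! ### homogeneous parts -/

/-- auxiliary function for `hp` -/
noncomputable def hpAux (𝒜 : ℕ → Submodule ℂ R) (K : ℕ) (D : R →ₗ[ℂ] MvPolynomial (Fin 2) A) :
    ∀ k, 𝒜 k →ₗ[ℂ] MvPolynomial (Fin 2) A
  | 0 => 0
  | k + 1 => ((homogeneousComponent (2 * k + 1 + K)).restrictScalars ℂ) ∘ₗ D ∘ₗ
      (𝒜 (k + 1)).subtype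

/-- The part of degree `K - 1` of a linear map. -/
noncomputable def hp (𝒜 : ℕ → Submodule ℂ R) [GradedAlgebra 𝒜] (K : ℕ)
    (D : R →ₗ[ℂ] MvPolynomial (Fin 2) A) : R →ₗ[ℂ] MvPolynomial (Fin 2) A :=
  (DirectSum.toModule ℂ ℕ _ (hpAux 𝒜 K D)) ∘ₗ (DirectSum.decomposeLinearEquiv 𝒜).toLinearMap

variable [GradedAlgebra 𝒜]

theorem hp_apply_mem {K : ℕ} {D : R →ₗ[ℂ] MvPolynomial (Fin 2) A} {k : ℕ} {r : R}
    (hr : r ∈ 𝒜 k) : hp 𝒜 K D r = hpAux 𝒜 K D k ⟨r, hr⟩ := by
  unfold hp
  rw [LinearMap.comp_apply]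
  have h1 : (DirectSum.decomposeLinearEquiv 𝒜).toLinearMap r =
      DirectSum.lof ℂ ℕ (fun i => 𝒜 i) k ⟨r, hr⟩ := DirectSum.decompose_of_mem 𝒜 hr
  rw [h1, DirectSum.toModule_lof]

theorem hp_zero {K : ℕ} {D : R →ₗ[ℂ] MvPolynomial (Fin 2) A} {r : R}
    (hr : r ∈ 𝒜 0) : hp 𝒜 K D r = 0 := by
  rw [hp_apply_mem hr]; rfl

theorem hp_succ {K : ℕ} {D : R →ₗ[ℂ] MvPolynomial (Fin 2) A} {k : ℕ} {r : R}
    (hr : r ∈ 𝒜 (k + 1)) : hp 𝒜 K D r = homogeneousComponent (2 * k + 1 + K) (D r) := by
  rw [hp_apply_mem hr]; rfl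

/-- Linear maps which agree on homogeneous elements are equal. -/
theorem ext_graded {M : Type*} [AddCommGroup M] [Module ℂ M] {f g : R →ₗ[ℂ] M}
    (h : ∀ k, ∀ r ∈ 𝒜 k, f r = g r) : f = g := by
  ext r
  refine DirectSum.Decomposition.inductionOn 𝒜 ?_ (fun {i} m => h i m m.2) ?_ r
  · rw [map_zero, map_zero]
  · intro a b ha hb
    rw [map_add, map_add, ha, hb]

theorem hp_add (K : ℕ) (D D' : R →ₗ[ℂ] MvPolynomial (Fin 2) A) :
    hp 𝒜 K (D + D') = hp 𝒜 K D + hp 𝒜 K D' := by
  refine ext_graded (𝒜 := 𝒜) fun k r hr => ?_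
  cases k with
  | zero => rw [LinearMap.add_apply, hp_zero hr, hp_zero hr, hp_zero hr, add_zero]
  | succ k =>
    rw [LinearMap.add_apply, hp_succ hr, hp_succ hr, hp_succ hr, LinearMap.add_apply, map_add]

theorem hp_map_zero (K : ℕ) : hp 𝒜 K (0 : R →ₗ[ℂ] MvPolynomial (Fin 2) A) = 0 := by
  refine ext_graded (𝒜 := 𝒜) fun k r hr => ?_
  cases k with
  | zero => rw [hp_zero hr]; rfl
  | succ k => rw [hp_succ hr, LinearMap.zero_apply, map_zero]

/-- the homogeneous part of a homogeneous derivation -/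
theorem HD.hp_eq (hconn : ∀ r ∈ 𝒜 0, ∃ c : ℂ, r = algebraMap ℂ R c)
    {Φ : R →ₐ[ℂ] MvPolynomial (Fin 2) A} {K : ℕ} {D : R →ₗ[ℂ] MvPolynomial (Fin 2) A}
    (h : HD 𝒜 Φ K D) (K' : ℕ) : hp 𝒜 K' D = if K' = K then D else 0 := by
  refine ext_graded (𝒜 := 𝒜) fun k r hr => ?_
  cases k with
  | zero =>
    obtain ⟨c, rfl⟩ := hconn r hr
    rw [hp_zero hr]
    split_ifs
    · rw [isDer_algebraMap h.der]
    · rfl
  | succ k =>
    rw [hp_succ hr, homogeneousComponent_of_mem (h.deg k r hr)]
    by_cases hK : K' = K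
    · rw [if_pos (by omega), if_pos hK]
    · rw [if_neg (by omega), if_neg hK]; rfl

/-- the homogeneous part of a derivation is a derivation -/
theorem isHD_hp (hconn : ∀ r ∈ 𝒜 0, ∃ c : ℂ, r = algebraMap ℂ R c)
    {Φ : R →ₐ[ℂ] MvPolynomial (Fin 2) A} (hΦ : ∀ k, ∀ r ∈ 𝒜 k, (Φ r).IsHomogeneous (2 * k))
    {D : R →ₗ[ℂ] MvPolynomial (Fin 2) A} (h : IsDer Φ D) (K : ℕ) : HD 𝒜 Φ K (hp 𝒜 K D) where
  deg k r hr := by
    rw [hp_succ hr]
    exact homogeneousComponent_isHomogeneous _ _
  der := by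
    -- reduce to homogeneous elements
    have key : ∀ i, ∀ r ∈ 𝒜 i, ∀ j, ∀ s ∈ 𝒜 j,
        hp 𝒜 K D (r * s) = Φ r * hp 𝒜 K D s + Φ s * hp 𝒜 K D r := by
      intro i r hr j s hs
      cases i with
      | zero =>
        obtain ⟨c, rfl⟩ := hconn r hr
        rw [hp_zero hr, mul_zero, add_zero, ← Algebra.smul_def, map_smul, AlgHom.commutes,
          ← Algebra.smul_def]
      | succ i =>
        cases j with
        | zero =>
          obtain ⟨c, rfl⟩ := hconn s hs
          rw [hp_zero hs, mul_zero, zero_add, mul_comm r, ← Algebra.smul_def, map_smul,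
            AlgHom.commutes, ← Algebra.smul_def]
        | succ j =>
          have hrs : r * s ∈ 𝒜 ((i + j + 1) + 1) := by
            have := SetLike.GradedMul.mul_mem hr hs
            rwa [show (i + 1) + (j + 1) = (i + j + 1) + 1 by ring] at this
          rw [hp_succ hrs, hp_succ hr, hp_succ hs, h r s, map_add]
          rw [show 2 * (i + j + 1) + 1 + K = 2 * (i + 1) + (2 * j + 1 + K) by ring,
            homogeneousComponent_mul_left (hΦ _ r hr)]
          rw [show 2 * (i + 1) + (2 * j + 1 + K) = 2 * (j + 1) + (2 * i + 1 + K) by ring,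
            homogeneousComponent_mul_left (hΦ _ s hs)]
    intro r s
    refine DirectSum.Decomposition.inductionOn 𝒜 ?_ (fun {i} m => ?_) ?_ r
    · simp
    · refine DirectSum.Decomposition.inductionOn 𝒜 ?_ (fun {j} n => key i m m.2 j n n.2) ?_ s
      · simp
      · intro a b ha hb
        rw [mul_add, map_add, map_add, map_add, ha, hb]
        ring
    · intro a b ha hb
      rw [add_mul, map_add, map_add, map_add, ha, hb]
      ring

/-- homogeneous parts and change of coefficients -/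
theorem map_hp (π : A →ₐ[ℂ] B) (K : ℕ) (D : R →ₗ[ℂ] MvPolynomial (Fin 2) A)
    (D' : R →ₗ[ℂ] MvPolynomial (Fin 2) B) (h : ∀ r, map (π : A →+* B) (D r) = D' r) (r : R) :
    map (π : A →+* B) (hp 𝒜 K D r) = hp 𝒜 K D' r := by
  refine DirectSum.Decomposition.inductionOn 𝒜 ?_ (fun {i} m => ?_) ?_ r
  · simp
  · obtain ⟨m, hm⟩ := m
    cases i with
    | zero => rw [hp_zero hm, hp_zero hm, map_zero]
    | succ k =>
      rw [hp_succ hm, hp_succ hm, ← h]
      ext d
      rw [coeff_map, coeff_homogeneousComponent, coeff_homogeneousComponent, coeff_map]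
      split_ifs
      · rfl
      · exact map_zero _
  · intro a b ha hb
    rw [map_add, map_add, map_add, ha, hb]

end VF

end Vale.Agent.P292
end

section

/-! # Very free conics: factorisation of derivations through injective maps. -/

namespace Vale.Agent.P292.VF

open MvPolynomial

universe u v w

variable {R : Type u} [CommRing R] [Algebra ℂ R] {𝒜 : ℕ → Submodule ℂ R}
  {A : Type v} [CommRing A] [Algebra ℂ A]

/-- factorisation through an injective linear map -/
theorem exists_factor {M N Q : Type*} [AddCommGroup M] [Module ℂ M] [AddCommGroup N] [Module ℂ N]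
    [AddCommGroup Q] [Module ℂ Q] (θ : M →ₗ[ℂ] N) (hθ : Function.Injective θ) (D : Q →ₗ[ℂ] N)
    (h : ∀ q, ∃ m, θ m = D q) : ∃ η : Q →ₗ[ℂ] M, ∀ q, θ (η q) = D q := by
  let e := LinearEquiv.ofInjective θ hθ
  let D' : Q →ₗ[ℂ] LinearMap.range θ := D.codRestrict _ (fun q => by
    obtain ⟨m, hm⟩ := h q
    exact ⟨m, hm⟩)
  refine ⟨e.symm.toLinearMap ∘ₗ D', fun q => ?_⟩
  have h1 : (e (e.symm (D' q)) : N) = D' q := by rw [LinearEquiv.apply_symm_apply]
  exact h1

/-- The map `p ↦ ι p` from polynomials with complex coefficients to polynomials with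
coefficients in `A`. -/
noncomputable def theta (ι : A) : MvPolynomial (Fin 2) ℂ →ₗ[ℂ] MvPolynomial (Fin 2) A :=
  (LinearMap.mulLeft ℂ (C ι : MvPolynomial (Fin 2) A)) ∘ₗ
    (mapAlgHom (Algebra.ofId ℂ A) :
      MvPolynomial (Fin 2) ℂ →ₐ[ℂ] MvPolynomial (Fin 2) A).toLinearMap

theorem theta_apply (ι : A) (p : MvPolynomial (Fin 2) ℂ) :
    theta ι p = C ι * map (algebraMap ℂ A) p := rfl

theorem coeff_theta (ι : A) (p : MvPolynomial (Fin 2) ℂ) (e : Fin 2 →₀ ℕ) :
    coeff e (theta ι p) = ι * algebraMap ℂ A (coeff e p) := by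
  rw [theta_apply, coeff_C_mul, coeff_map]

theorem algebraMap_mul_ne_zero {ι : A} (hι : ι ≠ 0) {c : ℂ} (hc : c ≠ 0) :
    ι * algebraMap ℂ A c ≠ 0 := by
  intro h
  apply hι
  calc ι = ι * algebraMap ℂ A c * algebraMap ℂ A c⁻¹ := by
        rw [mul_assoc, ← map_mul, mul_inv_cancel₀ hc, map_one, mul_one]
    _ = 0 := by rw [h, zero_mul]

theorem theta_injective {ι : A} (hι : ι ≠ 0) : Function.Injective (theta ι) := by
  rw [injective_iff_map_eq_zero]
  intro p hp
  ext e
  have h1 : coeff e (theta ι p) = 0 := by rw [hp, coeff_zero]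
  rw [coeff_theta] at h1
  by_contra hne
  exact algebraMap_mul_ne_zero hι hne h1

theorem theta_mul {ι : A} {ρ : A →ₐ[ℂ] ℂ} (hι : ∀ x, ρ x = 0 → ι * x = 0)
    (f : MvPolynomial (Fin 2) A) (p : MvPolynomial (Fin 2) ℂ) :
    theta ι (map (ρ : A →+* ℂ) f * p) = f * theta ι p := by
  have h1 : C ι * map (algebraMap ℂ A) (map (ρ : A →+* ℂ) f) = C ι * f := by
    ext e
    rw [coeff_C_mul, coeff_C_mul, coeff_map, coeff_map, ← sub_eq_zero, ← mul_sub]
    apply hι
    rw [map_sub]
    change ρ (algebraMap ℂ A (ρ (coeff e f))) - ρ (coeff e f) = 0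
    rw [AlgHom.commutes]
    exact sub_self _
  rw [theta_apply, theta_apply, map_mul, ← mul_assoc, h1]
  ring

theorem mem_range_theta {ι : A} {ρ : A →ₐ[ℂ] ℂ} (hι : ∀ x, ρ x = 0 → ι * x = 0)
    (f : MvPolynomial (Fin 2) A) (hf : ∀ e, coeff e f ∈ Ideal.span {ι}) :
    ∃ p, theta ι p = f := by
  choose x hx using fun e => Ideal.mem_span_singleton'.mp (hf e)
  refine ⟨∑ e ∈ f.support, monomial e (ρ (x e)), ?_⟩
  ext e
  rw [coeff_theta, coeff_sum]
  simp only [coeff_monomial]
  rw [Finset.sum_ite_eq' f.support e (fun e => ρ (x e))]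
  split_ifs with h
  · rw [← hx e, mul_comm (x e), ← sub_eq_zero, ← mul_sub]
    apply hι
    rw [map_sub, AlgHom.commutes]
    exact sub_self _
  · rw [map_zero, mul_zero]
    exact (notMem_support_iff.mp h).symm

theorem theta_isHomogeneous_iff {ι : A} (hι : ι ≠ 0) {p : MvPolynomial (Fin 2) ℂ} {n : ℕ} :
    (theta ι p).IsHomogeneous n ↔ p.IsHomogeneous n := by
  constructor
  · intro h e he
    exact h (by rw [coeff_theta]; exact algebraMap_mul_ne_zero hι he)
  · intro h e he
    rw [coeff_theta] at he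
    refine h fun h0 => he ?_
    rw [h0, map_zero, mul_zero]

/-- A derivation with values in `ι A[s, t]` is `ι` times a derivation along the special fibre. -/
theorem exists_theta_factor {ι : A} (hι0 : ι ≠ 0) {ρ : A →ₐ[ℂ] ℂ}
    (hι : ∀ x, ρ x = 0 → ι * x = 0) {Φ : R →ₐ[ℂ] MvPolynomial (Fin 2) A}
    {φ₀ : R →ₐ[ℂ] MvPolynomial (Fin 2) ℂ} (hΦ : ∀ r, map (ρ : A →+* ℂ) (Φ r) = φ₀ r) {K : ℕ}
    {D : R →ₗ[ℂ] MvPolynomial (Fin 2) A} (hD : HD 𝒜 Φ K D)
    (h : ∀ r e, coeff e (D r) ∈ Ideal.span {ι}) :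
    ∃ η : R →ₗ[ℂ] MvPolynomial (Fin 2) ℂ, HD 𝒜 φ₀ K η ∧ ∀ r, theta ι (η r) = D r := by
  obtain ⟨η, hη⟩ := exists_factor (theta ι) (theta_injective hι0) D
    (fun r => mem_range_theta hι (D r) (h r))
  refine ⟨η, ⟨fun r s => ?_, fun k r hr => ?_⟩, hη⟩
  · apply theta_injective hι0
    rw [hη, map_add, ← hΦ r, ← hΦ s, theta_mul hι, theta_mul hι, hη, hη]
    exact hD.der r s
  · rw [← theta_isHomogeneous_iff hι0, hη]
    exact hD.deg k r hr

/-- `ι` times a derivation along the special fibre. -/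
theorem HD.theta {ι : A} {ρ : A →ₐ[ℂ] ℂ} (hι : ∀ x, ρ x = 0 → ι * x = 0)
    {Φ : R →ₐ[ℂ] MvPolynomial (Fin 2) A} {φ₀ : R →ₐ[ℂ] MvPolynomial (Fin 2) ℂ}
    (hΦ : ∀ r, map (ρ : A →+* ℂ) (Φ r) = φ₀ r) {K : ℕ}
    {η : R →ₗ[ℂ] MvPolynomial (Fin 2) ℂ} (hη : HD 𝒜 φ₀ K η) :
    HD 𝒜 Φ K (VF.theta ι ∘ₗ η) where
  der r s := by
    rw [LinearMap.comp_apply, hη.der, map_add, ← hΦ r, ← hΦ s, theta_mul hι, theta_mul hι]
    rfl
  deg k r hr := by
    intro e he
    rw [LinearMap.comp_apply, coeff_theta] at he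
    exact hη.deg k r hr (fun h0 => he (by rw [h0, map_zero, mul_zero]))

omit [Algebra ℂ A] in
/-- If `t ^ M f = s ^ M g` then `s ^ M` divides `f`. -/
theorem exists_X_pow_mul {M : ℕ} {f g : MvPolynomial (Fin 2) A}
    (h : X 1 ^ M * f = X 0 ^ M * g) : ∃ q, X 0 ^ M * q = f := by
  have h1 : (monomial (Finsupp.single 0 M) (1 : A)) ∣ f := by
    rw [monomial_one_dvd_iff_modMonomial_eq_zero]
    ext e
    rw [coeff_zero]
    by_cases he : Finsupp.single 0 M ≤ e
    · exact coeff_modMonomial_of_le _ he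
    · rw [coeff_modMonomial_of_not_le _ he]
      have h2 : coeff (Finsupp.single 1 M + e) (X 1 ^ M * f) = coeff e f := by
        rw [X_pow_eq_monomial, coeff_monomial_mul, one_mul]
      rw [← h2, h, X_pow_eq_monomial, coeff_monomial_mul', if_neg]
      intro h3
      apply he
      rw [Finsupp.single_le_iff] at h3 ⊢
      simpa using h3
  obtain ⟨q, hq⟩ := h1
  exact ⟨q, by rw [X_pow_eq_monomial, hq]⟩

omit [Algebra ℂ A] in
theorem X_pow_mul_injective (i : Fin 2) (M : ℕ) {f g : MvPolynomial (Fin 2) A}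
    (h : X i ^ M * f = X i ^ M * g) : f = g := by
  ext e
  have h2 : ∀ f : MvPolynomial (Fin 2) A,
      coeff (Finsupp.single i M + e) (X i ^ M * f) = coeff e f := fun f => by
    rw [X_pow_eq_monomial, coeff_monomial_mul, one_mul]
  rw [← h2 f, h, h2 g]

/-- Patching of the two charts. -/
theorem exists_patch {Φ : R →ₐ[ℂ] MvPolynomial (Fin 2) A} {M : ℕ}
    {S T : R →ₗ[ℂ] MvPolynomial (Fin 2) A} (hS : HD 𝒜 Φ M S)
    (h : ∀ r, X 1 ^ M * S r = X 0 ^ M * T r) :
    ∃ D : R →ₗ[ℂ] MvPolynomial (Fin 2) A, HD 𝒜 Φ 0 D ∧ ∀ r, X 0 ^ M * D r = S r := by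
  obtain ⟨D, hD⟩ := exists_factor
    (LinearMap.mulLeft ℂ (X 0 ^ M : MvPolynomial (Fin 2) A))
    (fun f g hfg => X_pow_mul_injective 0 M hfg) S (fun r => exists_X_pow_mul (h r))
  have hD' : ∀ r, X 0 ^ M * D r = S r := hD
  refine ⟨D, ⟨fun r s => ?_, fun k r hr => ?_⟩, hD'⟩
  · apply X_pow_mul_injective 0 M
    rw [mul_add, mul_left_comm, hD', hD', hS.der, mul_left_comm, hD']
  · intro e he
    have h1 : coeff (Finsupp.single 0 M + e) (S r) = coeff e (D r) := by
      rw [← hD', X_pow_eq_monomial, coeff_monomial_mul, one_mul]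
    have h2 := hS.deg k r hr (by rw [h1]; exact he)
    rw [map_add] at h2
    have h3 : Finsupp.weight (1 : Fin 2 → ℕ) (Finsupp.single 0 M) = M := by
      rw [Finsupp.weight_single]; simp
    rw [h3] at h2
    omega

end Vale.Agent.P292.VF
end

section

/-! # Very free conics: generation by Hamiltonian derivations. -/

namespace Vale.Agent.P292.VF

open MvPolynomial

universe u v w

variable {R : Type u} [CommRing R] [Algebra ℂ R] {𝒜 : ℕ → Submodule ℂ R}
  {P : R →ₗ[ℂ] R →ₗ[ℂ] R}
  {A : Type v} [CommRing A] [Algebra ℂ A] {B : Type w} [CommRing B] [Algebra ℂ B]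

/-- The span of the Hamiltonian derivations along `Φ`. -/
noncomputable def Ham (P : R →ₗ[ℂ] R →ₗ[ℂ] R) (Φ : R →ₐ[ℂ] MvPolynomial (Fin 2) A) :
    Submodule (MvPolynomial (Fin 2) A) (R →ₗ[ℂ] MvPolynomial (Fin 2) A) :=
  Submodule.span _ (Set.range (hamAt P Φ))

theorem hamAt_mem (Φ : R →ₐ[ℂ] MvPolynomial (Fin 2) A) (r : R) : hamAt P Φ r ∈ Ham P Φ :=
  Submodule.subset_span ⟨r, rfl⟩

theorem isDer_ham {E : Type*} [CommRing E] [Algebra ℂ E]
    (hleib : ∀ a b c, P a (b * c) = P a b * c + b * P a c) (x : R →ₐ[ℂ] E) (r : R) :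
    IsDer x (hamAt P x r) := fun a b => by
  rw [hamAt_apply, hamAt_apply, hamAt_apply, hleib, map_add, map_mul, map_mul]
  ring

theorem Ham_le (hleib : ∀ a b c, P a (b * c) = P a b * c + b * P a c)
    (Φ : R →ₐ[ℂ] MvPolynomial (Fin 2) A) : Ham P Φ ≤ DerAt Φ := by
  unfold Ham
  rw [Submodule.span_le]
  rintro _ ⟨r, rfl⟩
  exact isDer_ham hleib Φ r

theorem exists_ham_lift (π : A →ₐ[ℂ] B) (hπ : Function.Surjective π)
    {Φ : R →ₐ[ℂ] MvPolynomial (Fin 2) A} {Φ' : R →ₐ[ℂ] MvPolynomial (Fin 2) B}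
    (hΦ : ∀ r, map (π : A →+* B) (Φ r) = Φ' r) (D' : R →ₗ[ℂ] MvPolynomial (Fin 2) B)
    (hD' : D' ∈ Ham P Φ') : ∃ D ∈ Ham P Φ, ∀ r, map (π : A →+* B) (D r) = D' r := by
  have hsurj : Function.Surjective (map (π : A →+* B) :
      MvPolynomial (Fin 2) A → MvPolynomial (Fin 2) B) := map_surjective _ hπ
  refine Submodule.span_induction (p := fun D' _ => ∃ D ∈ Ham P Φ, ∀ r,
    map (π : A →+* B) (D r) = D' r) ?_ ?_ ?_ ?_ hD'
  · rintro _ ⟨r, rfl⟩
    exact ⟨hamAt P Φ r, hamAt_mem Φ r, fun s => by rw [hamAt_apply, hamAt_apply, hΦ]⟩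
  · exact ⟨0, (Ham P Φ).zero_mem, fun s => by simp⟩
  · rintro D₁ D₂ _ _ ⟨E₁, h1, h2⟩ ⟨E₂, h3, h4⟩
    exact ⟨E₁ + E₂, (Ham P Φ).add_mem h1 h3, fun s => by
      rw [LinearMap.add_apply, LinearMap.add_apply, map_add, h2, h4]⟩
  · rintro c D₁ _ ⟨E₁, h1, h2⟩
    obtain ⟨c', rfl⟩ := hsurj c
    exact ⟨c' • E₁, (Ham P Φ).smul_mem c' h1, fun s => by
      rw [LinearMap.smul_apply, LinearMap.smul_apply, smul_eq_mul, smul_eq_mul, map_mul, h2]⟩

/-- The points of a curve are not the vertex. -/
theorem not_isVertex_pt {φ₀ : R →ₐ[ℂ] MvPolynomial (Fin 2) ℂ} {d : ℕ} (h0 : IsCurve 𝒜 d φ₀)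
    {a : Fin 2 → ℂ} (ha : a ≠ 0) : ¬ IsVertex 𝒜 (pt φ₀ a) := by
  intro h
  obtain ⟨k, hk, r, hr, hne⟩ := h0.bpf a ha
  exact hne (h k hk r hr)

theorem smul_mem_Ham_of_chart {N : ℕ} {y : Fin N → R} {δ : R} (hc : IsChart P y δ)
    {Φ : R →ₐ[ℂ] MvPolynomial (Fin 2) A} {D : R →ₗ[ℂ] MvPolynomial (Fin 2) A}
    (hD : IsDer Φ D) : Φ δ • D ∈ Ham P Φ := by
  obtain ⟨g, hg⟩ := hc.formula Φ D hD
  have h1 : Φ δ • D = ∑ j, g j • hamAt P Φ (y j) := by
    ext1 r
    rw [LinearMap.smul_apply, smul_eq_mul, hg, LinearMap.sum_apply]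
    rfl
  rw [h1]
  exact Submodule.sum_mem _ fun j _ => Submodule.smul_mem _ _ (hamAt_mem Φ _)

/-- Away from the line `X i = 0` every derivation along `Φ` is a combination of Hamiltonian
derivations. -/
theorem exists_pow_smul_mem_Ham [GradedAlgebra 𝒜] (hX : IsContactFano 𝒜 P)
    {φ₀ : R →ₐ[ℂ] MvPolynomial (Fin 2) ℂ}
    {d : ℕ} (h0 : IsCurve 𝒜 d φ₀) {ρ : A →ₐ[ℂ] ℂ} (hnil : ∀ x, ρ x = 0 → IsNilpotent x)
    {Φ : R →ₐ[ℂ] MvPolynomial (Fin 2) A} (hΦ : ∀ r, map (ρ : A →+* ℂ) (Φ r) = φ₀ r)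
    {D : R →ₗ[ℂ] MvPolynomial (Fin 2) A} (hD : IsDer Φ D) (i : Fin 2) :
    ∃ M₀, ∀ M ≥ M₀, (X i ^ M : MvPolynomial (Fin 2) A) • D ∈ Ham P Φ := by
  let S := MvPolynomial (Fin 2) A
  let J : Ideal S := (Ham P Φ).comap (LinearMap.toSpanSingleton S _ D)
  have hJ : ∀ f : S, f ∈ J ↔ f • D ∈ Ham P Φ := fun f => Iff.rfl
  have hρ : Function.Surjective (ρ : A →+* ℂ) := fun c => ⟨algebraMap ℂ A c, ρ.commutes c⟩
  have hsurj : Function.Surjective (map (ρ : A →+* ℂ) : S →+* MvPolynomial (Fin 2) ℂ) :=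
    map_surjective _ hρ
  let J0 : Ideal (MvPolynomial (Fin 2) ℂ) := J.map (map (ρ : A →+* ℂ))
  have hrad : (X i : MvPolynomial (Fin 2) ℂ) ∈ J0.radical := by
    rw [← vanishingIdeal_zeroLocus_eq_radical (K := ℂ), mem_vanishingIdeal_iff]
    intro x hx
    by_contra hne
    have hx0 : x ≠ 0 := by
      rintro rfl
      simp at hne
    obtain ⟨N, y, δ, hδ, hc⟩ := exists_isChart_at hX (not_isVertex_pt h0 hx0)
    have h1 : Φ δ ∈ J := (hJ _).2 (smul_mem_Ham_of_chart hc hD)
    have h2 : φ₀ δ ∈ J0 := by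
      rw [← hΦ]
      exact Ideal.mem_map_of_mem _ h1
    exact hδ (mem_zeroLocus_iff.mp hx _ h2)
  obtain ⟨N, hN⟩ := hrad
  obtain ⟨f, hf, hfN⟩ := (Ideal.mem_map_iff_of_surjective _ hsurj).mp hN
  have hn : IsNilpotent (X i ^ N - f : S) := by
    rw [MvPolynomial.isNilpotent_iff]
    intro e
    apply hnil
    have h3 : map (ρ : A →+* ℂ) (X i ^ N - f) = 0 := by
      rw [map_sub, hfN, map_pow, map_X, sub_self]
    have h4 := congrArg (coeff e) h3
    rw [coeff_map, coeff_zero] at h4
    exact h4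
  obtain ⟨L, hL⟩ := hn
  have hmem : ((X i : S) ^ N) ^ L ∈ J := by
    rw [← Ideal.Quotient.eq_zero_iff_mem, map_pow]
    have h5 : Ideal.Quotient.mk J (X i ^ N) = Ideal.Quotient.mk J (X i ^ N - f) := by
      rw [map_sub, Ideal.Quotient.eq_zero_iff_mem.mpr hf, sub_zero]
    rw [h5, ← map_pow, hL, map_zero]
  refine ⟨N * L, fun M hM => (hJ _).1 ?_⟩
  obtain ⟨c, rfl⟩ := Nat.exists_eq_add_of_le hM
  rw [pow_add, pow_mul]
  exact J.mul_mem_right _ hmem

end Vale.Agent.P292.VF
end

section

/-! # One very free conic: Poisson simplicity of the product of two cones. -/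

namespace Vale.Agent.P292.VF

open Module TensorProduct Vale.Agent.P292

universe u

variable {R : Type u} [CommRing R] [Algebra ℂ R] {𝒜 : ℕ → Submodule ℂ R} [GradedAlgebra 𝒜]
  {P : R →ₗ[ℂ] R →ₗ[ℂ] R}

/-- The value of an element of `A ⊗ B` at a point of the second factor. -/
noncomputable def evRight {A : Type u} {B : Type u} [CommRing A] [CommRing B] [Algebra ℂ A]
    [Algebra ℂ B] (q : B →ₐ[ℂ] ℂ) : A ⊗[ℂ] B →ₐ[ℂ] A :=
  Algebra.TensorProduct.lift (AlgHom.id ℂ A) ((Algebra.ofId ℂ A).comp q)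
    (fun _ _ => Commute.all _ _)

theorem evRight_surjective {A : Type u} {B : Type u} [CommRing A] [CommRing B] [Algebra ℂ A]
    [Algebra ℂ B] (q : B →ₐ[ℂ] ℂ) : Function.Surjective (evRight q : A ⊗[ℂ] B →ₐ[ℂ] A) :=
  fun a => ⟨a ⊗ₜ 1, by simp [evRight]⟩

theorem evLeft_surjective {A : Type u} {B : Type u} [CommRing A] [CommRing B] [Algebra ℂ A]
    [Algebra ℂ B] (p : A →ₐ[ℂ] ℂ) : Function.Surjective (evLeft p : A ⊗[ℂ] B →ₐ[ℂ] B) :=
  fun a => ⟨1 ⊗ₜ a, by simp [evLeft]⟩

/-- An element of `A ⊗ B` which vanishes at all points of the first factor is zero. -/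
theorem eq_zero_of_evLeft {A : Type u} {B : Type u} [CommRing A] [IsDomain A] [Algebra ℂ A]
    [Algebra.FiniteType ℂ A] [CommRing B] [Algebra ℂ B] {F : A ⊗[ℂ] B}
    (h : ∀ p : A →ₐ[ℂ] ℂ, evLeft p F = (0 : B)) : F = 0 := by
  classical
  let b := Basis.ofVectorSpace ℂ B
  let bA := Algebra.TensorProduct.basis A b
  have key : ∀ (p : A →ₐ[ℂ] ℂ) (f : A ⊗[ℂ] B), ∀ i,
      b.repr (evLeft p f) i = p (bA.repr f i) := by
    intro p f i
    induction f using TensorProduct.induction_on with
    | zero => simp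
    | tmul a x =>
      rw [Algebra.TensorProduct.basis_repr_tmul]
      simp [evLeft, Algebra.ofId_apply, ← Algebra.smul_def]
    | add x y hx hy => simp [hx, hy]
  refine bA.repr.injective (Finsupp.ext fun i => ?_)
  rw [map_zero, Finsupp.zero_apply]
  by_contra hne
  obtain ⟨p, hp⟩ := VF.exists_point_ne_zero hne
  exact hp (by rw [← key, h, map_zero, Finsupp.zero_apply])

theorem lift_eq_evRight {p q : R →ₐ[ℂ] ℂ} (F : R ⊗[ℂ] R) :
    Algebra.TensorProduct.lift p q (fun _ _ => Commute.all _ _) F = p (evRight q F) := by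
  induction F using TensorProduct.induction_on with
  | zero => simp
  | tmul a b => simp [evRight, Algebra.ofId_apply]
  | add x y hx hy => rw [map_add, hx, hy, map_add, map_add]

theorem lift_eq_evLeft {p q : R →ₐ[ℂ] ℂ} (F : R ⊗[ℂ] R) :
    Algebra.TensorProduct.lift p q (fun _ _ => Commute.all _ _) F = q (evLeft p F) := by
  induction F using TensorProduct.induction_on with
  | zero => simp
  | tmul a b => simp [evLeft, Algebra.ofId_apply]
  | add x y hx hy => rw [map_add, hx, hy, map_add, map_add]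

theorem evRight_map (q : R →ₐ[ℂ] ℂ) (a : R) (F : R ⊗[ℂ] R) :
    evRight q (TensorProduct.map (P a) LinearMap.id F) = P a (evRight q F : R) := by
  induction F using TensorProduct.induction_on with
  | zero => simp
  | tmul r s =>
    simp only [TensorProduct.map_tmul, LinearMap.id_coe, id_eq]
    simp [evRight, Algebra.ofId_apply, mul_comm _ (algebraMap ℂ R _), ← Algebra.smul_def]
  | add x y hx hy => simp only [map_add, hx, hy]

theorem evLeft_map (p : R →ₐ[ℂ] ℂ) (a : R) (F : R ⊗[ℂ] R) :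
    evLeft p (TensorProduct.map LinearMap.id (P a) F) = P a (evLeft p F : R) := by
  induction F using TensorProduct.induction_on with
  | zero => simp
  | tmul r s =>
    simp only [TensorProduct.map_tmul, LinearMap.id_coe, id_eq]
    simp [evLeft, Algebra.ofId_apply, ← Algebra.smul_def]
  | add x y hx hy => simp only [map_add, hx, hy]

/-- A subspace of `R ⊗ R` stable under the Hamiltonian derivations in both variables, all of
whose elements vanish at a pair of nonvertex points, is zero. -/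
theorem simp_tensor (hX : IsContactFano 𝒜 P) {p q : R →ₐ[ℂ] ℂ} (hp : ¬ IsVertex 𝒜 p)
    (hq : ¬ IsVertex 𝒜 q) (N : Submodule ℂ (R ⊗[ℂ] R))
    (h1 : ∀ a, ∀ F ∈ N, TensorProduct.map (P a) LinearMap.id F ∈ N)
    (h2 : ∀ a, ∀ F ∈ N, TensorProduct.map LinearMap.id (P a) F ∈ N)
    (h0 : ∀ F ∈ N, Algebra.TensorProduct.lift p q (fun _ _ => Commute.all _ _) F = 0) :
    N = ⊥ := by
  have := hX.domain
  have := hX.finiteType
  -- first variable
  have hder1 : ∀ a (F G : R ⊗[ℂ] R), TensorProduct.map (P a) LinearMap.id (F * G) =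
      TensorProduct.map (P a) LinearMap.id F * G + F * TensorProduct.map (P a) LinearMap.id G := by
    intro a F G
    induction F using TensorProduct.induction_on with
    | zero => simp
    | tmul r s =>
      induction G using TensorProduct.induction_on with
      | zero => simp
      | tmul r' s' =>
        simp only [Algebra.TensorProduct.tmul_mul_tmul, TensorProduct.map_tmul, LinearMap.id_coe,
          id_eq, hX.leibniz, TensorProduct.add_tmul]
      | add x y hx hy => simp only [mul_add, map_add, hx, hy]; ring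
    | add x y hx hy => simp only [add_mul, map_add, hx, hy]; ring
  have hder2 : ∀ a (F G : R ⊗[ℂ] R), TensorProduct.map LinearMap.id (P a) (F * G) =
      TensorProduct.map LinearMap.id (P a) F * G + F * TensorProduct.map LinearMap.id (P a) G := by
    intro a F G
    induction F using TensorProduct.induction_on with
    | zero => simp
    | tmul r s =>
      induction G using TensorProduct.induction_on with
      | zero => simp
      | tmul r' s' =>
        simp only [Algebra.TensorProduct.tmul_mul_tmul, TensorProduct.map_tmul, LinearMap.id_coe,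
          id_eq, hX.leibniz, TensorProduct.tmul_add]
      | add x y hx hy => simp only [mul_add, map_add, hx, hy]; ring
    | add x y hx hy => simp only [add_mul, map_add, hx, hy]; ring
  let I : Ideal (R ⊗[ℂ] R) := Ideal.span (N : Set (R ⊗[ℂ] R))
  have hI1 : ∀ a, ∀ F ∈ I, TensorProduct.map (P a) LinearMap.id F ∈ I := by
    intro a F hF
    induction hF using Submodule.span_induction with
    | mem F hF => exact Ideal.subset_span (h1 a F hF)
    | zero => rw [map_zero]; exact zero_mem _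
    | add F G _ _ hF hG => rw [map_add]; exact add_mem hF hG
    | smul c F hF' hF =>
      rw [smul_eq_mul, hder1]
      exact add_mem (I.mul_mem_left _ hF') (I.mul_mem_left _ hF)
  have hI2 : ∀ a, ∀ F ∈ I, TensorProduct.map LinearMap.id (P a) F ∈ I := by
    intro a F hF
    induction hF using Submodule.span_induction with
    | mem F hF => exact Ideal.subset_span (h2 a F hF)
    | zero => rw [map_zero]; exact zero_mem _
    | add F G _ _ hF hG => rw [map_add]; exact add_mem hF hG
    | smul c F hF' hF =>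
      rw [smul_eq_mul, hder2]
      exact add_mem (I.mul_mem_left _ hF') (I.mul_mem_left _ hF)
  have hI0 : ∀ F ∈ I, Algebra.TensorProduct.lift p q (fun _ _ => Commute.all _ _) F = 0 := by
    intro F hF
    have : I ≤ RingHom.ker (Algebra.TensorProduct.lift p q (fun _ _ => Commute.all _ _)) :=
      Ideal.span_le.2 fun F hF => h0 F hF
    exact this hF
  -- the second point
  have hA : ∀ F ∈ I, evRight q F = (0 : R) := by
    have hJ : Ideal.map (evRight q : R ⊗[ℂ] R →ₐ[ℂ] R) I = ⊥ := by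
      refine poisson_simple hX hp _ ?_ ?_
      · intro b u hu
        obtain ⟨F, hF, rfl⟩ := (Ideal.mem_map_iff_of_surjective _ (evRight_surjective q)).1 hu
        rw [← evRight_map]
        exact Ideal.mem_map_of_mem _ (hI1 b F hF)
      · intro u hu
        obtain ⟨F, hF, rfl⟩ := (Ideal.mem_map_iff_of_surjective _ (evRight_surjective q)).1 hu
        rw [← lift_eq_evRight]
        exact hI0 F hF
    intro F hF
    have := Ideal.mem_map_of_mem (evRight q : R ⊗[ℂ] R →ₐ[ℂ] R) hF
    rwa [hJ, Ideal.mem_bot] at this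
  -- every point of the first factor
  have hB : ∀ p' : R →ₐ[ℂ] ℂ, ∀ F ∈ I, evLeft p' F = (0 : R) := by
    intro p'
    have hJ : Ideal.map (evLeft p' : R ⊗[ℂ] R →ₐ[ℂ] R) I = ⊥ := by
      refine poisson_simple hX hq _ ?_ ?_
      · intro b u hu
        obtain ⟨F, hF, rfl⟩ := (Ideal.mem_map_iff_of_surjective _ (evLeft_surjective p')).1 hu
        rw [← evLeft_map]
        exact Ideal.mem_map_of_mem _ (hI2 b F hF)
      · intro u hu
        obtain ⟨F, hF, rfl⟩ := (Ideal.mem_map_iff_of_surjective _ (evLeft_surjective p')).1 hu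
        rw [← lift_eq_evLeft, lift_eq_evRight, hA F hF, map_zero]
    intro F hF
    have := Ideal.mem_map_of_mem (evLeft p' : R ⊗[ℂ] R →ₐ[ℂ] R) hF
    rwa [hJ, Ideal.mem_bot] at this
  rw [eq_bot_iff]
  intro F hF
  exact eq_zero_of_evLeft fun p' => hB p' F (Ideal.subset_span hF)

end Vale.Agent.P292.VF
end

section

/-!
# P292, step 3: trivial inertia and stability under the Hamiltonian derivations

Part 1: extension of the chart formula from `R` to integral elements.
Part 2: primes over a prime, contained in a given prime (Galois case, elementary).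
Part 3: the 1-jet argument: trivial inertia.
Part 4: an element `θ` with `F'(θ)` outside of a prime with trivial inertia, and derivations.
-/

namespace Vale.Agent.P292.Inertia

open Polynomial

/-! ### Part 1 -/

/-- derivative of the value of a polynomial. -/
theorem d_eval₂ {R T : Type*} [CommRing R] [CommRing T] (φ : R →+* T) (c : T)
    (d : T →+ T) (hd : ∀ x y, d (x * y) = x * d y + y * d x) (f : R[X]) :
    d (f.eval₂ φ c) = f.sum (fun k a => c ^ k * d (φ a)) + f.derivative.eval₂ φ c * d c := by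
  have hd1 : d 1 = 0 := by
    have := hd 1 1
    simp only [mul_one, one_mul] at this
    exact left_eq_add.1 this
  have hpow : ∀ n : ℕ, d (c ^ n) = n * c ^ (n - 1) * d c := by
    intro n
    induction n with
    | zero => simp [hd1]
    | succ n ih =>
      rw [pow_succ, hd, ih]
      rcases n with _ | n
      · simp
      · simp only [Nat.add_sub_cancel, Nat.cast_add, Nat.cast_one]
        ring
  induction f using Polynomial.induction_on' with
  | add p q hp hq =>
    rw [eval₂_add, map_add, hp, hq, derivative_add, eval₂_add,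
      sum_add_index p q _ (fun k => by simp) (fun k a b => by simp [mul_add])]
    ring
  | monomial n a =>
    rw [eval₂_monomial, hd, hpow, derivative_monomial, eval₂_monomial,
      sum_monomial_index a (fun k a => c ^ k * d (φ a)) (by simp), map_mul, map_natCast]
    ring

/-- the chart formula extends to integral elements. -/
theorem chart_ext {R S L A ι : Type*} [CommRing R] [CommRing S] [CommRing L] [CommRing A]
    [IsDomain A] [Algebra R S] [Algebra S L] [Algebra R L] [IsScalarTower R S L] [Fintype ι]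
    (hSL : Function.Injective (algebraMap S L))
    (lam : S →+* A)
    (d : A →+ A) (hd : ∀ x y, d (x * y) = x * d y + y * d x)
    (E : ι → L →+ L) (hE : ∀ j x y, E j (x * y) = x * E j y + y * E j x)
    (ER : ι → R → R) (hER : ∀ j r, E j (algebraMap R L r) = algebraMap R L (ER j r))
    (δ : A) (g : ι → A)
    (hchart : ∀ r : R, δ * d (lam (algebraMap R S r)) =
      ∑ j, g j * lam (algebraMap R S (ER j r)))
    {c : S} (f : R[X]) (hf : aeval c f = 0) (hne : lam (aeval c (derivative f)) ≠ 0)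
    (e : ι → S) (he : ∀ j, E j (algebraMap S L c) = algebraMap S L (e j)) :
    δ * d (lam c) = ∑ j, g j * lam (e j) := by
  classical
  -- the equation in `A`
  have h1 : f.sum (fun k a => lam c ^ k * d (lam (algebraMap R S a))) +
      lam (aeval c (derivative f)) * d (lam c) = 0 := by
    have := d_eval₂ (lam.comp (algebraMap R S)) (lam c) d hd f
    have e1 : f.eval₂ (lam.comp (algebraMap R S)) (lam c) = lam (aeval c f) := by
      rw [aeval_def, hom_eval₂]
    have e2 : (derivative f).eval₂ (lam.comp (algebraMap R S)) (lam c) =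
        lam (aeval c (derivative f)) := by
      rw [aeval_def, hom_eval₂]
    rw [e1, e2, hf, map_zero, map_zero] at this
    simpa using this.symm
  -- the equations in `S`
  have h2 : ∀ j, f.sum (fun k a => c ^ k * algebraMap R S (ER j a)) +
      aeval c (derivative f) * e j = 0 := by
    intro j
    apply hSL
    have := d_eval₂ (algebraMap R L) (algebraMap S L c) (E j) (hE j) f
    have e1 : f.eval₂ (algebraMap R L) (algebraMap S L c) = algebraMap S L (aeval c f) := by
      rw [aeval_def, hom_eval₂, IsScalarTower.algebraMap_eq R S L]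
    have e2 : (derivative f).eval₂ (algebraMap R L) (algebraMap S L c) =
        algebraMap S L (aeval c (derivative f)) := by
      rw [aeval_def, hom_eval₂, IsScalarTower.algebraMap_eq R S L]
    rw [e1, e2, hf, map_zero, map_zero, he] at this
    rw [map_add, map_mul, map_zero, this, Polynomial.sum_def, Polynomial.sum_def, map_sum]
    congr 1
    refine Finset.sum_congr rfl fun k _ => ?_
    rw [map_mul, map_pow, hER, ← IsScalarTower.algebraMap_apply R S L]
  have h3 : ∀ j, f.sum (fun k a => lam c ^ k * lam (algebraMap R S (ER j a))) =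
      - (lam (aeval c (derivative f)) * lam (e j)) := by
    intro j
    have := congrArg lam (h2 j)
    rw [map_add, map_mul, map_zero, Polynomial.sum_def, map_sum] at this
    rw [eq_neg_iff_add_eq_zero, ← this, Polynomial.sum_def]
    congr 1
    refine Finset.sum_congr rfl fun k _ => ?_
    rw [map_mul, map_pow]
  apply mul_left_cancel₀ hne
  have h4 : δ * f.sum (fun k a => lam c ^ k * d (lam (algebraMap R S a))) =
      ∑ j, g j * f.sum (fun k a => lam c ^ k * lam (algebraMap R S (ER j a))) := by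
    simp only [Polynomial.sum_def, Finset.mul_sum]
    rw [Finset.sum_comm]
    refine Finset.sum_congr rfl fun k _ => ?_
    calc δ * (lam c ^ k * d (lam (algebraMap R S (f.coeff k))))
        = lam c ^ k * (δ * d (lam (algebraMap R S (f.coeff k)))) := by ring
      _ = ∑ j, g j * (lam c ^ k * lam (algebraMap R S (ER j (f.coeff k)))) := by
          rw [hchart, Finset.mul_sum]
          exact Finset.sum_congr rfl fun j _ => by ring
  have h5 : ∑ j, g j * f.sum (fun k a => lam c ^ k * lam (algebraMap R S (ER j a))) =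
      - ∑ j, lam (aeval c (derivative f)) * (g j * lam (e j)) := by
    rw [← Finset.sum_neg_distrib]
    refine Finset.sum_congr rfl fun j _ => ?_
    rw [h3]
    ring
  rw [Finset.mul_sum]
  have h6 := congrArg (fun z => δ * z) h1
  simp only [mul_add, mul_zero] at h6
  rw [h4, h5] at h6
  linear_combination h6

/-- an annihilating polynomial with nonvanishing derivative. -/
theorem exists_sep {R S : Type*} [CommRing R] [IsDomain R] [IsIntegrallyClosed R] [CommRing S]
    [IsDomain S] [Algebra R S] [Module.IsTorsionFree R S] [CharZero R] {c : S}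
    (hc : IsIntegral R c) :
    ∃ f : R[X], aeval c f = 0 ∧ aeval c (derivative f) ≠ 0 := by
  refine ⟨minpoly R c, minpoly.aeval R c, fun h => ?_⟩
  have hpos : 0 < (minpoly R c).natDegree := minpoly.natDegree_pos hc
  have hne : derivative (minpoly R c) ≠ 0 := by
    intro h0
    have := derivative_eq_zero.1 h0
    omega
  have h1 := minpoly.IsIntegrallyClosed.degree_le_of_ne_zero (s := c) hne h
  exact absurd (degree_derivative_lt (minpoly.ne_zero hc)) (not_lt.2 h1)

/-! ### Part 2 -/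

/-- going down in the Galois case. -/
theorem exists_smul_le {R S G : Type*} [CommRing R] [CommRing S] [Algebra R S] [Group G]
    [Finite G] [MulSemiringAction G S] [Algebra.IsInvariant R S G] (P Q : Ideal S)
    [Q.IsPrime]
    (h : ∀ r : R, algebraMap R S r ∈ P → algebraMap R S r ∈ Q) :
    ∃ g : G, ∀ x ∈ P, g • x ∈ Q := by
  classical
  have := Fintype.ofFinite G
  by_contra hcon
  push Not at hcon
  have h1 : ¬ ((P : Set S) ⊆ ⋃ g ∈ ((Finset.univ : Finset G) : Set G),
      ((Q.comap (MulSemiringAction.toRingHom G S g) : Ideal S) : Set S)) := by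
    rw [Ideal.subset_union_prime (1 : G) (1 : G) (fun g _ _ _ => inferInstance)]
    rintro ⟨g, -, hg⟩
    obtain ⟨x, hxP, hxQ⟩ := hcon g
    exact hxQ (hg hxP)
  obtain ⟨x, hxP, hx⟩ := Set.not_subset.1 h1
  simp only [Finset.coe_univ, Set.mem_univ, Set.iUnion_true, Set.mem_iUnion, not_exists] at hx
  obtain ⟨a, ha⟩ := Algebra.IsInvariant.isInvariant (A := R) (G := G) (∏ g : G, g • x) (by
    intro g
    rw [Finset.smul_prod']
    refine Fintype.prod_equiv (Equiv.mulLeft g) _ _ fun y => ?_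
    rw [smul_smul]
    rfl)
  have haP : algebraMap R S a ∈ P := by
    rw [ha, ← Finset.mul_prod_erase Finset.univ (fun g : G => g • x) (Finset.mem_univ 1),
      one_smul]
    exact P.mul_mem_right _ hxP
  have haQ := h a haP
  rw [ha] at haQ
  obtain ⟨g, -, hg⟩ := (Ideal.IsPrime.prod_mem_iff (p := Q)).1 haQ
  exact hx g hg

/-! ### Part 3 -/

universe u v w

/-- A curve meeting the zero set of `p`, along which the elements of `B` are determined by their
1-jet at the point of intersection: `A` is the ring of polynomials in the two coordinates, `d k`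
the derivatives with respect to the coordinates, `q` the ideal of the point, `δ` and `g` the chart
formula. -/
structure JetLine {R : Type*} {S : Type*} [CommRing R] [CommRing S] [Algebra R S]
    {ι : Type*} (ER : ι → R → R) (B : Set S) (p : Ideal R) where
  A : Type u
  [ring : CommRing A]
  [dom : IsDomain A]
  lam : S →+* A
  root : ∀ b ∈ B, ∃ f : R[X], aeval b f = 0 ∧ lam (aeval b (derivative f)) ≠ 0
  κ : Type
  d : κ → A →+ A
  leib : ∀ k x y, d k (x * y) = x * d k y + y * d k x
  q : Ideal A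
  [prime : q.IsPrime]
  mem_q : ∀ r ∈ p, lam (algebraMap R S r) ∈ q
  δ : A
  hδ : δ ∉ q
  N : ℕ
  y : Fin N → ι
  g : κ → Fin N → A
  chart : ∀ k, ∀ r : R, δ * d k (lam (algebraMap R S r)) =
      ∑ j, g k j * lam (algebraMap R S (ER (y j) r))
  jet : ∀ b ∈ B, ∀ b' ∈ B, (∀ k, d k (lam b - lam b') ∈ q) → b = b'

attribute [instance] JetLine.ring JetLine.dom JetLine.prime

/-- an element of the inertia group of a prime over `p` fixes all elements of `B`. -/
theorem inertia_fix {R S L ι G : Type*} [CommRing R] [CommRing S] [CommRing L] [Algebra R S]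
    [Algebra S L] [Algebra R L] [IsScalarTower R S L]
    [Group G] [Finite G] [MulSemiringAction G S] [MulSemiringAction G L]
    [Algebra.IsInvariant R S G]
    (hSL : Function.Injective (algebraMap S L))
    (hG : ∀ (g : G) (x : S), algebraMap S L (g • x) = g • algebraMap S L x)
    (E : ι → L →+ L) (hE : ∀ j x y, E j (x * y) = x * E j y + y * E j x)
    (hEG : ∀ j (g : G) x, E j (g • x) = g • E j x)
    (ER : ι → R → R) (hER : ∀ j r, E j (algebraMap R L r) = algebraMap R L (ER j r))
    {B : Set S} (hB : ∀ (g : G), ∀ b ∈ B, g • b ∈ B)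
    (hBE : ∀ b ∈ B, ∀ j, ∃ e : S, E j (algebraMap S L b) = algebraMap S L e)
    (P : Ideal S) {p : Ideal R} (hp : ∀ r : R, algebraMap R S r ∈ P → r ∈ p)
    (J : JetLine.{u} ER B p) (σ : G) (hσ : ∀ x : S, σ • x - x ∈ P) (b : S) (hb : b ∈ B) :
    σ • b = b := by
  classical
  obtain ⟨τ, hτ⟩ := exists_smul_le (R := R) (G := G) P (J.q.comap J.lam)
    (fun r hr => J.mem_q r (hp r hr))
  choose e he using hBE b hb
  have hchart : ∀ (b' : S) (hb' : b' ∈ B) (e' : ι → S)
      (_ : ∀ j, E j (algebraMap S L b') = algebraMap S L (e' j)) (k : J.κ),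
      J.δ * J.d k (J.lam b') = ∑ j, J.g k j * J.lam (e' (J.y j)) := by
    intro b' hb' e' he' k
    obtain ⟨f, hf, hf'⟩ := J.root b' hb'
    exact chart_ext hSL J.lam (J.d k) (J.leib k) (fun j => E (J.y j)) (fun j => hE (J.y j))
      (fun j => ER (J.y j)) (fun j => hER (J.y j)) J.δ (J.g k) (J.chart k)
      f hf hf' (fun j => e' (J.y j)) (fun j => he' (J.y j))
  have key : τ • σ • b = τ • b := by
    refine J.jet _ (hB _ _ (hB _ _ hb)) _ (hB _ _ hb) fun k => ?_
    have h1 := hchart (τ • σ • b) (hB _ _ (hB _ _ hb)) (fun j => τ • σ • e j) (fun j => by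
      rw [hG, hG, hEG, hEG, he, hG, hG]) k
    have h2 := hchart (τ • b) (hB _ _ hb) (fun j => τ • e j) (fun j => by
      rw [hG, hEG, he, hG]) k
    have h3 : J.δ * J.d k (J.lam (τ • σ • b) - J.lam (τ • b)) ∈ J.q := by
      have h4 : J.δ * J.d k (J.lam (τ • σ • b) - J.lam (τ • b)) =
          ∑ j, J.g k j * J.lam (τ • (σ • e (J.y j) - e (J.y j))) := by
        rw [map_sub, mul_sub, h1, h2, ← Finset.sum_sub_distrib]
        refine Finset.sum_congr rfl fun j _ => ?_
        rw [smul_sub, map_sub]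
        ring
      rw [h4]
      refine J.q.sum_mem fun j _ => J.q.mul_mem_left _ ?_
      exact hτ _ (hσ _)
    exact (J.prime.mem_or_mem h3).resolve_left J.hδ
  exact smul_left_cancel τ key

end Vale.Agent.P292.Inertia
end

section

/-!
# P292, step 3: stability of the integral closure under the derivations of `R`

From trivial inertia at the height one primes to stability under all derivations preserving `R`.
-/

namespace Vale.Agent.P292.Inertia

open Polynomial

universe u v w

/-! ### Part 4 -/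

/-- an element separated from its conjugates modulo a prime with trivial inertia. -/
theorem exists_theta {k S G : Type*} [Field k] [Infinite k] [CommRing S] [Algebra k S]
    [Group G] [Finite G] [MulSemiringAction G S] [SMulCommClass G k S] (P : Ideal S)
    (h : ∀ g : G, g ≠ 1 → ∃ x : S, g • x - x ∉ P) :
    ∃ θ : S, ∀ g : G, g ≠ 1 → g • θ - θ ∉ P := by
  classical
  let V : {g : G // g ≠ 1} → Submodule k S := fun g =>
    { carrier := {x | g.1 • x - x ∈ P}
      zero_mem' := by simp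
      add_mem' := by
        intro a b ha hb
        change g.1 • (a + b) - (a + b) ∈ P
        have : g.1 • (a + b) - (a + b) = (g.1 • a - a) + (g.1 • b - b) := by
          rw [smul_add]; ring
        rw [this]
        exact P.add_mem ha hb
      smul_mem' := by
        intro c a ha
        change g.1 • (c • a) - c • a ∈ P
        rw [smul_comm, ← smul_sub, Algebra.smul_def]
        exact P.mul_mem_left _ ha }
  obtain ⟨θ, hθ⟩ := Submodule.exists_forall_notMem_of_forall_ne_top V (by
    rintro ⟨g, hg⟩ htop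
    obtain ⟨x, hx⟩ := h g hg
    have : x ∈ V ⟨g, hg⟩ := by rw [htop]; trivial
    exact hx this)
  exact ⟨θ, fun g hg => hθ ⟨g, hg⟩⟩

section lagrange

variable {R S G : Type*} [CommRing R] [CommRing S] [Algebra R S] [Group G]
  [Fintype G] [DecidableEq G] [MulSemiringAction G S] [Algebra.IsInvariant R S G]

omit [Fintype G] [DecidableEq G] in
/-- polynomials with invariant coefficients come from `R`. -/
theorem exists_of_invariant (p : S[X])
    (hp : ∀ g : G, p.map (MulSemiringAction.toRingHom G S g) = p) :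
    ∃ q : R[X], q.map (algebraMap R S) = p := by
  have : p ∈ Polynomial.lifts (algebraMap R S) := by
    rw [Polynomial.lifts_iff_coeff_lifts]
    intro n
    obtain ⟨a, ha⟩ := Algebra.IsInvariant.isInvariant (A := R) (G := G) (p.coeff n) (by
      intro g
      have := congrArg (fun r => r.coeff n) (hp g)
      rw [coeff_map] at this
      exact this)
    exact ⟨a, ha⟩
  rw [Polynomial.mem_lifts] at this
  exact this

/-- Lagrange interpolation: `u x` is a polynomial in `θ` with coefficients in `R`. -/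
theorem exists_lagrange (θ x : S) :
    ∃ q : R[X], aeval θ q = (∏ h ∈ Finset.univ.erase (1 : G), (θ - h • θ)) * x := by
  obtain ⟨q, hq⟩ := exists_of_invariant (R := R) (G := G)
    (∑ g : G, C (g • x) * ∏ h ∈ Finset.univ.erase g, (X - C (h • θ))) (by
    intro k
    rw [Polynomial.map_sum]
    refine Fintype.sum_equiv (Equiv.mulLeft k) _ _ fun g => ?_
    rw [Polynomial.map_mul, Polynomial.map_C, Polynomial.map_prod]
    congr 1
    · congr 1
      rw [Equiv.coe_mulLeft, mul_smul]
      rfl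
    · refine Finset.prod_bij (fun h _ => k * h) ?_ ?_ ?_ ?_
      · intro h hh
        rw [Finset.mem_erase] at hh ⊢
        exact ⟨fun he => hh.1 (mul_left_cancel he), Finset.mem_univ _⟩
      · intro a _ b _ hab
        exact mul_left_cancel hab
      · intro b hb
        refine ⟨k⁻¹ * b, ?_, mul_inv_cancel_left k b⟩
        rw [Finset.mem_erase] at hb ⊢
        refine ⟨fun he => hb.1 ?_, Finset.mem_univ _⟩
        rw [← he]
        exact (mul_inv_cancel_left k b).symm
      · intro h _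
        rw [Polynomial.map_sub, Polynomial.map_X, Polynomial.map_C, mul_smul]
        rfl)
  refine ⟨q, ?_⟩
  have h1 : aeval θ q = eval θ (q.map (algebraMap R S)) := by
    rw [eval_map, aeval_def]
  rw [h1, hq, eval_finsetSum, Finset.sum_eq_single (1 : G)]
  · rw [eval_mul, eval_C, one_smul, eval_prod, mul_comm]
    congr 1
    refine Finset.prod_congr rfl fun h _ => ?_
    rw [eval_sub, eval_X, eval_C]
  · intro g _ hg
    rw [eval_mul, eval_prod, Finset.prod_eq_zero (i := 1), mul_zero]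
    · exact Finset.mem_erase.2 ⟨hg.symm, Finset.mem_univ _⟩
    · rw [eval_sub, eval_X, eval_C, one_smul, sub_self]
  · intro h
    exact absurd (Finset.mem_univ _) h

/-- the characteristic polynomial of `θ`. -/
theorem exists_char (θ : S) :
    ∃ f : R[X], aeval θ f = 0 ∧
      aeval θ (derivative f) = ∏ h ∈ Finset.univ.erase (1 : G), (θ - h • θ) := by
  obtain ⟨f, hf⟩ := exists_of_invariant (R := R) (G := G) (∏ g : G, (X - C (g • θ))) (by
    intro k
    rw [Polynomial.map_prod]
    refine Fintype.prod_equiv (Equiv.mulLeft k) _ _ fun g => ?_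
    rw [Polynomial.map_sub, Polynomial.map_X, Polynomial.map_C, Equiv.coe_mulLeft, mul_smul]
    rfl)
  refine ⟨f, ?_, ?_⟩
  · have h1 : aeval θ f = eval θ (f.map (algebraMap R S)) := by
      rw [eval_map, aeval_def]
    rw [h1, hf, eval_prod, Finset.prod_eq_zero (i := 1) (Finset.mem_univ _)]
    rw [eval_sub, eval_X, eval_C, one_smul, sub_self]
  · have h1 : aeval θ (derivative f) = eval θ (derivative (f.map (algebraMap R S))) := by
      rw [derivative_map, eval_map, aeval_def]
    rw [h1, hf, derivative_prod_finset, eval_finsetSum, Finset.sum_eq_single (1 : G)]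
    · simp only [derivative_sub, derivative_X, derivative_C, sub_zero, mul_one]
      rw [eval_prod]
      refine Finset.prod_congr rfl fun h _ => ?_
      rw [eval_sub, eval_X, eval_C]
    · intro g _ hg
      rw [eval_mul, eval_prod, Finset.prod_eq_zero (i := 1), zero_mul]
      · exact Finset.mem_erase.2 ⟨hg.symm, Finset.mem_univ _⟩
      · rw [eval_sub, eval_X, eval_C, one_smul, sub_self]
    · intro h
      exact absurd (Finset.mem_univ _) h

end lagrange

/-- derivations and a prime with trivial inertia. -/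
theorem local_stable {R S L G : Type*} [CommRing R] [CommRing S] [CommRing L]
    [Algebra R S] [Algebra S L] [Algebra R L] [IsScalarTower R S L]
    [Group G] [Fintype G] [DecidableEq G] [MulSemiringAction G S] [Algebra.IsInvariant R S G]
    (P : Ideal S) [P.IsPrime] (θ : S) (hθ : ∀ g : G, g ≠ 1 → g • θ - θ ∉ P)
    (D : L →+ L) (hD : ∀ x y, D (x * y) = x * D y + y * D x)
    (DR : R → R) (hDR : ∀ r, D (algebraMap R L r) = algebraMap R L (DR r)) :
    ∃ v : S, v ∉ P ∧ ∀ x : S, ∃ y : S,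
      algebraMap S L v * D (algebraMap S L x) = algebraMap S L y := by
  set u : S := ∏ h ∈ Finset.univ.erase (1 : G), (θ - h • θ) with hu
  have huP : u ∉ P := by
    intro h
    rw [hu] at h
    obtain ⟨g, hg, hgP⟩ := (Ideal.IsPrime.prod_mem_iff (p := P)).1 h
    rw [Finset.mem_erase] at hg
    apply hθ g hg.1
    rw [← neg_sub]
    exact P.neg_mem hgP
  obtain ⟨f, hf, hf'⟩ := exists_char (R := R) (G := G) θ
  rw [← hu] at hf'
  -- values of polynomials
  have hval : ∀ q : R[X], ∃ y : S, D (algebraMap S L (aeval θ q)) =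
      algebraMap S L y + algebraMap S L (aeval θ (derivative q)) * D (algebraMap S L θ) := by
    intro q
    have := d_eval₂ (algebraMap R L) (algebraMap S L θ) D hD q
    have e1 : ∀ q : R[X], q.eval₂ (algebraMap R L) (algebraMap S L θ) =
        algebraMap S L (aeval θ q) := by
      intro q
      rw [aeval_def, hom_eval₂, IsScalarTower.algebraMap_eq R S L]
    rw [e1, e1] at this
    refine ⟨q.sum fun k a => θ ^ k * algebraMap R S (DR a), ?_⟩
    rw [this, Polynomial.sum_def, Polynomial.sum_def, map_sum]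
    congr 1
    refine Finset.sum_congr rfl fun k _ => ?_
    rw [map_mul, map_pow, hDR, ← IsScalarTower.algebraMap_apply R S L]
  -- the derivative of `θ`
  obtain ⟨t, ht⟩ : ∃ t : S, algebraMap S L u * D (algebraMap S L θ) = algebraMap S L t := by
    obtain ⟨y, hy⟩ := hval f
    rw [hf, hf', map_zero, map_zero] at hy
    refine ⟨-y, ?_⟩
    rw [map_neg]
    linear_combination -hy
  have hval2 : ∀ q : R[X], ∃ y : S,
      algebraMap S L u * D (algebraMap S L (aeval θ q)) = algebraMap S L y := by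
    intro q
    obtain ⟨y, hy⟩ := hval q
    refine ⟨u * y + aeval θ (derivative q) * t, ?_⟩
    rw [hy, map_add, map_mul, map_mul, ← ht]
    ring
  obtain ⟨q₁, hq₁⟩ := exists_lagrange (R := R) (G := G) θ (1 : S)
  rw [← hu, mul_one] at hq₁
  obtain ⟨y₁, hy₁⟩ := hval2 q₁
  rw [hq₁] at hy₁
  refine ⟨u * u, fun h => huP ((Ideal.IsPrime.mem_or_mem ‹P.IsPrime› h).elim id id), ?_⟩
  intro x
  obtain ⟨q, hq⟩ := exists_lagrange (R := R) (G := G) θ x
  rw [← hu] at hq
  obtain ⟨y, hy⟩ := hval2 q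
  rw [hq, map_mul, hD] at hy
  refine ⟨y - x * y₁, ?_⟩
  rw [map_sub, map_mul, map_mul, ← hy, ← hy₁]
  ring

/-! ### Part 5 -/

/-- `P` contains no nonzero prime ideal different from `P`. -/
def HtOne {R : Type*} [CommRing R] (P : Ideal R) : Prop :=
  ∀ P' : Ideal R, P'.IsPrime → P' < P → P' = ⊥

/-- elements of the fraction field which are integral at all height one primes. -/
theorem mem_of_htOne {S L : Type*} [CommRing S] [IsDomain S] [IsNoetherianRing S] [Field L]
    [Algebra S L] [IsFractionRing S L] [IsIntegrallyClosed S] (y : L)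
    (h : ∀ P : Ideal S, P.IsPrime → P ≠ ⊥ → HtOne P →
      ∃ v : S, v ∉ P ∧ ∃ a : S, algebraMap S L v * y = algebraMap S L a) :
    ∃ a : S, y = algebraMap S L a := by
  classical
  by_contra hy
  have hinj : Function.Injective (algebraMap S L) := IsFractionRing.injective S L
  -- conductors
  let I : L → Ideal S := fun z =>
    { carrier := {s | ∃ a : S, algebraMap S L s * z = algebraMap S L a}
      zero_mem' := ⟨0, by simp⟩
      add_mem' := by
        rintro s t ⟨a, ha⟩ ⟨b, hb⟩
        exact ⟨a + b, by rw [map_add, add_mul, ha, hb, map_add]⟩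
      smul_mem' := by
        rintro c s ⟨a, ha⟩
        exact ⟨c * a, by rw [smul_eq_mul, map_mul, mul_assoc, ha, map_mul]⟩ }
  have hI : ∀ z s, s ∈ I z ↔ ∃ a : S, algebraMap S L s * z = algebraMap S L a :=
    fun z s => Iff.rfl
  have hI1 : ∀ z, (¬ ∃ a : S, z = algebraMap S L a) → (1 : S) ∉ I z := by
    intro z hz h1
    rw [hI, map_one, one_mul] at h1
    exact hz h1
  -- a maximal conductor
  let 𝒮 : Set (Ideal S) := {J | ∃ t : S, (¬ ∃ a : S, algebraMap S L t * y = algebraMap S L a) ∧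
    J = I (algebraMap S L t * y)}
  have hne : 𝒮.Nonempty := ⟨_, 1, by rwa [map_one, one_mul], rfl⟩
  obtain ⟨q, ⟨t, ht, rfl⟩, hmax⟩ := set_has_maximal_iff_noetherian.2
    (inferInstance : IsNoetherian S S) 𝒮 hne
  set z : L := algebraMap S L t * y with hz
  have hz1 : ¬ ∃ a : S, z = algebraMap S L a := ht
  have hqtop : (1 : S) ∉ I z := hI1 z hz1
  have hqprime : (I z).IsPrime := by
    rw [Ideal.isPrime_iff]
    refine ⟨fun h => hqtop (by rw [h]; trivial), ?_⟩
    intro a b hab
    by_contra hcon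
    push Not at hcon
    have hb : ¬ ∃ c : S, algebraMap S L (b * t) * y = algebraMap S L c := by
      rintro ⟨c, hc⟩
      apply hcon.2
      rw [hI]
      exact ⟨c, by rw [← hc, hz, map_mul]; ring⟩
    have hle : I z < I (algebraMap S L (b * t) * y) := by
      refine lt_of_le_of_ne ?_ ?_
      · rintro s ⟨c, hc⟩
        refine ⟨b * c, ?_⟩
        rw [map_mul, map_mul, ← hc, hz]
        ring
      · intro he
        apply hcon.1
        rw [he]
        obtain ⟨c, hc⟩ := hab
        refine ⟨c, ?_⟩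
        rw [← hc, hz, map_mul, map_mul]
        ring
    exact hmax _ ⟨b * t, hb, rfl⟩ hle
  have hq0 : I z ≠ ⊥ := by
    obtain ⟨a, s, hs, hz'⟩ := IsFractionRing.div_surjective (A := S) z
    intro h0
    have : s ∈ I z := by
      rw [hI]
      refine ⟨a, ?_⟩
      rw [← hz', mul_div_cancel₀]
      exact fun h0 => nonZeroDivisors.ne_zero hs (hinj (by rw [h0, map_zero]))
    rw [h0, Ideal.mem_bot] at this
    exact nonZeroDivisors.ne_zero hs this
  -- `z` is not almost integral
  have hnint : ∀ c : S, c ≠ 0 → ¬ ∀ n : ℕ, ∃ a : S, algebraMap S L c * z ^ n = algebraMap S L a := by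
    intro c hc hn
    apply hz1
    have hint : IsIntegral S z := by
      apply IsAlmostIntegral.isIntegral
      refine ⟨c, mem_nonZeroDivisors_of_ne_zero hc, fun n => ?_⟩
      obtain ⟨a, ha⟩ := hn n
      exact ⟨a, by rw [Algebra.smul_def, ha]⟩
    obtain ⟨a, ha⟩ := IsIntegrallyClosed.isIntegral_iff.1 hint
    exact ⟨a, ha.symm⟩
  -- powers
  have hpow : ∀ J : Ideal S, J ≤ I z →
      (∀ s ∈ J, ∀ a : S, algebraMap S L s * z = algebraMap S L a → a ∈ J) → J = ⊥ := by
    intro J hJ hst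
    by_contra hJ0
    obtain ⟨c, hcJ, hc0⟩ := Submodule.exists_mem_ne_zero_of_ne_bot hJ0
    apply hnint c hc0
    have : ∀ n : ℕ, ∃ a ∈ J, algebraMap S L c * z ^ n = algebraMap S L a := by
      intro n
      induction n with
      | zero => exact ⟨c, hcJ, by rw [pow_zero, mul_one]⟩
      | succ n ih =>
        obtain ⟨a, haJ, ha⟩ := ih
        obtain ⟨b, hb⟩ := (hI z a).1 (hJ haJ)
        exact ⟨b, hst a haJ b hb, by rw [pow_succ, ← mul_assoc, ha, hb]⟩
    exact fun n => (this n).imp fun a ha => ha.2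
  obtain ⟨s₀, hs₀, u, hu, huq⟩ : ∃ s₀ ∈ I z, ∃ u : S,
      algebraMap S L s₀ * z = algebraMap S L u ∧ u ∉ I z := by
    by_contra hcon
    push Not at hcon
    exact hq0 (hpow (I z) le_rfl hcon)
  have hht : HtOne (I z) := by
    intro P' hP' hlt
    have hs₀P : s₀ ∉ P' := by
      intro hmem
      apply not_le_of_gt hlt
      intro s hs
      obtain ⟨a, ha⟩ := (hI z s).1 hs
      have h1 : s * u = s₀ * a := by
        apply hinj
        rw [map_mul, map_mul, ← hu, ← ha]
        ring
      have h2 : s * u ∈ P' := by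
        rw [h1]
        exact P'.mul_mem_right _ hmem
      exact (hP'.mem_or_mem h2).resolve_right fun h => huq (hlt.le h)
    refine hpow P' hlt.le fun s hs a ha => ?_
    have h1 : s * u = s₀ * a := by
      apply hinj
      rw [map_mul, map_mul, ← hu, ← ha]
      ring
    have h2 : s₀ * a ∈ P' := by
      rw [← h1]
      exact P'.mul_mem_right _ hs
    exact (hP'.mem_or_mem h2).resolve_left hs₀P
  obtain ⟨v, hv, a, ha⟩ := h (I z) hqprime hq0 hht
  apply hv
  refine ⟨t * a, ?_⟩
  rw [map_mul, ← ha, hz]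
  ring

/-- height one primes of an integral extension lie over height one primes. -/
theorem htOne_comap {R S G : Type*} [CommRing R] [IsDomain R] [CommRing S] [IsDomain S]
    [Algebra R S] [Group G] [Finite G] [MulSemiringAction G S] [Algebra.IsInvariant R S G]
    [SMulCommClass G R S] [Algebra.IsIntegral R S] [FaithfulSMul R S] (P : Ideal S) [P.IsPrime]
    (hP : HtOne P) : HtOne (P.comap (algebraMap R S)) := by
  intro p' hp' hlt
  by_contra hp0
  have hinj : Function.Injective (algebraMap R S) := FaithfulSMul.algebraMap_injective R S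
  obtain ⟨Q, -, hQ, hQp⟩ := Ideal.exists_ideal_over_prime_of_isIntegral p' (⊥ : Ideal S) (by
    rw [Ideal.comap_bot_of_injective _ hinj]
    exact bot_le)
  obtain ⟨g, hg⟩ := exists_smul_le (R := R) (G := G) Q P (by
    intro r hr
    have : r ∈ p' := by
      rw [← hQp]
      exact hr
    exact hlt.le this)
  -- the conjugate of `Q`
  set Q' : Ideal S := Q.comap (MulSemiringAction.toRingHom G S g⁻¹) with hQ'
  have hmem : ∀ x : S, x ∈ Q' ↔ g⁻¹ • x ∈ Q := fun x => Iff.rfl
  have hQ'P : Q' ≤ P := by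
    intro x hx
    have := hg _ ((hmem x).1 hx)
    rwa [smul_inv_smul] at this
  have hR : ∀ r : R, algebraMap R S r ∈ Q' ↔ r ∈ p' := by
    intro r
    rw [hmem, smul_algebraMap, ← hQp]
    rfl
  have hQ'prime : Q'.IsPrime := by
    rw [hQ']
    infer_instance
  have hne : Q' ≠ P := by
    rintro rfl
    apply hlt.ne
    ext r
    rw [← hR]
    rfl
  have h0 := hP Q' hQ'prime (lt_of_le_of_ne hQ'P hne)
  apply hp0
  rw [eq_bot_iff]
  intro r hr
  rw [Ideal.mem_bot]
  have h1 := (hR r).2 hr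
  rw [h0, Ideal.mem_bot] at h1
  exact hinj (by rw [h1, map_zero])

/-- **Step 3.** If all conjugates of a generating set `B` are determined by their 1-jets along
curves meeting every height one prime, then the integral closure is stable under all derivations
which preserve `R`. -/
theorem stable_of_jetLine {R S L G k ι : Type*} [CommRing R] [IsDomain R]
    [IsIntegrallyClosed R] [CharZero R] [CommRing S] [IsDomain S] [IsNoetherianRing S]
    [IsIntegrallyClosed S] [Field L] [Algebra R S] [Algebra S L] [IsFractionRing S L]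
    [Algebra R L] [IsScalarTower R S L] [FaithfulSMul R S] [Algebra.IsIntegral R S]
    [Field k] [Infinite k] [Algebra k S]
    [Group G] [Finite G] [MulSemiringAction G S] [MulSemiringAction G L]
    [SMulCommClass G k S] [SMulCommClass G R S] [Algebra.IsInvariant R S G]
    (hG : ∀ (g : G) (x : S), algebraMap S L (g • x) = g • algebraMap S L x)
    (E : ι → L →+ L) (hE : ∀ j x y, E j (x * y) = x * E j y + y * E j x)
    (hEG : ∀ j (g : G) x, E j (g • x) = g • E j x)
    (ER : ι → R → R) (hER : ∀ j r, E j (algebraMap R L r) = algebraMap R L (ER j r))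
    {B : Set S} (hB : ∀ (g : G), ∀ b ∈ B, g • b ∈ B)
    (hBE : ∀ b ∈ B, ∀ j, ∃ e : S, E j (algebraMap S L b) = algebraMap S L e)
    (hgen : ∀ g : G, (∀ b ∈ B, g • b = b) → g = 1)
    (hline : ∀ P : Ideal S, P.IsPrime → P ≠ ⊥ → HtOne P →
      (∀ g : G, g ≠ 1 → ∃ x : S, g • x - x ∉ P) ∨
        Nonempty (JetLine.{u} ER B (P.comap (algebraMap R S))))
    (D : L →+ L) (hD : ∀ x y, D (x * y) = x * D y + y * D x)
    (DR : R → R) (hDR : ∀ r, D (algebraMap R L r) = algebraMap R L (DR r)) (x : S) :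
    ∃ y : S, D (algebraMap S L x) = algebraMap S L y := by
  classical
  have := Fintype.ofFinite G
  have hinj : Function.Injective (algebraMap S L) := IsFractionRing.injective S L
  refine mem_of_htOne (S := S) _ fun P hP hP0 hPht => ?_
  obtain ⟨θ, hθ⟩ := exists_theta (k := k) (G := G) P (by
    rcases hline P hP hP0 hPht with h1 | ⟨⟨J⟩⟩
    · exact h1
    · intro g hg
      by_contra hcon
      push Not at hcon
      exact hg (hgen g fun b hb => inertia_fix hinj hG E hE hEG ER hER hB hBE P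
        (fun r hr => hr) J g hcon b hb))
  obtain ⟨v, hv, hvx⟩ := local_stable (R := R) (L := L) P θ hθ D hD DR hDR
  exact ⟨v, hv, hvx x⟩

/-! ### The Galois case -/

/-- a derivation is determined by its values on `R`. -/
theorem der_unique {R L : Type*} [CommRing R] [IsDomain R] [IsIntegrallyClosed R] [CharZero R]
    [Field L] [Algebra R L] [Module.IsTorsionFree R L] [Algebra.IsAlgebraic R L]
    (D : L →+ L) (hD : ∀ x y, D (x * y) = x * D y + y * D x)
    (hDR : ∀ r : R, D (algebraMap R L r) = 0) (x : L) : D x = 0 := by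
  have hint : ∀ c : L, IsIntegral R c → D c = 0 := by
    intro c hc
    obtain ⟨f, hf, hf'⟩ := exists_sep hc
    have := d_eval₂ (algebraMap R L) c D hD f
    rw [← aeval_def, hf, map_zero, ← aeval_def, Polynomial.sum_def,
      Finset.sum_eq_zero (fun k _ => by rw [hDR, mul_zero]), zero_add] at this
    exact (mul_eq_zero.1 this.symm).resolve_left hf'
  obtain ⟨r, hr, hint'⟩ :=
    (Algebra.IsAlgebraic.isAlgebraic (R := R) x).exists_integral_multiple
  have h1 := hint _ hint'
  rw [Algebra.smul_def, hD, hDR, mul_zero, add_zero] at h1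
  refine (mul_eq_zero.1 h1).resolve_left fun h => hr ?_
  exact FaithfulSMul.algebraMap_injective R L (by rw [h, map_zero])

end Vale.Agent.P292.Inertia
end

section

/-! # Block U, part 0: the discriminant of a good polynomial is homogeneous; height one primes
containing it are homogeneous. -/

namespace Vale.Agent.P292

open Polynomial

universe u v

section discr

variable {A : Type u} [CommRing A] [IsDomain A] [CharZero A]

theorem u0_derivative_scaleRoots (f : A[X]) (s : A) :
    derivative (f.scaleRoots s) = (derivative f).scaleRoots s := by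
  ext i
  rw [coeff_derivative, coeff_scaleRoots, coeff_scaleRoots, coeff_derivative, natDegree_derivative]
  have h : f.natDegree - (i + 1) = f.natDegree - 1 - i := by omega
  rw [h]
  ring

/-- the discriminant of a monic polynomial is a resultant. -/
theorem u0_discr_eq {f : A[X]} (hf : f.Monic) (hn : f.natDegree ≠ 0) :
    f.discr = (-1) ^ (f.natDegree * (f.natDegree - 1) / 2) *
      resultant f (derivative f) := by
  have h := resultant_deriv (f := f) (natDegree_pos_iff_degree_pos.1 (Nat.pos_of_ne_zero hn))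
  rw [hf.leadingCoeff, mul_one] at h
  have h2 : resultant f (derivative f) = resultant f (derivative f) f.natDegree
      (f.natDegree - 1) := by
    rw [natDegree_derivative]
  rw [h2, h, ← mul_assoc, ← mul_pow, neg_mul_neg, one_mul, one_pow, one_mul]

theorem u0_discr_scaleRoots {f : A[X]} (hf : f.Monic) (hn : f.natDegree ≠ 0) (s : A) :
    (f.scaleRoots s).discr = s ^ (f.natDegree * (f.natDegree - 1)) * f.discr := by
  rw [u0_discr_eq hf hn, u0_discr_eq ((monic_scaleRoots_iff s).2 hf)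
    (by rwa [natDegree_scaleRoots]), u0_derivative_scaleRoots, resultant_scaleRoots,
    natDegree_scaleRoots, natDegree_derivative]
  ring

/-- the discriminant of a monic polynomial commutes with ring homomorphisms. -/
theorem u0_discr_map {B : Type v} [CommRing B] [IsDomain B] [CharZero B] {f : A[X]}
    (hf : f.Monic) (hn : f.natDegree ≠ 0) (φ : A →+* B) : (f.map φ).discr = φ f.discr := by
  have h1 : (f.map φ).natDegree = f.natDegree := hf.natDegree_map φ
  have h2 : (derivative (f.map φ)).natDegree = (derivative f).natDegree := by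
    rw [natDegree_derivative, natDegree_derivative, h1]
  rw [u0_discr_eq hf hn, u0_discr_eq (hf.map φ) (by rwa [h1]), map_mul, map_pow, map_neg, map_one,
    h1, h2, derivative_map, resultant_map_map]

end discr

variable {R : Type u} [CommRing R] [Algebra ℂ R] {𝒜 : ℕ → Submodule ℂ R} [GradedAlgebra 𝒜]
  {P : R →ₗ[ℂ] R →ₗ[ℂ] R}

/-- The grading as a homomorphism to `R[X]`. -/
theorem exists_scaling (𝒜 : ℕ → Submodule ℂ R) [GradedAlgebra 𝒜] (d : ℕ) :
    ∃ c : R →ₐ[ℂ] R[X], ∀ k, ∀ r ∈ 𝒜 k, c r = C r * X ^ (d * k) := by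
  classical
  let F : ∀ k, (𝒜 k) →ₗ[ℂ] R[X] := fun k =>
    (LinearMap.mulRight ℂ ((X : R[X]) ^ (d * k))) ∘ₗ
      (Polynomial.CAlgHom (R := ℂ) (A := R)).toLinearMap ∘ₗ (𝒜 k).subtype
  have hF : ∀ k (r : 𝒜 k), F k r = C (r : R) * X ^ (d * k) := fun k r => rfl
  let c₀ : (DirectSum ℕ fun k => 𝒜 k) →ₐ[ℂ] R[X] := DirectSum.toAlgebra ℂ (fun k => 𝒜 k) F (by
      rw [hF]
      change C (1 : R) * X ^ (d * 0) = 1
      rw [mul_zero, pow_zero, map_one, mul_one]) (by
      intro i j a b
      rw [hF, hF, hF]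
      change C ((a : R) * (b : R)) * X ^ (d * (i + j)) = _
      rw [map_mul, mul_add, pow_add]; ring)
  refine ⟨c₀.comp (DirectSum.decomposeAlgEquiv 𝒜).toAlgHom, fun k r hr => ?_⟩
  have e2 : (DirectSum.decomposeAlgEquiv 𝒜) r = DirectSum.of (fun k => 𝒜 k) k ⟨r, hr⟩ := by
    rw [DirectSum.decomposeAlgEquiv_apply, DirectSum.decompose_of_mem 𝒜 hr]
  change c₀ ((DirectSum.decomposeAlgEquiv 𝒜) r) = _
  rw [e2]
  change DirectSum.toModule ℂ ℕ R[X] F (DirectSum.lof ℂ ℕ (fun k => 𝒜 k) k ⟨r, hr⟩) = _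
  rw [DirectSum.toModule_lof]
  rfl

/-- An element with `c r = C r * X ^ m` is homogeneous. -/
theorem exists_mem_of_scaling {d : ℕ} (hd : 0 < d) (c : R →ₐ[ℂ] R[X])
    (hc : ∀ k, ∀ r ∈ 𝒜 k, c r = C r * X ^ (d * k)) {x : R} {m : ℕ} (hx : c x = C x * X ^ m) :
    ∃ k, x ∈ 𝒜 k := by
  classical
  have hcomp : ∀ k : ℕ, (c x).coeff (d * k) = (DirectSum.decompose 𝒜 x k : R) := by
    intro k
    conv_lhs => rw [← DirectSum.sum_support_decompose 𝒜 x]
    rw [map_sum, finsetSum_coeff]
    rw [Finset.sum_eq_single k]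
    · rw [hc k _ (SetLike.coe_mem _), coeff_C_mul_X_pow, if_pos rfl]
    · intro j _ hj
      rw [hc j _ (SetLike.coe_mem _), coeff_C_mul_X_pow, if_neg]
      intro h
      exact hj (Nat.eq_of_mul_eq_mul_left hd h).symm
    · intro hk
      rw [DFinsupp.notMem_support_iff.1 hk, ZeroMemClass.coe_zero, map_zero, coeff_zero]
  by_cases hdm : d ∣ m
  · obtain ⟨k, rfl⟩ := hdm
    refine ⟨k, ?_⟩
    have h := hcomp k
    rw [hx, coeff_C_mul_X_pow, if_pos rfl] at h
    rw [h]
    exact SetLike.coe_mem _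
  · refine ⟨0, ?_⟩
    have h : x = 0 := by
      rw [← DirectSum.sum_support_decompose 𝒜 x]
      refine Finset.sum_eq_zero fun k _ => ?_
      rw [← hcomp k, hx, coeff_C_mul_X_pow, if_neg]
      intro h
      exact hdm ⟨k, h.symm⟩
    rw [h]
    exact zero_mem _

/-- **The discriminant of a good polynomial is homogeneous.** -/
theorem IsGood.discr_mem [IsDomain R] {d : ℕ} (hd : 0 < d) {Q : R[X]} (hQ : IsGood 𝒜 P d Q) :
    ∃ m, Q.discr ∈ 𝒜 m := by
  have : CharZero R := charZero_of_injective_algebraMap (algebraMap ℂ R).injective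
  have hn : Q.natDegree ≠ 0 := by
    intro h0
    have h1 : Q = 1 := hQ.monic.natDegree_eq_zero.1 h0
    exact hQ.irr.not_isUnit (by rw [h1]; exact isUnit_one)
  obtain ⟨c, hc⟩ := exists_scaling 𝒜 d
  have hmap : Q.map (c : R →+* R[X]) = (Q.map (C : R →+* R[X])).scaleRoots X := by
    ext1 i
    rw [coeff_map, coeff_scaleRoots, coeff_map, hQ.monic.natDegree_map]
    change c (Q.coeff i) = _
    by_cases hi : i ≤ Q.natDegree
    · by_cases hdv : d ∣ Q.natDegree - i
      · obtain ⟨j, hj⟩ := hdv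
        rw [hc j _ (hQ.homog i hi j hj), hj]
      · rw [hQ.homog0 i hi hdv, map_zero, map_zero, zero_mul]
    · rw [coeff_eq_zero_of_natDegree_lt (not_le.1 hi), map_zero, map_zero, zero_mul]
  refine exists_mem_of_scaling hd c hc (m := Q.natDegree * (Q.natDegree - 1)) ?_
  have h1 := u0_discr_map hQ.monic hn (c : R →+* R[X])
  have h2 := u0_discr_map hQ.monic hn (C : R →+* R[X])
  have h3 := u0_discr_scaleRoots (hQ.monic.map (C : R →+* R[X]))
    (by rwa [hQ.monic.natDegree_map]) (X : R[X])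
  rw [hQ.monic.natDegree_map] at h3
  change (c : R →+* R[X]) Q.discr = _
  rw [← h1, hmap, h3, h2]
  ring

/-- Height one primes containing a nonzero homogeneous element are homogeneous. -/
theorem isHomogeneous_of_htOne {𝔭 : Ideal R} [h𝔭 : 𝔭.IsPrime]
    (hp : Inertia.HtOne 𝔭) {m : ℕ} {x : R} (hx : x ∈ 𝒜 m) (hx0 : x ≠ 0) (hxp : x ∈ 𝔭) :
    𝔭.IsHomogeneous 𝒜 := by
  classical
  have h1 : (𝔭.homogeneousCore 𝒜).toIdeal.IsPrime := h𝔭.homogeneousCore
  have h2 : (𝔭.homogeneousCore 𝒜).toIdeal ≤ 𝔭 := Ideal.toIdeal_homogeneousCore_le 𝒜 𝔭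
  have h3 : x ∈ (𝔭.homogeneousCore 𝒜).toIdeal :=
    Ideal.mem_homogeneousCore_of_homogeneous_of_mem ⟨m, hx⟩ hxp
  have h4 : (𝔭.homogeneousCore 𝒜).toIdeal = 𝔭 := by
    by_contra hne
    have h5 := hp _ h1 (lt_of_le_of_ne h2 hne)
    rw [h5, Ideal.mem_bot] at h3
    exact hx0 h3
  rw [← h4]
  exact (𝔭.homogeneousCore 𝒜).isHomogeneous

omit [Algebra ℂ R] in
/-- A prime with a discrete valuation ring as localization has height one. -/
theorem htOne_of_dvr [IsDomain R] {𝔭 : Ideal R} [𝔭.IsPrime]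
    (V : Type v) [CommRing V] [IsDomain V] [IsDiscreteValuationRing V] [Algebra R V]
    [IsLocalization.AtPrime V 𝔭] : Inertia.HtOne 𝔭 := by
  intro P' hP' hlt
  by_contra hne
  have hdisj : Disjoint (𝔭.primeCompl : Set R) (P' : Set R) := by
    rw [Set.disjoint_left]
    intro x hx hx'
    exact hx (hlt.le hx')
  have h1 : (P'.map (algebraMap R V)).IsPrime :=
    IsLocalization.isPrime_of_isPrime_disjoint 𝔭.primeCompl V P' hP' hdisj
  have h2 : (P'.map (algebraMap R V)).comap (algebraMap R V) = P' :=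
    IsLocalization.under_map_of_isPrime_disjoint 𝔭.primeCompl V hP' hdisj
  have h3 : P'.map (algebraMap R V) ≠ ⊥ := by
    intro h0
    obtain ⟨x, hx, hx0⟩ := Submodule.exists_mem_ne_zero_of_ne_bot hne
    have h4 : algebraMap R V x ∈ P'.map (algebraMap R V) := Ideal.mem_map_of_mem _ hx
    rw [h0, Ideal.mem_bot] at h4
    have hinj : Function.Injective (algebraMap R V) :=
      IsLocalization.injective V 𝔭.primeCompl_le_nonZeroDivisors
    exact hx0 (hinj (by rw [h4, map_zero]))
  have h5 : P'.map (algebraMap R V) = IsLocalRing.maximalIdeal V :=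
    IsLocalRing.eq_maximalIdeal (h1.isMaximal h3)
  have h6 : (IsLocalRing.maximalIdeal V).comap (algebraMap R V) = 𝔭 :=
    IsLocalization.AtPrime.under_maximalIdeal V 𝔭
  rw [h5, h6] at h2
  exact hlt.ne h2.symm

omit [Algebra ℂ R] in
/-- A height one prime of a normal noetherian domain has a discrete valuation ring as
localization. -/
theorem dvr_of_htOne [IsDomain R] [IsNoetherianRing R] [IsIntegrallyClosed R] {𝔭 : Ideal R}
    [𝔭.IsPrime] (hp : Inertia.HtOne 𝔭) (hp0 : 𝔭 ≠ ⊥) :
    IsDiscreteValuationRing (Localization.AtPrime 𝔭) := by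
  have hinj : Function.Injective (algebraMap R (Localization.AtPrime 𝔭)) :=
    IsLocalization.injective _ 𝔭.primeCompl_le_nonZeroDivisors
  have hmax : (IsLocalRing.maximalIdeal (Localization.AtPrime 𝔭)).comap
      (algebraMap R (Localization.AtPrime 𝔭)) = 𝔭 :=
    IsLocalization.AtPrime.under_maximalIdeal _ 𝔭
  have hnoeth : IsNoetherianRing (Localization.AtPrime 𝔭) :=
    IsLocalization.isNoetherianRing 𝔭.primeCompl _ inferInstance
  have hic : IsIntegrallyClosed (Localization.AtPrime 𝔭) :=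
    isIntegrallyClosed_of_isLocalization _ 𝔭.primeCompl 𝔭.primeCompl_le_nonZeroDivisors
  have hnf : ¬ IsField (Localization.AtPrime 𝔭) := by
    intro hf
    have h0 := IsLocalRing.isField_iff_maximalIdeal_eq.1 hf
    apply hp0
    rw [← hmax, h0]
    exact Ideal.comap_bot_of_injective _ hinj
  have key : IsIntegrallyClosed (Localization.AtPrime 𝔭) ∧
      ∃! P : Ideal (Localization.AtPrime 𝔭), P ≠ ⊥ ∧ P.IsPrime := by
    refine ⟨hic, IsLocalRing.maximalIdeal _, ⟨?_, inferInstance⟩, ?_⟩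
    · exact IsLocalRing.isField_iff_maximalIdeal_eq.not.1 hnf
    · rintro P' ⟨hP'0, hP'⟩
      have h1 : P'.comap (algebraMap R (Localization.AtPrime 𝔭)) = 𝔭 := by
        by_contra hne
        have hle : P'.comap (algebraMap R (Localization.AtPrime 𝔭)) ≤ 𝔭 :=
          (Ideal.comap_mono (IsLocalRing.le_maximalIdeal hP'.ne_top)).trans (le_of_eq hmax)
        have h2 := hp _ (hP'.comap _) (lt_of_le_of_ne hle hne)
        apply hP'0
        rw [← IsLocalization.map_under 𝔭.primeCompl (Localization.AtPrime 𝔭) P']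
        rw [Ideal.under, h2, Ideal.map_bot]
      rw [← IsLocalization.map_under 𝔭.primeCompl (Localization.AtPrime 𝔭) P',
        ← IsLocalization.map_under 𝔭.primeCompl (Localization.AtPrime 𝔭)
          (IsLocalRing.maximalIdeal _), Ideal.under, Ideal.under, h1, hmax]
  exact ((IsDiscreteValuationRing.TFAE (Localization.AtPrime 𝔭) hnf).out 0 3).2 key

end Vale.Agent.P292
end

section

/-! # Block U, part 3: general lemmas on roots of monic polynomials and derivations. -/

namespace Vale.Agent.P292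

open Polynomial

universe u v

/-- A linear form whose derivatives vanish at a point is zero. -/
theorem u3_linear_eq_zero {l : MvPolynomial (Fin 2) ℂ} (hl : l.IsHomogeneous 1) (a : Fin 2 → ℂ)
    (h : ∀ k, MvPolynomial.eval a (MvPolynomial.pderiv k l) = 0) : l = 0 := by
  have h1 : ∀ k, MvPolynomial.pderiv k l = 0 := by
    intro k
    have h2 : (MvPolynomial.pderiv k l).IsHomogeneous 0 := hl.pderiv
    obtain ⟨c, hc⟩ : ∃ c, MvPolynomial.pderiv k l = MvPolynomial.C c :=
      ⟨_, MvPolynomial.totalDegree_eq_zero_iff_eq_C.1 (by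
        have := h2.totalDegree_le
        omega)⟩
    have h3 := h k
    rw [hc, MvPolynomial.eval_C] at h3
    rw [hc, h3, map_zero]
  have h4 := hl.sum_X_mul_pderiv
  rw [one_smul] at h4
  rw [← h4]
  exact Finset.sum_eq_zero fun k _ => by rw [h1, mul_zero]

/-- Two different roots which are congruent modulo an ideal: the derivative lies in the ideal. -/
theorem u3_deriv_mem {R : Type*} {S : Type*} [CommRing R] [CommRing S] [IsDomain S] [Algebra R S]
    {Q : R[X]} {b b' : S} (hb : aeval b Q = 0) (hb' : aeval b' Q = 0) (hne : b' ≠ b)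
    {P : Ideal S} (hP : b' - b ∈ P) : aeval b (derivative Q) ∈ P := by
  have h0 : (Q.map (algebraMap R S)).eval b = 0 := by rwa [eval_map_algebraMap]
  obtain ⟨q, hq⟩ := dvd_iff_isRoot.2 h0
  have h1 : q.eval b' = 0 := by
    have h2 : (Q.map (algebraMap R S)).eval b' = 0 := by rwa [eval_map_algebraMap]
    rw [hq, eval_mul, eval_sub, eval_X, eval_C] at h2
    exact (mul_eq_zero.1 h2).resolve_left (sub_ne_zero.2 hne)
  have h3 : aeval b (derivative Q) = q.eval b := by
    rw [← eval_map_algebraMap, ← derivative_map, hq, derivative_mul, eval_add, eval_mul, eval_mul,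
      derivative_sub, derivative_X, derivative_C, sub_zero, eval_one, one_mul, eval_sub, eval_X,
      eval_C, sub_self, zero_mul, add_zero]
  have h4 : b' - b ∣ q.eval b' - q.eval b := sub_dvd_eval_sub b' b q
  rw [h3]
  have h5 : q.eval b' - q.eval b ∈ P := Ideal.mem_of_dvd _ h4 hP
  rw [h1, zero_sub] at h5
  exact neg_mem_iff.1 h5

/-- The discriminant is a combination of `Q` and its derivative. -/
theorem u3_exists_discr {A : Type*} [CommRing A] {f : A[X]} (hf : f.Monic)
    (hn : f.natDegree ≠ 0) : ∃ p q : A[X], f * p + derivative f * q = C f.discr := by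
  have h := resultant_deriv (f := f) (natDegree_pos_iff_degree_pos.1 (Nat.pos_of_ne_zero hn))
  rw [hf.leadingCoeff, mul_one] at h
  obtain ⟨p, q, -, -, hpq⟩ := exists_mul_add_mul_eq_C_resultant (m := f.natDegree)
    (n := f.natDegree - 1) f (derivative f) le_rfl (natDegree_derivative_le f) (Or.inl hn)
  refine ⟨C ((-1) ^ (f.natDegree * (f.natDegree - 1) / 2)) * p,
    C ((-1) ^ (f.natDegree * (f.natDegree - 1) / 2)) * q, ?_⟩
  have h2 : C f.discr = C ((-1) ^ (f.natDegree * (f.natDegree - 1) / 2)) *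
      C (f.resultant (derivative f) f.natDegree (f.natDegree - 1)) := by
    rw [h, ← C_mul, ← mul_assoc, ← mul_pow, neg_mul_neg, one_mul, one_pow, one_mul]
  rw [h2, ← hpq]
  ring

theorem u3_discr_mem {R : Type*} {S : Type*} [CommRing R] [CommRing S] [IsDomain S] [Algebra R S]
    {Q : R[X]} (hQ : Q.Monic) {b b' : S} (hb : aeval b Q = 0) (hb' : aeval b' Q = 0)
    (hne : b' ≠ b) {P : Ideal S} (hP : b' - b ∈ P) : algebraMap R S Q.discr ∈ P := by
  have hn : Q.natDegree ≠ 0 := by
    intro h0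
    have h1 : Q = 1 := hQ.natDegree_eq_zero.1 h0
    rw [h1, map_one] at hb
    exact one_ne_zero hb
  obtain ⟨p, q, hpq⟩ := u3_exists_discr hQ hn
  have h1 := congrArg (aeval b) hpq
  rw [map_add, map_mul, map_mul, hb, zero_mul, zero_add, aeval_C] at h1
  rw [← h1]
  exact P.mul_mem_right _ (u3_deriv_mem hb hb' hne hP)

/-- The values of derivations at the roots of a polynomial. -/
theorem u3_der_root {R : Type*} {L : Type*} [CommRing R] [Field L] [Algebra R L] (D : L →+ L)
    (hD : ∀ x y, D (x * y) = x * D y + y * D x) (DR : R → R)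
    (hDR : ∀ r, D (algebraMap R L r) = algebraMap R L (DR r)) {Q : R[X]} {b : L}
    (hb : aeval b Q = 0) (hb' : aeval b (derivative Q) ≠ 0) :
    D b = - (Q.sum fun k a => b ^ k * algebraMap R L (DR a)) / aeval b (derivative Q) := by
  have h := Inertia.d_eval₂ (algebraMap R L) b D hD Q
  rw [← aeval_def, hb, map_zero, ← aeval_def] at h
  rw [eq_div_iff hb']
  simp only [hDR] at h
  linear_combination -h

/-- Integrality of a quotient does not depend on the root. -/
theorem u3_isIntegral_of_root {R : Type u} [CommRing R] [IsDomain R]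
    {K : Type*} [Field K] [Algebra R K] [IsFractionRing R K] {Q : R[X]}
    (hirr : Irreducible (Q.map (algebraMap R K)))
    {M : Type*} [Field M] [Algebra R M] [Algebra K M] [IsScalarTower R K M]
    {M' : Type*} [Field M'] [Algebra R M'] (hinj : Function.Injective (algebraMap R M'))
    {b : M} (hb : aeval b Q = 0) {b' : M'} (hb' : aeval b' Q = 0) (p q : R[X])
    (h : IsIntegral R (aeval b' p / aeval b' q)) : IsIntegral R (aeval b p / aeval b q) := by
  let i : K →+* M' := IsFractionRing.lift hinj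
  have hi : ∀ r : R, i (algebraMap R K r) = algebraMap R M' r := fun r =>
    IsFractionRing.lift_algebraMap hinj r
  have hfact : Fact (Irreducible (Q.map (algebraMap R K))) := ⟨hirr⟩
  let L := AdjoinRoot (Q.map (algebraMap R K))
  have hL : ∀ r : R, algebraMap R L r = AdjoinRoot.of _ (algebraMap R K r) := fun r => by
    rw [IsScalarTower.algebraMap_apply R K L]
    rfl
  have hroot : aeval (AdjoinRoot.root (Q.map (algebraMap R K))) Q = 0 := by
    have h1 : aeval (AdjoinRoot.root (Q.map (algebraMap R K))) (Q.map (algebraMap R K)) =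
      AdjoinRoot.mk (Q.map (algebraMap R K)) (Q.map (algebraMap R K)) := AdjoinRoot.aeval_eq _
    rw [aeval_map_algebraMap, AdjoinRoot.mk_self] at h1
    exact h1
  have hf : (Q.map (algebraMap R K)).eval₂ (algebraMap K M) b = 0 := by
    rw [eval₂_map, ← IsScalarTower.algebraMap_eq, ← aeval_def, hb]
  have hf' : (Q.map (algebraMap R K)).eval₂ i b' = 0 := by
    rw [eval₂_map]
    have h1 : i.comp (algebraMap R K) = algebraMap R M' := RingHom.ext hi
    rw [h1, ← aeval_def, hb']
  let f : L →+* M := AdjoinRoot.lift (algebraMap K M) b hf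
  let f' : L →+* M' := AdjoinRoot.lift i b' hf'
  let g : L →ₐ[R] M := { f with
    commutes' := fun r => by
      change f (algebraMap R L r) = _
      rw [hL]
      exact (AdjoinRoot.lift_of hf).trans (IsScalarTower.algebraMap_apply R K M r).symm }
  let g' : L →ₐ[R] M' := { f' with
    commutes' := fun r => by
      change f' (algebraMap R L r) = _
      rw [hL]
      exact (AdjoinRoot.lift_of hf').trans (hi r) }
  have hg : g (AdjoinRoot.root (Q.map (algebraMap R K))) = b := AdjoinRoot.lift_root hf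
  have hg' : g' (AdjoinRoot.root (Q.map (algebraMap R K))) = b' := AdjoinRoot.lift_root hf'
  set z : L := aeval (AdjoinRoot.root (Q.map (algebraMap R K))) p /
    aeval (AdjoinRoot.root (Q.map (algebraMap R K))) q with hz
  have h1 : g z = aeval b p / aeval b q := by
    rw [hz, map_div₀, ← aeval_algHom_apply, ← aeval_algHom_apply, hg]
  have h2 : g' z = aeval b' p / aeval b' q := by
    rw [hz, map_div₀, ← aeval_algHom_apply, ← aeval_algHom_apply, hg']
  rw [← h1]
  refine IsIntegral.map g ?_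
  rw [← isIntegral_algHom_iff g' g'.toRingHom.injective, h2]
  exact h

end Vale.Agent.P292
end

section

/-!
# Curves inside an affine algebra that run off to infinity

Block PLACE of the modular part of P292 (note 9318, II.c): a finitely generated algebra over an
algebraically closed field whose localisation at a maximal ideal is not artinian has a
homomorphism to the field of Laurent series that does not land in the power series ring and
does not kill a given function that is nonzero at the maximal ideal.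
-/

namespace Vale.Agent.P292.Mo

section Expansion

variable {k : Type*} [Field k] {O : Type*} [CommRing O] [IsDomain O] [Algebra k O]

/-- Power series expansion along a prime element whose residue ring is the base field. -/
theorem exists_expansion (ϖ : O) (h0 : ϖ ≠ 0) (hu : ¬ IsUnit ϖ)
    (hs : ∀ x : O, ∃ c : k, ϖ ∣ x - algebraMap k O c)
    (hint : ∀ x : O, x ≠ 0 → ∃ n : ℕ, ¬ ϖ ^ n ∣ x) :
    ∃ E : O →ₐ[k] PowerSeries k, Function.Injective E ∧
      ∀ x, ϖ ∣ x → PowerSeries.constantCoeff (E x) = 0 := by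
  classical
  have hs' : ∀ x : O, ∃ c : k, ∃ y : O, x = algebraMap k O c + ϖ * y := by
    intro x
    obtain ⟨c, y, hy⟩ := hs x
    exact ⟨c, y, by rw [← hy]; ring⟩
  choose c y hcy using hs'
  have huniq : ∀ (a b : k) (u v : O), algebraMap k O a + ϖ * u = algebraMap k O b + ϖ * v →
      a = b ∧ u = v := by
    intro a b u v h
    have hab : a = b := by
      by_contra hne
      apply hu
      have hd : ϖ ∣ algebraMap k O (a - b) := ⟨v - u, by rw [map_sub]; linear_combination h⟩
      exact isUnit_of_dvd_unit hd ((IsUnit.mk0 _ (sub_ne_zero.mpr hne)).map (algebraMap k O))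
    subst hab
    exact ⟨rfl, mul_left_cancel₀ h0 (add_left_cancel h)⟩
  have hadd : ∀ x x', c (x + x') = c x + c x' ∧ y (x + x') = y x + y x' := by
    intro x x'
    apply huniq
    rw [← hcy (x + x'), map_add]
    conv_lhs => rw [hcy x, hcy x']
    ring
  have hsmul : ∀ (a : k) x, c (algebraMap k O a * x) = a * c x ∧
      y (algebraMap k O a * x) = algebraMap k O a * y x := by
    intro a x
    apply huniq
    rw [← hcy (algebraMap k O a * x), map_mul]
    conv_lhs => rw [hcy x]
    ring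
  have hmul : ∀ x x', c (x * x') = c x * c x' ∧
      y (x * x') = algebraMap k O (c x) * y x' + y x * x' := by
    intro x x'
    apply huniq
    rw [← hcy (x * x'), map_mul]
    have h1 := hcy x
    have h2 := hcy x'
    calc x * x' = (algebraMap k O (c x) + ϖ * y x) * x' := by rw [← h1]
      _ = algebraMap k O (c x) * x' + ϖ * (y x * x') := by ring
      _ = algebraMap k O (c x) * (algebraMap k O (c x') + ϖ * y x') + ϖ * (y x * x') := by
          rw [← h2]
      _ = _ := by ring
  let E : O → PowerSeries k := fun x => PowerSeries.mk (fun n => c (y^[n] x))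
  have hE0 : ∀ x, PowerSeries.coeff 0 (E x) = c x := by intro x; simp [E]
  have hEs : ∀ n x, PowerSeries.coeff (n + 1) (E x) = PowerSeries.coeff n (E (y x)) := by
    intro n x; simp [E]
  have hErec : ∀ x, E x = PowerSeries.C (c x) + PowerSeries.X * E (y x) := by
    intro x
    ext n
    cases n with
    | zero => simp [E]
    | succ n =>
      rw [hEs, map_add, PowerSeries.coeff_succ_X_mul, PowerSeries.coeff_C]
      simp
  have hEadd : ∀ x x', E (x + x') = E x + E x' := by
    have : ∀ n, ∀ x x', PowerSeries.coeff n (E (x + x')) =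
        PowerSeries.coeff n (E x) + PowerSeries.coeff n (E x') := by
      intro n
      induction n with
      | zero => intro x x'; rw [hE0, hE0, hE0, (hadd x x').1]
      | succ n ih => intro x x'; rw [hEs, hEs, hEs, (hadd x x').2, ih]
    intro x x'; ext n; rw [this, map_add]
  have hEsmul : ∀ (a : k) x, E (algebraMap k O a * x) = PowerSeries.C a * E x := by
    have : ∀ n, ∀ (a : k) x, PowerSeries.coeff n (E (algebraMap k O a * x)) =
        a * PowerSeries.coeff n (E x) := by
      intro n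
      induction n with
      | zero => intro a x; rw [hE0, hE0, (hsmul a x).1]
      | succ n ih => intro a x; rw [hEs, hEs, (hsmul a x).2, ih]
    intro a x; ext n; rw [this, PowerSeries.coeff_C_mul]
  have hEmul : ∀ x x', E (x * x') = E x * E x' := by
    have : ∀ n, ∀ x x', PowerSeries.coeff n (E (x * x')) =
        PowerSeries.coeff n (E x * E x') := by
      intro n
      induction n with
      | zero =>
        intro x x'
        have h1 := hE0 x
        have h2 := hE0 x'
        rw [PowerSeries.coeff_zero_eq_constantCoeff_apply] at h1 h2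
        rw [hE0, (hmul x x').1, PowerSeries.coeff_zero_eq_constantCoeff_apply, map_mul, h1, h2]
      | succ n ih =>
        intro x x'
        rw [hEs, (hmul x x').2, hEadd, hEsmul, map_add, ih]
        conv_rhs => rw [hErec x, add_mul, map_add, PowerSeries.coeff_C_mul, hEs, mul_assoc,
          PowerSeries.coeff_succ_X_mul]
        rw [PowerSeries.coeff_C_mul]
    intro x x'; ext n; rw [this]
  have hEC : ∀ a : k, E (algebraMap k O a) = PowerSeries.C a := by
    intro a
    have h1 : E 1 = 1 := by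
      have hc1 := huniq (c 1) 1 (y 1) 0 (by rw [← hcy 1]; simp)
      rw [hErec 1, hc1.1, hc1.2]
      have hE00 : E 0 = 0 := by
        have := hEadd 0 0
        rw [add_zero] at this
        simpa using this
      rw [hE00]; simp
    have := hEsmul a 1
    rwa [mul_one, h1, mul_one] at this
  refine ⟨{ toFun := E
            map_one' := by rw [← map_one (algebraMap k O), hEC, map_one]
            map_mul' := hEmul
            map_zero' := by rw [← map_zero (algebraMap k O), hEC, map_zero]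
            map_add' := hEadd
            commutes' := fun a => by rw [hEC]; rfl }, ?_, ?_⟩
  · rw [injective_iff_map_eq_zero]
    intro x hx
    by_contra hne
    obtain ⟨n, hn⟩ := hint x hne
    apply hn
    have hx' : E x = 0 := hx
    have key : ∀ n, x = ϖ ^ n * y^[n] x := by
      intro n
      induction n with
      | zero => simp
      | succ n ih =>
        have hc : c (y^[n] x) = 0 := by
          have : PowerSeries.coeff n (E x) = 0 := by rw [hx']; simp
          simpa [E] using this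
        have := hcy (y^[n] x)
        rw [hc, map_zero, zero_add] at this
        rw [Function.iterate_succ_apply', pow_succ, mul_assoc, ← this]
        exact ih
    exact ⟨_, key n⟩
  · rintro x ⟨z, hz⟩
    have := huniq (c x) 0 (y x) z (by rw [← hcy x, hz]; simp)
    show PowerSeries.constantCoeff (E x) = 0
    rw [← PowerSeries.coeff_zero_eq_constantCoeff_apply, hE0, this.1]

end Expansion

section Val

variable {k K : Type*} [Field k] [Field K] [Algebra k K]

open Polynomial

/-- Valuation of a polynomial in an element of valuation larger than one. -/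
theorem val_aeval {Γ : Type*} [LinearOrderedCommGroupWithZero Γ] (v : Valuation K Γ)
    (hc : ∀ c : k, c ≠ 0 → v (algebraMap k K c) = 1) (x : K) (hx : 1 < v x)
    (p : k[X]) (hp : p ≠ 0) : v (aeval x p) = v x ^ p.natDegree := by
  rw [aeval_eq_sum_range, Finset.sum_range_succ]
  have hlead : v (p.coeff p.natDegree • x ^ p.natDegree) = v x ^ p.natDegree := by
    rw [Algebra.smul_def, map_mul, map_pow, hc _ (by simpa using hp), one_mul]
  rw [add_comm, Valuation.map_add_eq_of_lt_left, hlead]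
  rw [hlead]
  apply Valuation.map_sum_lt
  · exact pow_ne_zero _ (zero_lt_one.trans hx).ne'
  · intro i hi
    rw [Finset.mem_range] at hi
    by_cases h0 : p.coeff i = 0
    · rw [h0, zero_smul, map_zero]
      exact pow_pos (zero_lt_one.trans hx) _
    · rw [Algebra.smul_def, map_mul, map_pow, hc _ h0, one_mul]
      exact pow_lt_pow_right₀ hx hi

theorem val_aeval_le {Γ : Type*} [LinearOrderedCommGroupWithZero Γ] (v : Valuation K Γ)
    (hc : ∀ c : k, c ≠ 0 → v (algebraMap k K c) = 1) (x : K) (hx : 1 < v x)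
    (p : k[X]) (M : ℕ) (hM : p.natDegree < M) : v (aeval x p) < v x ^ M := by
  by_cases hp : p = 0
  · rw [hp, map_zero, map_zero]
    exact pow_pos (zero_lt_one.trans hx) _
  · rw [val_aeval v hc x hx p hp]
    exact pow_lt_pow_right₀ hx hM

/-- If a polynomial with constant coefficients has a value of valuation less than one then
so has a linear factor. -/
theorem exists_val_sub_lt [IsAlgClosed k] {Γ : Type*} [LinearOrderedCommGroupWithZero Γ]
    (v : Valuation K Γ)
    (hc : ∀ c : k, c ≠ 0 → v (algebraMap k K c) = 1) (y : K) :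
    ∀ (n : ℕ) (q : k[X]), q.natDegree = n → q ≠ 0 → v (aeval y q) < 1 →
      ∃ c : k, v (y - algebraMap k K c) < 1 := by
  intro n
  induction n with
  | zero =>
    intro q hq h0 hv
    rw [eq_C_of_natDegree_eq_zero hq, aeval_C] at hv
    have : q.coeff 0 ≠ 0 := by
      intro h
      apply h0
      rw [eq_C_of_natDegree_eq_zero hq, h, map_zero]
    rw [hc _ this] at hv
    exact absurd hv (lt_irrefl _)
  | succ n ih =>
    intro q hq h0 hv
    obtain ⟨a, ha⟩ := IsAlgClosed.exists_root q (by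
      rw [degree_eq_natDegree h0, hq]; exact_mod_cast Nat.succ_ne_zero n)
    obtain ⟨r, hr⟩ := dvd_iff_isRoot.mpr ha
    by_cases hlt : v (y - algebraMap k K a) < 1
    · exact ⟨a, hlt⟩
    · have hr0 : r ≠ 0 := by rintro rfl; rw [mul_zero] at hr; exact h0 hr
      apply ih r _ hr0
      · rw [hr, map_mul, map_mul] at hv
        have h1 : 1 ≤ v (y - algebraMap k K a) := not_lt.mp hlt
        have h2 : v (aeval y (X - C a)) = v (y - algebraMap k K a) := by simp
        rw [h2] at hv
        refine lt_of_le_of_lt ?_ hv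
        calc v (aeval y r) = 1 * v (aeval y r) := (one_mul _).symm
          _ ≤ _ := mul_le_mul_left h1 _
      · have := congrArg natDegree hr
        rw [natDegree_mul (X_sub_C_ne_zero a) hr0, natDegree_X_sub_C, hq] at this
        omega

/-- Algebraic of degree at most `n` over `k[x]`: some power of the value with bounded exponent
is a power of the value of `x`. -/
theorem exists_val_pow {Γ : Type*} [LinearOrderedCommGroupWithZero Γ]
    (v : Valuation K Γ)
    (hc : ∀ c : k, c ≠ 0 → v (algebraMap k K c) = 1) (x : K) (hx : 1 < v x) (n : ℕ)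
    (y : K) (hy : y ≠ 0) (p : k[X][X]) (hp : p ≠ 0) (hpn : p.natDegree ≤ n)
    (h : p.sum (fun i c => aeval x c * y ^ i) = 0) :
    ∃ m : ℤ, v y ^ n.factorial = (v x)⁻¹ ^ m := by
  have hx0 : v x ≠ 0 := (zero_lt_one.trans hx).ne'
  have hy0 : v y ≠ 0 := (Valuation.ne_zero_iff v).mpr hy
  have hz : ∀ i ∈ p.support, v (aeval x (p.coeff i) * y ^ i) =
      v x ^ (p.coeff i).natDegree * v y ^ i := by
    intro i hi
    rw [map_mul, map_pow, val_aeval v hc x hx _ (mem_support_iff.mp hi)]
  obtain ⟨i, hi, hmax⟩ := p.support.exists_max_image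
    (fun i => v (aeval x (p.coeff i) * y ^ i)) (support_nonempty.mpr hp)
  have hex : ∃ j ∈ p.support, j ≠ i ∧ v (aeval x (p.coeff j) * y ^ j) =
      v (aeval x (p.coeff i) * y ^ i) := by
    by_contra hcon
    push Not at hcon
    have hlt : v (∑ j ∈ p.support.erase i, aeval x (p.coeff j) * y ^ j) <
        v (aeval x (p.coeff i) * y ^ i) := by
      apply Valuation.map_sum_lt
      · rw [hz i hi]
        exact mul_ne_zero (pow_ne_zero _ hx0) (pow_ne_zero _ hy0)
      · intro j hj
        rw [Finset.mem_erase] at hj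
        exact lt_of_le_of_ne (hmax j hj.2) (hcon j hj.2 hj.1)
    have hsum : aeval x (p.coeff i) * y ^ i +
        ∑ j ∈ p.support.erase i, aeval x (p.coeff j) * y ^ j = 0 := by
      rw [Finset.add_sum_erase p.support (fun j => aeval x (p.coeff j) * y ^ j) hi]
      exact h
    have := Valuation.map_add_eq_of_lt_left v hlt
    rw [hsum, map_zero, hz i hi] at this
    exact mul_ne_zero (pow_ne_zero _ hx0) (pow_ne_zero _ hy0) this.symm
  obtain ⟨j, hj, hji, hval⟩ := hex
  rw [hz i hi, hz j hj] at hval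
  have key : ∀ i j : ℕ, i ≤ n → j ≤ n → i < j → ∀ a b : ℕ,
      v x ^ a * v y ^ i = v x ^ b * v y ^ j → ∃ m : ℤ, v y ^ n.factorial = (v x)⁻¹ ^ m := by
    intro i j hi hj hij a b hab
    obtain ⟨d, hd⟩ := Nat.exists_eq_add_of_lt hij
    obtain ⟨e, he⟩ : (d + 1) ∣ n.factorial := Nat.dvd_factorial (by omega) (by omega)
    have h1 : v y ^ (d + 1) = (v x)⁻¹ ^ ((b : ℤ) - a) := by
      have h2 : v y ^ j = v y ^ i * v y ^ (d + 1) := by rw [← pow_add]; congr 1
      rw [h2] at hab
      have h3 : v x ^ a = v x ^ b * v y ^ (d + 1) := by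
        apply mul_right_cancel₀ (pow_ne_zero i hy0)
        rw [hab, mul_assoc, mul_comm (v y ^ (d + 1))]
      rw [inv_zpow', zpow_neg, ← zpow_neg, neg_sub, zpow_sub₀ hx0, zpow_natCast, zpow_natCast, h3]
      field_simp
    refine ⟨((b : ℤ) - a) * e, ?_⟩
    rw [he, pow_mul, h1, zpow_mul, zpow_natCast]
  have hin : i ≤ n := (le_natDegree_of_mem_supp i hi).trans hpn
  have hjn : j ≤ n := (le_natDegree_of_mem_supp j hj).trans hpn
  rcases lt_or_gt_of_ne hji with hlt | hlt
  · exact key j i hjn hin hlt _ _ hval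
  · exact key i j hin hjn hlt _ _ hval.symm

/-- Every integral element is congruent to a constant. -/
theorem exists_const [IsAlgClosed k] {Γ : Type*} [LinearOrderedCommGroupWithZero Γ]
    (v : Valuation K Γ)
    (hc : ∀ c : k, c ≠ 0 → v (algebraMap k K c) = 1) (x : K) (hx : 1 < v x)
    (y : K) (hy : v y ≤ 1) (p : k[X][X]) (hp : p ≠ 0)
    (h : p.sum (fun i c => aeval x c * y ^ i) = 0) :
    ∃ c : k, v (y - algebraMap k K c) < 1 := by
  have hx0 : v x ≠ 0 := (zero_lt_one.trans hx).ne'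
  have hxx : x ≠ 0 := (Valuation.ne_zero_iff v).mp hx0
  obtain ⟨i, hi, hmax⟩ := p.support.exists_max_image
    (fun i => (p.coeff i).natDegree) (support_nonempty.mpr hp)
  set M := (p.coeff i).natDegree with hM
  let q : k[X] := ∑ j ∈ p.support, monomial j ((p.coeff j).coeff M)
  have hqc : q.coeff i = (p.coeff i).coeff M := by
    simp only [q, finsetSum_coeff, coeff_monomial]
    rw [Finset.sum_ite_eq' p.support i, if_pos hi]
  have hq : q ≠ 0 := by
    intro h0
    rw [h0, coeff_zero] at hqc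
    exact mem_support_iff.mp hi (leadingCoeff_eq_zero.mp hqc.symm)
  refine exists_val_sub_lt v hc y q.natDegree q rfl hq ?_
  have haq : aeval y q = ∑ j ∈ p.support, algebraMap k K ((p.coeff j).coeff M) * y ^ j := by
    simp only [q, map_sum, aeval_monomial]
  have hdiff : aeval y q * x ^ M = - ∑ j ∈ p.support,
      aeval x (p.coeff j - monomial M ((p.coeff j).coeff M)) * y ^ j := by
    have h' : ∑ j ∈ p.support, aeval x (p.coeff j) * y ^ j = 0 := h
    simp only [map_sub, aeval_monomial, sub_mul, Finset.sum_sub_distrib]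
    rw [h', zero_sub, neg_neg, haq, Finset.sum_mul]
    exact Finset.sum_congr rfl fun j _ => by ring
  have hlt : v (aeval y q * x ^ M) < v x ^ M := by
    rw [hdiff, Valuation.map_neg]
    apply Valuation.map_sum_lt
    · exact pow_ne_zero _ hx0
    · intro j hj
      rw [map_mul, map_pow]
      refine lt_of_le_of_lt (mul_le_of_le_one_right' (pow_le_one' hy j)) ?_
      by_cases hz : p.coeff j - monomial M ((p.coeff j).coeff M) = 0
      · rw [hz, map_zero, map_zero]
        exact pow_pos (zero_lt_one.trans hx) _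
      · rw [val_aeval v hc x hx _ hz]
        apply pow_lt_pow_right₀ hx
        refine lt_of_le_of_ne ?_ ?_
        · refine (natDegree_sub_le _ _).trans (max_le (hmax j hj) (natDegree_monomial_le _))
        · intro heq
          have : (p.coeff j - monomial M ((p.coeff j).coeff M)).coeff M = 0 := by simp
          apply hz
          rw [← leadingCoeff_eq_zero, leadingCoeff, heq]
          exact this
  rw [map_mul, map_pow] at hlt
  have hpos : 0 < v x ^ M := pow_pos (zero_lt_one.trans hx) _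
  by_contra hcon
  have h1 : 1 ≤ v (aeval y q) := not_lt.mp hcon
  exact absurd hlt (not_lt.mpr (le_mul_of_one_le_left' h1))

/-- A field extension of `k` algebraic of bounded degree over `k[x]`, and an element `T` not in
`k` such that `T` is integral wherever `x` is: there is an embedding in the Laurent series for
which `T` has a pole. -/
theorem exists_place [IsAlgClosed k] (x T : K) (n : ℕ)
    (hn : ∀ y : K, ∃ p : k[X][X], p ≠ 0 ∧ p.natDegree ≤ n ∧
      p.sum (fun i c => aeval x c * y ^ i) = 0)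
    (hT : ∀ V : ValuationSubring K, (∀ c : k, algebraMap k K c ∈ V) → x ∈ V → T ∈ V)
    (hTk : ∀ c : k, algebraMap k K c ≠ T) :
    ∃ F : K →ₐ[k] LaurentSeries k, ∀ P : PowerSeries k, F T ≠ HahnSeries.ofPowerSeries ℤ k P := by
  classical
  -- the valuation ring
  obtain ⟨V, hkV, hTV⟩ : ∃ V : ValuationSubring K, (∀ c : k, algebraMap k K c ∈ V) ∧ T ∉ V := by
    have hmem : T ∉ (integralClosure k K).toSubring := by
      intro h
      have hint : IsIntegral k T := h
      have h1 := IsAlgClosed.degree_eq_one_of_irreducible k (minpoly.irreducible hint)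
      obtain ⟨c, hc⟩ := (minpoly.mem_range_of_degree_eq_one k T h1)
      exact hTk c hc
    have : IsIntegrallyClosedIn (integralClosure k K).toSubring K :=
      inferInstanceAs (IsIntegrallyClosedIn (integralClosure k K) K)
    obtain ⟨V, hV, hx⟩ := Subring.exists_le_valuationSubring_of_isIntegrallyClosedIn hmem
    exact ⟨V, fun c => hV (algebraMap_mem (integralClosure k K) c), hx⟩
  have hxV : x ∉ V := fun h => hTV (hT V hkV h)
  set v := V.valuation with hv
  have hc : ∀ c : k, c ≠ 0 → v (algebraMap k K c) = 1 := by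
    intro c hc0
    apply le_antisymm
    · exact (V.valuation_le_one_iff _).mpr (hkV c)
    · have h1 : v (algebraMap k K c⁻¹) ≤ 1 := (V.valuation_le_one_iff _).mpr (hkV c⁻¹)
      have h2 : v (algebraMap k K c) * v (algebraMap k K c⁻¹) = 1 := by
        rw [← map_mul, ← map_mul, mul_inv_cancel₀ hc0, map_one, map_one]
      calc (1 : V.ValueGroup) = v (algebraMap k K c) * v (algebraMap k K c⁻¹) := h2.symm
        _ ≤ v (algebraMap k K c) * 1 := by gcongr
        _ = _ := mul_one _
  have hx : 1 < v x := by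
    by_contra h
    exact hxV ((V.valuation_le_one_iff _).mp (not_lt.mp h))
  have hx0 : v x ≠ 0 := (zero_lt_one.trans hx).ne'
  set N := n.factorial with hN
  have hNpos : 0 < N := Nat.factorial_pos n
  set u := (v x)⁻¹ with hu
  have hu0 : 0 < u := by rw [hu]; exact inv_pos.mpr (zero_lt_one.trans hx)
  have hu1 : u < 1 := inv_lt_one_of_one_lt₀ hx
  have hpow : ∀ y : K, y ≠ 0 → ∃ m : ℤ, v y ^ N = u ^ m := by
    intro y hy
    obtain ⟨p, hp, hpn, h⟩ := hn y
    exact exists_val_pow v hc x hx n y hy p hp hpn h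
  have hres : ∀ y : K, v y ≤ 1 → ∃ c : k, v (y - algebraMap k K c) < 1 := by
    intro y hy
    obtain ⟨p, hp, hpn, h⟩ := hn y
    exact exists_const v hc x hx y hy p hp h
  -- the uniformiser
  have hS : ∃ m : ℕ, 0 < m ∧ ∃ y : K, y ≠ 0 ∧ v y ^ N = u ^ m := by
    refine ⟨N, hNpos, x⁻¹, inv_ne_zero ((Valuation.ne_zero_iff v).mp hx0), ?_⟩
    rw [map_inv₀]
  obtain ⟨hm0, w, hw0, hw⟩ := Nat.find_spec hS
  set m0 := Nat.find hS with hm0def
  have hle : ∀ a b : K, v a ^ N ≤ v b ^ N → v a ≤ v b := by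
    intro a b h
    exact (pow_le_pow_iff_left₀ zero_le zero_le hNpos.ne').mp h
  have hvw1 : v w < 1 := by
    by_contra h
    have h1 : 1 ≤ v w ^ N := one_le_pow₀ (not_lt.mp h)
    rw [hw] at h1
    exact absurd (pow_lt_one₀ zero_le hu1 hm0.ne') (not_lt.mpr h1)
  have hmin : ∀ y : K, v y < 1 → v y ≤ v w := by
    intro y hy
    by_cases hy0 : y = 0
    · rw [hy0, map_zero]; exact zero_le
    obtain ⟨m, hm⟩ := hpow y hy0
    apply hle
    rw [hm, hw]
    have hmpos : 0 < m := by
      by_contra hneg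
      have h1 : 1 ≤ u ^ m := one_le_zpow_of_nonpos₀ hu0 hu1.le (not_lt.mp hneg)
      rw [← hm] at h1
      exact absurd (pow_lt_one₀ zero_le hy hNpos.ne') (not_lt.mpr h1)
    obtain ⟨m', rfl⟩ := Int.eq_ofNat_of_zero_le hmpos.le
    rw [zpow_natCast] at hm ⊢
    have := Nat.find_min' hS ⟨by exact_mod_cast hmpos, y, hy0, hm⟩
    exact pow_le_pow_right_of_le_one' hu1.le this
  let algV : Algebra k V := ((algebraMap k K).codRestrict V.toSubring hkV).toAlgebra
  have halgV : ∀ c : k, ((algebraMap k V c : V) : K) = algebraMap k K c := fun c => rfl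
  have hwV : w ∈ V := (V.valuation_le_one_iff _).mp hvw1.le
  let ϖ : V := ⟨w, hwV⟩
  have hdvd : ∀ z : V, v (z : K) < 1 → ϖ ∣ z := by
    intro z hz
    have h1 : (z : K) / w ∈ V := by
      rw [← V.valuation_le_one_iff, map_div₀]
      exact div_le_one_of_le₀ (hmin _ hz) zero_le
    exact ⟨⟨(z : K) / w, h1⟩, Subtype.ext (by
      show (z : K) = w * (z / w)
      field_simp)⟩
  have hdvd' : ∀ z : V, ϖ ∣ z → v (z : K) < 1 := by
    rintro z ⟨t, rfl⟩
    show v (w * (t : K)) < 1
    rw [map_mul]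
    exact mul_lt_one_of_lt_of_le hvw1 (V.valuation_le_one t)
  obtain ⟨E, hEinj, hE0⟩ := exists_expansion (k := k) ϖ
    (by intro h; exact hw0 (congrArg Subtype.val h))
    (by
      intro h
      have := hdvd' 1 h.dvd
      rw [show ((1 : V) : K) = 1 from rfl, map_one] at this
      exact lt_irrefl _ this)
    (by
      intro z
      obtain ⟨c, hc'⟩ := hres z (V.valuation_le_one z)
      exact ⟨c, hdvd _ hc'⟩)
    (by
      intro z hz
      have hz' : (z : K) ≠ 0 := fun h => hz (Subtype.ext h)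
      obtain ⟨m, hm⟩ := hpow z hz'
      refine ⟨m.toNat + 1, ?_⟩
      rintro ⟨t, ht⟩
      have h1 : v (z : K) ≤ v w ^ (m.toNat + 1) := by
        rw [ht]
        show v (w ^ (m.toNat + 1) * (t : K)) ≤ _
        rw [map_mul, map_pow]
        exact mul_le_of_le_one_right' (V.valuation_le_one t)
      have h2 : v (z : K) ^ N ≤ u ^ (m0 * (m.toNat + 1)) := by
        calc v (z : K) ^ N ≤ (v w ^ (m.toNat + 1)) ^ N := pow_le_pow_left₀ zero_le h1 N
          _ = (v w ^ N) ^ (m.toNat + 1) := by rw [← pow_mul, ← pow_mul, mul_comm]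
          _ = _ := by rw [hw, ← pow_mul]
      rw [hm, ← zpow_natCast] at h2
      have h3 := (zpow_le_zpow_iff_right_of_lt_one₀ hu0 hu1).mp h2
      have h4 : (m.toNat : ℤ) + 1 ≤ ((m0 * (m.toNat + 1) : ℕ) : ℤ) := by
        have : m.toNat + 1 ≤ m0 * (m.toNat + 1) := Nat.le_mul_of_pos_left _ hm0
        exact_mod_cast this
      have h5 := Int.self_le_toNat m
      omega)
  let E' : V →+* LaurentSeries k := (HahnSeries.ofPowerSeries ℤ k).comp E.toRingHom
  have hE' : Function.Injective E' := HahnSeries.ofPowerSeries_injective.comp hEinj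
  let F : K →+* LaurentSeries k := IsFractionRing.lift hE'
  have hF : ∀ z : V, F (z : K) = HahnSeries.ofPowerSeries ℤ k (E z) := by
    intro z
    exact IsFractionRing.lift_algebraMap hE' z
  refine ⟨{ F with commutes' := ?_ }, ?_⟩
  · intro c
    show F (algebraMap k K c) = _
    rw [← halgV c, hF, AlgHom.commutes]
    rfl
  · intro P hP
    have hP' : F T = HahnSeries.ofPowerSeries ℤ k P := hP
    have hTinv : v T⁻¹ < 1 := by
      rw [map_inv₀]
      apply inv_lt_one_of_one_lt₀
      by_contra h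
      exact hTV ((V.valuation_le_one_iff _).mp (not_lt.mp h))
    have hTiV : T⁻¹ ∈ V := (V.valuation_le_one_iff _).mp hTinv.le
    have hT0 : T ≠ 0 := by rintro rfl; exact hTV V.zero_mem
    have h0 := hE0 ⟨T⁻¹, hTiV⟩ (hdvd _ hTinv)
    have h1 : HahnSeries.ofPowerSeries ℤ k (P * E ⟨T⁻¹, hTiV⟩) = HahnSeries.ofPowerSeries ℤ k 1 := by
      rw [map_mul, ← hP', ← hF ⟨T⁻¹, hTiV⟩, ← map_mul, mul_inv_cancel₀ hT0, map_one, map_one]
    have h2 := congrArg PowerSeries.constantCoeff (HahnSeries.ofPowerSeries_injective h1)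
    rw [map_mul, h0, mul_zero, map_one] at h2
    exact zero_ne_one h2

end Val

section Curve

open Polynomial

universe u v

/-- A domain of finite type that is not the base field has a quotient domain which is a curve:
finite over a polynomial ring in one variable. -/
theorem exists_finite_over_line {k : Type u} [Field k] [IsAlgClosed k] {B : Type v} [CommRing B]
    [IsDomain B] [Algebra k B] [Algebra.FiniteType k B]
    (hB : ¬ Function.Surjective (algebraMap k B)) :
    ∃ (Q : Ideal B) (_ : Q.IsPrime) (φ : k[X] →ₐ[k] (B ⧸ Q)), Function.Injective φ ∧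
      φ.toRingHom.Finite := by
  obtain ⟨s, g, hginj, hgfin⟩ := exists_finite_inj_algHom_of_fg k B
  obtain _ | t := s
  · exfalso
    apply hB
    have hsur : Function.Surjective (algebraMap k (MvPolynomial (Fin 0) k)) := fun q =>
      ⟨_, (MvPolynomial.eq_C_of_isEmpty q).symm⟩
    have hint : Algebra.IsIntegral k B := by
      constructor
      intro b
      have h1 : g.toRingHom.IsIntegralElem b := RingHom.Finite.to_isIntegral hgfin b
      obtain ⟨p, hp, hpb⟩ := h1
      obtain ⟨q, hq, hqd, hqm⟩ := lifts_and_natDegree_eq_and_monic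
        (f := algebraMap k (MvPolynomial (Fin 0) k)) (p := p)
        ((lifts_iff_coeff_lifts p).mpr fun n => by
          obtain ⟨c, hc⟩ := hsur (p.coeff n)
          exact ⟨c, hc⟩) hp
      refine ⟨q, hqm, ?_⟩
      rw [← hpb, ← hq, eval₂_map]
      congr 1
      ext c
      simp
    exact (IsAlgClosed.algebraMap_bijective_of_isIntegral (k := k) (K := B)).2
  · let π : MvPolynomial (Fin (t + 1)) k →ₐ[k] k[X] :=
      MvPolynomial.aeval (fun i => if i = 0 then (X : k[X]) else 0)
    have hπ0 : π (MvPolynomial.X 0) = X := by simp [π]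
    have hπi : ∀ i, i ≠ 0 → π (MvPolynomial.X i) = 0 := by intro i hi; simp [π, hi]
    let σ : k[X] →ₐ[k] MvPolynomial (Fin (t + 1)) k := aeval (MvPolynomial.X 0)
    have hσ : ∀ p, π (σ p) = p := by
      intro p
      have : π.comp σ = AlgHom.id k k[X] := by
        ext
        simp [σ, hπ0]
      exact DFunLike.congr_fun this p
    have hprime : (RingHom.ker π).IsPrime := RingHom.ker_isPrime _
    let _ := g.toRingHom.toAlgebra
    have : Module.Finite (MvPolynomial (Fin (t + 1)) k) B := hgfin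
    have halg : ∀ F, algebraMap (MvPolynomial (Fin (t + 1)) k) B F = g F := fun F => rfl
    obtain ⟨Q, -, hQ, hQc⟩ := Ideal.exists_ideal_over_prime_of_isIntegral
      (R := MvPolynomial (Fin (t + 1)) k) (S := B) (RingHom.ker π) ⊥ (by
        intro F hF
        have : g F = 0 := hF
        rw [(injective_iff_map_eq_zero g).mp hginj F this]
        exact Ideal.zero_mem _)
    have hQ' : ∀ F, g F ∈ Q ↔ π F = 0 := by
      intro F
      rw [← halg, ← Ideal.mem_comap, hQc, RingHom.mem_ker]
    let φ : k[X] →ₐ[k] (B ⧸ Q) := aeval (Ideal.Quotient.mk Q (g (MvPolynomial.X 0)))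
    have hφ : ∀ F, φ (π F) = Ideal.Quotient.mk Q (g F) := by
      intro F
      have : φ.comp π = (Ideal.Quotient.mkₐ k Q).comp g := by
        apply MvPolynomial.algHom_ext
        intro i
        by_cases hi : i = 0
        · subst hi
          simp [φ, hπ0]
        · have h1 : Ideal.Quotient.mk Q (g (MvPolynomial.X i)) = 0 :=
            Ideal.Quotient.eq_zero_iff_mem.mpr ((hQ' _).mpr (hπi i hi))
          simp [φ, hπi i hi, h1]
      exact DFunLike.congr_fun this F
    refine ⟨Q, hQ, φ, ?_, ?_⟩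
    · rw [injective_iff_map_eq_zero]
      intro p hp
      rw [← hσ p, hφ, Ideal.Quotient.eq_zero_iff_mem, hQ', hσ] at hp
      exact hp
    · have h1 : (φ.toRingHom.comp π.toRingHom).Finite := by
        have : φ.toRingHom.comp π.toRingHom = (Ideal.Quotient.mk Q).comp g.toRingHom :=
          RingHom.ext fun F => hφ F
        rw [this]
        exact RingHom.Finite.comp (RingHom.Finite.of_surjective _ Ideal.Quotient.mk_surjective)
          hgfin
      exact RingHom.Finite.of_comp_finite h1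

theorem exists_rel {k : Type u} [Field k] {C : Type v} [CommRing C] [IsDomain C] [Algebra k C]
    (φ : k[X] →ₐ[k] C) (hφ : φ.toRingHom.Finite) :
    ∃ n : ℕ, ∀ y : FractionRing C, ∃ p : k[X][X], p ≠ 0 ∧ p.natDegree ≤ n ∧
      p.sum (fun i c => aeval (algebraMap C (FractionRing C) (φ X)) c * y ^ i) = 0 := by
  classical
  let _ := φ.toRingHom.toAlgebra
  have hfin : Module.Finite k[X] C := hφ
  have hsm : ∀ (p : k[X]) (c : C), p • c = φ p * c := fun p c => Algebra.smul_def p c
  refine ⟨Module.finrank k[X] C, fun y => ?_⟩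
  set n := Module.finrank k[X] C
  obtain ⟨a, b, hb, hab⟩ := IsFractionRing.div_surjective (A := C) y
  have hb0 : b ≠ 0 := nonZeroDivisors.ne_zero hb
  have hbK : algebraMap C (FractionRing C) b ≠ 0 := by
    rw [Ne, IsFractionRing.to_map_eq_zero_iff]; exact hb0
  have hdep : ¬ LinearIndependent k[X] (fun i : Fin (n + 1) => a ^ (i : ℕ) * b ^ (n - (i : ℕ))) := by
    intro hli
    have := hli.fintype_card_le_finrank
    rw [Fintype.card_fin] at this
    omega
  rw [Fintype.not_linearIndependent_iff] at hdep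
  obtain ⟨g, hg, i0, hi0⟩ := hdep
  let p : k[X][X] := ∑ i : Fin (n + 1), monomial (i : ℕ) (g i)
  have hcoeff : ∀ i : Fin (n + 1), p.coeff i = g i := by
    intro i
    simp only [p, finsetSum_coeff, coeff_monomial]
    rw [Finset.sum_eq_single i]
    · simp
    · intro j _ hj
      rw [if_neg]
      exact fun h => hj (Fin.ext h)
    · simp
  have hdeg : p.natDegree ≤ n := by
    apply natDegree_sum_le_of_forall_le
    intro i _
    exact (natDegree_monomial_le _).trans (Nat.lt_succ_iff.mp i.2)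
  refine ⟨p, ?_, hdeg, ?_⟩
  · intro h
    apply hi0
    rw [← hcoeff i0, h, coeff_zero]
  · have haev : ∀ c : k[X], aeval (algebraMap C (FractionRing C) (φ X)) c =
        algebraMap C (FractionRing C) (φ c) := by
      intro c
      have : (IsScalarTower.toAlgHom k C (FractionRing C)).comp φ =
          aeval (algebraMap C (FractionRing C) (φ X)) := by
        ext
        simp
      exact (DFunLike.congr_fun this c).symm
    rw [sum_over_range' p (by intro i; rw [map_zero, zero_mul]) (n + 1) (by omega),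
      Finset.sum_range]
    have h1 : algebraMap C (FractionRing C) b ^ n * ∑ i : Fin (n + 1),
        aeval (algebraMap C (FractionRing C) (φ X)) (p.coeff i) * y ^ (i : ℕ) = 0 := by
      have h2 := congrArg (algebraMap C (FractionRing C)) hg
      rw [map_zero, map_sum] at h2
      rw [← h2, Finset.mul_sum]
      refine Finset.sum_congr rfl fun i _ => ?_
      rw [haev, hcoeff, hsm, map_mul, map_mul, map_pow, map_pow, ← hab]
      have hi : (i : ℕ) ≤ n := Nat.lt_succ_iff.mp i.2
      obtain ⟨d, hd⟩ := Nat.exists_eq_add_of_le hi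
      have hd' : n - (i : ℕ) = d := by omega
      have hbn : algebraMap C (FractionRing C) b ^ n =
          algebraMap C (FractionRing C) b ^ (i : ℕ) * algebraMap C (FractionRing C) b ^ d := by
        rw [← pow_add, ← hd]
      rw [hd', hbn, div_pow]
      field_simp
    exact (mul_eq_zero.mp h1).resolve_left (pow_ne_zero _ hbK)

theorem mem_of_finite {k : Type u} [Field k] {C : Type v} [CommRing C] [IsDomain C] [Algebra k C]
    (φ : k[X] →ₐ[k] C) (hφ : φ.toRingHom.Finite) (V : ValuationSubring (FractionRing C))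
    (hk : ∀ c : k, algebraMap k (FractionRing C) c ∈ V)
    (hx : algebraMap C (FractionRing C) (φ X) ∈ V) (c : C) :
    algebraMap C (FractionRing C) c ∈ V := by
  have hmem : ∀ q : k[X], algebraMap C (FractionRing C) (φ q) ∈ V := by
    intro q
    induction q using Polynomial.induction_on with
    | C a =>
      have : φ (Polynomial.C a) = algebraMap k C a := φ.commutes a
      rw [this, ← IsScalarTower.algebraMap_apply]
      exact hk a
    | add p q hp hq => rw [map_add, map_add]; exact V.add_mem _ _ hp hq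
    | monomial n a h =>
      rw [pow_succ, ← mul_assoc, map_mul, map_mul]
      exact V.mul_mem _ _ h hx
  let θ : k[X] →+* V := ((algebraMap C (FractionRing C)).comp φ.toRingHom).codRestrict
    V.toSubring hmem
  obtain ⟨p, hp, hpc⟩ := RingHom.Finite.to_isIntegral hφ c
  have hint : IsIntegral V (algebraMap C (FractionRing C) c) := by
    refine ⟨p.map θ, hp.map θ, ?_⟩
    rw [eval₂_map]
    have : (algebraMap V (FractionRing C)).comp θ =
        (algebraMap C (FractionRing C)).comp φ.toRingHom := RingHom.ext fun _ => rfl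
    rw [this, ← hom_eval₂, hpc, map_zero]
  obtain ⟨y, hy⟩ := IsIntegrallyClosed.isIntegral_iff.mp hint
  rw [← hy]
  exact y.2

/-- **Block PLACE.** A finitely generated algebra over an algebraically closed field whose
localisation at the maximal ideal `m` is not artinian has a homomorphism to the Laurent series
with a pole, and `h ∉ m` is not killed. -/
theorem exists_pole {k : Type u} [Field k] [IsAlgClosed k] {A : Type v} [CommRing A]
    [Algebra k A] [Algebra.FiniteType k A] (m : Ideal A) [m.IsMaximal]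
    (hm : ¬ IsArtinianRing (Localization.AtPrime m)) (h : A) (hh : h ∉ m) :
    ∃ f : A →ₐ[k] LaurentSeries k, f h ≠ 0 ∧
      ∃ a : A, f a ∉ Set.range (HahnSeries.ofPowerSeries ℤ k) := by
  classical
  have hnoeth : IsNoetherianRing A := Algebra.FiniteType.isNoetherianRing k A
  have hnoeth' : IsNoetherianRing (Localization.AtPrime m) :=
    IsLocalization.isNoetherianRing m.primeCompl _ hnoeth
  -- a prime strictly below `m`
  obtain ⟨p0, hp0, hpm, hpne⟩ : ∃ p0 : Ideal A, p0.IsPrime ∧ p0 ≤ m ∧ p0 ≠ m := by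
    rw [isArtinianRing_iff_krullDimLE_zero, Ring.krullDimLE_zero_iff] at hm
    push Not at hm
    obtain ⟨I, hI, hIm⟩ := hm
    refine ⟨I.comap (algebraMap A (Localization.AtPrime m)), Ideal.IsPrime.comap _, ?_, ?_⟩
    · have h1 : I ≤ IsLocalRing.maximalIdeal _ := IsLocalRing.le_maximalIdeal hI.ne_top
      have h2 := Ideal.comap_mono (f := algebraMap A (Localization.AtPrime m)) h1
      exact h2.trans (le_of_eq Localization.AtPrime.under_maximalIdeal)
    · intro heq
      apply hIm
      have h1 : Ideal.map (algebraMap A (Localization.AtPrime m))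
          (I.comap (algebraMap A (Localization.AtPrime m))) = I :=
        IsLocalization.map_under m.primeCompl _ I
      rw [heq, Localization.AtPrime.map_eq_maximalIdeal] at h1
      rw [← h1]
      infer_instance
  have hhp : h ∉ p0 := fun h1 => hh (hpm h1)
  let A' := A ⧸ p0
  let h' : A' := Ideal.Quotient.mk p0 h
  have hh' : h' ≠ 0 := fun h1 => hhp (Ideal.Quotient.eq_zero_iff_mem.mp h1)
  have hle : Submonoid.powers h' ≤ nonZeroDivisors A' :=
    powers_le_nonZeroDivisors_of_noZeroDivisors hh'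
  let B := Localization.Away h'
  have hBdom : IsDomain B := IsLocalization.isDomain_localization hle
  have hA'ft : Algebra.FiniteType k A' := inferInstance
  have hBft : Algebra.FiniteType k B := by
    have : Algebra.FiniteType A' B := inferInstance
    exact Algebra.FiniteType.trans hA'ft this
  let j : A →ₐ[k] B := (IsScalarTower.toAlgHom k A' B).comp (Ideal.Quotient.mkₐ k p0)
  have hjker : ∀ a, j a = 0 → a ∈ p0 := by
    intro a ha
    have h1 : algebraMap A' B (Ideal.Quotient.mk p0 a) = 0 := ha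
    have h2 := IsLocalization.injective B hle (h1.trans (map_zero _).symm)
    exact Ideal.Quotient.eq_zero_iff_mem.mp h2
  have hjh : IsUnit (j h) := IsLocalization.Away.algebraMap_isUnit h'
  have hjsurj : ∀ b : B, ∃ (a : A) (n : ℕ), b * j h ^ n = j a := by
    intro b
    obtain ⟨⟨a', s⟩, hs⟩ := IsLocalization.surj (Submonoid.powers h') b
    obtain ⟨n, hn⟩ := s.2
    obtain ⟨a, rfl⟩ := Ideal.Quotient.mk_surjective a'
    refine ⟨a, n, ?_⟩
    have h1 : j h ^ n = algebraMap A' B (s : A') := by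
      rw [← hn, map_pow]; rfl
    rw [h1]
    exact hs
  have hB : ¬ Function.Surjective (algebraMap k B) := by
    intro hsur
    apply hpne
    have hpmax : p0.IsMaximal := by
      have hfield : IsField B := by
        refine ⟨⟨0, 1, zero_ne_one⟩, mul_comm, ?_⟩
        intro b hb
        obtain ⟨c, rfl⟩ := hsur b
        have hc : c ≠ 0 := by rintro rfl; exact hb (map_zero _)
        exact ⟨algebraMap k B c⁻¹, by rw [← map_mul, mul_inv_cancel₀ hc, map_one]⟩
      let _ := hfield.toField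
      have hker : RingHom.ker j.toRingHom = p0 := by
        ext a
        constructor
        · intro ha; exact hjker a ha
        · intro ha
          show algebraMap A' B (Ideal.Quotient.mk p0 a) = 0
          rw [Ideal.Quotient.eq_zero_iff_mem.mpr ha, map_zero]
      rw [← hker]
      have hsurj' : Function.Surjective j.toRingHom := by
        intro b
        obtain ⟨c, rfl⟩ := hsur b
        exact ⟨algebraMap k A c, j.commutes c⟩
      exact RingHom.ker_isMaximal_of_surjective j.toRingHom hsurj'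
    exact hpmax.eq_of_le (Ideal.IsMaximal.ne_top inferInstance) hpm
  obtain ⟨Q, hQ, φ, hφinj, hφfin⟩ := exists_finite_over_line hB
  obtain ⟨n, hn⟩ := exists_rel φ hφfin
  let K := FractionRing (B ⧸ Q)
  let ι : (B ⧸ Q) →ₐ[k] K := IsScalarTower.toAlgHom k (B ⧸ Q) K
  have hι : Function.Injective ι := IsFractionRing.injective (B ⧸ Q) K
  let f0 : A →ₐ[k] K := ι.comp ((Ideal.Quotient.mkₐ k Q).comp j)
  have hf0h : f0 h ≠ 0 := by
    have h1 : IsUnit (f0 h) := (hjh.map (Ideal.Quotient.mkₐ k Q)).map ι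
    exact h1.ne_zero
  obtain ⟨a, ha⟩ : ∃ a : A, ∀ c : k, algebraMap k K c ≠ f0 a := by
    by_contra hcon
    push Not at hcon
    have h1 : ∀ a : A, ∃ c : k, Ideal.Quotient.mk Q (j a) = algebraMap k (B ⧸ Q) c := by
      intro a
      obtain ⟨c, hc⟩ := hcon a
      refine ⟨c, hι ?_⟩
      rw [AlgHom.commutes]
      exact hc.symm
    obtain ⟨ch, hch⟩ := h1 h
    have hch0 : ch ≠ 0 := by
      rintro rfl
      rw [map_zero] at hch
      have := hjh.map (Ideal.Quotient.mk Q)
      rw [hch] at this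
      exact not_isUnit_zero this
    obtain ⟨b, hb⟩ := Ideal.Quotient.mk_surjective (φ X)
    obtain ⟨a, n, han⟩ := hjsurj b
    obtain ⟨ca, hca⟩ := h1 a
    have h2 : φ X = algebraMap k (B ⧸ Q) (ca / ch ^ n) := by
      have h3 : φ X * algebraMap k (B ⧸ Q) (ch ^ n) = algebraMap k (B ⧸ Q) ca := by
        rw [map_pow, ← hch, ← hb, ← map_pow, ← map_mul, han, hca]
      have h4 : algebraMap k (B ⧸ Q) (ca / ch ^ n) * algebraMap k (B ⧸ Q) (ch ^ n) =
          algebraMap k (B ⧸ Q) ca := by
        rw [← map_mul, div_mul_cancel₀ _ (pow_ne_zero _ hch0)]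
      have h5 : algebraMap k (B ⧸ Q) (ch ^ n) ≠ 0 := by
        rw [Ne, map_eq_zero]
        exact pow_ne_zero _ hch0
      exact mul_right_cancel₀ h5 (h3.trans h4.symm)
    have h3 : φ (X - Polynomial.C (ca / ch ^ n)) = 0 := by
      rw [map_sub, h2]
      have : φ (Polynomial.C (ca / ch ^ n)) = algebraMap k (B ⧸ Q) (ca / ch ^ n) := φ.commutes _
      rw [this, sub_self]
    exact X_sub_C_ne_zero _ (hφinj (h3.trans (map_zero _).symm))
  obtain ⟨F, hF⟩ := exists_place (algebraMap (B ⧸ Q) K (φ X)) (f0 a) n hn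
    (fun V hk hx => mem_of_finite φ hφfin V hk hx _) ha
  refine ⟨F.comp f0, ?_, a, ?_⟩
  · intro h1
    exact hf0h ((map_eq_zero F).mp h1)
  · rintro ⟨P, hP⟩
    exact hF P hP.symm

end Curve

end Vale.Agent.P292.Mo
end

section

/-! # P292, Mori step, block II.b: the lattice of the sections vanishing at the marks. -/

namespace Vale.Agent.P292.Mo

open Module Submodule

universe u v w

variable {k : Type u} [Field k] {K : Type w} [Field K] [Algebra k K] {A₀ : Subalgebra k K}

/-- The elements of `A₀` which vanish at all the marks. -/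
def markI {m : ℕ} (c : Fin m → (A₀ →ₐ[k] k)) : Submodule k K :=
  (⨅ i, LinearMap.ker (c i).toLinearMap).map (Subalgebra.toSubmodule A₀).subtype

theorem mem_markI {m : ℕ} {c : Fin m → (A₀ →ₐ[k] k)} {x : K} :
    x ∈ markI c ↔ ∃ h : x ∈ A₀, ∀ i, c i ⟨x, h⟩ = 0 := by
  rw [markI, Submodule.mem_map]
  constructor
  · rintro ⟨y, hy, rfl⟩
    rw [Submodule.mem_iInf] at hy
    exact ⟨y.2, fun i => hy i⟩
  · rintro ⟨h, hx⟩
    refine ⟨⟨x, h⟩, ?_, rfl⟩
    rw [Submodule.mem_iInf]
    exact fun i => hx i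

theorem markI_le {m : ℕ} (c : Fin m → (A₀ →ₐ[k] k)) :
    markI c ≤ Subalgebra.toSubmodule A₀ := fun _ hx => (mem_markI.1 hx).1

theorem mul_mem_markI {m : ℕ} {c : Fin m → (A₀ →ₐ[k] k)} {a x : K} (ha : a ∈ A₀)
    (hx : x ∈ markI c) : a * x ∈ markI c := by
  obtain ⟨h, h0⟩ := mem_markI.1 hx
  refine mem_markI.2 ⟨A₀.mul_mem ha h, fun i => ?_⟩
  have : (⟨a * x, A₀.mul_mem ha h⟩ : A₀) = ⟨a, ha⟩ * ⟨x, h⟩ := rfl
  rw [this, map_mul, h0 i, mul_zero]

/-- Distinct marks impose independent conditions. -/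
theorem marks_surjective {m : ℕ} {c : Fin m → (A₀ →ₐ[k] k)} (hc : Function.Injective c) :
    Function.Surjective (fun a : A₀ => fun i => c i a) := by
  classical
  -- the ideals are pairwise coprime
  have hcop : Pairwise (Function.onFun IsCoprime fun i => RingHom.ker (c i).toRingHom) := by
    intro i j hij
    have hne : c i ≠ c j := fun h => hij (hc h)
    obtain ⟨a, ha⟩ : ∃ a, c i a ≠ c j a := by
      by_contra h
      push Not at h
      exact hne (AlgHom.ext h)
    change IsCoprime (RingHom.ker (c i).toRingHom) (RingHom.ker (c j).toRingHom)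
    rw [Ideal.isCoprime_iff_exists]
    have hd : c j a - c i a ≠ 0 := sub_ne_zero.2 (Ne.symm ha)
    refine ⟨algebraMap k A₀ (c j a - c i a)⁻¹ * (a - algebraMap k A₀ (c i a)), ?_,
      algebraMap k A₀ (c j a - c i a)⁻¹ * (algebraMap k A₀ (c j a) - a), ?_, ?_⟩
    · rw [RingHom.mem_ker]
      change c i _ = 0
      rw [map_mul, map_sub, AlgHom.commutes (c i)]
      simp
    · rw [RingHom.mem_ker]
      change c j _ = 0
      rw [map_mul, map_sub, AlgHom.commutes (c j)]
      simp
    · rw [← mul_add]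
      have : a - algebraMap k A₀ (c i a) + (algebraMap k A₀ (c j a) - a) =
          algebraMap k A₀ (c j a - c i a) := by
        rw [map_sub]; ring
      rw [this, ← map_mul, inv_mul_cancel₀ hd, map_one]
  intro v
  have hsur := Ideal.pi_quotient_surjective (I := fun i => RingHom.ker (c i).toRingHom) hcop
    (fun i => Ideal.Quotient.mk _ (algebraMap k A₀ (v i)))
  obtain ⟨a, ha⟩ := hsur
  refine ⟨a, ?_⟩
  funext i
  have h1 := ha i
  rw [Ideal.Quotient.eq, RingHom.mem_ker] at h1
  have h2 : c i (a - algebraMap k A₀ (v i)) = 0 := h1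
  rw [map_sub, AlgHom.commutes, sub_eq_zero] at h2
  exact h2

theorem cod_markI {m : ℕ} {c : Fin m → (A₀ →ₐ[k] k)} (hc : Function.Injective c) :
    Fc (markI c) (Subalgebra.toSubmodule A₀) ∧
      cod (markI c) (Subalgebra.toSubmodule A₀) = m := by
  let f : ↥(Subalgebra.toSubmodule A₀) →ₗ[k] (Fin m → k) := LinearMap.pi fun i =>
    (c i).toLinearMap
  have hsur : Function.Surjective f := marks_surjective hc
  have hker : LinearMap.ker f =
      (markI c).comap (Subalgebra.toSubmodule A₀).subtype := by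
    ext x
    rw [LinearMap.mem_ker, Submodule.mem_comap, mem_markI]
    constructor
    · intro h
      exact ⟨x.2, fun i => congrFun h i⟩
    · rintro ⟨h, h0⟩
      funext i
      exact h0 i
  let e : (↥(Subalgebra.toSubmodule A₀) ⧸ (markI c).comap (Subalgebra.toSubmodule A₀).subtype)
      ≃ₗ[k] (Fin m → k) := (Submodule.quotEquivOfEq _ _ hker.symm).trans
        (f.quotKerEquivOfSurjective hsur)
  have hfin : FiniteDimensional k (↥(Subalgebra.toSubmodule A₀) ⧸
      (markI c).comap (Subalgebra.toSubmodule A₀).subtype) := Module.Finite.equiv e.symm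
  refine ⟨(finite_quot _ _).1 hfin, ?_⟩
  rw [← finrank_quot, LinearEquiv.finrank_eq e, finrank_fin_fun]

/-- The Euler characteristic of a symplectic bundle with marks. -/
theorem chi_bundle {A₁ : Subalgebra k K} (hCD : IsCD A₀ A₁) {u : K} (hu : u ≠ 0) {N : ℕ}
    {T M0 M1 : Matrix (Fin N) (Fin N) K} (hM0 : M0.det ∈ A₀) (hM0' : M0.det⁻¹ ∈ A₀)
    (hM00 : M0.det ≠ 0) (hM1 : M1.det ∈ A₁) (hM1' : M1.det⁻¹ ∈ A₁) (hM10 : M1.det ≠ 0)
    (hrel : T * M0 * T.transpose = u⁻¹ • M1) {m : ℕ} {c : Fin m → (A₀ →ₐ[k] k)}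
    (hc : Function.Injective c) :
    Fred (pis fun _ : Fin N => markI c) ((lat (Fin N) A₁).map (act k T.transpose)) ∧
    2 * chi (pis fun _ : Fin N => markI c) ((lat (Fin N) A₁).map (act k T.transpose)) =
      2 * N * chi0 A₀ A₁ + N * idx A₁ u - 2 * m * N := by
  have hA := hCD.oneDim
  have hF := hCD.fred
  have hui : u⁻¹ ≠ 0 := inv_ne_zero hu
  have h1 : T.det * M0.det * T.det = (u⁻¹) ^ N * M1.det := by
    have := congrArg Matrix.det hrel
    rwa [Matrix.det_mul, Matrix.det_mul, Matrix.det_transpose, Matrix.det_smul,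
      Fintype.card_fin] at this
  have hT : T.det ≠ 0 := by
    intro h0
    rw [h0, mul_zero] at h1
    exact mul_ne_zero (pow_ne_zero _ hui) hM10 h1.symm
  have hTt : T.transpose.det ≠ 0 := by rwa [Matrix.det_transpose]
  have h2 : 2 * dg A₁ T.det = N * idx A₁ u := by
    have e1 : dg A₁ (T.det * M0.det * T.det) = 2 * dg A₁ T.det := by
      rw [hA.dg_mul (mul_ne_zero hT hM00) hT, hA.dg_mul hT hM00, dg_unit_O hA hF hM0 hM0' hM00]
      ring
    have e2 : dg A₁ ((u⁻¹) ^ N * M1.det) = N * idx A₁ u := by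
      rw [hA.dg_mul (pow_ne_zero _ hui) hM10, dg_unit hM1 hM1' hM10, hA.dg_pow hui]
      have := idx_eq (A₁ := A₁) u⁻¹
      rw [hCD.idx_inv hu] at this
      have h3 : dg A₁ u⁻¹ = idx A₁ u := by linarith
      rw [h3]
      ring
    rw [← e1, h1, e2]
  have c1 := chi_lat (ι := Fin N) hA hF T.transpose hTt
  have F1 : Fred (lat (Fin N) A₀) ((lat (Fin N) A₁).map (act k T.transpose)) := Fred.comm c1.1
  have c2 : chi (lat (Fin N) A₀) ((lat (Fin N) A₁).map (act k T.transpose)) =
      N * chi0 A₀ A₁ + dg A₁ T.det := by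
    rw [chi_comm, c1.2, chi0_eq, Fintype.card_fin, Matrix.det_transpose]
  have hm := cod_markI hc
  have c3 := cod_pis (ι := Fin N) (fun _ => markI c) (fun _ => Subalgebra.toSubmodule A₀)
    (fun _ => hm.1)
  have hle : (pis fun _ : Fin N => markI c) ≤ lat (Fin N) A₀ := fun v hv =>
    mem_pis.2 fun i => markI_le c (mem_pis.1 hv i)
  have c4 := chi_of_le (M := (lat (Fin N) A₁).map (act k T.transpose)) hle c3.1
  have F2 := c4.1.1 F1
  have c5 := c4.2 F2
  have c6 : (cod (pis fun _ : Fin N => markI c) (lat (Fin N) A₀) : ℤ) = N * m := by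
    have := c3.2
    rw [Finset.sum_const, Finset.card_univ, Fintype.card_fin, hm.2, smul_eq_mul] at this
    exact_mod_cast this
  refine ⟨F2, ?_⟩
  rw [c2, c6] at c5
  linear_combination -2 * c5 + h2

end Vale.Agent.P292.Mo
end

section

/-! # P292, Mori step, block II.b: the Euler characteristic of the derivations along a curve. -/

namespace Vale.Agent.P292.Mo

open Module Submodule

universe u v w

section inj

variable {k : Type*} [Field k] {V W : Type*} [AddCommGroup V] [Module k V] [AddCommGroup W]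
  [Module k W]

theorem cod_map_inj {f : V →ₗ[k] W} (hf : Function.Injective f) (D L : Submodule k V) :
    cod (D.map f) (L.map f) = cod D L ∧ (Fc (D.map f) (L.map f) ↔ Fc D L) := by
  let g : (V ⧸ D) →ₗ[k] (W ⧸ D.map f) := D.mapQ (D.map f) f (Submodule.le_comap_map f D)
  have hg : Function.Injective g := by
    rw [← LinearMap.ker_eq_bot, Submodule.ker_mapQ, Submodule.comap_map_eq_of_injective hf,
      Submodule.mkQ_map_self]
  have h : (L.map D.mkQ).map g = (L.map f).map (D.map f).mkQ := by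
    rw [← Submodule.map_comp, ← Submodule.map_comp]
    congr 1
  let e : ↥(L.map D.mkQ) ≃ₗ[k] ↥((L.map D.mkQ).map g) := Submodule.equivMapOfInjective g hg _
  rw [h] at e
  exact ⟨(LinearEquiv.finrank_eq e).symm, ⟨fun h => by
    have : Module.Finite k _ := h
    exact Module.Finite.equiv e.symm, fun h => by
    have : Module.Finite k _ := h
    exact Module.Finite.equiv e⟩⟩

end inj

section

variable {k : Type u} [Field k] {R : Type v} [CommRing R] [Algebra k R]
  {𝒜 : ℕ → Submodule k R} {P : R →ₗ[k] R →ₗ[k] R} {K : Type w} [Field K] [Algebra k K]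
  {φ : R →ₐ[k] K}

/-- Derivations over `φ` are determined by their values on a frame. -/
theorem frame_apply {N : ℕ} {x : Fin N → R} {d : Fin N → ℕ} {g : R} (h : IsFr 𝒜 x d g) (r : R) :
    ∃ c : Fin N → K, ∀ δ ∈ DerS φ, φ g * δ r = ∑ i, c i * δ (x i) := by
  obtain ⟨c, hc⟩ := h.gen r
  refine ⟨fun i => φ (c i), fun δ hδ => ?_⟩
  let _ : Module R K := Module.compHom K φ.toRingHom
  have hsm : ∀ (r : R) (z : K), r • z = φ r * z := fun _ _ => rfl
  have _ : IsScalarTower k R K := ⟨fun c r z => by rw [hsm, hsm, map_smul, smul_mul_assoc]⟩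
  let D' : Derivation k R K := Derivation.mk' δ (fun a b => by rw [hsm, hsm]; exact hδ a b)
  have hD' : ∀ s, D' s = δ s := fun _ => rfl
  have h1 := congrArg D'.liftKaehlerDifferential hc
  rw [map_smul, map_sum, Derivation.liftKaehlerDifferential_comp_D, hsm, hD'] at h1
  rw [h1]
  refine Finset.sum_congr rfl fun i _ => ?_
  rw [map_smul, Derivation.liftKaehlerDifferential_comp_D, hsm, hD']

theorem frame_ext {N : ℕ} {x : Fin N → R} {d : Fin N → ℕ} {g : R} (h : IsFr 𝒜 x d g)
    (hg : φ g ≠ 0) {δ δ' : R →ₗ[k] K} (h1 : δ ∈ DerS φ) (h2 : δ' ∈ DerS φ)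
    (he : ∀ i, δ (x i) = δ' (x i)) : δ = δ' := by
  ext r
  obtain ⟨c, hc⟩ := frame_apply (φ := φ) h r
  have e1 := hc δ h1
  have e2 := hc δ' h2
  refine mul_left_cancel₀ hg ?_
  rw [e1, e2]
  exact Finset.sum_congr rfl fun i _ => by rw [he i]

/-- The Hamiltonian derivation over `φ`. -/
def hmd (P : R →ₗ[k] R →ₗ[k] R) (φ : R →ₐ[k] K) (a : R) : R →ₗ[k] K := φ.toLinearMap ∘ₗ P a

theorem hmd_apply (a r : R) : hmd P φ a r = φ (P a r) := rfl

theorem hmd_mem (hl : ∀ a b c, P a (b * c) = P a b * c + b * P a c) (a : R) :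
    hmd P φ a ∈ DerS φ := by
  intro r s
  rw [hmd_apply, hmd_apply, hmd_apply, hl, map_add, map_mul, map_mul]
  ring

theorem DerS_mul_mem {δ : R →ₗ[k] K} (h : δ ∈ DerS φ) (a : K) :
    (LinearMap.mulLeft k a ∘ₗ δ) ∈ DerS φ := by
  intro r s
  simp only [LinearMap.comp_apply, LinearMap.mulLeft_apply, h r s]
  ring

/-- The derivation `∑ a_j z_j {x_j, .}`. -/
def hmL (P : R →ₗ[k] R →ₗ[k] R) (φ : R →ₐ[k] K) {N : ℕ} (x : Fin N → R) (z : Fin N → K) :
    (Fin N → K) →ₗ[k] (R →ₗ[k] K) where
  toFun a := ∑ j, LinearMap.mulLeft k (a j * z j) ∘ₗ hmd P φ (x j)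
  map_add' a b := by
    rw [← Finset.sum_add_distrib]
    refine Finset.sum_congr rfl fun j _ => ?_
    ext r
    simp only [Pi.add_apply, LinearMap.comp_apply, LinearMap.mulLeft_apply, LinearMap.add_apply]
    ring
  map_smul' c a := by
    rw [RingHom.id_apply, Finset.smul_sum]
    refine Finset.sum_congr rfl fun j _ => ?_
    ext r
    simp only [Pi.smul_apply, LinearMap.comp_apply, LinearMap.mulLeft_apply,
      LinearMap.smul_apply, smul_mul_assoc]

theorem hmL_apply {N : ℕ} (x : Fin N → R) (z a : Fin N → K) (r : R) :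
    hmL P φ x z a r = ∑ j, a j * z j * φ (P (x j) r) := by
  simp only [hmL, LinearMap.coe_mk, AddHom.coe_mk, LinearMap.sum_apply, LinearMap.comp_apply,
    LinearMap.mulLeft_apply, hmd_apply]

theorem hmL_mem (hl : ∀ a b c, P a (b * c) = P a b * c + b * P a c) {N : ℕ} (x : Fin N → R)
    (z a : Fin N → K) : hmL P φ x z a ∈ DerS φ := by
  intro r s
  rw [hmL_apply, hmL_apply, hmL_apply, Finset.mul_sum, Finset.mul_sum, ← Finset.sum_add_distrib]
  refine Finset.sum_congr rfl fun j _ => ?_
  rw [hl, map_add, map_mul, map_mul]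
  ring

theorem skew_of_alt (ha : ∀ a, P a a = 0) (a b : R) : P a b = - P b a := by
  have h := ha (a + b)
  rw [map_add, map_add, LinearMap.add_apply, LinearMap.add_apply, ha a, ha b, zero_add,
    add_zero] at h
  exact eq_neg_of_add_eq_zero_right h

/-- The matrix of the brackets of a frame, scaled by `y` and `z`. -/
def scM (P : R →ₗ[k] R →ₗ[k] R) (φ : R →ₐ[k] K) {N : ℕ} (x : Fin N → R) (y z : Fin N → K) :
    Matrix (Fin N) (Fin N) K := Matrix.of fun i j => y i * z j * φ (P (x i) (x j))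

theorem det_scM {N : ℕ} (x : Fin N → R) (y z : Fin N → K) :
    (scM P φ x y z).det = (∏ i, y i) * (∏ i, z i) * φ (brM P x).det := by
  have h : scM P φ x y z = Matrix.diagonal y * (brM P x).map φ * Matrix.diagonal z := by
    ext i j
    rw [Matrix.mul_diagonal, Matrix.diagonal_mul, scM, Matrix.of_apply, Matrix.map_apply, brM,
      Matrix.of_apply]
    ring
  rw [h, Matrix.det_mul, Matrix.det_mul, Matrix.det_diagonal, Matrix.det_diagonal]
  have : ((brM P x).map φ).det = φ (brM P x).det := by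
    rw [AlgHom.map_det]
    rfl
  rw [this]
  ring

/-- Coordinates with respect to a scaled frame: the derivation `δ` has coordinates
`(M')⁻¹ (y δ(x))`, where `M'` is the transpose of `scM x z y`. -/
theorem hmL_coord {N : ℕ} {x : Fin N → R} {d : Fin N → ℕ} {g : R} (h : IsFr 𝒜 x d g)
    (hl : ∀ a b c, P a (b * c) = P a b * c + b * P a c)
    (hg : φ g ≠ 0) (hdet : φ (brM P x).det ≠ 0) {y z : Fin N → K} (hy : ∀ i, y i ≠ 0)
    (hz : ∀ i, z i ≠ 0) {δ : R →ₗ[k] K} (hδ : δ ∈ DerS φ) :
    hmL P φ x z (((scM P φ x z y).transpose)⁻¹.mulVec fun i => y i * δ (x i)) = δ := by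
  have hD : (scM P φ x z y).transpose.det ≠ 0 := by
    rw [Matrix.det_transpose, det_scM]
    exact mul_ne_zero (mul_ne_zero (Finset.prod_ne_zero_iff.2 fun i _ => hz i)
      (Finset.prod_ne_zero_iff.2 fun i _ => hy i)) hdet
  refine frame_ext h hg (hmL_mem hl _ _ _) hδ fun i => ?_
  refine mul_left_cancel₀ (hy i) ?_
  set a := ((scM P φ x z y).transpose)⁻¹.mulVec fun i => y i * δ (x i) with ha
  have h1 : (scM P φ x z y).transpose.mulVec a = fun i => y i * δ (x i) := by
    rw [ha, Matrix.mulVec_mulVec, Matrix.mul_nonsing_inv _ (Ne.isUnit hD), Matrix.one_mulVec]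
  have h2 := congrFun h1 i
  rw [← h2, hmL_apply, Matrix.mulVec, dotProduct, Finset.mul_sum]
  refine Finset.sum_congr rfl fun j _ => ?_
  rw [Matrix.transpose_apply, scM, Matrix.of_apply]
  ring

theorem hmL_injective {N : ℕ} {x : Fin N → R} (hdet : φ (brM P x).det ≠ 0) {z : Fin N → K}
    (hz : ∀ i, z i ≠ 0) : Function.Injective (hmL P φ x z) := by
  rw [injective_iff_map_eq_zero]
  intro a ha
  have hD : (scM P φ x z 1).transpose.det ≠ 0 := by
    rw [Matrix.det_transpose, det_scM]
    refine mul_ne_zero (mul_ne_zero (Finset.prod_ne_zero_iff.2 fun i _ => hz i) ?_) hdet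
    simp
  refine Matrix.eq_zero_of_mulVec_eq_zero hD ?_
  funext i
  have h1 := LinearMap.congr_fun ha (x i)
  rw [hmL_apply, LinearMap.zero_apply] at h1
  rw [Pi.zero_apply, ← h1, Matrix.mulVec, dotProduct]
  refine Finset.sum_congr rfl fun j _ => ?_
  rw [Matrix.transpose_apply, scM, Matrix.of_apply, Pi.one_apply]
  ring

theorem det_mem_sub {n : Type*} [Fintype n] [DecidableEq n] {B : Subalgebra k K}
    {M : Matrix n n K} (hM : ∀ i j, M i j ∈ B) : M.det ∈ B := by
  rw [Matrix.det_apply']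
  refine B.sum_mem fun σ _ => B.mul_mem ?_ (B.prod_mem fun i _ => hM _ _)
  exact B.intCast_mem _

theorem inv_mulVec_mem {N : ℕ} {B : Subalgebra k K} {M : Matrix (Fin N) (Fin N) K}
    (hM : ∀ i j, M i j ∈ B) (hdet : M.det⁻¹ ∈ B) {I : Submodule k K}
    (hI : ∀ b ∈ B, ∀ x ∈ I, b * x ∈ I) {v : Fin N → K} (hv : ∀ i, v i ∈ I) (i : Fin N) :
    (M⁻¹.mulVec v) i ∈ I := by
  rw [Matrix.mulVec, dotProduct]
  refine I.sum_mem fun j _ => hI _ ?_ _ (hv j)
  rw [Matrix.inv_def, Matrix.smul_apply, smul_eq_mul, Ring.inverse_eq_inv']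
  refine B.mul_mem hdet ?_
  rw [Matrix.adjugate_apply]
  refine det_mem_sub fun a b => ?_
  by_cases ha : a = j
  · subst ha
    rw [Matrix.updateRow_self]
    by_cases hb : b = i
    · subst hb
      rw [Pi.single_eq_same]
      exact B.one_mem
    · rw [Pi.single_eq_of_ne hb]
      exact B.zero_mem
  · rw [Matrix.updateRow_ne ha]
    exact hM a b

end

section main

variable {k : Type u} [Field k] {R : Type v} [CommRing R] [Algebra k R]
  {𝒜 : ℕ → Submodule k R} [GradedAlgebra 𝒜] {P : R →ₗ[k] R →ₗ[k] R} {K : Type w} [Field K]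
  [Algebra k K] {φ : R →ₐ[k] K} {A₀ A₁ : Subalgebra k K} {u : K}

theorem IsMp.mem0 (h : IsMp 𝒜 A₀ A₁ u φ) (r : R) : φ r ∈ A₀ := by
  induction r using DirectSum.Decomposition.inductionOn 𝒜 with
  | zero => rw [map_zero]; exact A₀.zero_mem
  | homogeneous m => exact (h.sec _ _ m.2).1
  | add r s hr hs => rw [map_add]; exact A₀.add_mem hr hs

omit [GradedAlgebra 𝒜] in
theorem IsMp.mem1 (h : IsMp 𝒜 A₀ A₁ u φ) {n : ℕ} {r : R} (hr : r ∈ 𝒜 n) : u ^ n * φ r ∈ A₁ :=
  (h.sec n r hr).2

/-- The bracket along the curve on the second chart. -/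
theorem IsMp.bracket1 (h : IsMp 𝒜 A₀ A₁ u φ) (hPM : IsPM 𝒜 P) {m n : ℕ} {a b : R} (ha : a ∈ 𝒜 m)
    (hb : b ∈ 𝒜 n) : u ^ ((m : ℤ) - 1) * u ^ n * φ (P a b) ∈ A₁ := by
  rcases Nat.eq_zero_or_pos (m + n) with h0 | h0
  · have hb0 : b ∈ 𝒜 0 := by
      have : n = 0 := by omega
      rwa [this] at hb
    obtain ⟨c, rfl⟩ := hPM.connected b hb0
    have h1 : P a 1 = 0 := by
      have h6 := hPM.leibniz a 1 1
      rw [mul_one, mul_one, one_mul] at h6
      have h7 : P a 1 + 0 = P a 1 + P a 1 := by rw [add_zero]; exact h6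
      exact (add_left_cancel h7).symm
    rw [Algebra.algebraMap_eq_smul_one, map_smul, h1, smul_zero, map_zero, mul_zero]
    exact A₁.zero_mem
  · have h1 := h.mem1 (hPM.degree m n (m + n - 1) (by omega) a ha b hb)
    have h2 : u ^ ((m : ℤ) - 1) * u ^ n = u ^ (m + n - 1) := by
      rw [← zpow_natCast u n, ← zpow_add₀ h.u_ne, ← zpow_natCast u (m + n - 1)]
      congr 1
      omega
    rwa [h2]

theorem prod_zpow_sum {F : Type*} [Field F] {u : F} (hu : u ≠ 0) {ι : Type*} (s : Finset ι)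
    (f : ι → ℤ) : ∏ i ∈ s, u ^ f i = u ^ ∑ i ∈ s, f i := by
  classical
  induction s using Finset.induction_on with
  | empty => simp
  | insert a s ha ih => rw [Finset.prod_insert ha, Finset.sum_insert ha, ih, zpow_add₀ hu]

/-- **Block II.b.** Riemann-Roch for the derivations along the curve vanishing at the marks. -/
theorem chi_der (hPM : IsPM 𝒜 P) (hCD : IsCD A₀ A₁) (hMp : IsMp 𝒜 A₀ A₁ u φ) {N : ℕ}
    {x : Fin N → R} {d : Fin N → ℕ} {g : R} {x' : Fin N → R} {d' : Fin N → ℕ} {g' : R}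
    (h0 : IsFr0 𝒜 P A₀ φ x d g) (h1 : IsFr1 𝒜 P A₁ u φ x' d' g') {m : ℕ}
    {c : Fin m → (A₀ →ₐ[k] k)} (hc : Function.Injective c) :
    FiniteDimensional k ↥(T0 𝒜 φ (markI c) A₁ u) ∧
    FiniteDimensional k ↥(ObS 𝒜 φ (markI c) A₁ u) ∧
    2 * (finrank k ↥(T0 𝒜 φ (markI c) A₁ u) : ℤ) - 2 * finrank k ↥(ObS 𝒜 φ (markI c) A₁ u) =
      2 * N * chi0 A₀ A₁ + N * idx A₁ u - 2 * m * N := by
  have hu := hMp.u_ne
  have hl := hPM.leibniz
  -- scalings
  set z1 : Fin N → K := fun j => u ^ ((d' j : ℤ) - 1) with hz1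
  set y1 : Fin N → K := fun j => u ^ d' j with hy1
  have hz1' : ∀ j, z1 j ≠ 0 := fun j => zpow_ne_zero _ hu
  have hy1' : ∀ j, y1 j ≠ 0 := fun j => pow_ne_zero _ hu
  have hzy : ∀ j, u * z1 j = y1 j := fun j => by
    rw [hz1, hy1]
    change u * u ^ ((d' j : ℤ) - 1) = u ^ d' j
    rw [← zpow_one_add₀ hu, ← zpow_natCast]
    congr 1
    ring
  have hone : ∀ j : Fin N, (1 : Fin N → K) j ≠ 0 := fun j => one_ne_zero
  set Φ := hmL P φ x 1 with hΦ
  set Φ' := hmL P φ x' z1 with hΦ'
  have hΦinj : Function.Injective Φ := hmL_injective h0.det_ne hone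
  -- matrices
  set M0 := scM P φ x 1 1 with hM0
  set M1 := scM P φ x' z1 y1 with hM1
  have M0mem : ∀ i j, M0 i j ∈ A₀ := fun i j => by
    rw [hM0, scM, Matrix.of_apply, Pi.one_apply, Pi.one_apply, one_mul, one_mul]
    exact hMp.mem0 _
  have M1mem : ∀ i j, M1 i j ∈ A₁ := fun i j =>
    hMp.bracket1 hPM (h1.fr.hom i) (h1.fr.hom j)
  have M0det : M0.det = φ (brM P x).det := by
    rw [hM0, det_scM]; simp
  have M1det : M1.det = u ^ ((2 : ℤ) * (∑ i, (d' i : ℤ)) - N) * φ (brM P x').det := by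
    rw [hM1, det_scM]
    congr 1
    have e1 : ∏ i, z1 i = u ^ (∑ i, ((d' i : ℤ) - 1)) := by
      exact prod_zpow_sum hu _ _
    have e2 : ∏ i, y1 i = u ^ (∑ i, (d' i : ℤ)) := by
      rw [hy1, Finset.prod_pow_eq_pow_sum, ← zpow_natCast]
      push_cast
      rfl
    rw [e1, e2, ← zpow_add₀ hu]
    congr 1
    rw [Finset.sum_sub_distrib, Finset.sum_const, Finset.card_univ, Fintype.card_fin,
      nsmul_eq_mul, mul_one]
    ring
  -- coordinates of the second frame in the first one
  have hmem : ∀ i, hmL P φ x' z1 (Pi.single i 1) ∈ DerS φ := fun i => hmL_mem hl _ _ _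
  have hsingle : ∀ i r, hmL P φ x' z1 (Pi.single i 1) r = z1 i * φ (P (x' i) r) := by
    intro i r
    rw [hmL_apply, Finset.sum_eq_single i]
    · rw [Pi.single_eq_same, one_mul]
    · intro j _ hj
      rw [Pi.single_eq_of_ne hj, zero_mul, zero_mul]
    · intro hi
      exact absurd (Finset.mem_univ i) hi
  have hT : ∀ i, ∃ t : Fin N → K, ∀ r, z1 i * φ (P (x' i) r) = ∑ j, t j * φ (P (x j) r) := by
    intro i
    have h2 := hmL_coord h0.fr hl h0.g_ne h0.det_ne hone hone (hmem i)
    refine ⟨((scM P φ x 1 1).transpose)⁻¹.mulVec fun l =>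
        (1 : Fin N → K) l * hmL P φ x' z1 (Pi.single i 1) (x l), fun r => ?_⟩
    have h3 := LinearMap.congr_fun h2 r
    rw [hsingle, hmL_apply] at h3
    rw [← h3]
    refine Finset.sum_congr rfl fun j _ => ?_
    rw [Pi.one_apply, mul_one]
  choose t ht using hT
  set T : Matrix (Fin N) (Fin N) K := Matrix.of t with hTdef
  have hΦT : ∀ b : Fin N → K, Φ' b = Φ (T.transpose.mulVec b) := by
    intro b
    ext r
    rw [hΦ, hΦ', hmL_apply, hmL_apply]
    simp only [Matrix.mulVec, dotProduct, Matrix.transpose_apply, hTdef, Matrix.of_apply,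
      Pi.one_apply, mul_one]
    have e1 : ∀ i, b i * z1 i * φ (P (x' i) r) = ∑ j, t i j * b i * φ (P (x j) r) := by
      intro i
      rw [mul_assoc, ht i r, Finset.mul_sum]
      exact Finset.sum_congr rfl fun j _ => by ring
    rw [Finset.sum_congr rfl fun i _ => e1 i, Finset.sum_comm]
    exact Finset.sum_congr rfl fun j _ => by rw [Finset.sum_mul]
  have hrel : T * M0 * T.transpose = u⁻¹ • M1 := by
    ext i j
    rw [Matrix.smul_apply, Matrix.mul_apply, hM1, scM, Matrix.of_apply, smul_eq_mul]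
    have e1 : ∀ l, (T * M0) i l = z1 i * φ (P (x' i) (x l)) := by
      intro l
      rw [Matrix.mul_apply, ht i (x l)]
      refine Finset.sum_congr rfl fun a _ => ?_
      rw [hM0, scM, Matrix.of_apply, hTdef, Matrix.of_apply, Pi.one_apply, Pi.one_apply]
      ring
    have e2 : ∀ l, (T * M0) i l * T.transpose l j = - (z1 i * (t j l * φ (P (x l) (x' i)))) := by
      intro l
      rw [e1, Matrix.transpose_apply, hTdef, Matrix.of_apply, skew_of_alt hPM.alternating (x' i),
        map_neg]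
      ring
    rw [Finset.sum_congr rfl fun l _ => e2 l, Finset.sum_neg_distrib, ← Finset.mul_sum,
      ← ht j (x' i), skew_of_alt hPM.alternating (x' j), map_neg, ← hzy j]
    field_simp
  -- the lattices
  have hL0 : Der0 φ (markI c) = (pis fun _ : Fin N => markI c).map Φ := by
    ext δ
    rw [mem_Der0]
    constructor
    · rintro ⟨hδ, hv⟩
      refine ⟨_, ?_, hmL_coord h0.fr hl h0.g_ne h0.det_ne hone hone hδ⟩
      refine mem_pis.2 fun i => ?_
      refine inv_mulVec_mem (B := A₀) (M := M0.transpose) (fun i j => M0mem j i) ?_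
        (fun b hb x hx => mul_mem_markI hb hx) (fun j => ?_) i
      · rw [Matrix.det_transpose, M0det]
        exact h0.unit
      · rw [Pi.one_apply, one_mul]
        exact hv _
    · rintro ⟨a, ha, rfl⟩
      refine ⟨hmL_mem hl _ _ _, fun r => ?_⟩
      rw [hΦ, hmL_apply]
      refine Submodule.sum_mem _ fun j _ => ?_
      rw [Pi.one_apply, mul_one, mul_comm]
      exact mul_mem_markI (hMp.mem0 _) (mem_pis.1 ha j)
  have hL1' : Der1 𝒜 φ A₁ u = (lat (Fin N) A₁).map Φ' := by
    ext δ
    rw [mem_Der1]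
    constructor
    · rintro ⟨hδ, hv⟩
      refine ⟨_, ?_, hmL_coord h1.fr hl h1.g_ne h1.det_ne hy1' hz1' hδ⟩
      refine mem_pis.2 fun i => ?_
      refine inv_mulVec_mem (B := A₁) (M := M1.transpose) (I := Subalgebra.toSubmodule A₁)
        (fun i j => M1mem j i) ?_ (fun b hb x hx => A₁.mul_mem hb hx) (fun j => ?_) i
      · rw [Matrix.det_transpose, M1det]
        exact h1.unit
      · exact hv _ _ (h1.fr.hom j)
    · rintro ⟨a, ha, rfl⟩
      refine ⟨hmL_mem hl _ _ _, fun n r hr => ?_⟩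
      rw [hΦ', hmL_apply, Finset.mul_sum]
      refine A₁.sum_mem fun j _ => ?_
      have : u ^ n * (a j * z1 j * φ (P (x' j) r)) =
          a j * (u ^ ((d' j : ℤ) - 1) * u ^ n * φ (P (x' j) r)) := by
        rw [hz1]
        ring
      rw [this]
      exact A₁.mul_mem (mem_pis.1 ha j) (hMp.bracket1 hPM (h1.fr.hom j) hr)
  have hL1 : Der1 𝒜 φ A₁ u = ((lat (Fin N) A₁).map (act k T.transpose)).map Φ := by
    rw [hL1', ← Submodule.map_comp]
    congr 1
    exact LinearMap.ext fun b => hΦT b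
  have hLtop : DerS φ = (⊤ : Submodule k (Fin N → K)).map Φ := by
    ext δ
    constructor
    · intro hδ
      exact ⟨_, trivial, hmL_coord h0.fr hl h0.g_ne h0.det_ne hone hone hδ⟩
    · rintro ⟨a, -, rfl⟩
      exact hmL_mem hl _ _ _
  -- Riemann-Roch
  have hb := chi_bundle (c := c) hCD hu (M0 := M0) (M1 := M1) (T := T) (det_mem_sub M0mem)
    (by rw [M0det]; exact h0.unit) (by rw [M0det]; exact h0.det_ne) (det_mem_sub M1mem)
    (by rw [M1det]; exact h1.unit)
    (by rw [M1det]; exact mul_ne_zero (zpow_ne_zero _ hu) h1.det_ne) hrel hc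
  set Λ := (pis fun _ : Fin N => markI c) with hΛ
  set M := (lat (Fin N) A₁).map (act k T.transpose) with hM
  have eT : T0 𝒜 φ (markI c) A₁ u = (Λ ⊓ M).map Φ := by
    rw [T0, hL0, hL1, Submodule.map_inf _ hΦinj]
  let e : ↥(Λ ⊓ M) ≃ₗ[k] ↥((Λ ⊓ M).map Φ) := Submodule.equivMapOfInjective Φ hΦinj _
  have f1 : Module.Finite k ↥(Λ ⊓ M) := hb.1.1
  have fT : FiniteDimensional k ↥(T0 𝒜 φ (markI c) A₁ u) ∧
      finrank k ↥(T0 𝒜 φ (markI c) A₁ u) = finrank k ↥(Λ ⊓ M) := by
    rw [eT]
    exact ⟨Module.Finite.equiv e, (LinearEquiv.finrank_eq e).symm⟩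
  have eS : Der0 φ (markI c) ⊔ Der1 𝒜 φ A₁ u = (Λ ⊔ M).map Φ := by
    rw [hL0, hL1, Submodule.map_sup]
  have ct := cod_top (Λ ⊔ M)
  have ci := cod_map_inj hΦinj (Λ ⊔ M) ⊤
  have fS : FiniteDimensional k ↥(ObS 𝒜 φ (markI c) A₁ u) ∧
      finrank k ↥(ObS 𝒜 φ (markI c) A₁ u) = finrank k ((Fin N → K) ⧸ (Λ ⊔ M)) := by
    have e1 : FiniteDimensional k ↥(ObS 𝒜 φ (markI c) A₁ u) ↔
        Fc (Der0 φ (markI c) ⊔ Der1 𝒜 φ A₁ u) (DerS φ) := Iff.rfl
    have e2 : finrank k ↥(ObS 𝒜 φ (markI c) A₁ u) =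
        cod (Der0 φ (markI c) ⊔ Der1 𝒜 φ A₁ u) (DerS φ) := rfl
    rw [e1, e2, eS, hLtop, ci.1, ci.2, ct.1, ct.2]
    exact ⟨hb.1.2, rfl⟩
  refine ⟨fT.1, fS.1, ?_⟩
  rw [fT.2, fS.2]
  have h5 := hb.2
  have h6 : chi Λ M = (finrank k ↥(Λ ⊓ M) : ℤ) - finrank k ((Fin N → K) ⧸ (Λ ⊔ M)) := rfl
  rw [h6] at h5
  linarith

/-- `chi_der` for marks indexed by any finite type, and any description of the ideal of the
marks. -/
theorem chi_der_fintype (hPM : IsPM 𝒜 P) (hCD : IsCD A₀ A₁) (hMp : IsMp 𝒜 A₀ A₁ u φ) {N : ℕ}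
    {x : Fin N → R} {d : Fin N → ℕ} {g : R} {x' : Fin N → R} {d' : Fin N → ℕ} {g' : R}
    (h0 : IsFr0 𝒜 P A₀ φ x d g) (h1 : IsFr1 𝒜 P A₁ u φ x' d' g') {ι : Type*} [Fintype ι]
    {c : ι → (A₀ →ₐ[k] k)} (hc : Function.Injective c) {I : Submodule k K}
    (hI : ∀ a, a ∈ I ↔ ∃ h : a ∈ A₀, ∀ l, c l ⟨a, h⟩ = 0) :
    FiniteDimensional k ↥(T0 𝒜 φ I A₁ u) ∧
    FiniteDimensional k ↥(ObS 𝒜 φ I A₁ u) ∧
    2 * (finrank k ↥(T0 𝒜 φ I A₁ u) : ℤ) - 2 * finrank k ↥(ObS 𝒜 φ I A₁ u) =
      2 * N * chi0 A₀ A₁ + N * idx A₁ u - 2 * Fintype.card ι * N := by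
  let e := (Fintype.equivFin ι).symm
  have hI' : I = markI (fun i => c (e i)) := by
    ext a
    rw [hI a, mem_markI]
    constructor
    · rintro ⟨h, h'⟩
      exact ⟨h, fun i => h' _⟩
    · rintro ⟨h, h'⟩
      refine ⟨h, fun l => ?_⟩
      have := h' (e.symm l)
      simpa using this
  subst hI'
  exact chi_der hPM hCD hMp h0 h1 (hc.comp e.injective)

end main

end Vale.Agent.P292.Mo
end

section

/-! # Very free conics: lifting of sections to infinitesimal deformations. -/

namespace Vale.Agent.P292.VF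

open MvPolynomial

universe u v w

variable {R : Type u} [CommRing R] [Algebra ℂ R] {𝒜 : ℕ → Submodule ℂ R}
  {P : R →ₗ[ℂ] R →ₗ[ℂ] R}

/-- In high degrees every derivation along `φ₀` splits into two parts. -/
def Split (𝒜 : ℕ → Submodule ℂ R) (φ₀ : R →ₐ[ℂ] MvPolynomial (Fin 2) ℂ) : Prop :=
  ∃ M₀ : ℕ, ∀ M ≥ M₀, ∀ D : R →ₗ[ℂ] MvPolynomial (Fin 2) ℂ, HD 𝒜 φ₀ (M + M) D →
    ∃ α β : R →ₗ[ℂ] MvPolynomial (Fin 2) ℂ, HD 𝒜 φ₀ M α ∧ HD 𝒜 φ₀ M β ∧
      D = (X 1 ^ M : MvPolynomial (Fin 2) ℂ) • α - (X 0 ^ M : MvPolynomial (Fin 2) ℂ) • β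

section

variable {A : Type v} [CommRing A] [Algebra ℂ A] {B : Type w} [CommRing B] [Algebra ℂ B]

theorem theta_X_pow {ι : A} {ρ : A →ₐ[ℂ] ℂ} (hι : ∀ x, ρ x = 0 → ι * x = 0) (i : Fin 2) (M : ℕ)
    (p : MvPolynomial (Fin 2) ℂ) : theta ι (X i ^ M * p) = X i ^ M * theta ι p := by
  rw [← theta_mul hι, map_pow, map_X]

theorem map_theta {ι : A} (π : A →ₐ[ℂ] B) (hπι : π ι = 0) (p : MvPolynomial (Fin 2) ℂ) :
    map (π : A →+* B) (theta ι p) = 0 := by
  rw [theta_apply, map_mul, map_C]
  have : (π : A →+* B) ι = 0 := hπι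
  rw [this, C_0, zero_mul]

/-- one chart -/
theorem exists_chart_lift [GradedAlgebra 𝒜] (hX : IsContactFano 𝒜 P)
    {ρ' : B →ₐ[ℂ] ℂ} {φ₀ : R →ₐ[ℂ] MvPolynomial (Fin 2) ℂ} (h0 : IsCurve 𝒜 2 φ₀)
    (hnil : ∀ x, ρ' x = 0 → IsNilpotent x) (π : A →ₐ[ℂ] B)
    (hπ : Function.Surjective π) {Φ : R →ₐ[ℂ] MvPolynomial (Fin 2) A}
    {Φ' : R →ₐ[ℂ] MvPolynomial (Fin 2) B} (hρ : ∀ r, map (ρ' : B →+* ℂ) (Φ' r) = φ₀ r)
    (hdeg : ∀ k, ∀ r ∈ 𝒜 k, (Φ r).IsHomogeneous (2 * k))
    (hΦ' : ∀ r, map (π : A →+* B) (Φ r) = Φ' r)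
    {D' : R →ₗ[ℂ] MvPolynomial (Fin 2) B} (hD' : HD 𝒜 Φ' 0 D') (i : Fin 2) :
    ∃ M₀, ∀ M ≥ M₀, ∃ S : R →ₗ[ℂ] MvPolynomial (Fin 2) A, HD 𝒜 Φ M S ∧
      ∀ r, map (π : A →+* B) (S r) = X i ^ M * D' r := by
  obtain ⟨M₀, hM₀⟩ := exists_pow_smul_mem_Ham hX h0 hnil hρ hD'.der i
  refine ⟨M₀, fun M hM => ?_⟩
  obtain ⟨S0, hS0, hS0'⟩ := exists_ham_lift π hπ hΦ' _ (hM₀ M hM)
  refine ⟨hp 𝒜 M S0, isHD_hp hX.connected hdeg (Ham_le hX.leibniz Φ hS0) M, fun r => ?_⟩
  rw [map_hp π M S0 _ hS0' r]
  have h1 : HD 𝒜 Φ' (M + 0) ((X i ^ M : MvPolynomial (Fin 2) B) • D') :=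
    hD'.smul (isHomogeneous_X_pow i M)
  rw [h1.hp_eq hX.connected, if_pos (by omega)]
  rfl

/-- Lifting of a section over a small extension. -/
theorem exists_lift [GradedAlgebra 𝒜] (hX : IsContactFano 𝒜 P)
    {ρ : A →ₐ[ℂ] ℂ} {ρ' : B →ₐ[ℂ] ℂ} {φ₀ : R →ₐ[ℂ] MvPolynomial (Fin 2) ℂ}
    (h0 : IsCurve 𝒜 2 φ₀) (hsplit : Split 𝒜 φ₀)
    (hnil : ∀ x, ρ' x = 0 → IsNilpotent x) (π : A →ₐ[ℂ] B)
    (hπ : Function.Surjective π) {ι : A} (hι0 : ι ≠ 0) (hι : ∀ x, ρ x = 0 → ι * x = 0)
    (hπι : π ι = 0) (hker : ∀ x, π x = 0 → x ∈ Ideal.span {ι})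
    {Φ : R →ₐ[ℂ] MvPolynomial (Fin 2) A} (hΦ : ∀ r, map (ρ : A →+* ℂ) (Φ r) = φ₀ r)
    {Φ' : R →ₐ[ℂ] MvPolynomial (Fin 2) B} (hρ : ∀ r, map (ρ' : B →+* ℂ) (Φ' r) = φ₀ r)
    (hdeg : ∀ k, ∀ r ∈ 𝒜 k, (Φ r).IsHomogeneous (2 * k))
    (hΦ' : ∀ r, map (π : A →+* B) (Φ r) = Φ' r)
    {D' : R →ₗ[ℂ] MvPolynomial (Fin 2) B} (hD' : HD 𝒜 Φ' 0 D') :
    ∃ D : R →ₗ[ℂ] MvPolynomial (Fin 2) A, HD 𝒜 Φ 0 D ∧ ∀ r, map (π : A →+* B) (D r) = D' r := by
  obtain ⟨M1, h1⟩ := exists_chart_lift hX h0 hnil π hπ hρ hdeg hΦ' hD' 0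
  obtain ⟨M2, h2⟩ := exists_chart_lift hX h0 hnil π hπ hρ hdeg hΦ' hD' 1
  obtain ⟨M3, h3⟩ := hsplit
  obtain ⟨M, hM1, hM2, hM3⟩ : ∃ M, M1 ≤ M ∧ M2 ≤ M ∧ M3 ≤ M :=
    ⟨M1 + M2 + M3, by omega, by omega, by omega⟩
  obtain ⟨S, hS, hSπ⟩ := h1 M hM1
  obtain ⟨T, hT, hTπ⟩ := h2 M hM2
  have hΔ : HD 𝒜 Φ (M + M) ((X 1 ^ M : MvPolynomial (Fin 2) A) • S -
      (X 0 ^ M : MvPolynomial (Fin 2) A) • T) :=
    (hS.smul (isHomogeneous_X_pow 1 M)).sub (hT.smul (isHomogeneous_X_pow 0 M))
  obtain ⟨η, hη, hηΔ⟩ := exists_theta_factor hι0 hι hΦ hΔ (fun r e => by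
    apply hker
    have h4 : map (π : A →+* B) (((X 1 ^ M : MvPolynomial (Fin 2) A) • S -
        (X 0 ^ M : MvPolynomial (Fin 2) A) • T) r) = 0 := by
      rw [LinearMap.sub_apply, LinearMap.smul_apply, LinearMap.smul_apply, smul_eq_mul,
        smul_eq_mul, map_sub, map_mul, map_mul, hSπ, hTπ, map_pow, map_pow, map_X, map_X]
      ring
    have h5 := congrArg (coeff e) h4
    rw [coeff_map, coeff_zero] at h5
    exact h5)
  obtain ⟨α, β, hα, hβ, hαβ⟩ := h3 M hM3 η hη
  have hS' : HD 𝒜 Φ M (S - theta ι ∘ₗ α) := hS.sub (HD.theta hι hΦ hα)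
  obtain ⟨D, hD, hDS⟩ := exists_patch (T := T - theta ι ∘ₗ β) hS' (fun r => by
    have h6 := hηΔ r
    rw [hαβ, LinearMap.sub_apply, LinearMap.smul_apply, LinearMap.smul_apply, smul_eq_mul,
      smul_eq_mul, map_sub, theta_X_pow hι, theta_X_pow hι, LinearMap.sub_apply,
      LinearMap.smul_apply, LinearMap.smul_apply, smul_eq_mul, smul_eq_mul] at h6
    rw [LinearMap.sub_apply, LinearMap.sub_apply, LinearMap.comp_apply, LinearMap.comp_apply]
    linear_combination -h6)
  refine ⟨D, hD, fun r => ?_⟩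
  apply X_pow_mul_injective 0 M
  rw [← hSπ r]
  have h7 : map (π : A →+* B) (X 0 ^ M * D r) = map (π : A →+* B) ((S - theta ι ∘ₗ α) r) := by
    rw [hDS]
  rw [map_mul, map_pow, map_X, LinearMap.sub_apply, map_sub, LinearMap.comp_apply,
    map_theta π hπι, sub_zero] at h7
  exact h7

end

/-- The point of the family with constant parameter `a`. -/
noncomputable def endA {A : Type v} [CommRing A] [Algebra ℂ A]
    (Φ : R →ₐ[ℂ] MvPolynomial (Fin 2) A) (a : Fin 2 → ℂ) : R →ₐ[ℂ] A :=
  ((aeval (fun i => algebraMap ℂ A (a i)) : MvPolynomial (Fin 2) A →ₐ[A] A).restrictScalars ℂ).comp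
    Φ

section

variable {A : Type v} [CommRing A] [Algebra ℂ A] {B : Type w} [CommRing B] [Algebra ℂ B]

theorem endA_apply (Φ : R →ₐ[ℂ] MvPolynomial (Fin 2) A) (a : Fin 2 → ℂ) (r : R) :
    endA Φ a r = eval (fun i => algebraMap ℂ A (a i)) (Φ r) := by
  simp [endA, aeval_eq_eval]

theorem eval_map_hom (π : A →ₐ[ℂ] B) (a : Fin 2 → ℂ) (p : MvPolynomial (Fin 2) A) :
    eval (fun i => algebraMap ℂ B (a i)) (map (π : A →+* B) p) =
      π (eval (fun i => algebraMap ℂ A (a i)) p) := by
  have h := MvPolynomial.map_eval (π : A →+* B) (fun i => algebraMap ℂ A (a i)) p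
  have h2 : ((π : A →+* B) ∘ fun i => algebraMap ℂ A (a i)) = fun i => algebraMap ℂ B (a i) := by
    funext i
    exact π.commutes (a i)
  rw [h2] at h
  exact h.symm

theorem eval_theta (ι : A) (a : Fin 2 → ℂ) (p : MvPolynomial (Fin 2) ℂ) :
    eval (fun i => algebraMap ℂ A (a i)) (theta ι p) = ι * algebraMap ℂ A (eval a p) := by
  rw [theta_apply, map_mul, eval_C]
  congr 1
  exact (MvPolynomial.map_eval (algebraMap ℂ A) a p).symm

/-- `c ↦ ι c` -/
noncomputable def thetaC (ι : A) : ℂ →ₗ[ℂ] A :=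
  (LinearMap.mulLeft ℂ ι) ∘ₗ (Algebra.linearMap ℂ A)

theorem thetaC_apply (ι : A) (c : ℂ) : thetaC ι c = ι * algebraMap ℂ A c := rfl

theorem thetaC_injective {ι : A} (hι : ι ≠ 0) : Function.Injective (thetaC ι) := by
  rw [injective_iff_map_eq_zero]
  intro c hc
  by_contra hne
  exact algebraMap_mul_ne_zero hι hne hc

/-- Correction at the end point. -/
theorem exists_correction {ρ : A →ₐ[ℂ] ℂ} {φ₀ : R →ₐ[ℂ] MvPolynomial (Fin 2) ℂ}
    (hv : IsVeryFree 𝒜 φ₀) {a : Fin 2 → ℂ} (ha : a ≠ 0)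
    {ι : A} (hι0 : ι ≠ 0) (hι : ∀ x, ρ x = 0 → ι * x = 0)
    {Φ : R →ₐ[ℂ] MvPolynomial (Fin 2) A} (hΦ : ∀ r, map (ρ : A →+* ℂ) (Φ r) = φ₀ r)
    {e : R →ₗ[ℂ] A} (he : IsDer (endA Φ a) e) (h : ∀ r, e r ∈ Ideal.span {ι}) :
    ∃ D : R →ₗ[ℂ] MvPolynomial (Fin 2) A, HD 𝒜 Φ 0 D ∧
      (∀ r, ∃ p, D r = theta ι p) ∧ ∀ r, eval (fun i => algebraMap ℂ A (a i)) (D r) = e r := by
  have hpt : ∀ r, ρ (endA Φ a r) = pt φ₀ a r := fun r => by
    rw [endA_apply, pt_apply, ← hΦ]
    exact (eval_map_hom ρ a (Φ r)).symm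
  obtain ⟨d₀, hd₀⟩ := exists_factor (thetaC ι) (thetaC_injective hι0) e (fun r => by
    obtain ⟨x, hx⟩ := Ideal.mem_span_singleton'.mp (h r)
    refine ⟨ρ x, ?_⟩
    rw [thetaC_apply, ← hx, mul_comm x, ← sub_eq_zero, ← mul_sub]
    apply hι
    rw [map_sub, AlgHom.commutes]
    exact sub_self _)
  have hmul : ∀ (x : A) (c : ℂ), thetaC ι (ρ x * c) = x * thetaC ι c := fun x c => by
    rw [thetaC_apply, thetaC_apply, map_mul, ← sub_eq_zero,
      show ι * (algebraMap ℂ A (ρ x) * algebraMap ℂ A c) - x * (ι * algebraMap ℂ A c) =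
        ι * (algebraMap ℂ A (ρ x) - x) * algebraMap ℂ A c by ring, hι, zero_mul]
    rw [map_sub, AlgHom.commutes]
    exact sub_self _
  obtain ⟨D₀, h1, h2, h3⟩ := hv a ha d₀ (fun r s => by
    apply thetaC_injective hι0
    rw [hd₀, he, map_add, ← hpt, ← hpt, hmul, hmul, hd₀, hd₀])
  refine ⟨theta ι ∘ₗ D₀, HD.theta hι hΦ ⟨h1, fun k r hr => h2 k r hr⟩, fun r => ⟨D₀ r, rfl⟩,
    fun r => ?_⟩
  rw [LinearMap.comp_apply, eval_theta, h3, ← thetaC_apply, hd₀]

/-- There is a nonzero element killed by the maximal ideal. -/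
theorem exists_socle [IsNoetherianRing A] {ρ : A →ₐ[ℂ] ℂ} (hnil : ∀ x, ρ x = 0 → IsNilpotent x)
    {x₀ : A} (hx₀ : ρ x₀ = 0) (hx₀' : x₀ ≠ 0) :
    ∃ ι : A, ι ≠ 0 ∧ ρ ι = 0 ∧ ∀ x, ρ x = 0 → ι * x = 0 := by
  classical
  set 𝔫 : Ideal A := RingHom.ker ρ with h𝔫
  have hle : 𝔫 ≤ nilradical A := fun x hx => mem_nilradical.mpr (hnil x hx)
  obtain ⟨n, hn⟩ := IsNoetherianRing.isNilpotent_nilradical A
  have hn' : 𝔫 ^ n = ⊥ := by
    rw [eq_bot_iff]
    exact (Ideal.pow_right_mono hle n).trans (by rw [hn]; rfl)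
  have hex : ∃ n, 𝔫 ^ n = ⊥ := ⟨n, hn'⟩
  set m := Nat.find hex with hm
  have hm1 : 𝔫 ^ m = ⊥ := Nat.find_spec hex
  have hm2 : m ≠ 0 := by
    intro h0
    rw [h0, pow_zero, Ideal.one_eq_top] at hm1
    apply hx₀'
    have : x₀ ∈ (⊤ : Ideal A) := trivial
    rw [hm1] at this
    exact this
  have hm3 : m ≠ 1 := by
    intro h0
    rw [h0, pow_one] at hm1
    apply hx₀'
    have : x₀ ∈ 𝔫 := hx₀
    rw [hm1] at this
    exact this
  have hm4 : 𝔫 ^ (m - 1) ≠ ⊥ := Nat.find_min hex (by omega)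
  obtain ⟨ι, hι, hι0⟩ := Submodule.exists_mem_ne_zero_of_ne_bot hm4
  refine ⟨ι, hι0, ?_, fun x hx => ?_⟩
  · have h1 : 𝔫 ^ (m - 1) ≤ 𝔫 := by
      calc 𝔫 ^ (m - 1) ≤ 𝔫 ^ 1 := Ideal.pow_le_pow_right (by omega)
        _ = 𝔫 := pow_one _
    exact h1 hι
  · have h2 : ι * x ∈ 𝔫 ^ m := by
      rw [show m = (m - 1) + 1 by omega, pow_succ]
      exact Ideal.mul_mem_mul hι hx
    rw [hm1] at h2
    exact h2

end

/-- LIN: every tangent vector at an end point extends to a section of degree `-1` of an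
infinitesimal deformation of a very free conic. -/
theorem exists_section [GradedAlgebra 𝒜] (hX : IsContactFano 𝒜 P)
    {φ₀ : R →ₐ[ℂ] MvPolynomial (Fin 2) ℂ} (h0 : IsCurve 𝒜 2 φ₀) (hv : IsVeryFree 𝒜 φ₀)
    (hsplit : Split 𝒜 φ₀) {a : Fin 2 → ℂ} (ha : a ≠ 0) :
    ∀ (n : ℕ) (A : Type v) [CommRing A] [Algebra ℂ A] [FiniteDimensional ℂ A] (ρ : A →ₐ[ℂ] ℂ)
      (_ : ∀ x, ρ x = 0 → IsNilpotent x) (Φ : R →ₐ[ℂ] MvPolynomial (Fin 2) A)
      (_ : ∀ r, map (ρ : A →+* ℂ) (Φ r) = φ₀ r)
      (_ : ∀ k, ∀ r ∈ 𝒜 k, (Φ r).IsHomogeneous (2 * k)) (d : R →ₗ[ℂ] A)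
      (_ : IsDer (endA Φ a) d), Module.finrank ℂ A = n →
      ∃ D : R →ₗ[ℂ] MvPolynomial (Fin 2) A, HD 𝒜 Φ 0 D ∧
        ∀ r, eval (fun i => algebraMap ℂ A (a i)) (D r) = d r := by
  intro n
  induction n using Nat.strong_induction_on with
  | _ n ih =>
    intro A _ _ _ ρ hnil Φ hΦ hdeg d hd hn
    by_cases hker : ∀ x, ρ x = 0 → x = 0
    · have hone : (1 : A) ≠ 0 := by
        intro h1
        have := congrArg ρ h1
        rw [map_one, map_zero] at this
        exact one_ne_zero this
      obtain ⟨D, hD, -, hD2⟩ := exists_correction (ρ := ρ) hv ha hone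
        (fun x hx => by rw [hker x hx, mul_zero]) hΦ hd
        (fun r => Ideal.mem_span_singleton'.mpr ⟨d r, mul_one _⟩)
      exact ⟨D, hD, hD2⟩
    · push Not at hker
      obtain ⟨x₀, hx₀, hx₀'⟩ := hker
      have : IsNoetherianRing A := IsNoetherianRing.of_finite ℂ A
      obtain ⟨ι, hι0, hρι, hι⟩ := exists_socle hnil hx₀ hx₀'
      let I : Ideal A := Ideal.span {ι}
      let B := A ⧸ I
      let π : A →ₐ[ℂ] B := Ideal.Quotient.mkₐ ℂ I
      have hπ : Function.Surjective π := Ideal.Quotient.mkₐ_surjective ℂ I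
      have hπ0 : ∀ x, π x = 0 → x ∈ I := fun x hx => Ideal.Quotient.eq_zero_iff_mem.mp hx
      have hπι : π ι = 0 := Ideal.Quotient.eq_zero_iff_mem.mpr (Ideal.mem_span_singleton_self ι)
      have hIρ : ∀ x ∈ I, ρ x = 0 := fun x hx => by
        obtain ⟨y, rfl⟩ := Ideal.mem_span_singleton'.mp hx
        rw [map_mul, hρι, mul_zero]
      let ρ' : B →ₐ[ℂ] ℂ := Ideal.Quotient.liftₐ I ρ hIρ
      have hρ' : ∀ x, ρ' (π x) = ρ x := fun x => rfl
      have hnil' : ∀ y, ρ' y = 0 → IsNilpotent y := fun y hy => by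
        obtain ⟨x, rfl⟩ := hπ y
        exact (hnil x hy).map π
      let Φ' : R →ₐ[ℂ] MvPolynomial (Fin 2) B := (mapAlgHom π).comp Φ
      have hΦ' : ∀ r, map (π : A →+* B) (Φ r) = Φ' r := fun r => rfl
      have hfin : Module.finrank ℂ B < n := by
        rw [← hn]
        have h1 := LinearMap.finrank_range_add_finrank_ker π.toLinearMap
        have h2 : LinearMap.range π.toLinearMap = ⊤ := LinearMap.range_eq_top.mpr hπ
        rw [h2, finrank_top] at h1
        have h3 : 0 < Module.finrank ℂ (LinearMap.ker π.toLinearMap) := by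
          rw [Module.finrank_pos_iff_exists_ne_zero]
          refine ⟨⟨ι, hπι⟩, fun h => hι0 ?_⟩
          exact congrArg Subtype.val h
        omega
      have hfd : FiniteDimensional ℂ B := Module.Finite.of_surjective π.toLinearMap hπ
      have hd' : IsDer (endA Φ' a) (π.toLinearMap ∘ₗ d) := fun r s => by
        have h4 : ∀ r, endA Φ' a r = π (endA Φ a r) := fun r => by
          rw [endA_apply, endA_apply]
          exact eval_map_hom π a (Φ r)
        rw [h4, h4]
        change π (d (r * s)) = _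
        rw [hd, map_add, map_mul, map_mul]
        rfl
      obtain ⟨D', hD', hD'a⟩ := ih _ hfin B ρ' hnil' Φ'
        (fun r => by
          rw [← hΦ', map_map, ← hΦ]
          rfl)
        (fun k r hr => (hdeg k r hr).map _) _ hd' rfl
      obtain ⟨D, hD, hDπ⟩ := exists_lift (ρ := ρ) (ρ' := ρ') hX h0 hsplit hnil' π hπ hι0 hι hπι hπ0
        hΦ (fun r => by
          rw [← hΦ', map_map, ← hΦ]
          rfl) hdeg hΦ' hD'
      -- the value at the end point
      let ev : MvPolynomial (Fin 2) A →ₗ[ℂ] A :=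
        ((aeval (fun i => algebraMap ℂ A (a i)) :
          MvPolynomial (Fin 2) A →ₐ[A] A).restrictScalars ℂ).toLinearMap
      have hev : ∀ p, ev p = eval (fun i => algebraMap ℂ A (a i)) p := fun p => by
        change aeval _ p = _
        rw [aeval_eq_eval]
      have he : IsDer (endA Φ a) (d - ev ∘ₗ D) := fun r s => by
        rw [LinearMap.sub_apply, LinearMap.sub_apply, LinearMap.sub_apply, LinearMap.comp_apply,
          LinearMap.comp_apply, LinearMap.comp_apply, hev, hev, hev, hd, hD.der, map_add, map_mul,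
          map_mul, endA_apply, endA_apply]
        ring
      obtain ⟨E, hE, -, hE2⟩ := exists_correction (ρ := ρ) hv ha hι0 hι hΦ he (fun r => by
        apply hπ0
        rw [LinearMap.sub_apply, map_sub, LinearMap.comp_apply, hev, ← eval_map_hom, hDπ, hD'a]
        exact sub_self _)
      refine ⟨D + E, hD.add hE, fun r => ?_⟩
      rw [LinearMap.add_apply, map_add, hE2, LinearMap.sub_apply, LinearMap.comp_apply, hev]
      ring

end Vale.Agent.P292.VF
end

section

/-! # Very free conics: dual numbers and density of the end points. -/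

namespace Vale.Agent.P292.VF

open MvPolynomial
open scoped TensorProduct

universe u v w

variable {R : Type u} [CommRing R] [Algebra ℂ R] {𝒜 : ℕ → Submodule ℂ R}
  {P : R →ₗ[ℂ] R →ₗ[ℂ] R}

section

variable {A : Type v} [CommRing A] [Algebra ℂ A]

/-- First order deformation of a family of conics over the dual numbers. -/
theorem exists_dual [GradedAlgebra 𝒜] (hconn : ∀ r ∈ 𝒜 0, ∃ c : ℂ, r = algebraMap ℂ R c)
    {ρ : A →ₐ[ℂ] ℂ}
    {φ₀ : R →ₐ[ℂ] MvPolynomial (Fin 2) ℂ} {Φ : R →ₐ[ℂ] MvPolynomial (Fin 2) A}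
    (hΦ : ∀ r, map (ρ : A →+* ℂ) (Φ r) = φ₀ r)
    (hdeg : ∀ k, ∀ r ∈ 𝒜 k, (Φ r).IsHomogeneous (2 * k)) (i : Fin 2)
    {D : R →ₗ[ℂ] MvPolynomial (Fin 2) A} (hD : HD 𝒜 Φ 0 D) :
    ∃ Φ' : R →ₐ[ℂ] MvPolynomial (Fin 2) (TrivSqZeroExt A A),
      (∀ r, map ((ρ.comp (TrivSqZeroExt.fstHom ℂ A A)) : TrivSqZeroExt A A →+* ℂ) (Φ' r) = φ₀ r) ∧
      (∀ k, ∀ r ∈ 𝒜 k, (Φ' r).IsHomogeneous (2 * k)) ∧
      ∀ (a : Fin 2 → ℂ) r, endA Φ' a r = TrivSqZeroExt.inl (endA Φ a r) +
        TrivSqZeroExt.inr (algebraMap ℂ A (a i) * eval (fun i => algebraMap ℂ A (a i)) (D r)) := by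
  let A' := TrivSqZeroExt A A
  let ε : A' := TrivSqZeroExt.inr 1
  have hε : ε * ε = 0 := TrivSqZeroExt.inr_mul_inr _ _ _
  let j : MvPolynomial (Fin 2) A →ₐ[ℂ] MvPolynomial (Fin 2) A' :=
    mapAlgHom (TrivSqZeroExt.inlAlgHom ℂ A A)
  have hCε : (C ε * C ε : MvPolynomial (Fin 2) A') = 0 := by rw [← C_mul, hε, C_0]
  let L : R →ₗ[ℂ] MvPolynomial (Fin 2) A' :=
    j.toLinearMap ∘ₗ Φ.toLinearMap +
      (LinearMap.mulLeft ℂ (C ε : MvPolynomial (Fin 2) A')) ∘ₗ j.toLinearMap ∘ₗ
        (LinearMap.mulLeft ℂ (X i : MvPolynomial (Fin 2) A)) ∘ₗ D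
  have hL : ∀ r, L r = j (Φ r) + C ε * j (X i * D r) := fun r => rfl
  let Φ' : R →ₐ[ℂ] MvPolynomial (Fin 2) A' := AlgHom.ofLinearMap L
    (by rw [hL, map_one, map_one, isDer_one hD.der, mul_zero, map_zero, mul_zero, add_zero])
    (fun r s => by
      rw [hL, hL, hL, hD.der, map_mul, map_mul, map_mul, map_mul, map_mul, map_add, map_mul,
        map_mul]
      linear_combination (-(j (X i) * j (D r) * (j (X i) * j (D s)))) * hCε)
  have hΦ'L : ∀ r, Φ' r = j (Φ r) + C ε * j (X i * D r) := fun r => rfl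
  refine ⟨Φ', fun r => ?_, fun k r hr => ?_, fun a r => ?_⟩
  · rw [hΦ'L, map_add, map_mul, map_C]
    have h1 : ((ρ.comp (TrivSqZeroExt.fstHom ℂ A A)) : TrivSqZeroExt A A →+* ℂ) ε = 0 := by
      change ρ (TrivSqZeroExt.fst (TrivSqZeroExt.inr 1)) = 0
      rw [TrivSqZeroExt.fst_inr, map_zero]
    rw [h1, C_0, zero_mul, add_zero]
    have h2 : map ((ρ.comp (TrivSqZeroExt.fstHom ℂ A A)) : TrivSqZeroExt A A →+* ℂ) (j (Φ r)) =
        map (ρ : A →+* ℂ) (Φ r) := by
      change map _ (map _ (Φ r)) = _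
      rw [map_map]
      congr 1
    rw [h2, hΦ]
  · rw [hΦ'L]
    refine ((hdeg k r hr).map _).add ?_
    have h3 : (X i * D r : MvPolynomial (Fin 2) A).IsHomogeneous (2 * k) := by
      cases k with
      | zero =>
        obtain ⟨c, rfl⟩ := hconn r hr
        rw [isDer_algebraMap hD.der, mul_zero]
        exact isHomogeneous_zero _ _ _
      | succ k =>
        have h4 := (isHomogeneous_X A i).mul (hD.deg k r hr)
        rwa [show 1 + (2 * k + 1 + 0) = 2 * (k + 1) by ring] at h4
    have h5 := (isHomogeneous_C (Fin 2) ε).mul (h3.map (TrivSqZeroExt.inlAlgHom ℂ A A).toRingHom)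
    rw [zero_add] at h5
    exact h5
  · have h6 : ∀ p : MvPolynomial (Fin 2) A, eval (fun i => algebraMap ℂ A' (a i)) (j p) =
        TrivSqZeroExt.inl (eval (fun i => algebraMap ℂ A (a i)) p) := fun p =>
      eval_map_hom (TrivSqZeroExt.inlAlgHom ℂ A A) a p
    rw [endA_apply, hΦ'L, map_add, map_mul, eval_C, h6, h6, endA_apply, map_mul, eval_X]
    congr 1
    change TrivSqZeroExt.inr 1 * TrivSqZeroExt.inl _ = _
    rw [TrivSqZeroExt.inr_mul_inl]
    congr 1
    simp

end

/-- The elements of `R ⊗ R` which vanish on the end points of all infinitesimal deformations. -/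
def Nul (𝒜 : ℕ → Submodule ℂ R) (φ₀ : R →ₐ[ℂ] MvPolynomial (Fin 2) ℂ) :
    Submodule ℂ (R ⊗[ℂ] R) where
  carrier := {F | ∀ (A : Type u) [CommRing A] [Algebra ℂ A] [Module.Finite ℂ A] (ρ : A →ₐ[ℂ] ℂ)
    (_ : ∀ x, ρ x = 0 → IsNilpotent x) (Φ : R →ₐ[ℂ] MvPolynomial (Fin 2) A)
    (_ : ∀ r, map (ρ : A →+* ℂ) (Φ r) = φ₀ r)
    (_ : ∀ k, ∀ r ∈ 𝒜 k, (Φ r).IsHomogeneous (2 * k)),
    Algebra.TensorProduct.lift (endA Φ ![1, 0]) (endA Φ ![0, 1]) (fun _ _ => Commute.all _ _) F
      = 0}
  add_mem' := fun {x y} hx hy A _ _ _ ρ h1 Φ h2 h3 => by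
    rw [map_add, hx A ρ h1 Φ h2 h3, hy A ρ h1 Φ h2 h3, add_zero]
  zero_mem' := fun A _ _ _ ρ h1 Φ h2 h3 => map_zero _
  smul_mem' := fun c x hx A _ _ _ ρ h1 Φ h2 h3 => by
    rw [map_smul, hx A ρ h1 Φ h2 h3, smul_zero]

/-- Density of the end points of the deformations of a very free conic. -/
theorem exists_artin [GradedAlgebra 𝒜] (hX : IsContactFano 𝒜 P)
    {φ₀ : R →ₐ[ℂ] MvPolynomial (Fin 2) ℂ} (h0 : IsCurve 𝒜 2 φ₀) (hv : IsVeryFree 𝒜 φ₀)
    (hsplit : Split 𝒜 φ₀) (F : R ⊗[ℂ] R) (hF : F ≠ 0) :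
    ∃ (A : Type u) (_ : CommRing A) (_ : Algebra ℂ A) (ρ : A →ₐ[ℂ] ℂ)
      (Φ : R →ₐ[ℂ] MvPolynomial (Fin 2) A), (∃ n : ℕ, RingHom.ker ρ ^ n = ⊥) ∧
      (∀ k, ∀ r ∈ 𝒜 k, (Φ r).IsHomogeneous (2 * k)) ∧
      (∀ r, map (ρ : A →+* ℂ) (Φ r) = φ₀ r) ∧
      Algebra.TensorProduct.lift (endA Φ ![1, 0]) (endA Φ ![0, 1]) (fun _ _ => Commute.all _ _) F
        ≠ 0 := by
  by_contra hcon
  push Not at hcon
  have h10 : (![1, 0] : Fin 2 → ℂ) ≠ 0 := fun h => one_ne_zero (congrFun h 0)
  have h01 : (![0, 1] : Fin 2 → ℂ) ≠ 0 := fun h => one_ne_zero (congrFun h 1)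
  have hmem : F ∈ Nul 𝒜 φ₀ := fun A _ _ _ ρ h1 Φ h2 h3 =>
    hcon A _ _ ρ Φ (by
      have : IsNoetherianRing A := IsNoetherianRing.of_finite ℂ A
      obtain ⟨n, hn⟩ := IsNoetherianRing.isNilpotent_nilradical A
      refine ⟨n, ?_⟩
      rw [eq_bot_iff]
      refine (Ideal.pow_right_mono (fun x hx => mem_nilradical.mpr (h1 x hx)) n).trans ?_
      rw [hn]
      rfl) h3 h2
  have hfin : ∀ (A : Type u) [CommRing A] [Algebra ℂ A] [Module.Finite ℂ A],
      Module.Finite ℂ (TrivSqZeroExt A A) := fun A _ _ _ =>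
    inferInstanceAs (Module.Finite ℂ (A × A))
  have hnil : ∀ (A : Type u) [CommRing A] [Algebra ℂ A] (ρ : A →ₐ[ℂ] ℂ)
      (_ : ∀ x, ρ x = 0 → IsNilpotent x) (x : TrivSqZeroExt A A),
      (ρ.comp (TrivSqZeroExt.fstHom ℂ A A)) x = 0 → IsNilpotent x := by
    intro A _ _ ρ h x hx
    exact TrivSqZeroExt.isNilpotent_iff_isNilpotent_fst.mpr (h _ hx)
  have hN : Nul 𝒜 φ₀ = ⊥ := by
    refine simp_tensor hX (p := pt φ₀ ![1, 0]) (q := pt φ₀ ![0, 1]) (not_isVertex_pt h0 h10)
      (not_isVertex_pt h0 h01) _ ?_ ?_ ?_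
    · intro b G hG A _ _ _ ρ h1 Φ h2 h3
      obtain ⟨D, hD, hDe⟩ := exists_section hX h0 hv hsplit h10 _ A ρ h1 Φ h2 h3
        (hamAt P (endA Φ ![1, 0]) b) (isDer_ham hX.leibniz _ b) rfl
      obtain ⟨Φ', g1, g2, g3⟩ := exists_dual hX.connected h2 h3 0 hD
      have := hfin A
      have key := hG (TrivSqZeroExt A A) _ (hnil A ρ h1) Φ' g1 g2
      have hlift : ∀ G : R ⊗[ℂ] R, Algebra.TensorProduct.lift (endA Φ' ![1, 0])
          (endA Φ' ![0, 1]) (fun _ _ => Commute.all _ _) G =
          TrivSqZeroExt.inl (Algebra.TensorProduct.lift (endA Φ ![1, 0])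
            (endA Φ ![0, 1]) (fun _ _ => Commute.all _ _) G) +
          TrivSqZeroExt.inr (Algebra.TensorProduct.lift (endA Φ ![1, 0])
            (endA Φ ![0, 1]) (fun _ _ => Commute.all _ _)
            (TensorProduct.map (P b) LinearMap.id G)) := by
        intro G
        induction G using TensorProduct.induction_on with
        | zero => simp
        | tmul r s =>
          rw [Algebra.TensorProduct.lift_tmul, Algebra.TensorProduct.lift_tmul,
            TensorProduct.map_tmul, Algebra.TensorProduct.lift_tmul, g3, g3, hDe]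
          ext <;> simp [hamAt_apply, mul_comm]
        | add x y hx hy =>
          rw [map_add, hx, hy, map_add, map_add, map_add, TrivSqZeroExt.inl_add,
            TrivSqZeroExt.inr_add]
          abel
      rw [hlift] at key
      have h4 := congrArg TrivSqZeroExt.snd key
      simpa using h4
    · intro b G hG A _ _ _ ρ h1 Φ h2 h3
      obtain ⟨D, hD, hDe⟩ := exists_section hX h0 hv hsplit h01 _ A ρ h1 Φ h2 h3
        (hamAt P (endA Φ ![0, 1]) b) (isDer_ham hX.leibniz _ b) rfl
      obtain ⟨Φ', g1, g2, g3⟩ := exists_dual hX.connected h2 h3 1 hD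
      have := hfin A
      have key := hG (TrivSqZeroExt A A) _ (hnil A ρ h1) Φ' g1 g2
      have hlift : ∀ G : R ⊗[ℂ] R, Algebra.TensorProduct.lift (endA Φ' ![1, 0])
          (endA Φ' ![0, 1]) (fun _ _ => Commute.all _ _) G =
          TrivSqZeroExt.inl (Algebra.TensorProduct.lift (endA Φ ![1, 0])
            (endA Φ ![0, 1]) (fun _ _ => Commute.all _ _) G) +
          TrivSqZeroExt.inr (Algebra.TensorProduct.lift (endA Φ ![1, 0])
            (endA Φ ![0, 1]) (fun _ _ => Commute.all _ _)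
            (TensorProduct.map LinearMap.id (P b) G)) := by
        intro G
        induction G using TensorProduct.induction_on with
        | zero => simp
        | tmul r s =>
          rw [Algebra.TensorProduct.lift_tmul, Algebra.TensorProduct.lift_tmul,
            TensorProduct.map_tmul, Algebra.TensorProduct.lift_tmul, g3, g3, hDe]
          ext <;> simp [hamAt_apply, mul_comm]
        | add x y hx hy =>
          rw [map_add, hx, hy, map_add, map_add, map_add, TrivSqZeroExt.inl_add,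
            TrivSqZeroExt.inr_add]
          abel
      rw [hlift] at key
      have h4 := congrArg TrivSqZeroExt.snd key
      simpa using h4
    · intro G hG
      have h5 := hG (ULift.{u} ℂ) (ULift.algEquiv : ULift.{u} ℂ ≃ₐ[ℂ] ℂ).toAlgHom
        (fun x hx => by
          have : x = 0 := (ULift.algEquiv : ULift.{u} ℂ ≃ₐ[ℂ] ℂ).injective
            (by rw [map_zero]; exact hx)
          rw [this]
          exact IsNilpotent.zero)
        ((mapAlgHom (ULift.algEquiv : ULift.{u} ℂ ≃ₐ[ℂ] ℂ).symm.toAlgHom).comp φ₀)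
        (fun r => by
          change map _ (map _ (φ₀ r)) = φ₀ r
          rw [map_map]
          have : ((ULift.algEquiv : ULift.{u} ℂ ≃ₐ[ℂ] ℂ).toAlgHom : ULift.{u} ℂ →+* ℂ).comp
              ((ULift.algEquiv : ULift.{u} ℂ ≃ₐ[ℂ] ℂ).symm.toAlgHom : ℂ →+* ULift.{u} ℂ) =
              RingHom.id ℂ := by
            ext x
            rfl
          rw [this, map_id])
        (fun k r hr => (h0.degree k r hr).map _)
      have h6 : ∀ G : R ⊗[ℂ] R, (Algebra.TensorProduct.lift
          (endA ((mapAlgHom (ULift.algEquiv : ULift.{u} ℂ ≃ₐ[ℂ] ℂ).symm.toAlgHom).comp φ₀) ![1, 0])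
          (endA ((mapAlgHom (ULift.algEquiv : ULift.{u} ℂ ≃ₐ[ℂ] ℂ).symm.toAlgHom).comp φ₀) ![0, 1])
          (fun _ _ => Commute.all _ _) G).down =
          Algebra.TensorProduct.lift (pt φ₀ ![1, 0]) (pt φ₀ ![0, 1])
            (fun _ _ => Commute.all _ _) G := by
        have h7 : ∀ (a : Fin 2 → ℂ) (r : R),
            (endA ((mapAlgHom (ULift.algEquiv : ULift.{u} ℂ ≃ₐ[ℂ] ℂ).symm.toAlgHom).comp φ₀) a
              r).down = pt φ₀ a r := by
          intro a r
          rw [endA_apply, pt_apply]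
          exact congrArg ULift.down
            (eval_map_hom (ULift.algEquiv : ULift.{u} ℂ ≃ₐ[ℂ] ℂ).symm.toAlgHom a (φ₀ r))
        intro G
        induction G using TensorProduct.induction_on with
        | zero => simp
        | tmul r s =>
          rw [Algebra.TensorProduct.lift_tmul, Algebra.TensorProduct.lift_tmul, ULift.mul_down,
            h7, h7]
        | add x y hx hy => rw [map_add, map_add, ULift.add_down, hx, hy]
      rw [← h6 G, h5]
      rfl
  rw [hN] at hmem
  exact hF hmem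

end Vale.Agent.P292.VF
end
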