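import Vale.Agent.P292.Bn.N6
import Vale.Agent.P292.Bn.N7
import Vale.Agent.P292.Bn.N9
import Vale.Agent.P292.Bdl.B4
import Vale.Agent.P292.Bn.N10
import Vale.Agent.P292.Bn.N3
import Vale.Agent.P292.Bn.N4
import Vale.Agent.P292.Bn.N1
import Vale.Agent.P292.Bn.N2
import Vale.Agent.P292.Bn.N5
import Vale.Agent.P292.Bn.N8

set_option linter.all false

section

set_option linter.all false

/-! # Q2 part I, block G, first half. -/

namespace Vale.Agent.P292

open MvPolynomial TensorProduct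

universe u v w

variable {R : Type u} [CommRing R] [Algebra ℂ R] {𝒜 : ℕ → Submodule ℂ R} [GradedAlgebra 𝒜]
  {P : R →ₗ[ℂ] R →ₗ[ℂ] R}

/-- A pair of field valued nonvertex points at which the Hamiltonian vector fields in both
variables are induced by derivations of the field is generic. -/
theorem g1_injective (hX : IsContactFano 𝒜 P) {K : Type v} [Field K] [Algebra ℂ K]
    (x y : R →ₐ[ℂ] K) (hx : IsNV 𝒜 x) (hy : IsNV 𝒜 y)
    (h1 : ∀ a, ∃ D : Derivation ℂ K K, (∀ r, D (x r) = x (P a r)) ∧ ∀ r, D (y r) = 0)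
    (h2 : ∀ a, ∃ D : Derivation ℂ K K, (∀ r, D (x r) = 0) ∧ ∀ r, D (y r) = y (P a r)) :
    Function.Injective (Algebra.TensorProduct.lift x y (fun _ _ => Commute.all _ _)) := by
  classical
  have := hX.finiteType
  have hft2 : Algebra.FiniteType ℂ (R ⊗[ℂ] R) :=
    Algebra.FiniteType.trans (S := R) inferInstance inferInstance
  set Λ := Algebra.TensorProduct.lift x y (fun _ _ => Commute.all _ _) with hΛ
  obtain ⟨k, hk, f, hf, hfx⟩ := hx
  obtain ⟨l, hl, g, hg, hgy⟩ := hy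
  have hfg : Λ (f ⊗ₜ g) ≠ 0 := by
    rw [hΛ, Algebra.TensorProduct.lift_tmul]
    exact mul_ne_zero hfx hgy
  obtain ⟨p₀, hp₀, hp₀'⟩ := kd_exists_closed Λ (f ⊗ₜ g) hfg
  set p := p₀.comp (Algebra.TensorProduct.includeLeft : R →ₐ[ℂ] R ⊗[ℂ] R) with hp
  set q := p₀.comp (Algebra.TensorProduct.includeRight : R →ₐ[ℂ] R ⊗[ℂ] R) with hq
  have hpq : Algebra.TensorProduct.lift p q (fun _ _ => Commute.all _ _) = p₀ := by
    apply Algebra.TensorProduct.ext
    · ext r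
      simp [hp]
    · ext r
      simp [hq]
  have hne : p f * q g ≠ 0 := by
    have h3 := hp₀'
    rw [← hpq, Algebra.TensorProduct.lift_tmul] at h3
    exact h3
  have hΛ1 : ∀ (D : Derivation ℂ K K) (a : R), (∀ r, D (x r) = x (P a r)) → (∀ r, D (y r) = 0) →
      ∀ F, Λ (TensorProduct.map (P a) LinearMap.id F) = D (Λ F) := by
    intro D a hD1 hD2 F
    induction F using TensorProduct.induction_on with
    | zero => simp
    | tmul r s =>
      rw [TensorProduct.map_tmul, hΛ, Algebra.TensorProduct.lift_tmul,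
        Algebra.TensorProduct.lift_tmul, Derivation.leibniz, hD1, hD2, smul_zero, zero_add,
        smul_eq_mul, mul_comm]
      rfl
    | add F G hF hG => rw [map_add, map_add, hF, hG, map_add, map_add]
  have hΛ2 : ∀ (D : Derivation ℂ K K) (a : R), (∀ r, D (x r) = 0) → (∀ r, D (y r) = y (P a r)) →
      ∀ F, Λ (TensorProduct.map LinearMap.id (P a) F) = D (Λ F) := by
    intro D a hD1 hD2 F
    induction F using TensorProduct.induction_on with
    | zero => simp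
    | tmul r s =>
      rw [TensorProduct.map_tmul, hΛ, Algebra.TensorProduct.lift_tmul,
        Algebra.TensorProduct.lift_tmul, Derivation.leibniz, hD1, hD2, smul_zero, add_zero,
        smul_eq_mul]
      rfl
    | add F G hF hG => rw [map_add, map_add, hF, hG, map_add, map_add]
  let N : Submodule ℂ (R ⊗[ℂ] R) := LinearMap.ker Λ.toLinearMap
  have hN : ∀ F, F ∈ N ↔ Λ F = 0 := fun F => LinearMap.mem_ker
  have hbot : N = ⊥ := by
    refine VF.simp_tensor hX (p := p) (q := q) (fun h => left_ne_zero_of_mul hne (h k hk f hf))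
      (fun h => right_ne_zero_of_mul hne (h l hl g hg)) N ?_ ?_ ?_
    · intro a F hF
      obtain ⟨D, hD1, hD2⟩ := h1 a
      rw [hN] at hF ⊢
      rw [hΛ1 D a hD1 hD2, hF, map_zero]
    · intro a F hF
      obtain ⟨D, hD1, hD2⟩ := h2 a
      rw [hN] at hF ⊢
      rw [hΛ2 D a hD1 hD2, hF, map_zero]
    · intro F hF
      rw [hpq]
      exact hp₀ F ((hN F).1 hF)
  rw [injective_iff_map_eq_zero]
  intro F hF
  have : F ∈ N := (hN F).2 hF
  rwa [hbot, Submodule.mem_bot] at this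

end Vale.Agent.P292
end

section

set_option linter.all false

/-! # Q2 part I, block G, second half: from a frame to the generic pair. -/

namespace Vale.Agent.P292

open MvPolynomial TensorProduct

universe u v w

variable {R : Type u} [CommRing R] [Algebra ℂ R] {𝒜 : ℕ → Submodule ℂ R} [GradedAlgebra 𝒜]
  {P : R →ₗ[ℂ] R →ₗ[ℂ] R}

/-- A derivation of degree `-2` along a full conic which is rigid with fixed ends is zero. -/
theorem g2_eq_zero {K : Type v} [Field K] [Algebra ℂ K]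
    {φ : R →ₐ[ℂ] MvPolynomial (Fin 2) K} (hfull : IsFull 𝒜 2 φ)
    (halg : ∀ D : Derivation ℂ K K, (∀ r, D (pt φ ![1, 0] r) = 0) →
      (∀ r, D (pt φ ![0, 1] r) = 0) → ∀ r m, D (coeff m (φ r)) = 0)
    {θ : R →ₗ[ℂ] MvPolynomial (Fin 2) K} (hθ : IsHDer 𝒜 2 φ (-2) θ) : θ = 0 := by
  have hX2 : ZHom (X 0 * X 1 : MvPolynomial (Fin 2) K) 2 :=
    (ZHom.of_nat ((isHomogeneous_X K 0).mul (isHomogeneous_X K 1))).congr (by norm_num)
  have h1 : IsHDer 𝒜 2 φ 0 ((X 0 * X 1 : MvPolynomial (Fin 2) K) • θ) :=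
    (hθ.fr_smul hX2).fr_congr (by norm_num)
  obtain ⟨D, hD⟩ := hfull _ h1
  have h2 : ∀ r, D (pt φ ![1, 0] r) = 0 := by
    intro r
    rw [pt_apply, ← eval_mapD_10, hD, LinearMap.smul_apply, smul_eq_mul]
    simp
  have h3 : ∀ r, D (pt φ ![0, 1] r) = 0 := by
    intro r
    rw [pt_apply, ← eval_mapD_01, hD, LinearMap.smul_apply, smul_eq_mul]
    simp
  have h4 := halg D h2 h3
  ext1 r
  have h5 : mapD D (φ r) = 0 := by
    ext m
    rw [coeff_mapD, h4, coeff_zero]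
  rw [hD, LinearMap.smul_apply, smul_eq_mul] at h5
  rw [LinearMap.zero_apply]
  exact (mul_eq_zero.1 h5).resolve_left (mul_ne_zero (X_ne_zero 0) (X_ne_zero 1))

/-- Block G modulo the frame. -/
theorem g2_injective (hX : IsContactFano 𝒜 P) {K : Type v} [Field K] [Algebra ℂ K]
    {φ : R →ₐ[ℂ] MvPolynomial (Fin 2) K} (hφ : IsCurve 𝒜 2 φ) (hfull : IsFull 𝒜 2 φ)
    (halg : ∀ D : Derivation ℂ K K, (∀ r, D (pt φ ![1, 0] r) = 0) →
      (∀ r, D (pt φ ![0, 1] r) = 0) → ∀ r m, D (coeff m (φ r)) = 0)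
    {N : ℕ} (e : Fin N → ℤ) (δ : Fin N → R →ₗ[ℂ] MvPolynomial (Fin 2) K)
    (hδ : ∀ i, IsHDer 𝒜 2 φ (e i) (δ i)) (hne : ∀ i, δ i ≠ 0) (hlow : ∀ i, -2 ≤ e i)
    (hsum : ∑ i, (2 * e i + 2) = 0)
    (hspan : ∀ u : Fin 2 → K, u ≠ 0 → ∀ v, IsDer (pt φ u) v →
      ∃ c : Fin N → K, v = ∑ i, c i • evL u (δ i)) :
    Function.Injective (Algebra.TensorProduct.lift (pt φ ![1, 0]) (pt φ ![0, 1])
      (fun _ _ => Commute.all _ _)) := by
  classical
  have he1 : ∀ i, -1 ≤ e i := by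
    intro i
    by_contra h
    have h2 : e i = -2 := by have := hlow i; omega
    exact hne i (g2_eq_zero hfull halg (h2 ▸ hδ i))
  have he : ∀ i, e i = -1 := by
    have h1 := (Finset.sum_eq_zero_iff_of_nonneg (s := Finset.univ) (f := fun i => 2 * e i + 2)
      (fun i _ => by have := he1 i; omega)).1 hsum
    intro i
    have := h1 i (Finset.mem_univ i)
    omega
  -- arbitrary tangent vectors at both ends
  have key : ∀ v v', IsDer (pt φ ![1, 0]) v → IsDer (pt φ ![0, 1]) v' →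
      ∃ D : Derivation ℂ K K, (∀ r, D (pt φ ![1, 0] r) = v r) ∧
        ∀ r, D (pt φ ![0, 1] r) = v' r := by
    intro v v' hv hv'
    obtain ⟨c, hc⟩ := hspan _ vec10_ne v hv
    obtain ⟨c', hc'⟩ := hspan _ vec01_ne v' hv'
    have hl : ∀ i, ZHom (C (c i) * X 0 + C (c' i) * X 1 : MvPolynomial (Fin 2) K) 1 := fun i =>
      (ZHom.of_nat ((isHomogeneous_C_mul_X (c i) 0).add (isHomogeneous_C_mul_X (c' i) 1))).congr
        (by norm_num)
    have hh : IsHDer 𝒜 2 φ 0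
        (∑ i, (C (c i) * X 0 + C (c' i) * X 1 : MvPolynomial (Fin 2) K) • δ i) :=
      IsHDer.fr_sum _ fun i _ => ((hδ i).fr_smul (hl i)).fr_congr (by rw [he i]; norm_num)
    obtain ⟨D, hD⟩ := hfull _ hh
    refine ⟨D, fun r => ?_, fun r => ?_⟩
    · rw [pt_apply, ← eval_mapD_10, hD, hc, LinearMap.sum_apply, LinearMap.sum_apply, map_sum]
      refine Finset.sum_congr rfl fun i _ => ?_
      rw [LinearMap.smul_apply, LinearMap.smul_apply, evL_apply]
      simp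
    · rw [pt_apply, ← eval_mapD_01, hD, hc', LinearMap.sum_apply, LinearMap.sum_apply, map_sum]
      refine Finset.sum_congr rfl fun i _ => ?_
      rw [LinearMap.smul_apply, LinearMap.smul_apply, evL_apply]
      simp
  have hzero : ∀ x : R →ₐ[ℂ] K, IsDer x (0 : R →ₗ[ℂ] K) := fun x => (DerAt x).zero_mem
  refine g1_injective hX _ _ (hφ.isNV_pt vec10_ne) (hφ.isNV_pt vec01_ne) (fun a => ?_)
    (fun a => ?_)
  · obtain ⟨D, h1, h2⟩ := key (hamAt P (pt φ ![1, 0]) a) 0 (isDer_hamAt hX _ a) (hzero _)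
    exact ⟨D, h1, h2⟩
  · obtain ⟨D, h1, h2⟩ := key 0 (hamAt P (pt φ ![0, 1]) a) (hzero _) (isDer_hamAt hX _ a)
    exact ⟨D, h1, h2⟩

end Vale.Agent.P292
end

section

set_option linter.all false

/-! # Q2 part I, block G: the ends of a full rigid anchored conic are jointly generic. -/

namespace Vale.Agent.P292

open MvPolynomial TensorProduct

universe u v w

variable {R : Type u} [CommRing R] [Algebra ℂ R] {𝒜 : ℕ → Submodule ℂ R} [GradedAlgebra 𝒜]
  {P : R →ₗ[ℂ] R →ₗ[ℂ] R}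

/-- A frame spans the tangent spaces at all the points. -/
theorem g3_span (hX : IsContactFano 𝒜 P) [IsDomain R] {K : Type v} [Field K] [IsAlgClosed K]
    [Algebra ℂ K] {d : ℕ}
    {φ : R →ₐ[ℂ] MvPolynomial (Fin 2) K} (hφ : IsCurve 𝒜 d φ)
    {e : Fin (cdim R) → ℤ} {δ : Fin (cdim R) → R →ₗ[ℂ] MvPolynomial (Fin 2) K} {c : K}
    (hF : IsHFrame 𝒜 P d φ e δ c) (u : Fin 2 → K) (hu : u ≠ 0) (v : R →ₗ[ℂ] K)
    (hv : IsDer (pt φ u) v) : ∃ c : Fin (cdim R) → K, v = ∑ i, c i • evL u (δ i) := by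
  have hnv := c1_isNV_pt hφ u hu
  have hG : (Matrix.of fun i j => om P (pt φ u) (evL u (δ i)) (evL u (δ j))).det ≠ 0 := by
    have h1 : (Matrix.of fun i j => om P (pt φ u) (evL u (δ i)) (evL u (δ j))) =
        (eval u).mapMatrix (Matrix.of fun i j => omC P φ (δ i) (δ j)) := by
      ext i j
      rw [RingHom.mapMatrix_apply, Matrix.map_apply, Matrix.of_apply, Matrix.of_apply]
      exact fr_omC_eval hX hφ (hF.hder i).der (hF.hder j).der u hu
    rw [h1, ← RingHom.map_det, hF.det, eval_C]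
    exact hF.ne
  exact fr_span hX hnv (fun i => fr_isDer_evL (hF.hder i).der u)
    (fr_indep hX hnv (fun i => fr_isDer_evL (hF.hder i).der u) hG) hv

theorem g3_ne_zero (hX : IsContactFano 𝒜 P) [IsDomain R] {K : Type v} [Field K] [IsAlgClosed K]
    [Algebra ℂ K] {d : ℕ}
    {φ : R →ₐ[ℂ] MvPolynomial (Fin 2) K} (hφ : IsCurve 𝒜 d φ)
    {e : Fin (cdim R) → ℤ} {δ : Fin (cdim R) → R →ₗ[ℂ] MvPolynomial (Fin 2) K} {c : K}
    (hF : IsHFrame 𝒜 P d φ e δ c) (i : Fin (cdim R)) : δ i ≠ 0 := by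
  classical
  intro h0
  have hu : (![1, 0] : Fin 2 → K) ≠ 0 := vec10_ne
  have hnv := c1_isNV_pt hφ _ hu
  have hG : (Matrix.of fun i j => om P (pt φ ![1, 0]) (evL ![1, 0] (δ i))
      (evL ![1, 0] (δ j))).det ≠ 0 := by
    have h1 : (Matrix.of fun i j => om P (pt φ ![1, 0]) (evL ![1, 0] (δ i))
        (evL ![1, 0] (δ j))) =
        (eval ![1, 0]).mapMatrix (Matrix.of fun i j => omC P φ (δ i) (δ j)) := by
      ext i j
      rw [RingHom.mapMatrix_apply, Matrix.map_apply, Matrix.of_apply, Matrix.of_apply]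
      exact fr_omC_eval hX hφ (hF.hder i).der (hF.hder j).der _ hu
    rw [h1, ← RingHom.map_det, hF.det, eval_C]
    exact hF.ne
  have h2 := fr_indep hX hnv (fun i => fr_isDer_evL (hF.hder i).der ![1, 0]) hG
    (Pi.single i 1) (by
      rw [Finset.sum_eq_single i]
      · rw [h0]
        ext r
        simp
      · intro j _ hj
        rw [Pi.single_eq_of_ne hj, zero_smul]
      · intro h
        exact absurd (Finset.mem_univ i) h)
  have h3 := congrFun h2 i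
  rw [Pi.single_eq_same] at h3
  exact one_ne_zero h3

/-- The free hypothesis of `exists_hframe` for anchored curves. -/
theorem g3_exists_hframe (hX : IsContactFano 𝒜 P) [IsDomain R] {K : Type v} [Field K]
    [IsAlgClosed K] [Algebra ℂ K] {d : ℕ}
    {φ : R →ₐ[ℂ] MvPolynomial (Fin 2) K} (hφ : IsAnch 𝒜 d φ) :
    ∃ (e : Fin (cdim R) → ℤ) (δ : Fin (cdim R) → R →ₗ[ℂ] MvPolynomial (Fin 2) K) (c : K),
      IsHFrame 𝒜 P d φ e δ c :=
  exists_hframe hX hφ.curve fun v hv => by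
    obtain ⟨δ, h1, h2, -⟩ := hφ.exists_isHDer hX v hv
    exact ⟨δ, h1, h2⟩

/-- G: the two ends of a full anchored conic, rigid with fixed ends, are jointly generic. -/
theorem g_injective (hX : IsContactFano 𝒜 P) [IsDomain R] {K : Type v} [Field K]
    [IsAlgClosed K] [Algebra ℂ K] {φ : R →ₐ[ℂ] MvPolynomial (Fin 2) K} (hφ : IsAnch 𝒜 2 φ)
    (hfull : IsFull 𝒜 2 φ)
    (halg : ∀ D : Derivation ℂ K K, (∀ r, D (pt φ ![1, 0] r) = 0) →
      (∀ r, D (pt φ ![0, 1] r) = 0) → ∀ r m, D (coeff m (φ r)) = 0) :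
    Function.Injective (Algebra.TensorProduct.lift (pt φ ![1, 0]) (pt φ ![0, 1])
      (fun _ _ => Commute.all _ _)) := by
  obtain ⟨e, δ, c, hF⟩ := g3_exists_hframe hX hφ
  exact g2_injective hX hφ.curve hfull halg e δ hF.hder (g3_ne_zero hX hφ.curve hF)
    (fun i => by simpa using hF.ge i) (by simpa using hF.sum) (g3_span hX hφ.curve hF)

end Vale.Agent.P292
end

section

/-! # Block I2, tools: algebraic elements from derivations, integrality from valuation rings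
whose centre has codimension one. -/

namespace Vale.Agent.P292

open Polynomial

universe u v

/-- An element on which all derivations trivial on `R` vanish is algebraic over `R`. -/
theorem i2_isAlgebraic_of_der {R : Type u} [CommRing R] [Algebra ℂ R] {Ω : Type v} [Field Ω]
    [Algebra ℂ Ω] [Algebra R Ω] [IsScalarTower ℂ R Ω] (x : Ω)
    (h : ∀ D : Derivation ℂ Ω Ω, (∀ r, D (algebraMap R Ω r) = 0) → D x = 0) :
    IsAlgebraic R x := by
  by_contra hx
  have hinj : Function.Injective (Polynomial.aeval x : Polynomial R →ₐ[R] Ω) :=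
    transcendental_iff_injective.1 hx
  obtain ⟨D, hD⟩ := exists_derivation_of_isDer
    (q := (Polynomial.aeval x : Polynomial R →ₐ[R] Ω).restrictScalars ℂ)
    hinj (δ := ((Polynomial.aeval x : Polynomial R →ₐ[R] Ω).restrictScalars ℂ).toLinearMap ∘ₗ
      (Polynomial.derivative.restrictScalars ℂ : Polynomial R →ₗ[ℂ] Polynomial R))
    (fun p q => by
      change Polynomial.aeval x (Polynomial.derivative (p * q)) =
        Polynomial.aeval x p * Polynomial.aeval x (Polynomial.derivative q) +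
        Polynomial.aeval x q * Polynomial.aeval x (Polynomial.derivative p)
      rw [Polynomial.derivative_mul, map_add, map_mul, map_mul]
      ring)
  have hD' : ∀ p : Polynomial R, D (Polynomial.aeval x p) =
      Polynomial.aeval x (Polynomial.derivative p) := fun p => LinearMap.congr_fun hD p
  have h1 : D x = 1 := by
    have := hD' Polynomial.X
    rwa [Polynomial.aeval_X, Polynomial.derivative_X, map_one] at this
  have h2 : ∀ r, D (algebraMap R Ω r) = 0 := by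
    intro r
    have := hD' (Polynomial.C r)
    rwa [Polynomial.aeval_C, Polynomial.derivative_C, map_zero] at this
  exact one_ne_zero (h1.symm.trans (h D h2))

/-- Algebraic elements belong to a valuation ring which contains the fraction field. -/
theorem i2_mem_of_isAlgebraic {V : Type u} {Ω : Type v} [CommRing V] [Field Ω]
    [Algebra V Ω] [FaithfulSMul V Ω] (v : ValuationSubring Ω) (hv : ∀ r : V, algebraMap V Ω r ∈ v)
    (hinv : ∀ r : V, r ≠ 0 → (algebraMap V Ω r)⁻¹ ∈ v) {x : Ω} (hx : IsAlgebraic V x) :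
    x ∈ v := by
  obtain ⟨p, hp0, hp⟩ := hx
  let f : V →+* v := (algebraMap V Ω).codRestrict v.toSubring hv
  have hf : ∀ r, ((f r : v) : Ω) = algebraMap V Ω r := fun r => rfl
  have hlc : p.leadingCoeff ≠ 0 := leadingCoeff_ne_zero.2 hp0
  have hlcΩ : algebraMap V Ω p.leadingCoeff ≠ 0 := by
    rw [Ne, FaithfulSMul.algebraMap_eq_zero_iff]
    exact hlc
  have hflc : f p.leadingCoeff ≠ 0 := fun h => hlcΩ (by rw [← hf, h]; rfl)
  have hmap : (p.map f).leadingCoeff = f p.leadingCoeff :=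
    leadingCoeff_map_of_leadingCoeff_ne_zero f hflc
  have hunit : IsUnit (p.map f).leadingCoeff := by
    rw [hmap]
    refine IsUnit.of_mul_eq_one (⟨_, hinv _ hlc⟩ : v) (Subtype.ext ?_)
    change algebraMap V Ω p.leadingCoeff * (algebraMap V Ω p.leadingCoeff)⁻¹ = 1
    exact mul_inv_cancel₀ hlcΩ
  have hint : IsIntegral v x := by
    refine ⟨hunit.unit⁻¹ • p.map f, monic_of_isUnit_leadingCoeff_inv_smul hunit, ?_⟩
    have h1 : (p.map f).eval₂ (algebraMap v Ω) x = 0 := by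
      rw [eval₂_map]
      exact hp
    rw [Units.smul_def, eval₂_smul, h1, mul_zero]
  obtain ⟨y, hy⟩ := IsIntegrallyClosed.isIntegral_iff.1 hint
  rw [← hy]
  exact y.2

/-- Integrality from valuation rings of the big field, whose centre is a prime with a discrete
valuation ring as localisation. -/
theorem i2_isIntegral_of_dvr {R : Type u} {Ω : Type v} [CommRing R] [IsDomain R]
    [IsNoetherianRing R] [IsIntegrallyClosed R] [Field Ω] [Algebra R Ω] [FaithfulSMul R Ω]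
    (x : Ω) (hx : IsAlgebraic R x)
    (h : ∀ (v : ValuationSubring Ω), (∀ r : R, algebraMap R Ω r ∈ v) →
      ∀ (𝔭 : Ideal R) [𝔭.IsPrime], IsDiscreteValuationRing (Localization.AtPrime 𝔭) →
      (∀ r, r ∈ 𝔭 ↔ v.valuation (algebraMap R Ω r) < 1) → x ∈ v) : IsIntegral R x := by
  refine isIntegral_of_forall_dvr x hx ?_
  intro 𝔭 _ V _ _ _ _ _ _ _ _
  have hdvr : IsDiscreteValuationRing (Localization.AtPrime 𝔭) :=
    IsDiscreteValuationRing.RingEquivClass.isDiscreteValuationRing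
      (IsLocalization.algEquiv 𝔭.primeCompl V (Localization.AtPrime 𝔭))
  refine isIntegral_of_forall_valuationSubring x fun v hv => ?_
  obtain ⟨ϖ, hϖ⟩ := IsDiscreteValuationRing.exists_irreducible V
  have hvR : ∀ r : R, algebraMap R Ω r ∈ v := fun r => by
    rw [IsScalarTower.algebraMap_apply R V Ω]
    exact hv _
  by_cases h1 : v.valuation (algebraMap V Ω ϖ) < 1
  · refine h v hvR 𝔭 hdvr fun r => ?_
    rw [IsScalarTower.algebraMap_apply R V Ω]
    constructor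
    · intro hr
      have h2 : algebraMap R V r ∈ IsLocalRing.maximalIdeal V := by
        rwa [IsLocalization.AtPrime.to_map_mem_maximal_iff V 𝔭]
      rw [(IsDiscreteValuationRing.irreducible_iff_uniformizer ϖ).1 hϖ,
        Ideal.mem_span_singleton] at h2
      obtain ⟨y, hy⟩ := h2
      rw [hy, map_mul, map_mul]
      refine mul_lt_one_of_lt_of_le h1 ?_
      rw [ValuationSubring.valuation_le_one_iff]
      exact hv y
    · intro hlt
      by_contra hr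
      have hu : IsUnit (algebraMap R V r) := IsLocalization.map_units V (⟨r, hr⟩ : 𝔭.primeCompl)
      obtain ⟨y, hy⟩ := hu.exists_right_inv
      have h3 : v.valuation (algebraMap V Ω (algebraMap R V r)) *
          v.valuation (algebraMap V Ω y) = 1 := by
        rw [← map_mul, ← map_mul, hy, map_one, map_one]
      have h4 : v.valuation (algebraMap V Ω y) ≤ 1 :=
        (ValuationSubring.valuation_le_one_iff v _).2 (hv y)
      exact absurd h3 (mul_lt_one_of_lt_of_le hlt h4).ne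
  · have hinj : Function.Injective (algebraMap R V) := by
      have h2 : Function.Injective (algebraMap R Ω) := FaithfulSMul.algebraMap_injective R Ω
      rw [IsScalarTower.algebraMap_eq R V Ω] at h2
      exact Function.Injective.of_comp h2
    have hxV : IsAlgebraic V x := by
      obtain ⟨p, hp0, hp⟩ := hx
      refine ⟨p.map (algebraMap R V), ?_, ?_⟩
      · rw [Ne, Polynomial.map_eq_zero_iff hinj]
        exact hp0
      · rw [aeval_map_algebraMap]
        exact hp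
    refine i2_mem_of_isAlgebraic v hv (fun y hy => ?_) hxV
    obtain ⟨n, u, hu⟩ := IsDiscreteValuationRing.eq_unit_mul_pow_irreducible hy hϖ
    have hϖv : (algebraMap V Ω ϖ)⁻¹ ∈ v := by
      rw [← ValuationSubring.valuation_le_one_iff, map_inv₀]
      refine inv_le_one_of_one_le₀ ?_
      exact not_lt.1 h1
    have huv : (algebraMap V Ω (u : V))⁻¹ ∈ v := by
      have h5 : algebraMap V Ω (u : V) * algebraMap V Ω ((u⁻¹ : Vˣ) : V) = 1 := by
        rw [← map_mul, Units.mul_inv, map_one]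
      rw [inv_eq_of_mul_eq_one_right h5]
      exact hv _
    rw [hu, map_mul, map_pow, mul_inv, ← inv_pow]
    exact v.mul_mem _ _ huv (pow_mem hϖv n)

end Vale.Agent.P292
end

section

/-! # P292, Mori step, F7: choice of the twist and of the number of marks. -/

namespace Vale.Agent.P292.Mo

open MvPolynomial

universe u v w

theorem f7_num (p : ℕ) (hp : 1 < p) (q χ : ℤ) (hq : 0 < q) :
    ∃ (j m : ℕ), (p : ℤ) ^ j * q < 3 * m ∧ 2 * (m : ℤ) < (p : ℤ) ^ j * q + 2 * χ := by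
  obtain ⟨j, hj⟩ := pow_unbounded_of_one_lt (12 + 12 * χ.natAbs) hp
  have h1 : ((12 + 12 * χ.natAbs : ℕ) : ℤ) < (p : ℤ) ^ j := by exact_mod_cast hj
  have h2 : (p : ℤ) ^ j ≤ (p : ℤ) ^ j * q :=
    le_mul_of_one_le_right (pow_nonneg (by positivity) j) (by omega)
  obtain ⟨c, hc⟩ : ∃ c : ℕ, c = χ.natAbs := ⟨_, rfl⟩
  have h3 : -(c : ℤ) ≤ χ := by omega
  rw [← hc] at h1
  push_cast at h1
  have h4 : 12 + 12 * (c : ℤ) < (p : ℤ) ^ j * q := lt_of_lt_of_le h1 h2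
  refine ⟨j, ((p : ℤ) ^ j * q / 3 + 1).toNat, ?_⟩
  clear h1 h2 hc hj
  generalize (p : ℤ) ^ j * q = d at *
  constructor <;> rw [Int.toNat_of_nonneg (by omega)] <;> omega

/-- F7, relative to the statement for one curve. -/
theorem charp_main_of {k : Type u} [Field k] {R : Type v} [CommRing R] [Algebra k R]
    {𝒜 : ℕ → Submodule k R} [GradedAlgebra 𝒜] {P : R →ₗ[k] R →ₗ[k] R} [IsAlgClosed k] (p : ℕ)
    [Fact p.Prime] [CharP k p] (hP : IsPM 𝒜 P) (f : R)
    (hcurve : ∃ (K : Type v) (_ : Field K) (_ : Algebra k K) (A₀ A₁ : Subalgebra k K) (u : K)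
      (φ : R →ₐ[k] K), IsGC 𝒜 P A₀ A₁ u φ f)
    (hone : ∀ (K : Type v) [Field K] [Algebra k K] (A₀ A₁ : Subalgebra k K) (u : K)
      (φ : R →ₐ[k] K), IsGC 𝒜 P A₀ A₁ u φ f → ∀ m : ℕ, idx A₁ u < 3 * m →
        2 * (m : ℤ) < idx A₁ u + 2 * chi0 A₀ A₁ → ∃ w : R →ₐ[k] k, w f ≠ 0 ∧ Hit 𝒜 w) :
    ∃ w : R →ₐ[k] k, w f ≠ 0 ∧ Hit 𝒜 w := by
  obtain ⟨K, iK, iA, A₀, A₁, u, φ, h⟩ := hcurve
  obtain ⟨j, m, h1, h2⟩ := f7_num p (Fact.out : p.Prime).one_lt (idx A₁ u) (chi0 A₀ A₁) h.idx_pos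
  obtain ⟨A₀', A₁', u', φ', h', h3, h4⟩ := exists_twist p j hP h
  exact hone (Tw p j K) A₀' A₁' u' φ' h' m (by rw [h4]; exact h1) (by rw [h4, h3]; exact h2)

end Vale.Agent.P292.Mo
end

section

/-! # Bubble lemma, part 6: the recursion. -/

namespace Vale.Agent.P292.Mo

open Polynomial

universe u v w

section rec

variable {k : Type u} [Field k] {R : Type v} [CommRing R] [Algebra k R] {𝒜 : ℕ → Submodule k R}
  [GradedAlgebra 𝒜] {n : ℕ} {x : Fin n → R} {d : Fin n → ℕ}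

/-- Two homomorphisms which agree on homogeneous elements. -/
theorem algHom_eq_of_homog {S : Type w} [CommRing S] [Algebra k S] {f g : R →ₐ[k] S}
    (h : ∀ j, ∀ r ∈ 𝒜 j, f r = g r) (r : R) : f r = g r := by
  classical
  rw [← DirectSum.sum_support_decompose 𝒜 r, map_sum, map_sum]
  exact Finset.sum_congr rfl fun j _ => h j _ (SetLike.coe_mem _)

/-- Proportionality of points of the cone. -/
def Sim (𝒜 : ℕ → Submodule k R) (ξ w : R →ₐ[k] k) : Prop :=
  ∃ c : k, c ≠ 0 ∧ ∀ j, ∀ r ∈ 𝒜 j, ξ r = c ^ j * w r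

/-- A curve of degree one or two through `w`. -/
def HasCurve (𝒜 : ℕ → Submodule k R) (w : R →ₐ[k] k) : Prop :=
  ∃ e : ℕ, (e = 1 ∨ e = 2) ∧ ∃ ψ : R →ₐ[k] MvPolynomial (Fin 2) k,
    (∀ j, ∀ r ∈ 𝒜 j, (ψ r).IsHomogeneous (e * j)) ∧
    (∀ a : Fin 2 → k, a ≠ 0 → ∃ j > 0, ∃ r ∈ 𝒜 j, MvPolynomial.eval a (ψ r) ≠ 0) ∧
    ∀ r, MvPolynomial.eval ![1, 0] (ψ r) = w r

theorem hasCurve_of_eval {w : R →ₐ[k] k} {e : ℕ} (he : e = 1 ∨ e = 2)
    (ψ : R →ₐ[k] MvPolynomial (Fin 2) k)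
    (h1 : ∀ j, ∀ r ∈ 𝒜 j, (ψ r).IsHomogeneous (e * j))
    (h2 : ∀ a : Fin 2 → k, a ≠ 0 → ∃ j > 0, ∃ r ∈ 𝒜 j, MvPolynomial.eval a (ψ r) ≠ 0)
    (c : k) (hc : c ≠ 0)
    (h3 : ∀ j, ∀ r ∈ 𝒜 j, MvPolynomial.eval ![1, 0] (ψ r) = c ^ j * w r) : HasCurve 𝒜 w := by
  obtain ⟨ψ', hψ'⟩ := bubble_twist 𝒜 ψ (MvPolynomial.C c⁻¹)
  refine ⟨e, he, ψ', fun j r hr => ?_, fun a ha => ?_, fun r => ?_⟩
  · rw [hψ' j r hr, ← map_pow]
    exact (h1 j r hr).C_mul _
  · obtain ⟨j, hj, r, hr, h⟩ := h2 a ha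
    refine ⟨j, hj, r, hr, ?_⟩
    rw [hψ' j r hr, map_mul, map_pow, MvPolynomial.eval_C]
    exact mul_ne_zero (pow_ne_zero _ (inv_ne_zero hc)) h
  · refine algHom_eq_of_homog (𝒜 := 𝒜) (f := (MvPolynomial.aeval ![1, 0]).comp ψ') (g := w)
      (fun j r hr => ?_) r |>.symm.trans ?_ |>.symm
    · rw [AlgHom.comp_apply, MvPolynomial.aeval_eq_eval, hψ' j r hr, map_mul, map_pow,
        MvPolynomial.eval_C, h3 j r hr, ← mul_assoc, ← mul_pow, inv_mul_cancel₀ hc, one_pow,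
        one_mul]
    · rfl

theorem hasCurve_infty {w : R →ₐ[k] k} {e : ℕ} (he : e = 1 ∨ e = 2) {Ψ : R →ₐ[k] k[X]}
    (hdeg : ∀ j, ∀ r ∈ 𝒜 j, (Ψ r).natDegree ≤ e * j)
    (hinf : ∃ j > 0, ∃ r ∈ 𝒜 j, (Ψ r).coeff (e * j) ≠ 0)
    (hbpf : ∀ a : k, ∃ j > 0, ∃ r ∈ 𝒜 j, (Ψ r).eval a ≠ 0)
    (c : k) (hc : c ≠ 0) (h3 : ∀ j, ∀ r ∈ 𝒜 j, (Ψ r).coeff (e * j) = c ^ j * w r) :
    HasCurve 𝒜 w := by
  obtain ⟨ψ, h4, h5, h6, -⟩ := curve_of_bpf hdeg hinf hbpf
  exact hasCurve_of_eval he ψ h4 h5 c hc fun j r hr => by rw [h6 j r hr, h3 j r hr]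

theorem hasCurve_zero {w : R →ₐ[k] k} {e : ℕ} (he : e = 1 ∨ e = 2) {Ψ : R →ₐ[k] k[X]}
    (hdeg : ∀ j, ∀ r ∈ 𝒜 j, (Ψ r).natDegree ≤ e * j)
    (hinf : ∃ j > 0, ∃ r ∈ 𝒜 j, (Ψ r).coeff (e * j) ≠ 0)
    (hbpf : ∀ a : k, ∃ j > 0, ∃ r ∈ 𝒜 j, (Ψ r).eval a ≠ 0)
    (c : k) (hc : c ≠ 0) (h3 : ∀ j, ∀ r ∈ 𝒜 j, (Ψ r).eval 0 = c ^ j * w r) :
    HasCurve 𝒜 w := by
  obtain ⟨ψ, h4, h5, -, h6⟩ := curve_of_bpf hdeg hinf hbpf
  refine hasCurve_of_eval he ((MvPolynomial.rename (Equiv.swap (0 : Fin 2) 1)).comp ψ)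
    (fun j r hr => ?_) (fun a ha => ?_) c hc fun j r hr => ?_
  · rw [AlgHom.comp_apply]
    exact (h4 j r hr).rename_isHomogeneous
  · obtain ⟨j, hj, r, hr, h⟩ := h5 (a ∘ Equiv.swap (0 : Fin 2) 1) (by
      intro h0
      apply ha
      funext i
      have := congrFun h0 (Equiv.swap (0 : Fin 2) 1 i)
      simpa using this)
    refine ⟨j, hj, r, hr, ?_⟩
    rw [AlgHom.comp_apply, MvPolynomial.eval_rename]
    exact h
  · rw [AlgHom.comp_apply, MvPolynomial.eval_rename, ← h3 j r hr, ← h6 j r hr]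
    congr 1
    have : (![1, 0] : Fin 2 → k) ∘ Equiv.swap (0 : Fin 2) 1 = ![0, 1] := by
      funext i
      fin_cases i <;> simp
    rw [this]

/-- The ideal generated by the image of the irrelevant ideal. -/
def imI {S : Type w} [CommRing S] [Algebra k S] (𝒜 : ℕ → Submodule k R) (φ : R →ₐ[k] S) :
    Ideal S := Ideal.span {f | ∃ j > 0, ∃ r ∈ 𝒜 j, f = φ r}

theorem imI_map {S : Type*} {S' : Type*} [CommRing S] [Algebra k S] [CommRing S'] [Algebra k S']
    (φ : R →ₐ[k] S) (g : S →ₐ[k] S') {y : S} (hy : y ∈ imI 𝒜 φ) : g y ∈ imI 𝒜 (g.comp φ) := by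
  have h1 : imI 𝒜 φ ≤ (imI 𝒜 (g.comp φ)).comap g := by
    rw [imI, Ideal.span_le]
    rintro _ ⟨j, hj, r, hr, rfl⟩
    exact Ideal.subset_span ⟨j, hj, r, hr, rfl⟩
  exact h1 hy

theorem imI_pure {φ : R →ₐ[k] PowerSeries (PowerSeries k)} {L : ℕ}
    (h : PowerSeries.X ^ L ∈ imI 𝒜 φ) :
    ∃ j > 0, ∃ r ∈ 𝒜 j, PowerSeries.map PowerSeries.constantCoeff (φ r) ≠ 0 := by
  by_contra hcon
  push Not at hcon
  have h1 := imI_map φ (PowerSeries.mapAlgHom (ccA k k)) h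
  have h2 : imI 𝒜 ((PowerSeries.mapAlgHom (ccA k k)).comp φ) ≤ ⊥ := by
    rw [imI, Ideal.span_le]
    rintro _ ⟨j, hj, r, hr, rfl⟩
    exact hcon j hj r hr
  have h3 := h2 h1
  rw [Ideal.mem_bot, map_pow] at h3
  have h4 : PowerSeries.mapAlgHom (ccA k k) (PowerSeries.X : PowerSeries (PowerSeries k)) =
      PowerSeries.X := PowerSeries.map_X _
  rw [h4] at h3
  exact pow_ne_zero _ PowerSeries.X_ne_zero h3

theorem theta_X (α β : ℕ) (hα : α ≠ 0) (hβ : 0 < β) :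
    theta α β hα hβ (PowerSeries.X : PowerSeries (PowerSeries k)) = PowerSeries.X ^ α := by
  ext m q
  rw [coeff_theta, PowerSeries.coeff_X_pow]
  have h1 : col q (PowerSeries.X : PowerSeries (PowerSeries k)) =
      if q = 0 then PowerSeries.X else 0 := by
    ext l
    rw [coeff_col, PowerSeries.coeff_X]
    by_cases hq : q = 0
    · subst hq
      rw [if_pos rfl, PowerSeries.coeff_X]
      split_ifs <;> simp
    · rw [if_neg hq, map_zero]
      split_ifs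
      · rw [PowerSeries.coeff_one, if_neg hq]
      · rw [map_zero]
  rw [scol, h1]
  by_cases hq : q = 0
  · subst hq
    rw [if_pos rfl, mul_zero, pow_zero, one_mul, PowerSeries.expand_X, PowerSeries.coeff_X_pow]
    split_ifs <;> simp
  · rw [if_neg hq, map_zero, mul_zero, map_zero]
    split_ifs
    · rw [coeff_one, if_neg hq]
    · rw [coeff_zero]

variable {φ : R →ₐ[k] PowerSeries (PowerSeries k)} {β : ℕ} {ξ : R →ₐ[k] k} {α' β' : ℕ}
  {hα : α' ≠ 0} {hβ : 0 < β'} {F : R →ₐ[k] PowerSeries k[X]}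

/-- The exponent of `τ` in the ideal. -/
theorem IsStep.imI (hs : IsStep 𝒜 φ β ξ α' β' hα hβ F) {L : ℕ}
    (h : PowerSeries.X ^ L ∈ imI 𝒜 φ) (hβ0 : 0 < β) :
    β' * β ≤ α' * L ∧ PowerSeries.X ^ (α' * L - β' * β) ∈ Mo.imI 𝒜 F := by
  have h1 := imI_map φ (theta α' β' hα hβ) h
  rw [map_pow, theta_X, ← pow_mul] at h1
  have h2 : Mo.imI 𝒜 ((theta α' β' hα hβ).comp φ) ≤
      Ideal.span {PowerSeries.X ^ (β' * β)} * Mo.imI 𝒜 F := by
    rw [Mo.imI, Ideal.span_le]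
    rintro _ ⟨j, hj, r, hr, rfl⟩
    rw [SetLike.mem_coe, Ideal.mem_span_singleton_mul]
    refine ⟨PowerSeries.X ^ (β' * β * (j - 1)) * F r,
      Ideal.mul_mem_left _ _ (Ideal.subset_span ⟨j, hj, r, hr, rfl⟩), ?_⟩
    rw [AlgHom.comp_apply, hs.eq j r hr, ← mul_assoc, ← pow_add]
    congr 2
    obtain ⟨i, rfl⟩ : ∃ i, j = i + 1 := ⟨j - 1, by omega⟩
    rw [Nat.add_sub_cancel]
    ring
  have h3 := h2 h1
  rw [Ideal.mem_span_singleton_mul] at h3
  obtain ⟨y, hy, hy'⟩ := h3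
  by_cases hle : β' * β ≤ α' * L
  · refine ⟨hle, ?_⟩
    have h4 : (PowerSeries.X : PowerSeries k[X]) ^ (α' * L) =
        PowerSeries.X ^ (β' * β) * PowerSeries.X ^ (α' * L - β' * β) := by
      rw [← pow_add]; congr 1; omega
    rw [h4] at hy'
    rw [← mul_left_cancel₀ (pow_ne_zero _ PowerSeries.X_ne_zero) hy']
    exact hy
  · exfalso
    have h4 : (PowerSeries.X : PowerSeries k[X]) ^ (β' * β) =
        PowerSeries.X ^ (α' * L) * PowerSeries.X ^ (β' * β - α' * L) := by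
      rw [← pow_add]; congr 1; omega
    rw [h4, mul_assoc] at hy'
    have h5 : PowerSeries.X ^ (β' * β - α' * L) * y = 1 := by
      apply mul_left_cancel₀ (pow_ne_zero (α' * L) (PowerSeries.X_ne_zero (R := k[X])))
      rw [hy', mul_one]
    have h6 := congrArg PowerSeries.constantCoeff h5
    rw [map_mul, map_pow, PowerSeries.constantCoeff_X, map_one, zero_pow (by omega),
      zero_mul] at h6
    exact zero_ne_one h6

/-- Recentring. -/
noncomputable def recen (a : k) : PowerSeries k[X] →ₐ[k] PowerSeries (PowerSeries k) :=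
  PowerSeries.mapAlgHom (expandAt a)

theorem recen_apply (a : k) (f : PowerSeries k[X]) :
    recen a f = PowerSeries.map (expandAt a : k[X] →+* PowerSeries k) f := rfl

theorem constantCoeff_recen (a : k) (f : PowerSeries k[X]) :
    PowerSeries.constantCoeff (recen a f) = expandAt a (PowerSeries.constantCoeff f) := by
  rw [recen_apply, ← PowerSeries.coeff_zero_eq_constantCoeff_apply, PowerSeries.coeff_map,
    PowerSeries.coeff_zero_eq_constantCoeff_apply]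
  rfl

theorem recen_X (a : k) : recen a (PowerSeries.X : PowerSeries k[X]) = PowerSeries.X := by
  rw [recen_apply]; exact PowerSeries.map_X _

theorem IsStep.imI_recen (hs : IsStep 𝒜 φ β ξ α' β' hα hβ F) {L : ℕ}
    (h : PowerSeries.X ^ L ∈ Mo.imI 𝒜 φ) (hβ0 : 0 < β) (a : k) :
    β' * β ≤ α' * L ∧ PowerSeries.X ^ (α' * L - β' * β) ∈ Mo.imI 𝒜 ((recen a).comp F) := by
  obtain ⟨h1, h2⟩ := hs.imI h hβ0
  refine ⟨h1, ?_⟩
  have h3 := imI_map F (recen a) h2
  rwa [map_pow, recen_X] at h3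

/-- The special fibre of the blow-up. -/
noncomputable def spec (F : R →ₐ[k] PowerSeries k[X]) : R →ₐ[k] k[X] := (ccA k k[X]).comp F

@[simp] theorem spec_apply (F : R →ₐ[k] PowerSeries k[X]) (r : R) :
    spec F r = PowerSeries.constantCoeff (F r) := rfl

/-- Base point removal for a blow-up. -/
theorem IsStep.base (hs : IsStep 𝒜 φ β ξ α' β' hα hβ F) (hLB : IsLB 𝒜)
    (hx : ∀ i, x i ∈ 𝒜 (d i)) (hgen : Algebra.adjoin k (Set.range x) = ⊤)
    (hξ : ∃ j > 0, ∃ r ∈ 𝒜 j, ξ r ≠ 0) :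
    ∃ (b e : ℕ) (h : k[X]) (Ψ' : R →ₐ[k] k[X]), b + e = β ∧ h.Monic ∧ h.natDegree = b ∧
      (∀ j, ∀ r ∈ 𝒜 j, PowerSeries.constantCoeff (F r) = h ^ j * Ψ' r) ∧
      (∀ j, ∀ r ∈ 𝒜 j, (Ψ' r).natDegree ≤ e * j) ∧
      (∀ j, ∀ r ∈ 𝒜 j, (Ψ' r).coeff (e * j) = ξ r) ∧
      ∀ a : k, ∃ j > 0, ∃ r ∈ 𝒜 j, (Ψ' r).eval a ≠ 0 := by
  obtain ⟨b, e, h, Ψ', h1, h2, h3, h4, h5, h6, h7⟩ := base_points hLB hx hgen β (spec F)
    hs.deg (by
      obtain ⟨j, hj, r, hr, h⟩ := hξ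
      exact ⟨j, hj, r, hr, by rwa [spec_apply, hs.lead j r hr]⟩)
  exact ⟨b, e, h, Ψ', h1, h2, h3, h4, h5, fun j r hr => by
    rw [h6 j r hr, spec_apply, hs.lead j r hr], h7⟩

theorem eq_C_of_zero_mul {p : k[X]} {j : ℕ} (h1 : p.natDegree ≤ 0 * j) {c : k}
    (h2 : p.coeff (0 * j) = c) : p = C c := by
  rw [zero_mul] at h1 h2
  rw [← h2]
  exact eq_C_of_natDegree_le_zero h1

/-- There are homogeneous elements of degree prime to the characteristic. -/
theorem exists_degree (hLB : IsLB 𝒜) (hξ : ∃ j > 0, ∃ r ∈ 𝒜 j, ξ r ≠ 0) :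
    ∃ j > 0, ∃ r ∈ 𝒜 j, ξ r ≠ 0 ∧ (j : k) ≠ 0 := by
  by_contra hcon
  push Not at hcon
  have h1 : ringChar k = 1 := by
    refine hLB ξ hξ _ fun j r hr h => ?_
    rcases Nat.eq_zero_or_pos j with h0 | h0
    · rw [h0]; exact dvd_zero _
    · rw [← CharP.cast_eq_zero_iff k (ringChar k)]
      exact hcon j h0 r hr h
  have h2 : (1 : k) = 0 := by
    have := (CharP.cast_eq_zero_iff k (ringChar k) 1).mpr (by rw [h1])
    simpa using this
  exact one_ne_zero h2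

end rec

end Vale.Agent.P292.Mo
end

section

/-! # The bubble lemma. -/

namespace Vale.Agent.P292.Mo

open Polynomial

universe u v w

section bubble

variable {k : Type u} [Field k] {R : Type v} [CommRing R] [Algebra k R] {𝒜 : ℕ → Submodule k R}
  [GradedAlgebra 𝒜] {n : ℕ} {x : Fin n → R} {d : Fin n → ℕ}

theorem expandAt_X_add_C (a c : k) :
    expandAt a (X + C c) = PowerSeries.X + PowerSeries.C (a + c) := by
  rw [expandAt_apply]
  simp [add_assoc]

theorem expandAt_C (a c : k) : expandAt a (C c) = PowerSeries.C c := by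
  rw [expandAt_apply]
  simp

/-- Recentring at a simple root. -/
theorem isOrd_recen_one {F : R →ₐ[k] PowerSeries k[X]} {ξ : R →ₐ[k] k} {c₀ c₁ : k}
    (h : ∀ j, ∀ r ∈ 𝒜 j, PowerSeries.constantCoeff (F r) =
      ((X + C c₀) * (X + C c₁)) ^ j * C (ξ r)) {ξ' : R →ₐ[k] k}
    (hξ' : ∀ j, ∀ r ∈ 𝒜 j, ξ' r = (c₁ - c₀) ^ j * ξ r) :
    IsOrd 𝒜 ((recen (-c₀)).comp F) 1 ξ' := by
  have key : ∀ j, ∀ r ∈ 𝒜 j, PowerSeries.constantCoeff (((recen (-c₀)).comp F) r) =
      PowerSeries.X ^ j * ((PowerSeries.X + PowerSeries.C (c₁ - c₀)) ^ j *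
        PowerSeries.C (ξ r)) := by
    intro j r hr
    rw [AlgHom.comp_apply, constantCoeff_recen, h j r hr, map_mul, map_pow, map_mul,
      expandAt_X_add_C, expandAt_X_add_C, expandAt_C, neg_add_cancel, map_zero, add_zero,
      mul_pow, mul_assoc, neg_add_eq_sub]
  refine ⟨fun j r hr => ?_, fun j r hr => ?_⟩
  · rw [key j r hr, one_mul]
    exact Dvd.intro _ rfl
  · rw [key j r hr, one_mul, PowerSeries.coeff_X_pow_mul', if_pos le_rfl, Nat.sub_self,
      PowerSeries.coeff_zero_eq_constantCoeff, hξ' j r hr]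
    simp

/-- Recentring at a multiple root. -/
theorem isOrd_recen_pow {F : R →ₐ[k] PowerSeries k[X]} {ξ : R →ₐ[k] k} {c₀ : k} {β : ℕ}
    (h : ∀ j, ∀ r ∈ 𝒜 j, PowerSeries.constantCoeff (F r) = (X + C c₀) ^ (β * j) * C (ξ r)) :
    IsOrd 𝒜 ((recen (-c₀)).comp F) β ξ := by
  have key : ∀ j, ∀ r ∈ 𝒜 j, PowerSeries.constantCoeff (((recen (-c₀)).comp F) r) =
      PowerSeries.X ^ (β * j) * PowerSeries.C (ξ r) := by
    intro j r hr
    rw [AlgHom.comp_apply, constantCoeff_recen, h j r hr, map_mul, map_pow,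
      expandAt_X_add_C, expandAt_C, neg_add_cancel, map_zero, add_zero]
  refine ⟨fun j r hr => ?_, fun j r hr => ?_⟩
  · rw [key j r hr]
    exact Dvd.intro _ rfl
  · rw [key j r hr, PowerSeries.coeff_X_pow_mul', if_pos le_rfl, Nat.sub_self,
      PowerSeries.coeff_zero_eq_constantCoeff]
    simp

variable {φ : R →ₐ[k] PowerSeries (PowerSeries k)} {β : ℕ} {ξ : R →ₐ[k] k} {α' β' : ℕ}
  {hα : α' ≠ 0} {hβ : 0 < β'} {F : R →ₐ[k] PowerSeries k[X]}

/-- If the edge is a pure power, its root is not zero and there is no ramification. -/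
theorem IsStep.root (hs : IsStep 𝒜 φ β ξ α' β' hα hβ F) (hLB : IsLB 𝒜) (hβ0 : 0 < β)
    (hβk : (β : k) ≠ 0) (hξ : ∃ j > 0, ∃ r ∈ 𝒜 j, ξ r ≠ 0) {c₀ : k}
    (h : ∀ j, ∀ r ∈ 𝒜 j, PowerSeries.constantCoeff (F r) = (X + C c₀) ^ (β * j) * C (ξ r)) :
    c₀ ≠ 0 ∧ α' = 1 := by
  have hc₀ : c₀ ≠ 0 := by
    rintro rfl
    obtain ⟨j, r, hr, m, hm, hne⟩ := hs.low
    apply hne
    rw [h j r hr, map_zero, add_zero, coeff_mul_C, coeff_X_pow, if_neg (by omega), zero_mul]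
  refine ⟨hc₀, ?_⟩
  obtain ⟨j, hj, r, hr, hne, hjk⟩ := exists_degree hLB hξ
  have hβj : 0 < β * j := Nat.mul_pos hβ0 hj
  have h1 := hs.dvd j r hr (β * j - 1) (by omega) (by
    rw [h j r hr, coeff_mul_C, coeff_X_add_C_pow]
    have h2 : β * j - (β * j - 1) = 1 := by omega
    have h3 : (β * j).choose (β * j - 1) = β * j := by
      rw [Nat.choose_symm_of_eq_add (b := 1) (by omega), Nat.choose_one_right]
    rw [h2, h3, pow_one, Nat.cast_mul]
    exact mul_ne_zero (mul_ne_zero hc₀ (mul_ne_zero hβk hjk)) hne)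
  have h2 : β * j - (β * j - 1) = 1 := by omega
  rw [h2, mul_one] at h1
  exact Nat.Coprime.eq_one_of_dvd hs.coprime h1

theorem sim_coeff {w : R →ₐ[k] k} {e : ℕ} {Ψ' : R →ₐ[k] k[X]}
    (h6 : ∀ j, ∀ r ∈ 𝒜 j, (Ψ' r).coeff (e * j) = ξ r) (hξ : ∃ j > 0, ∃ r ∈ 𝒜 j, ξ r ≠ 0) :
    ∃ j > 0, ∃ r ∈ 𝒜 j, (Ψ' r).coeff (e * j) ≠ 0 := by
  obtain ⟨j, hj, r, hr, h⟩ := hξ
  exact ⟨j, hj, r, hr, by rwa [h6 j r hr]⟩

/-- `β = 1`, proportional values. -/
theorem lemB1 (hLB : IsLB 𝒜) (hx : ∀ i, x i ∈ 𝒜 (d i))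
    (hgen : Algebra.adjoin k (Set.range x) = ⊤) {w : R →ₐ[k] k} (L : ℕ) :
    ∀ (φ : R →ₐ[k] PowerSeries (PowerSeries k)) (ξ : R →ₐ[k] k),
      (∃ j > 0, ∃ r ∈ 𝒜 j, ξ r ≠ 0) → IsOrd 𝒜 φ 1 ξ → PowerSeries.X ^ L ∈ imI 𝒜 φ →
      Sim 𝒜 ξ w → HasCurve 𝒜 w := by
  induction L using Nat.strong_induction_on with
  | _ L ih =>
    intro φ ξ hξ hord hL hsim
    obtain ⟨α', β', hα, hβ, F, hs⟩ := exists_step hx hgen one_pos hord (imI_pure hL)
    obtain ⟨b, e, h, Ψ', hbe, hmon, hdh, h4, h5, h6, h7⟩ := hs.base hLB hx hgen hξ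
    obtain ⟨c, hc, hcsim⟩ := hsim
    rcases Nat.eq_zero_or_pos e with he | he
    · subst he
      have hb : b = 1 := by omega
      subst hb
      have hh := hmon.eq_X_add_C hdh
      set c₀ := h.coeff 0 with hc₀
      have hF : ∀ j, ∀ r ∈ 𝒜 j, PowerSeries.constantCoeff (F r) =
          (X + C c₀) ^ (1 * j) * C (ξ r) := by
        intro j r hr
        rw [h4 j r hr, hh, one_mul, eq_C_of_zero_mul (h5 j r hr) (h6 j r hr)]
      obtain ⟨h8, h9⟩ := hs.root hLB one_pos (by simp) hξ hF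
      subst h9
      obtain ⟨h10, h11⟩ := hs.imI_recen hL one_pos (-c₀)
      exact ih _ (by omega) _ ξ hξ (isOrd_recen_pow hF) h11 ⟨c, hc, hcsim⟩
    · have he1 : e = 1 := by omega
      exact hasCurve_infty (Or.inl he1) h5 (sim_coeff (w := w) h6 hξ) h7 c hc
        fun j r hr => by rw [h6 j r hr, hcsim j r hr]

/-- A monic quadratic polynomial splits. -/
theorem exists_split [IsAlgClosed k] {h : k[X]} (hmon : h.Monic) (hdeg : h.natDegree = 2) :
    ∃ c₀ c₁ : k, h = (X + C c₀) * (X + C c₁) := by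
  obtain ⟨a, ha⟩ := IsAlgClosed.exists_root h (by
    intro h0
    rw [natDegree_eq_of_degree_eq_some (n := 0) h0] at hdeg
    omega)
  obtain ⟨q, hq⟩ := dvd_iff_isRoot.mpr ha
  have hqm : q.Monic := (monic_X_sub_C a).of_mul_monic_left (hq ▸ hmon)
  have hqd : q.natDegree = 1 := by
    have h1 := congrArg natDegree hq
    rw [hdeg, (monic_X_sub_C a).natDegree_mul hqm, natDegree_X_sub_C] at h1
    omega
  refine ⟨-a, q.coeff 0, ?_⟩
  rw [← hqm.eq_X_add_C hqd, map_neg, ← sub_eq_add_neg]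
  exact hq

/-- `β = 2`, proportional values. -/
theorem lemB2 [IsAlgClosed k] (h2k : (2 : k) ≠ 0) (hLB : IsLB 𝒜) (hx : ∀ i, x i ∈ 𝒜 (d i))
    (hgen : Algebra.adjoin k (Set.range x) = ⊤) {w : R →ₐ[k] k} (L : ℕ) :
    ∀ (φ : R →ₐ[k] PowerSeries (PowerSeries k)) (ξ : R →ₐ[k] k),
      (∃ j > 0, ∃ r ∈ 𝒜 j, ξ r ≠ 0) → IsOrd 𝒜 φ 2 ξ → PowerSeries.X ^ L ∈ imI 𝒜 φ →
      Sim 𝒜 ξ w → HasCurve 𝒜 w := by
  induction L using Nat.strong_induction_on with
  | _ L ih =>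
    intro φ ξ hξ hord hL hsim
    obtain ⟨α', β', hα, hβ, F, hs⟩ := exists_step hx hgen two_pos hord (imI_pure hL)
    obtain ⟨b, e, h, Ψ', hbe, hmon, hdh, h4, h5, h6, h7⟩ := hs.base hLB hx hgen hξ
    obtain ⟨c, hc, hcsim⟩ := hsim
    rcases Nat.eq_zero_or_pos e with he | he
    · subst he
      have hb : b = 2 := by omega
      subst hb
      obtain ⟨c₀, c₁, hh⟩ := exists_split hmon hdh
      have hF : ∀ j, ∀ r ∈ 𝒜 j, PowerSeries.constantCoeff (F r) =
          ((X + C c₀) * (X + C c₁)) ^ j * C (ξ r) := by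
        intro j r hr
        rw [h4 j r hr, hh, eq_C_of_zero_mul (h5 j r hr) (h6 j r hr)]
      by_cases hcc : c₀ = c₁
      · subst hcc
        have hF' : ∀ j, ∀ r ∈ 𝒜 j, PowerSeries.constantCoeff (F r) =
            (X + C c₀) ^ (2 * j) * C (ξ r) := by
          intro j r hr
          rw [hF j r hr, pow_mul, sq]
        obtain ⟨h8, h9⟩ := hs.root hLB two_pos (by exact_mod_cast h2k) hξ hF'
        subst h9
        obtain ⟨h10, h11⟩ := hs.imI_recen hL two_pos (-c₀)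
        exact ih _ (by omega) _ ξ hξ (isOrd_recen_pow hF') h11 ⟨c, hc, hcsim⟩
      · obtain ⟨ξ', hξ'⟩ := bubble_twist 𝒜 ξ (c₁ - c₀)
        have hδ : c₁ - c₀ ≠ 0 := sub_ne_zero.mpr (Ne.symm hcc)
        obtain ⟨h10, h11⟩ := hs.imI_recen hL two_pos (-c₀)
        refine lemB1 hLB hx hgen _ _ ξ' ?_ (isOrd_recen_one hF hξ') h11
          ⟨(c₁ - c₀) * c, mul_ne_zero hδ hc, fun j r hr => ?_⟩
        · obtain ⟨j, hj, r, hr, hne⟩ := hξ
          exact ⟨j, hj, r, hr, by rw [hξ' j r hr]; exact mul_ne_zero (pow_ne_zero _ hδ) hne⟩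
        · rw [hξ' j r hr, hcsim j r hr, mul_pow, mul_assoc]
    · exact hasCurve_infty (by omega) h5 (sim_coeff (w := w) h6 hξ) h7 c hc
        fun j r hr => by rw [h6 j r hr, hcsim j r hr]

/-- Evaluation at `Z = 0`. -/
noncomputable def ev0 : PowerSeries k[X] →ₐ[k] PowerSeries k :=
  PowerSeries.mapAlgHom (Polynomial.aeval (0 : k))

theorem coeff_ev0 (m : ℕ) (f : PowerSeries k[X]) :
    PowerSeries.coeff m (ev0 f) = (PowerSeries.coeff m f).coeff 0 := by
  change PowerSeries.coeff m (PowerSeries.map _ f) = _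
  rw [PowerSeries.coeff_map, coeff_zero_eq_aeval_zero]
  rfl

theorem ev0_theta (α β : ℕ) (hα : α ≠ 0) (hβ : 0 < β) (f : PowerSeries (PowerSeries k)) :
    ev0 (theta α β hα hβ f) = PowerSeries.expand α hα (PowerSeries.map
      PowerSeries.constantCoeff f) := by
  have h1 : PowerSeries.map PowerSeries.constantCoeff f = col 0 f := by
    ext l
    rw [coeff_col, PowerSeries.coeff_map, PowerSeries.coeff_zero_eq_constantCoeff]
  ext m
  rw [coeff_ev0, coeff_theta, scol, mul_zero, pow_zero, one_mul, h1]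

theorem ev0_recen (f : PowerSeries k[X]) :
    PowerSeries.map PowerSeries.constantCoeff (recen (0 : k) f) = ev0 f := by
  ext m
  rw [coeff_ev0, PowerSeries.coeff_map, recen_apply, PowerSeries.coeff_map,
    coeff_zero_eq_eval_zero]
  exact constantCoeff_expandAt 0 _

theorem constantCoeff_ev0 (f : PowerSeries k[X]) :
    PowerSeries.constantCoeff (ev0 f) = (PowerSeries.constantCoeff f).eval 0 := by
  rw [← PowerSeries.coeff_zero_eq_constantCoeff_apply, coeff_ev0, coeff_zero_eq_eval_zero,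
    PowerSeries.coeff_zero_eq_constantCoeff_apply]

/-- The value at `z = 0`. -/
def IsMark (𝒜 : ℕ → Submodule k R) (φ : R →ₐ[k] PowerSeries (PowerSeries k)) (μ : ℕ)
    (w : R →ₐ[k] k) : Prop :=
  ∀ j, ∀ r ∈ 𝒜 j, PowerSeries.map PowerSeries.constantCoeff (φ r) =
    PowerSeries.X ^ (μ * j) * PowerSeries.C (w r)

theorem IsStep.mark (hs : IsStep 𝒜 φ β ξ α' β' hα hβ F) {μ : ℕ} {w : R →ₐ[k] k}
    (hmark : IsMark 𝒜 φ μ w) (hw : ∃ j > 0, ∃ r ∈ 𝒜 j, w r ≠ 0) :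
    β' * β ≤ α' * μ ∧ ∀ j, ∀ r ∈ 𝒜 j, ev0 (F r) =
      PowerSeries.X ^ ((α' * μ - β' * β) * j) * PowerSeries.C (w r) := by
  have key : ∀ j, ∀ r ∈ 𝒜 j, PowerSeries.X ^ (β' * β * j) * ev0 (F r) =
      PowerSeries.X ^ (α' * μ * j) * PowerSeries.C (w r) := by
    intro j r hr
    have h1 := congrArg ev0 (hs.eq j r hr)
    have h2 : ev0 (PowerSeries.X : PowerSeries k[X]) = PowerSeries.X := PowerSeries.map_X _
    rw [ev0_theta, hmark j r hr, map_mul, map_mul, map_pow, map_pow, PowerSeries.expand_X,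
      PowerSeries.expand_C, h2, ← pow_mul, ← mul_assoc] at h1
    exact h1.symm
  have hle : β' * β ≤ α' * μ := by
    obtain ⟨j, hj, r, hr, hne⟩ := hw
    by_contra hcon
    have h1 : α' * μ * j < β' * β * j := Nat.mul_lt_mul_of_pos_right (by omega) hj
    have h2 := congrArg (PowerSeries.coeff (α' * μ * j)) (key j r hr)
    rw [PowerSeries.coeff_X_pow_mul', if_neg (by omega), PowerSeries.coeff_X_pow_mul',
      if_pos le_rfl, Nat.sub_self, PowerSeries.coeff_zero_eq_constantCoeff,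
      PowerSeries.constantCoeff_C] at h2
    exact hne h2.symm
  refine ⟨hle, fun j r hr => ?_⟩
  apply mul_left_cancel₀ (pow_ne_zero (β' * β * j) (PowerSeries.X_ne_zero (R := k)))
  rw [key j r hr, ← mul_assoc, ← pow_add, ← add_mul]
  congr 3
  omega

theorem IsStep.eval_pos (hs : IsStep 𝒜 φ β ξ α' β' hα hβ F) {μ : ℕ} {w : R →ₐ[k] k}
    (hmark : IsMark 𝒜 φ μ w) (hw : ∃ j > 0, ∃ r ∈ 𝒜 j, w r ≠ 0) (hlt : β' * β < α' * μ) {j : ℕ}
    (hj : 0 < j) {r : R} (hr : r ∈ 𝒜 j) : (PowerSeries.constantCoeff (F r)).eval 0 = 0 := by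
  rw [← constantCoeff_ev0, (hs.mark hmark hw).2 j r hr, map_mul, map_pow,
    PowerSeries.constantCoeff_X, zero_pow (Nat.mul_pos (by omega) hj).ne', zero_mul]

theorem IsStep.eval_zero (hs : IsStep 𝒜 φ β ξ α' β' hα hβ F) {μ : ℕ} {w : R →ₐ[k] k}
    (hmark : IsMark 𝒜 φ μ w) (hw : ∃ j > 0, ∃ r ∈ 𝒜 j, w r ≠ 0) (hlt : ¬ β' * β < α' * μ) {j : ℕ}
    {r : R} (hr : r ∈ 𝒜 j) : (PowerSeries.constantCoeff (F r)).eval 0 = w r := by
  have h1 : α' * μ - β' * β = 0 := by omega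
  rw [← constantCoeff_ev0, (hs.mark hmark hw).2 j r hr, h1, zero_mul, pow_zero, one_mul,
    PowerSeries.constantCoeff_C]

theorem IsMark.pure {μ : ℕ} {w : R →ₐ[k] k} (hmark : IsMark 𝒜 φ μ w)
    (hw : ∃ j > 0, ∃ r ∈ 𝒜 j, w r ≠ 0) :
    ∃ j > 0, ∃ r ∈ 𝒜 j, PowerSeries.map PowerSeries.constantCoeff (φ r) ≠ 0 := by
  obtain ⟨j, hj, r, hr, hne⟩ := hw
  refine ⟨j, hj, r, hr, ?_⟩
  rw [hmark j r hr]
  refine mul_ne_zero (pow_ne_zero _ PowerSeries.X_ne_zero) fun h => hne ?_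
  have := congrArg PowerSeries.constantCoeff h
  simpa using this

/-- `β = 1` with a mark. -/
theorem lemA1 (hLB : IsLB 𝒜) (hx : ∀ i, x i ∈ 𝒜 (d i))
    (hgen : Algebra.adjoin k (Set.range x) = ⊤) {w : R →ₐ[k] k}
    (hw : ∃ j > 0, ∃ r ∈ 𝒜 j, w r ≠ 0) {φ : R →ₐ[k] PowerSeries (PowerSeries k)}
    {ξ : R →ₐ[k] k} (hξ : ∃ j > 0, ∃ r ∈ 𝒜 j, ξ r ≠ 0) (hord : IsOrd 𝒜 φ 1 ξ) {μ : ℕ}
    (hmark : IsMark 𝒜 φ μ w) : HasCurve 𝒜 w ∨ Sim 𝒜 ξ w := by
  obtain ⟨α', β', hα, hβ, F, hs⟩ := exists_step hx hgen one_pos hord (hmark.pure hw)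
  obtain ⟨b, e, h, Ψ', hbe, hmon, hdh, h4, h5, h6, h7⟩ := hs.base hLB hx hgen hξ
  rcases Nat.eq_zero_or_pos e with he | he
  · right
    subst he
    have hb : b = 1 := by omega
    subst hb
    have hh := hmon.eq_X_add_C hdh
    set c₀ := h.coeff 0 with hc₀
    have hF : ∀ j, ∀ r ∈ 𝒜 j, PowerSeries.constantCoeff (F r) =
        (X + C c₀) ^ (1 * j) * C (ξ r) := by
      intro j r hr
      rw [h4 j r hr, hh, one_mul, eq_C_of_zero_mul (h5 j r hr) (h6 j r hr)]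
    obtain ⟨h8, -⟩ := hs.root hLB one_pos (by simp) hξ hF
    by_cases hlt : β' * 1 < α' * μ
    · exfalso
      obtain ⟨j, hj, r, hr, hne⟩ := hξ
      have h9 := hs.eval_pos hmark hw hlt hj hr
      rw [hF j r hr, eval_mul, eval_pow, eval_add, eval_X, eval_C, eval_C, zero_add] at h9
      exact mul_ne_zero (pow_ne_zero _ h8) hne h9
    · refine ⟨c₀⁻¹, inv_ne_zero h8, fun j r hr => ?_⟩
      have h9 := hs.eval_zero hmark hw hlt hr
      rw [hF j r hr, eval_mul, eval_pow, eval_add, eval_X, eval_C, eval_C, zero_add,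
        one_mul] at h9
      rw [← h9, ← mul_assoc, ← mul_pow, inv_mul_cancel₀ h8, one_pow, one_mul]
  · left
    have he1 : e = 1 := by omega
    have hb : b = 0 := by omega
    have hh : h = 1 := by
      rw [← hmon.natDegree_eq_zero, hdh, hb]
    have hF : ∀ j, ∀ r ∈ 𝒜 j, PowerSeries.constantCoeff (F r) = Ψ' r := by
      intro j r hr
      rw [h4 j r hr, hh, one_pow, one_mul]
    by_cases hlt : β' * 1 < α' * μ
    · exfalso
      obtain ⟨j, hj, r, hr, hne⟩ := h7 0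
      apply hne
      rw [← hF j r hr]
      exact hs.eval_pos hmark hw hlt hj hr
    · exact hasCurve_zero (Or.inl he1) h5 (sim_coeff (w := w) h6 hξ) h7 1 one_ne_zero
        fun j r hr => by
          rw [← hF j r hr, one_pow, one_mul]
          exact hs.eval_zero hmark hw hlt hr

/-- `β = 2` with a mark. -/
theorem lemA2 [IsAlgClosed k] (h2k : (2 : k) ≠ 0) (hLB : IsLB 𝒜) (hx : ∀ i, x i ∈ 𝒜 (d i))
    (hgen : Algebra.adjoin k (Set.range x) = ⊤) {w : R →ₐ[k] k}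
    (hw : ∃ j > 0, ∃ r ∈ 𝒜 j, w r ≠ 0) {φ : R →ₐ[k] PowerSeries (PowerSeries k)}
    {ξ : R →ₐ[k] k} (hξ : ∃ j > 0, ∃ r ∈ 𝒜 j, ξ r ≠ 0) (hord : IsOrd 𝒜 φ 2 ξ) {μ : ℕ}
    (hmark : IsMark 𝒜 φ μ w) : HasCurve 𝒜 w ∨ Sim 𝒜 ξ w := by
  obtain ⟨α', β', hα, hβ, F, hs⟩ := exists_step hx hgen two_pos hord (hmark.pure hw)
  obtain ⟨b, e, h, Ψ', hbe, hmon, hdh, h4, h5, h6, h7⟩ := hs.base hLB hx hgen hξ
  by_cases hlt : β' * 2 < α' * μ
  · -- the origin is a base point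
    have hmark' : IsMark 𝒜 ((recen 0).comp F) (α' * μ - β' * 2) w := by
      intro j r hr
      rw [AlgHom.comp_apply, ev0_recen]
      exact (hs.mark hmark hw).2 j r hr
    have hh0 : h.eval 0 = 0 := by
      by_contra hne
      obtain ⟨j, hj, r, hr, hne'⟩ := h7 0
      have h8 := hs.eval_pos hmark hw hlt hj hr
      rw [h4 j r hr, eval_mul, eval_pow] at h8
      exact mul_ne_zero (pow_ne_zero _ hne) hne' h8
    have hXh : X ∣ h := by
      rw [X_dvd_iff, coeff_zero_eq_eval_zero]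
      exact hh0
    obtain ⟨h₁, hh₁⟩ := hXh
    have hmon₁ : h₁.Monic := monic_X.of_mul_monic_left (hh₁ ▸ hmon)
    have hdh₁ : h₁.natDegree + 1 = b := by
      rw [← hdh, hh₁, monic_X.natDegree_mul hmon₁, natDegree_X, add_comm]
    rcases Nat.eq_zero_or_pos e with he | he
    · subst he
      have hb : b = 2 := by omega
      subst hb
      have hh₁' := hmon₁.eq_X_add_C (by omega)
      set c₁ := h₁.coeff 0 with hc₁
      have hF : ∀ j, ∀ r ∈ 𝒜 j, PowerSeries.constantCoeff (F r) =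
          ((X + C 0) * (X + C c₁)) ^ j * C (ξ r) := by
        intro j r hr
        rw [h4 j r hr, hh₁, hh₁', eq_C_of_zero_mul (h5 j r hr) (h6 j r hr), map_zero, add_zero]
      have hc₁0 : c₁ ≠ 0 := by
        intro h0
        obtain ⟨j, r, hr, m, hm, hne⟩ := hs.low
        apply hne
        rw [hF j r hr, h0, map_zero, add_zero, coeff_mul_C, ← sq, ← pow_mul, coeff_X_pow,
          if_neg (by omega), zero_mul]
      obtain ⟨ξ', hξ'⟩ := bubble_twist 𝒜 ξ (c₁ - 0)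
      have hξ'' : ∀ j, ∀ r ∈ 𝒜 j, ξ' r = c₁ ^ j * ξ r := fun j r hr => by
        rw [hξ' j r hr, sub_zero]
      have hord' : IsOrd 𝒜 ((recen 0).comp F) 1 ξ' := by
        have := isOrd_recen_one hF hξ'
        rwa [neg_zero] at this
      rcases lemA1 hLB hx hgen hw (by
        obtain ⟨j, hj, r, hr, hne⟩ := hξ
        exact ⟨j, hj, r, hr, by
          rw [hξ'' j r hr]; exact mul_ne_zero (pow_ne_zero _ hc₁0) hne⟩) hord' hmark' with h8 | h8
      · exact Or.inl h8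
      · right
        obtain ⟨c, hc, hcs⟩ := h8
        refine ⟨c₁⁻¹ * c, mul_ne_zero (inv_ne_zero hc₁0) hc, fun j r hr => ?_⟩
        rw [mul_pow, mul_assoc, ← hcs j r hr, hξ'' j r hr, ← mul_assoc, ← mul_pow,
          inv_mul_cancel₀ hc₁0, one_pow, one_mul]
    · have he1 : e = 1 := by omega
      have hh₁' : h₁ = 1 := by
        rw [← hmon₁.natDegree_eq_zero]
        omega
      left
      let ξ' : R →ₐ[k] k := (Polynomial.aeval (0 : k)).comp Ψ'
      have hξ' : ∀ r, ξ' r = (Ψ' r).eval 0 := fun r => by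
        change Polynomial.aeval (0 : k) (Ψ' r) = _
        rw [coe_aeval_eq_eval]
      have hord' : IsOrd 𝒜 ((recen 0).comp F) 1 ξ' := by
        have key : ∀ j, ∀ r ∈ 𝒜 j, PowerSeries.constantCoeff (((recen (0 : k)).comp F) r) =
            PowerSeries.X ^ j * expandAt 0 (Ψ' r) := by
          intro j r hr
          have h9 : expandAt (0 : k) (X : k[X]) = PowerSeries.X := by
            have := expandAt_X_add_C (0 : k) 0
            simpa using this
          rw [AlgHom.comp_apply, constantCoeff_recen, h4 j r hr, hh₁, hh₁', mul_one, map_mul,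
            map_pow, h9]
        refine ⟨fun j r hr => ?_, fun j r hr => ?_⟩
        · rw [key j r hr, one_mul]
          exact Dvd.intro _ rfl
        · rw [key j r hr, one_mul, PowerSeries.coeff_X_pow_mul', if_pos le_rfl, Nat.sub_self,
            PowerSeries.coeff_zero_eq_constantCoeff, constantCoeff_expandAt, hξ']
      rcases lemA1 hLB hx hgen hw (by
        obtain ⟨j, hj, r, hr, hne⟩ := h7 0
        exact ⟨j, hj, r, hr, by rwa [hξ']⟩) hord' hmark' with h8 | h8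
      · exact h8
      · obtain ⟨c, hc, hcs⟩ := h8
        exact hasCurve_zero (Or.inl he1) h5 (sim_coeff (w := w) h6 hξ) h7 c hc
          fun j r hr => by rw [← hξ', hcs j r hr]
  · -- the value at the origin is `w`
    have hval : ∀ j, ∀ r ∈ 𝒜 j, (h.eval 0) ^ j * (Ψ' r).eval 0 = w r := by
      intro j r hr
      have h8 := hs.eval_zero hmark hw hlt hr
      rwa [h4 j r hr, eval_mul, eval_pow] at h8
    have hh0 : h.eval 0 ≠ 0 := by
      intro h0
      obtain ⟨j, hj, r, hr, hne⟩ := hw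
      apply hne
      rw [← hval j r hr, h0, zero_pow hj.ne', zero_mul]
    have hval' : ∀ j, ∀ r ∈ 𝒜 j, (Ψ' r).eval 0 = ((h.eval 0)⁻¹) ^ j * w r := by
      intro j r hr
      rw [← hval j r hr, ← mul_assoc, ← mul_pow, inv_mul_cancel₀ hh0, one_pow, one_mul]
    rcases Nat.eq_zero_or_pos e with he | he
    · right
      subst he
      refine ⟨(h.eval 0)⁻¹, inv_ne_zero hh0, fun j r hr => ?_⟩
      rw [← hval' j r hr, eq_C_of_zero_mul (h5 j r hr) (h6 j r hr), eval_C]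
    · left
      exact hasCurve_zero (by omega) h5 (sim_coeff (w := w) h6 hξ) h7 _ (inv_ne_zero hh0) hval'

end bubble

/-- **Bubble lemma.** A family of maps degenerates with a base point of multiplicity at most two
at a marked point with constant value `w`: then there is a curve of degree one or two through
`w`. -/
theorem bubble {k : Type u} [Field k] [IsAlgClosed k] (h2 : (2 : k) ≠ 0) {R : Type v}
    [CommRing R] [Algebra k R] [Algebra.FiniteType k R] (𝒜 : ℕ → Submodule k R)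
    [GradedAlgebra 𝒜]
    (hLB : ∀ q : R →ₐ[k] k, (∃ j > 0, ∃ r ∈ 𝒜 j, q r ≠ 0) →
      ∀ d : ℕ, (∀ j, ∀ r ∈ 𝒜 j, q r ≠ 0 → d ∣ j) → d = 1)
    (φ : R →ₐ[k] PowerSeries (PowerSeries k)) (w : R →ₐ[k] k)
    (hw : ∃ j > 0, ∃ r ∈ 𝒜 j, w r ≠ 0) (μ : ℕ) (hμ : 0 < μ)
    (hmark : ∀ j, ∀ r ∈ 𝒜 j, PowerSeries.map PowerSeries.constantCoeff (φ r) =
      PowerSeries.X ^ (μ * j) * PowerSeries.C (w r))
    (hbpf : ∃ L : ℕ, PowerSeries.X ^ L ∈ Ideal.span {f | ∃ j > 0, ∃ r ∈ 𝒜 j, f = φ r})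
    (hlow : ∃ j > 0, ∃ r ∈ 𝒜 j, ∃ n < 3 * j,
      PowerSeries.coeff n (PowerSeries.constantCoeff (φ r)) ≠ 0) :
    ∃ e : ℕ, (e = 1 ∨ e = 2) ∧ ∃ ψ : R →ₐ[k] MvPolynomial (Fin 2) k,
      (∀ j, ∀ r ∈ 𝒜 j, (ψ r).IsHomogeneous (e * j)) ∧
      (∀ a : Fin 2 → k, a ≠ 0 → ∃ j > 0, ∃ r ∈ 𝒜 j, MvPolynomial.eval a (ψ r) ≠ 0) ∧
      ∀ r, MvPolynomial.eval ![1, 0] (ψ r) = w r := by
  obtain ⟨n, x, d, hx, hgen⟩ := exists_gens 𝒜 (k := k)
  obtain ⟨L, hL⟩ := hbpf
  have hLB' : IsLB 𝒜 := hLB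
  have hmark' : IsMark 𝒜 φ μ w := hmark
  obtain ⟨ν, G, hG, hGne⟩ := lead hLB' hx hgen ((ccA k (PowerSeries k)).comp φ) (by
    obtain ⟨j, hj, r, hr, m, -, hm⟩ := hlow
    refine ⟨j, hj, r, hr, fun h0 => hm ?_⟩
    rw [AlgHom.comp_apply, ccA_apply] at h0
    rw [h0, map_zero])
  have hG' : ∀ j, ∀ r ∈ 𝒜 j, PowerSeries.constantCoeff (φ r) =
      PowerSeries.X ^ (ν * j) * G r := fun j r hr => hG j r hr
  have hν3 : ν < 3 := by
    obtain ⟨j, hj, r, hr, m, hm3, hm⟩ := hlow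
    by_contra hcon
    apply hm
    rw [hG' j r hr, PowerSeries.coeff_X_pow_mul', if_neg]
    have : 3 * j ≤ ν * j := Nat.mul_le_mul_right _ (by omega)
    omega
  have hν0 : ν ≠ 0 := by
    rintro rfl
    obtain ⟨j, hj, r, hr, hne⟩ := hGne
    apply hne
    have h1 := hG' j r hr
    rw [zero_mul, pow_zero, one_mul] at h1
    rw [← h1]
    have h2 := congrArg PowerSeries.constantCoeff (hmark j r hr)
    rw [map_mul, map_pow, PowerSeries.constantCoeff_X, zero_pow (Nat.mul_pos hμ hj).ne',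
      zero_mul, ← PowerSeries.coeff_zero_eq_constantCoeff_apply, PowerSeries.coeff_map,
      PowerSeries.coeff_zero_eq_constantCoeff_apply] at h2
    exact h2
  have hord : IsOrd 𝒜 φ ν ((ccA k k).comp G) := by
    refine ⟨fun j r hr => ?_, fun j r hr => ?_⟩
    · rw [hG' j r hr]
      exact Dvd.intro _ rfl
    · rw [hG' j r hr, PowerSeries.coeff_X_pow_mul', if_pos le_rfl, Nat.sub_self,
        PowerSeries.coeff_zero_eq_constantCoeff]
      rfl
  have hξ : ∃ j > 0, ∃ r ∈ 𝒜 j, ((ccA k k).comp G) r ≠ 0 := hGne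
  have hcases : ν = 1 ∨ ν = 2 := by omega
  have hfinal : HasCurve 𝒜 w := by
    rcases hcases with h1 | h1
    · subst h1
      rcases lemA1 hLB' hx hgen hw hξ hord hmark' with h3 | h3
      · exact h3
      · exact lemB1 hLB' hx hgen L φ _ hξ hord hL h3
    · subst h1
      rcases lemA2 h2 hLB' hx hgen hw hξ hord hmark' with h3 | h3
      · exact h3
      · exact lemB2 h2 hLB' hx hgen L φ _ hξ hord hL h3
  exact hfinal

end Vale.Agent.P292.Mo
end

section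

/-! Block II.c: from a nontrivial family with fixed values at many marks to a curve of degree at
most two through the value at some mark. -/

namespace Vale.Agent.P292.Mo

open TensorProduct
open Sc Fm Ct

universe u v w x

section local_

variable {k : Type u} [Field k] {R : Type v} [CommRing R] [Algebra k R]
  {𝒜 : ℕ → Submodule k R} [GradedAlgebra 𝒜] {K : Type w} [Field K] [Algebra k K]
  {A₀ A₁ : Subalgebra k K} {u : K} {φ : R →ₐ[k] K}

/-- From a Laurent series family (values in the first chart, sections, fixed values at the marks,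
a pole, base point free) to a curve of degree one or two through the value at some mark. -/
theorem hit_of_laurent [IsAlgClosed k] (h2 : (2 : k) ≠ 0) [Algebra.FiniteType k R]
    (hconn : ∀ r ∈ 𝒜 0, ∃ c : k, r = algebraMap k R c)
    (hLB : ∀ y : R →ₐ[k] k, (∃ n : ℕ, 0 < n ∧ ∃ r ∈ 𝒜 n, y r ≠ 0) →
      ∀ d : ℕ, (∀ n, ∀ r ∈ 𝒜 n, y r ≠ 0 → d ∣ n) → d = 1)
    (cd : IsCD A₀ A₁) (hu : u ≠ 0) {ι : Type*} [Fintype ι] (c : ι → (A₀ →ₐ[k] k))
    (hinj : Function.Injective c) (ex : ι → (A₀ →ₐ[k] PowerSeries k))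
    (hexinj : ∀ l, Function.Injective (ex l))
    (hc : ∀ l x, PowerSeries.constantCoeff (ex l x) = c l x)
    (hsurj : ∀ l (n : ℕ) (f : PowerSeries k), ∃ x, (PowerSeries.X : PowerSeries k) ^ n ∣ ex l x - f)
    (hcard : idx A₁ u < 3 * (Fintype.card ι : ℤ)) (w : ι → (R →ₐ[k] k))
    (hw : ∀ l, ∃ n : ℕ, 0 < n ∧ ∃ r ∈ 𝒜 n, w l r ≠ 0)
    (F : R →ₐ[k] LaurentSeries A₀)
    (hsec : ∀ n, ∀ r ∈ 𝒜 n, ∀ i, (((F r).coeff i : A₀) : K) ∈ Sec A₀ A₁ u n)
    (hmark : ∀ l r (i : ℤ), c l ((F r).coeff i) = if i = 0 then w l r else 0)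
    (hpole : ∃ r, F r ∉ Set.range (HahnSeries.ofPowerSeries ℤ A₀))
    (hb : Ideal.span {y | ∃ j : ℕ, 0 < j ∧ ∃ r ∈ 𝒜 j, y = F r} = ⊤) :
    ∃ l, Hit 𝒜 (w l) := by
  classical
  obtain ⟨s, hs, hdeg⟩ := _root_.Vale.Agent.P292.Mo.Fm.exists_generators (k := k) 𝒜 hconn
  obtain ⟨e, he, μ, φ', hμ, hφ', y, hys, n, hn, hyn, hy0⟩ :=
    exists_scaled_of_pole 𝒜 F s hs hdeg hpole
  have hm : ∀ l, ∀ {n : ℕ} {r : R}, r ∈ 𝒜 n → ∀ j : ℕ,
      c l (PowerSeries.coeff j (φ' r)) = if j = μ * n then w l r else 0 :=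
    fun l _ _ hr j => mark_scaled 𝒜 hφ' (c l) (w l) (hmark l) hr j
  -- the reduction
  let Ψ : R →ₐ[k] A₀ :=
    { (PowerSeries.constantCoeff (R := A₀)).comp φ'.toRingHom with
      commutes' := fun a => by
        change PowerSeries.constantCoeff (φ' (algebraMap k R a)) = _
        rw [AlgHom.commutes, PowerSeries.algebraMap_apply, PowerSeries.constantCoeff_C] }
  have hΨ : ∀ r, Ψ r = PowerSeries.constantCoeff (φ' r) := fun r => rfl
  have hΨ0 : ∀ l, ∀ n, 0 < n → ∀ r ∈ 𝒜 n, c l (Ψ r) = 0 := by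
    intro l n hn r hr
    have h1 := hm l hr 0
    rw [PowerSeries.coeff_zero_eq_constantCoeff_apply, if_neg (by positivity)] at h1
    exact h1
  -- orders at the marks
  have hord : ∀ l, ∃ (β : ℕ) (x : R →ₐ[k] k), 0 < β ∧
      (∀ n, ∀ r ∈ 𝒜 n, (PowerSeries.X : PowerSeries k) ^ (β * n) ∣ ((ex l).comp Ψ) r) ∧
      (∀ n, ∀ r ∈ 𝒜 n, x r = PowerSeries.coeff (β * n) (((ex l).comp Ψ) r)) ∧
      ∃ r ∈ s, ∃ n, 0 < n ∧ r ∈ 𝒜 n ∧ x r ≠ 0 := by
    intro l
    refine exists_order 𝒜 s hs hdeg hLB ((ex l).comp Ψ) ⟨y, hys, fun h => hy0 ?_⟩ ?_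
    · exact hexinj l (by rw [map_zero]; exact h)
    · intro n hn r hr
      change PowerSeries.constantCoeff (ex l (Ψ r)) = 0
      rw [hc, hΨ0 l n hn r hr]
  choose β x hβ0 hβd hβc hβx using hord
  -- the count
  have hsecΨ : ((Ψ y : A₀) : K) ∈ Sec A₀ A₁ u n := by
    rw [hΨ, ← PowerSeries.coeff_zero_eq_constantCoeff_apply, coeff_scaled 𝒜 hφ' hyn]
    by_cases hdv : (e : ℤ) ∣ (((0 : ℕ) : ℤ) - μ * n : ℤ)
    · obtain ⟨i, hi⟩ := hdv
      rw [hi, expand_coeff_mul]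
      exact hsec n y hyn i
    · rw [expand_coeff_of_not_dvd _ _ _ _ hdv]
      exact zero_mem _
  have hcount := sum_order_le cd hu hsecΨ (fun h => hy0 (Subtype.ext h)) c hinj ex hc hsurj
    (fun l => β l * n) (fun l => hβd l n y hyn)
  rw [← Finset.sum_mul] at hcount
  have hsum : ((∑ l, β l : ℕ) : ℤ) ≤ idx A₁ u := by
    have hn' : (0 : ℤ) < n := by exact_mod_cast hn
    have h1 : (((∑ l, β l) * n : ℕ) : ℤ) = n * ((∑ l, β l : ℕ) : ℤ) := by push_cast; ring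
    rw [h1] at hcount
    exact le_of_mul_le_mul_left hcount hn'
  have hsmall : ∃ l, β l ≤ 2 := by
    by_contra hcon
    push Not at hcon
    have h1 : ∑ _l : ι, 3 ≤ ∑ l, β l := Finset.sum_le_sum fun l _ => hcon l
    rw [Finset.sum_const, Finset.card_univ, smul_eq_mul] at h1
    have h2 : (Fintype.card ι : ℤ) * 3 ≤ ((∑ l, β l : ℕ) : ℤ) := by exact_mod_cast h1
    linarith
  obtain ⟨l, hl⟩ := hsmall
  refine ⟨l, ?_⟩
  -- the local family
  have hloc : ∀ r, PowerSeries.mapAlgHom (ex l) (φ' r) = PowerSeries.map (ex l : A₀ →+* _) (φ' r) :=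
    fun r => rfl
  refine bubble h2 𝒜 hLB ((PowerSeries.mapAlgHom (ex l)).comp φ') (w l) (hw l) μ hμ ?_ ?_ ?_
  · intro j r hr
    ext i
    rw [AlgHom.comp_apply, hloc, PowerSeries.coeff_map, PowerSeries.coeff_map]
    change PowerSeries.constantCoeff (ex l (PowerSeries.coeff i (φ' r))) = _
    rw [hc, hm l hr i, PowerSeries.coeff_mul_C, PowerSeries.coeff_X_pow]
    by_cases hi : i = μ * j
    · rw [if_pos hi, if_pos hi, one_mul]
    · rw [if_neg hi, if_neg hi, zero_mul]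
  · obtain ⟨L, hL⟩ := exists_pow_mem 𝒜 hφ' hb
    refine ⟨L, ?_⟩
    have h1 := Ideal.mem_map_of_mem (PowerSeries.map (ex l : A₀ →+* PowerSeries k)) hL
    rw [Ideal.map_span, map_pow, PowerSeries.map_X] at h1
    refine Ideal.span_mono ?_ h1
    rintro _ ⟨_, ⟨j, hj, r, hr, rfl⟩, rfl⟩
    exact ⟨j, hj, r, hr, rfl⟩
  · obtain ⟨r, _, j, hj, hr, hr0⟩ := hβx l
    refine ⟨j, hj, r, hr, β l * j, ?_, ?_⟩
    · exact Nat.mul_lt_mul_of_pos_right (by omega) hj
    · rw [AlgHom.comp_apply, hloc, ← PowerSeries.coeff_zero_eq_constantCoeff_apply,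
        PowerSeries.coeff_map]
      change PowerSeries.coeff (β l * j) (ex l (PowerSeries.coeff 0 (φ' r))) ≠ 0
      rw [PowerSeries.coeff_zero_eq_constantCoeff_apply]
      rw [hβc l j r hr] at hr0
      exact hr0

end local_

section family

variable {k : Type u} [Field k] {R : Type v} [CommRing R] [Algebra k R]
  {𝒜 : ℕ → Submodule k R} [GradedAlgebra 𝒜] {K : Type w} [Field K] [Algebra k K]
  {A₀ A₁ : Subalgebra k K} {u : K} {φ : R →ₐ[k] K} {D : Type x} [CommRing D] [Algebra k D]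

omit [GradedAlgebra 𝒜] in
lemma evT_incB (e : D →ₐ[k] k) (S : Subalgebra k K) (y : D ⊗[k] S) :
    evT e K (incB D S y) = ((evT e S y : S) : K) := by
  induction y using TensorProduct.induction_on with
  | zero => simp
  | tmul d b =>
    rw [incB_tmul, evT_tmul, evT_tmul]
    rfl
  | add x y hx hy => rw [map_add, map_add, map_add, hx, hy]; rfl

/-- a homomorphism with homogeneous values in a subalgebra -/
lemma hit_mem_subB (Ψ : R →ₐ[k] D ⊗[k] K) (S : Subalgebra k K)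
    (h : ∀ n, ∀ r ∈ 𝒜 n, Ψ r ∈ InB D (Subalgebra.toSubmodule S)) (r : R) : Ψ r ∈ subB D S := by
  classical
  rw [← DirectSum.sum_support_decompose 𝒜 r, map_sum]
  refine Subalgebra.sum_mem _ fun n _ => ?_
  rw [mem_subB]
  exact h n _ (DirectSum.decompose 𝒜 r n).2

/-- **Block II.c.** From a nontrivial family with fixed values at the marks to a curve of degree at
most two through the value at some mark. -/
theorem hit_of_data [IsAlgClosed k] (h2 : (2 : k) ≠ 0) [Algebra.FiniteType k R]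
    (hconn : ∀ r ∈ 𝒜 0, ∃ c : k, r = algebraMap k R c)
    (hLB : ∀ y : R →ₐ[k] k, (∃ n : ℕ, 0 < n ∧ ∃ r ∈ 𝒜 n, y r ≠ 0) →
      ∀ d : ℕ, (∀ n, ∀ r ∈ 𝒜 n, y r ≠ 0 → d ∣ n) → d = 1)
    (cd : IsCD A₀ A₁) (mp : IsMp 𝒜 A₀ A₁ u φ) [IsFractionRing A₀ K]
    (P1 : ∀ V : ValuationSubring K, (∀ c : k, algebraMap k K c ∈ V) →
      (∀ a ∈ A₀, a ∈ V) ∨ (∀ a ∈ A₁, a ∈ V))
    (P2 : ∀ 𝔭 : Ideal A₀, 𝔭.IsPrime → 𝔭 ≠ ⊥ → Function.Surjective (algebraMap k (A₀ ⧸ 𝔭)))
    {ι : Type*} [Fintype ι] (c : ι → (A₀ →ₐ[k] k))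
    (hinj : Function.Injective c) (ex : ι → (A₀ →ₐ[k] PowerSeries k))
    (hexinj : ∀ l, Function.Injective (ex l))
    (hc : ∀ l x, PowerSeries.constantCoeff (ex l x) = c l x)
    (hsurj : ∀ l (n : ℕ) (f : PowerSeries k), ∃ x, (PowerSeries.X : PowerSeries k) ^ n ∣ ex l x - f)
    (hcard : idx A₁ u < 3 * (Fintype.card ι : ℤ)) (w : ι → (R →ₐ[k] k))
    (hw : ∀ l r, ∃ h : φ r ∈ A₀, w l r = c l ⟨φ r, h⟩)
    (I : Submodule k K) (hI : ∀ a ∈ I, ∃ h : a ∈ A₀, ∀ l, c l ⟨a, h⟩ = 0)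
    [Algebra.FiniteType k D] (e : D →ₐ[k] k)
    (hart : ∀ (m : Ideal D) [m.IsMaximal], m = RingHom.ker e →
      ¬ IsArtinianRing (Localization.AtPrime m))
    (Ψ : R →ₐ[k] D ⊗[k] K) (hsec : ∀ n, ∀ r ∈ 𝒜 n, Ψ r ∈ InB D (Sec A₀ A₁ u n))
    (hmark : ∀ r, Ψ r - 1 ⊗ₜ φ r ∈ InB D I) (he : ∀ r, evT e K (Ψ r) = φ r)
    (hD : Algebra.adjoin k {d : D | ∃ r, ∃ l : K →ₗ[k] k, lamB D l (Ψ r) = d} = ⊤) :
    ∃ l, Hit 𝒜 (w l) := by
  classical
  -- the family on the first chart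
  have hsec0 : ∀ n, ∀ r ∈ 𝒜 n, Ψ r ∈ InB D (Subalgebra.toSubmodule A₀) := fun n r hr =>
    InB_mono D (fun a ha => (mem_Sec.mp ha).1) (hsec n r hr)
  obtain ⟨Ψ0, hΨ0⟩ := exists_factor Ψ (hit_mem_subB Ψ A₀ hsec0)
  -- the family on the second chart
  let Ψu : R →ₐ[k] D ⊗[k] K := Sc.twist 𝒜 Ψ (1 ⊗ₜ u)
  have hΨu : ∀ n, ∀ r ∈ 𝒜 n, Ψu r = (1 ⊗ₜ (u ^ n)) * Ψ r := by
    intro n r hr
    change Sc.twist 𝒜 Ψ (1 ⊗ₜ u) r = _
    rw [Sc.twist_apply 𝒜 Ψ _ hr, Algebra.TensorProduct.tmul_pow, one_pow]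
  have hsec1 : ∀ n, ∀ r ∈ 𝒜 n, Ψu r ∈ InB D (Subalgebra.toSubmodule A₁) := by
    intro n r hr
    rw [hΨu n r hr]
    refine InB_induction D
      (p := fun y => (1 ⊗ₜ (u ^ n)) * y ∈ InB D (Subalgebra.toSubmodule A₁)) ?_ ?_ ?_ (hsec n r hr)
    · rw [mul_zero]; exact zero_mem _
    · intro b v hv
      rw [Algebra.TensorProduct.tmul_mul_tmul]
      exact tmul_mem_InB D _ (mem_Sec.mp hv).2
    · intro x y hx hy
      rw [mul_add]; exact add_mem hx hy
  obtain ⟨Ψ1, hΨ1⟩ := exists_factor Ψu (hit_mem_subB Ψu A₁ hsec1)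
  -- base point freeness certificate
  let a₀ : Ideal (D ⊗[k] A₀) := Ideal.span {y | ∃ j : ℕ, 0 < j ∧ ∃ r ∈ 𝒜 j, y = Ψ0 r}
  let a₁ : Ideal (D ⊗[k] A₁) := Ideal.span {y | ∃ j : ℕ, 0 < j ∧ ∃ r ∈ 𝒜 j, y = Ψ1 r}
  have h01 : a₁.map (Algebra.TensorProduct.map (AlgHom.id k D) A₁.val) ≤
      a₀.map (Algebra.TensorProduct.map (AlgHom.id k D) A₀.val) := by
    rw [Ideal.map_span, Ideal.span_le]
    rintro _ ⟨_, ⟨j, hj, r, hr, rfl⟩, rfl⟩
    have h1 : (Algebra.TensorProduct.map (AlgHom.id k D) A₁.val) (Ψ1 r) =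
        (1 ⊗ₜ (u ^ j)) * (Algebra.TensorProduct.map (AlgHom.id k D) A₀.val) (Ψ0 r) := by
      have h2 : incB D A₁ (Ψ1 r) = (1 ⊗ₜ (u ^ j)) * incB D A₀ (Ψ0 r) := by
        rw [hΨ1, hΨ0, hΨu j r hr]
      exact h2
    rw [SetLike.mem_coe, h1]
    exact Ideal.mul_mem_left _ _ (Ideal.mem_map_of_mem _ (Ideal.subset_span ⟨j, hj, r, hr, rfl⟩))
  have he0 : a₀.map (evT e A₀) = ⊤ := by
    obtain ⟨n, hn, r, hr, hr0, hrA⟩ := mp.unit0
    refine Ideal.eq_top_of_isUnit_mem _ (Ideal.mem_map_of_mem _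
      (Ideal.subset_span ⟨n, hn, r, hr, rfl⟩ : Ψ0 r ∈ a₀)) ?_
    refine IsUnit.of_mul_eq_one ⟨(φ r)⁻¹, hrA⟩ (Subtype.ext ?_)
    change ((evT e A₀ (Ψ0 r) : A₀) : K) * (φ r)⁻¹ = 1
    rw [← evT_incB, hΨ0, he, mul_inv_cancel₀ hr0]
  have he1 : a₁.map (evT e A₁) = ⊤ := by
    obtain ⟨n, hn, r, hr, hr0, hrA⟩ := mp.unit1
    refine Ideal.eq_top_of_isUnit_mem _ (Ideal.mem_map_of_mem _
      (Ideal.subset_span ⟨n, hn, r, hr, rfl⟩ : Ψ1 r ∈ a₁)) ?_
    refine IsUnit.of_mul_eq_one ⟨(u ^ n * φ r)⁻¹, hrA⟩ (Subtype.ext ?_)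
    change ((evT e A₁ (Ψ1 r) : A₁) : K) * (u ^ n * φ r)⁻¹ = 1
    rw [← evT_incB, hΨ1, hΨu n r hr, map_mul, evT_tmul, he, map_one, map_one, one_mul,
      mul_inv_cancel₀ (mul_ne_zero (pow_ne_zero _ mp.u_ne) hr0)]
  have P2' : ∀ p : Ideal A₀, p.IsPrime → p ≠ ⊥ →
      ∀ a : A₀, ∃ c : k, a - algebraMap k A₀ c ∈ p := by
    intro p hp hp0 a
    obtain ⟨c, hc⟩ := P2 p hp hp0 (Ideal.Quotient.mk p a)
    refine ⟨c, ?_⟩
    rw [← Ideal.Quotient.eq_zero_iff_mem, map_sub, ← hc]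
    exact sub_self _
  obtain ⟨h, heh, hmem⟩ := exists_bpf_cert A₀ A₁ P1 P2' e a₀ a₁ h01 he0 he1
  -- the Laurent family
  have hsurj_e : Function.Surjective e := fun a => ⟨algebraMap k D a, by
    rw [AlgHom.commutes]; rfl⟩
  have hmax : (RingHom.ker e).IsMaximal := RingHom.ker_isMaximal_of_surjective e hsurj_e
  obtain ⟨f, hfh, hfa⟩ := exists_pole (k := k) (RingHom.ker e) (hart _ rfl) h heh
  let F : R →ₐ[k] LaurentSeries A₀ := (Lam f A₀).comp Ψ0
  have hF : ∀ r i, (((F r).coeff i : A₀) : K) = (Lam f K (Ψ r)).coeff i := by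
    intro r i
    rw [← hΨ0, Lam_incB]
    rfl
  have hwφ : ∀ l r (h : φ r ∈ A₀), w l r = c l ⟨φ r, h⟩ := by
    intro l r h
    obtain ⟨h', h''⟩ := hw l r
    exact h''
  refine hit_of_laurent h2 hconn hLB cd mp.u_ne c hinj ex hexinj hc hsurj hcard w ?_ F ?_ ?_ ?_ ?_
  · intro l
    obtain ⟨n, hn, r, hr, hr0, hrA⟩ := mp.unit0
    have hrA0 : φ r ∈ A₀ := (mem_Sec.mp (mp.sec n r hr)).1
    refine ⟨n, hn, r, hr, ?_⟩
    rw [hwφ l r hrA0]
    intro h0
    have h1 : (⟨φ r, hrA0⟩ : A₀) * ⟨(φ r)⁻¹, hrA⟩ = 1 := Subtype.ext (mul_inv_cancel₀ hr0)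
    have h2 := congrArg (c l) h1
    rw [map_mul, h0, zero_mul, map_one] at h2
    exact zero_ne_one h2
  · intro n r hr i
    rw [hF]
    exact Lam_coeff_mem f (hsec n r hr) i
  · intro l r i
    have h1 := Lam_coeff_mem f (hmark r) i
    rw [map_sub, HahnSeries.coeff_sub, ← hF, Lam_coeff_tmul, map_one] at h1
    obtain ⟨h3, h4⟩ := hI _ h1
    obtain ⟨hrA0, hwr⟩ := hw l r
    have h5 : (⟨(((F r).coeff i : A₀) : K) - (1 : LaurentSeries k).coeff i • φ r, h3⟩ : A₀) =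
        (F r).coeff i - (1 : LaurentSeries k).coeff i • (⟨φ r, hrA0⟩ : A₀) := rfl
    have h6 := h4 l
    rw [h5, map_sub, map_smul, ← hwr, sub_eq_zero] at h6
    rw [h6]
    by_cases hi : i = 0
    · rw [if_pos hi, hi, HahnSeries.coeff_one, if_pos rfl, one_smul]
    · rw [if_neg hi, HahnSeries.coeff_one, if_neg hi, zero_smul]
  · obtain ⟨r, i, hi, hri⟩ := exists_pole_family f Ψ hD hfa
    refine ⟨r, fun hr => hri ?_⟩
    rw [mem_range_ofPowerSeries] at hr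
    rw [← hF, hr i hi]
    rfl
  · have h1 : Lam f A₀ (h ⊗ₜ 1) ∈ a₀.map (Lam f A₀) := Ideal.mem_map_of_mem _ hmem
    have h3 : IsUnit (Lam f A₀ (h ⊗ₜ 1)) := by
      rw [Lam_tmul, map_one, mul_one]
      exact (IsUnit.mk0 (f h) hfh).map (mapL k A₀)
    have h4 := Ideal.eq_top_of_isUnit_mem _ h1 h3
    rw [← h4, Ideal.map_span]
    congr 1
    ext y
    constructor
    · rintro ⟨j, hj, r, hr, rfl⟩
      exact ⟨_, ⟨j, hj, r, hr, rfl⟩, rfl⟩
    · rintro ⟨_, ⟨j, hj, r, hr, rfl⟩, rfl⟩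
      exact ⟨j, hj, r, hr, rfl⟩

end family

end Vale.Agent.P292.Mo
end

section

/-! Block II.c: the final form of the bubble step for the curves of `IsGC`. -/

namespace Vale.Agent.P292.Mo

open TensorProduct

universe u v w

/-- The output of the deformation lemma (block II.a). -/
def FamOut {k : Type u} [Field k] {R : Type v} [CommRing R] [Algebra k R]
    (𝒜 : ℕ → Submodule k R) {K : Type w} [Field K] [Algebra k K]
    (A₀ A₁ : Subalgebra k K) (u : K) (φ : R →ₐ[k] K) (I : Submodule k K) : Prop :=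
  ∃ (D : Type u) (_ : CommRing D) (_ : Algebra k D) (_ : Algebra.FiniteType k D) (e : D →ₐ[k] k)
    (Ψ : R →ₐ[k] D ⊗[k] K),
    (∀ (m : Ideal D) [m.IsMaximal], m = RingHom.ker e →
      ¬ IsArtinianRing (Localization.AtPrime m)) ∧
    (∀ n, ∀ r ∈ 𝒜 n, Ψ r ∈ InB D (Sec A₀ A₁ u n)) ∧
    (∀ r, Ψ r - 1 ⊗ₜ φ r ∈ InB D I) ∧
    (∀ r, ∀ l : K →ₗ[k] k, e (lamB D l (Ψ r)) = l (φ r)) ∧
    Algebra.adjoin k {d : D | ∃ r, ∃ l : K →ₗ[k] k, lamB D l (Ψ r) = d} = ⊤

section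

variable {k : Type u} [Field k] {R : Type v} [CommRing R] [Algebra k R]
  {𝒜 : ℕ → Submodule k R} [GradedAlgebra 𝒜] {P : R →ₗ[k] R →ₗ[k] R} {K : Type w} [Field K]
  [Algebra k K] {A₀ A₁ : Subalgebra k K} {u : K} {φ : R →ₐ[k] K} {f : R}

lemma hitgc_evT {D : Type*} [CommRing D] [Algebra k D] (e : D →ₐ[k] k) (l : K →ₗ[k] k)
    (y : D ⊗[k] K) : l (evT e K y) = e (lamB D l y) := by
  induction y using TensorProduct.induction_on with
  | zero => simp
  | tmul d b =>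
    rw [evT_tmul, lamB_tmul, map_smul, ← Algebra.smul_def, map_smul, smul_eq_mul, smul_eq_mul,
      mul_comm]
  | add x y hx hy => rw [map_add, map_add, map_add, map_add, hx, hy]

lemma hitgc_sep {x y : K} (h : ∀ l : K →ₗ[k] k, l x = l y) : x = y := by
  rw [← sub_eq_zero, ← Module.forall_dual_apply_eq_zero_iff k]
  intro l
  rw [map_sub, sub_eq_zero]
  exact h l

lemma hitgc_frac (h : ∀ x : K, ∃ a ∈ A₀, ∃ b ∈ A₀, b ≠ 0 ∧ x = a / b) : IsFractionRing A₀ K := by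
  refine IsFractionRing.of_field A₀ K fun x => ?_
  obtain ⟨a, ha, b, hb, hb0, hx⟩ := h x
  exact ⟨⟨a, ha⟩, ⟨b, hb⟩, hx⟩

theorem hit_of_famOut [IsAlgClosed k] (h2 : (2 : k) ≠ 0) (hP : IsPM 𝒜 P)
    (h : IsGC 𝒜 P A₀ A₁ u φ f) {ι : Type} [Fintype ι] (c : ι → (A₀ →ₐ[k] k))
    (hc : Function.Injective c) (I : Submodule k K)
    (hI : ∀ a, a ∈ I ↔ ∃ h : a ∈ A₀, ∀ l, c l ⟨a, h⟩ = 0)
    (hcard : idx A₁ u < 3 * (Fintype.card ι : ℤ)) (hfam : FamOut 𝒜 A₀ A₁ u φ I) :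
    ∃ l, ∃ w : R →ₐ[k] k, (∀ r, ∃ h : φ r ∈ A₀, w r = c l ⟨φ r, h⟩) ∧ Hit 𝒜 w := by
  classical
  have hft := hP.finiteType
  obtain ⟨D, _, _, _, e, Ψ, hart, hsec, hmark, he, hD⟩ := hfam
  have hfrac : IsFractionRing A₀ K := hitgc_frac h.frac0
  have hφ : ∀ r, φ r ∈ A₀ := by
    intro r
    rw [← DirectSum.sum_support_decompose 𝒜 r, map_sum]
    exact Subalgebra.sum_mem _ fun n _ =>
      (mem_Sec.mp (h.mp.sec n _ (DirectSum.decompose 𝒜 r n).2)).1
  choose ex hex1 hex2 hex3 using fun l => h.exp (c l)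
  let w : ι → (R →ₐ[k] k) := fun l => (c l).comp (φ.codRestrict A₀ hφ)
  have hw : ∀ l r, ∃ h : φ r ∈ A₀, w l r = c l ⟨φ r, h⟩ := fun l r => ⟨hφ r, rfl⟩
  obtain ⟨l, hl⟩ := hit_of_data h2 hP.connected hP.lineBundle h.cd h.mp h.P1 h.P2 c hc ex hex1
    hex2 hex3 hcard w hw I (fun a ha => (hI a).mp ha) e hart Ψ hsec hmark
    (fun r => hitgc_sep fun l => by rw [hitgc_evT, he]) hD
  exact ⟨l, w l, hw l, hl⟩

end

end Vale.Agent.P292.Mo
end

section

/-! # Part II.f, block F3c: every place is on one of the charts -/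

namespace Vale.Agent.P292.Mo

universe u v w

variable {k : Type u} [Field k] {K : Type w} [Field K] [Algebra k K]

theorem plc_mem (V : ValuationSubring K) {B : Subalgebra k K} (hB : ∀ b ∈ B, b ∈ V) {a : K}
    (ha : a ∈ IC B) : a ∈ V := by
  have h : IsIntegral B a := mem_IC.1 ha
  have h2 : IsIntegral V a := by
    obtain ⟨q, hq, he⟩ := h
    let f : B →+* V := (algebraMap B K).codRestrict V.toSubring (fun b => hB b b.2)
    refine ⟨q.map f, hq.map _, ?_⟩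
    rw [Polynomial.eval₂_map]
    exact he
  obtain ⟨v, hv⟩ := (IsIntegrallyClosed.isIntegral_iff (R := V) (K := K)).1 h2
  rw [← hv]
  exact v.2

theorem plc_poly (V : ValuationSubring K) (hV : ∀ c : k, algebraMap k K c ∈ V) {s : K}
    (hs : s ∈ V) (q : Polynomial k) : Polynomial.aeval s q ∈ V := by
  rw [Polynomial.aeval_eq_sum_range]
  refine V.toSubring.sum_mem fun i _ => ?_
  rw [Algebra.smul_def]
  exact V.toSubring.mul_mem (hV _) (V.toSubring.pow_mem hs i)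

theorem plc_lt {V : ValuationSubring K} {x : K} (hx : x⁻¹ ∉ V) : V.valuation x < 1 := by
  rw [← V.valuation_le_one_iff, not_le, map_inv₀] at hx
  by_contra h
  rw [not_lt] at h
  exact absurd (inv_le_one_of_one_le₀ h) (not_le.2 hx)

theorem place_IC [IsAlgClosed k] {t : K} (ht : Transcendental k t) {g : Polynomial k} (hg : g ≠ 0)
    (V : ValuationSubring K) (hV : ∀ c : k, algebraMap k K c ∈ V) :
    (∀ a ∈ IC (B0 t g), a ∈ V) ∨ (∀ a ∈ IC (B1 t g), a ∈ V) := by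
  by_cases h1 : t ∈ V
  · by_cases h2 : (Polynomial.aeval t g)⁻¹ ∈ V
    · left
      refine fun a ha => plc_mem V (fun b hb => ?_) ha
      refine Algebra.adjoin_induction (p := fun b _ => b ∈ V) ?_ hV
        (fun _ _ _ _ h h' => V.toSubring.add_mem h h')
        (fun _ _ _ _ h h' => V.toSubring.mul_mem h h') hb
      rintro x (rfl | hx)
      · exact h1
      · rw [Set.mem_singleton_iff.1 hx]
        exact h2
    · right
      refine fun a ha => plc_mem V (fun x hx => ?_) ha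
      obtain ⟨a, b, hb, ⟨u, v, huv⟩, -, rfl⟩ := hx
      rw [div_eq_mul_inv]
      refine V.toSubring.mul_mem (plc_poly V hV h1 a) ?_
      by_contra h3
      have h4 := plc_lt h2
      have h5 := plc_lt h3
      have h6 : Polynomial.aeval t u * Polynomial.aeval t b +
          Polynomial.aeval t v * Polynomial.aeval t g = (1 : K) := by
        rw [← map_mul, ← map_mul, ← map_add, huv, map_one]
      have h7 : V.valuation (1 : K) < 1 := by
        rw [← h6]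
        refine Valuation.map_add_lt _ ?_ ?_
        · rw [map_mul]
          exact lt_of_le_of_lt (mul_le_of_le_one_left'
            ((V.valuation_le_one_iff _).2 (plc_poly V hV h1 u))) h5
        · rw [map_mul]
          exact lt_of_le_of_lt (mul_le_of_le_one_left'
            ((V.valuation_le_one_iff _).2 (plc_poly V hV h1 v))) h4
      rw [map_one] at h7
      exact lt_irrefl _ h7
  · right
    have ht0 : t ≠ 0 := by
      rintro rfl
      exact h1 V.toSubring.zero_mem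
    have hs : t⁻¹ ∈ V := (V.mem_or_inv_mem t).resolve_left h1
    have hs1 : V.valuation t⁻¹ < 1 := plc_lt (by rwa [inv_inv])
    refine fun a ha => plc_mem V (fun x hx => ?_) ha
    obtain ⟨a, b, hb, -, hd, rfl⟩ := hx
    have hb0 : b ≠ 0 := fun h => hb (by rw [h, map_zero])
    have key : ∀ q : Polynomial k, Polynomial.aeval t q =
        Polynomial.aeval t⁻¹ q.reverse * t ^ q.natDegree := by
      intro q
      let _ := invertibleOfNonzero ht0
      have h := Polynomial.eval₂_reverse_mul_pow (algebraMap k K) t q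
      rw [invOf_eq_inv] at h
      exact h.symm
    have hv : V.valuation (Polynomial.aeval t⁻¹ b.reverse) = 1 := by
      have h2 : Polynomial.aeval t⁻¹ b.reverse =
          algebraMap k K b.leadingCoeff + t⁻¹ * Polynomial.aeval t⁻¹ b.reverse.divX := by
        conv_lhs => rw [← Polynomial.X_mul_divX_add b.reverse]
        rw [map_add, map_mul, Polynomial.aeval_X, Polynomial.aeval_C,
          Polynomial.coeff_zero_reverse, add_comm]
      have h3 : V.valuation (algebraMap k K b.leadingCoeff) = 1 := by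
        refine le_antisymm ((V.valuation_le_one_iff _).2 (hV _)) ?_
        have h4 : V.valuation (algebraMap k K b.leadingCoeff)⁻¹ ≤ 1 := by
          rw [V.valuation_le_one_iff, ← map_inv₀]
          exact hV _
        have h5 : V.valuation (algebraMap k K b.leadingCoeff) ≠ 0 := by
          rw [Valuation.ne_zero_iff, _root_.map_ne_zero]
          exact Polynomial.leadingCoeff_ne_zero.2 hb0
        rw [map_inv₀] at h4
        by_contra h6
        rw [not_le] at h6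
        exact absurd (one_lt_inv₀ (zero_lt_iff.2 h5) |>.2 h6) (not_lt.2 h4)
      rw [h2, Valuation.map_add_eq_of_lt_left, h3]
      rw [h3, map_mul]
      exact lt_of_le_of_lt (mul_le_of_le_one_right'
        ((V.valuation_le_one_iff _).2 (plc_poly V hV hs _))) hs1
    have hv' : (Polynomial.aeval t⁻¹ b.reverse)⁻¹ ∈ V := by
      rw [← V.valuation_le_one_iff, map_inv₀, hv, inv_one]
    have h3 : Polynomial.aeval t a / Polynomial.aeval t b =
        Polynomial.aeval t⁻¹ a.reverse * (Polynomial.aeval t⁻¹ b.reverse)⁻¹ *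
          t⁻¹ ^ (b.natDegree - a.natDegree) := by
      have h4 : Polynomial.aeval t⁻¹ b.reverse ≠ 0 := by
        intro h
        rw [h, map_zero] at hv
        exact zero_ne_one hv
      rw [key a, key b, div_eq_iff (mul_ne_zero h4 (pow_ne_zero _ ht0))]
      have h5 : t ^ b.natDegree = t ^ (b.natDegree - a.natDegree) * t ^ a.natDegree := by
        rw [← pow_add]
        congr 1
        omega
      have h6 : t⁻¹ ^ (b.natDegree - a.natDegree) * t ^ (b.natDegree - a.natDegree) = 1 := by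
        rw [← mul_pow, inv_mul_cancel₀ ht0, one_pow]
      rw [h5]
      have h7 : (Polynomial.aeval t⁻¹ b.reverse)⁻¹ * Polynomial.aeval t⁻¹ b.reverse = 1 :=
        inv_mul_cancel₀ h4
      linear_combination (-(Polynomial.aeval t⁻¹ a.reverse * t ^ a.natDegree)) * h7 -
        (Polynomial.aeval t⁻¹ a.reverse * t ^ a.natDegree) *
        ((Polynomial.aeval t⁻¹ b.reverse)⁻¹ * Polynomial.aeval t⁻¹ b.reverse) * h6
    rw [h3]
    exact V.toSubring.mul_mem (V.toSubring.mul_mem (plc_poly V hV hs _) hv')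
      (V.toSubring.pow_mem hs _)

end Vale.Agent.P292.Mo
end

section

/-! # The inverse of an integral element, after inverting a polynomial in `t`. -/

namespace Vale.Agent.P292.Mo

universe u w

variable {k : Type u} [Field k] {K : Type w} [Field K] [Algebra k K]

/-- F3h: a nonzero element of the integral closure of `k[t]` is a unit after inverting a
polynomial in `t`. -/
theorem exists_inv_mem {t : K} (ht : Transcendental k t) {s : K} (hs : s ≠ 0)
    (hi : IsIntegral (Algebra.adjoin k {t}) s) :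
    ∃ g : Polynomial k, g ≠ 0 ∧ s⁻¹ ∈ IC (B0 t g) := by
  obtain ⟨p, hp, hps⟩ := hi
  -- remove the powers of `X`
  obtain ⟨q, hpq, hq⟩ := Polynomial.exists_eq_pow_rootMultiplicity_mul_and_not_dvd p hp.ne_zero 0
  have hq0 : q.coeff 0 ≠ 0 := by
    intro h0
    apply hq
    rw [Polynomial.C_0, sub_zero]
    exact Polynomial.X_dvd_iff.2 h0
  have hqs : Polynomial.aeval s q = 0 := by
    have h1 : Polynomial.aeval s p = 0 := hps
    rw [hpq, map_mul, map_pow, map_sub, Polynomial.aeval_X, Polynomial.C_0, map_zero,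
      sub_zero] at h1
    exact (mul_eq_zero.1 h1).resolve_left (pow_ne_zero _ hs)
  obtain ⟨g, hg⟩ : ∃ g : Polynomial k, Polynomial.aeval t g = ((q.coeff 0 : Algebra.adjoin k {t}) : K) := by
    have h0 : ∀ x ∈ Algebra.adjoin k {t}, ∃ g : Polynomial k, Polynomial.aeval t g = x := by
      intro x hx
      rw [Algebra.adjoin_singleton_eq_range_aeval] at hx
      exact hx
    exact h0 _ (q.coeff 0).2
  have hc0 : ((q.coeff 0 : Algebra.adjoin k {t}) : K) ≠ 0 := fun h => hq0 (Subtype.ext h)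
  have hg0 : g ≠ 0 := by
    rintro rfl
    rw [map_zero] at hg
    exact hc0 hg.symm
  refine ⟨g, hg0, ?_⟩
  have hle : Algebra.adjoin k {t} ≤ B0 t g :=
    Algebra.adjoin_mono (Set.singleton_subset_iff.2 (Set.mem_insert _ _))
  have hB : ∀ x ∈ B0 t g, x ∈ IC (B0 t g) := fun x hx =>
    (integralClosure (B0 t g) K).algebraMap_mem ⟨x, hx⟩
  have hsI : s ∈ IC (B0 t g) := by
    refine ⟨p.map (Subalgebra.inclusion hle).toRingHom, hp.map _, ?_⟩
    rw [Polynomial.eval₂_map]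
    exact hps
  have hdI : Polynomial.aeval s q.divX ∈ IC (B0 t g) := by
    rw [Polynomial.aeval_eq_sum_range]
    refine sum_mem fun i _ => ?_
    rw [Subalgebra.smul_def, smul_eq_mul]
    exact mul_mem (hB _ (hle (q.divX.coeff i).2)) (pow_mem hsI i)
  have hcI : (((q.coeff 0 : Algebra.adjoin k {t}) : K))⁻¹ ∈ IC (B0 t g) := by
    rw [← hg]
    exact hB _ (Algebra.subset_adjoin (Set.mem_insert_of_mem _ (Set.mem_singleton _)))
  have key : s⁻¹ = -(Polynomial.aeval s q.divX * (((q.coeff 0 : Algebra.adjoin k {t}) : K))⁻¹) := by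
    have h1 : Polynomial.aeval s q.divX * s + ((q.coeff 0 : Algebra.adjoin k {t}) : K) = 0 := by
      have h2 := hqs
      rw [← Polynomial.divX_mul_X_add q, map_add, map_mul, Polynomial.aeval_X,
        Polynomial.aeval_C] at h2
      exact h2
    field_simp
    linear_combination h1
  rw [key]
  exact neg_mem (mul_mem hdI hcI)

end Vale.Agent.P292.Mo
end

section

/-! # Part II.f, block F5: the curve -/

namespace Vale.Agent.P292.Mo

universe u v w

section sep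

theorem ec_separable {F : Type*} {K : Type*} [Field F] [Field K] [Algebra F K]
    [FiniteDimensional F K] (p : ℕ) [Fact p.Prime] [CharP F p] (h : Module.finrank F K < p) :
    Algebra.IsSeparable F K := by
  refine ⟨fun x => ?_⟩
  have hi : IsIntegral F x := IsIntegral.of_finite F x
  have hirr := minpoly.irreducible hi
  rcases Polynomial.separable_or p hirr with h1 | ⟨-, g, hg, he⟩
  · exact h1
  · exfalso
    have h2 : (minpoly F x).natDegree ≤ Module.finrank F K := minpoly.natDegree_le x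
    rw [← he, Polynomial.natDegree_expand] at h2
    have h3 : 0 < g.natDegree := Irreducible.natDegree_pos hg
    nlinarith

end sep

variable {k : Type u} [Field k]

theorem exists_curve {R : Type v} [CommRing R] [Algebra k R] {𝒜 : ℕ → Submodule k R}
    [GradedAlgebra 𝒜] {P : R →ₗ[k] R →ₗ[k] R} [IsAlgClosed k] (p : ℕ) [Fact p.Prime] [CharP k p]
    (hP : IsPM 𝒜 P) {e n : ℕ} {y : Fin n → R} (hN : IsNoe 𝒜 p e y) (f : R)
    (hf : ∃ h : R, ∃ G : MvPolynomial (Fin n) k, G ≠ 0 ∧ f * h = MvPolynomial.aeval y G) :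
    ∃ (K : Type v) (_ : Field K) (_ : Algebra k K) (A₀ A₁ : Subalgebra k K) (u : K)
      (φ : R →ₐ[k] K), IsGC 𝒜 P A₀ A₁ u φ f := by
  obtain ⟨K, iF, iA, t, φ, a, b, hFF, hfr, hφf⟩ := exists_ff hN f hf
  have : FiniteDimensional (IntermediateField.adjoin k {t}) K := hFF.fin
  have : CharP (IntermediateField.adjoin k {t}) p :=
    charP_of_injective_algebraMap (algebraMap k (IntermediateField.adjoin k {t})).injective p
  have : Algebra.IsSeparable (IntermediateField.adjoin k {t}) K := ec_separable p hfr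
  have : Infinite k := IsAlgClosed.instInfinite
  have hF2 : ∀ (j : ℕ) (r : R), r ∈ 𝒜 j → ∃ (m : ℕ) (c : ℕ → Polynomial k),
      (∀ i, (c i).natDegree ≤ j * i) ∧
      φ r ^ m + ∑ i ∈ Finset.range m, Polynomial.aeval t (c (i + 1)) * φ r ^ (m - (i + 1)) = 0 :=
    fun j r hr => exists_equation hN hFF hr
  have hmem : ∀ (B : Subalgebra k K), t ∈ B → ∀ r, IsIntegral B (φ r) := by
    classical
    intro B hB r
    rw [← DirectSum.sum_support_decompose 𝒜 r, map_sum]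
    refine IsIntegral.sum _ fun j _ => ?_
    obtain ⟨m, c, -, hc⟩ := hF2 j _ (SetLike.coe_mem (DirectSum.decompose 𝒜 r j))
    exact F5a_isIntegral_of_eq (A := B) (fun i => ⟨_, F5a_aeval_mem hB (c i)⟩) hc
  have hone : (1 : Polynomial k) ≠ 0 := one_ne_zero
  have hmem0 : ∀ (g : Polynomial k) (r : R), φ r ∈ IC (B0 t g) :=
    fun g r => mem_IC.2 (hmem _ (t_mem_B0 t g) r)
  -- a first closed point
  obtain ⟨c0, hc0⟩ := (infinite_IC hFF.transc hone (1 : IC (B0 t (1 : Polynomial k)))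
    one_ne_zero).nonempty
  obtain ⟨y0, hy0⟩ : ∃ y0 : R →ₐ[k] k, ∀ r, y0 r = c0 ⟨φ r, hmem0 1 r⟩ :=
    ⟨c0.comp (φ.codRestrict (IC (B0 t (1 : Polynomial k))) (hmem0 1)), fun r => rfl⟩
  obtain ⟨r1, hr1, hr1'⟩ := F5a_exists_elem hN hFF 1 0
  have hr1'' : φ r1 = 1 := by rw [hr1', map_one, map_zero, zero_mul, add_zero]
  have hNV : NV 𝒜 y0 := by
    refine ⟨e, hN.e_pos, r1, hr1, ?_⟩
    rw [hy0]
    have h1 : (⟨φ r1, hmem0 1 r1⟩ : IC (B0 t (1 : Polynomial k))) = 1 := Subtype.ext hr1''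
    rw [h1, map_one]
    exact one_ne_zero
  obtain ⟨N, x, d, g0, hfr0, hy⟩ := hP.frame y0 hNV
  have hNpos : 0 < N := rank_pos p hP hNV ⟨x, d, g0, hfr0, hy⟩
  have hne : φ (g0 * (brM P x).det) ≠ 0 := by
    intro h
    apply hy
    rw [hy0]
    have h1 : (⟨φ (g0 * (brM P x).det), hmem0 1 _⟩ : IC (B0 t (1 : Polynomial k))) = 0 :=
      Subtype.ext h
    rw [h1, map_zero]
  have hne' := hne
  rw [map_mul] at hne'
  have hg0 : φ g0 ≠ 0 := left_ne_zero_of_mul hne'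
  have hdet : φ (brM P x).det ≠ 0 := right_ne_zero_of_mul hne'
  -- the open set
  obtain ⟨g, hg, hinv⟩ := exists_inv_mem hFF.transc hdet
    (hmem _ (Algebra.self_mem_adjoin_singleton k t) _)
  obtain ⟨l, hl⟩ : ∃ l, g.eval l ≠ 0 := by
    by_contra hcon
    push Not at hcon
    exact hg (Polynomial.funext fun r => by rw [hcon, Polynomial.eval_zero])
  have hmp := mp_IC_of hN hFF hF2 hg l hl
  have hcl := closed_IC1 (K := K) hFF.transc hg
  obtain ⟨x', d', g', hfr1⟩ := fr1_of_mp hP hmp hcl.1 hcl.2 hfr0 hne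
    (fun Y h1 h2 h3 => exists_frame_finset p hP Y h1 h2 h3)
  exact ⟨K, iF, iA, IC (B0 t g), IC (B1 t g), (t - algebraMap k K l)⁻¹, φ,
    { cd := isCD_IC hFF.transc hg
      mp := hmp
      idx_pos := by
        rw [idx_IC hFF.transc hg l hl]
        exact_mod_cast Module.finrank_pos
      frac0 := frac0_IC g
      P1 := place_IC hFF.transc hg
      P2 := closed_IC0 hFF.transc hg
      frames := ⟨N, hNpos, x, d, g0, x', d', g', ⟨hfr0, hg0, hdet, hinv⟩, hfr1⟩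
      exp := expansion_IC hFF.transc hg
      inf := by
        have h1 := infinite_IC hFF.transc hg ⟨φ f, hmem0 g f⟩ (by
          intro h
          exact hφf (congrArg Subtype.val h))
        exact h1.mono fun c hc h => hc }⟩

end Vale.Agent.P292.Mo
end

section

/-! # P292, Mori step, F7: one curve, relative to the deformation lemma. -/

namespace Vale.Agent.P292.Mo

open MvPolynomial

universe u v w

/-- The statement of the deformation lemma (block II.a) for one curve. -/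
def FamSt {k : Type u} [Field k] {R : Type v} [CommRing R] [Algebra k R]
    (𝒜 : ℕ → Submodule k R) {K : Type w} [Field K] [Algebra k K]
    (A₀ A₁ : Subalgebra k K) (u : K) (φ : R →ₐ[k] K) : Prop :=
  ∀ I : Submodule k K, (∀ a ∈ I, a ∈ A₀) → (∀ a ∈ A₀, ∀ b ∈ I, a * b ∈ I) →
    (∀ n, Module.Finite k (Sec A₀ A₁ u n)) → Module.Finite k (ObS 𝒜 φ I A₁ u) →
    Module.finrank k (ObS 𝒜 φ I A₁ u) < Module.finrank k (T0 𝒜 φ I A₁ u) →
    FamOut 𝒜 A₀ A₁ u φ I

/-- F7 for one curve, relative to the deformation lemma. -/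
theorem hit_of_gc_of {k : Type u} [Field k] {R : Type v} [CommRing R] [Algebra k R]
    {𝒜 : ℕ → Submodule k R} [GradedAlgebra 𝒜] {P : R →ₗ[k] R →ₗ[k] R} {K : Type w} [Field K]
    [Algebra k K] {A₀ A₁ : Subalgebra k K} {u : K} {φ : R →ₐ[k] K} {f : R} [IsAlgClosed k]
    (h2 : (2 : k) ≠ 0) (hP : IsPM 𝒜 P) (h : IsGC 𝒜 P A₀ A₁ u φ f)
    (hfam : FamSt 𝒜 A₀ A₁ u φ) (m : ℕ) (hm1 : idx A₁ u < 3 * m)
    (hm2 : 2 * (m : ℤ) < idx A₁ u + 2 * chi0 A₀ A₁) :
    ∃ w : R →ₐ[k] k, w f ≠ 0 ∧ Hit 𝒜 w := by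
  obtain ⟨c, hc, hcf⟩ : ∃ c : Fin m → (A₀ →ₐ[k] k), Function.Injective c ∧
      ∀ l, ∀ h : φ f ∈ A₀, c l ⟨φ f, h⟩ ≠ 0 := by
    have : Infinite ↥{c : A₀ →ₐ[k] k | ∀ h : φ f ∈ A₀, c ⟨φ f, h⟩ ≠ 0} := h.inf.to_subtype
    let g := Infinite.natEmbedding ↥{c : A₀ →ₐ[k] k | ∀ h : φ f ∈ A₀, c ⟨φ f, h⟩ ≠ 0}
    exact ⟨fun i => (g i).1, fun i j hij => Fin.ext (g.injective (Subtype.ext hij)),
      fun l => (g l).2⟩
  obtain ⟨N, hN, x, d, g, x', d', g', fr0, fr1⟩ := h.frames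
  obtain ⟨-, fO, heq⟩ := chi_der hP h.cd h.mp fr0 fr1 hc
  have hlt : Module.finrank k (ObS 𝒜 φ (markI c) A₁ u) <
      Module.finrank k (T0 𝒜 φ (markI c) A₁ u) := by
    have hN' : (0 : ℤ) < N := by exact_mod_cast hN
    have h4 := mul_pos hN' (sub_pos.2 hm2)
    have h5 : (Module.finrank k (ObS 𝒜 φ (markI c) A₁ u) : ℤ) <
        Module.finrank k (T0 𝒜 φ (markI c) A₁ u) := by linarith
    exact_mod_cast h5
  have hout := hfam (markI c) (fun a ha => markI_le c ha) (fun a ha b hb => mul_mem_markI ha hb)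
    (fun n => (h.cd.chi_Sec h.mp.u_ne n).1) fO hlt
  obtain ⟨l, w, hw, hH⟩ := hit_of_famOut h2 hP h c hc (markI c) (fun a => mem_markI)
    (by rw [Fintype.card_fin]; exact hm1) hout
  obtain ⟨h6, h7⟩ := hw f
  exact ⟨w, by rw [h7]; exact hcf l h6, hH⟩

/-- F7: the main theorem in characteristic `p`, relative to the deformation lemma. -/
theorem charp_main_of' {k : Type u} [Field k] {R : Type v} [CommRing R] [Algebra k R]
    {𝒜 : ℕ → Submodule k R} [GradedAlgebra 𝒜] {P : R →ₗ[k] R →ₗ[k] R} [IsAlgClosed k] (p : ℕ)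
    [Fact p.Prime] [CharP k p] (hp2 : p ≠ 2) (hP : IsPM 𝒜 P) {e n : ℕ} {y : Fin n → R}
    (hN : IsNoe 𝒜 p e y) (f : R)
    (hf : ∃ h : R, ∃ G : MvPolynomial (Fin n) k, G ≠ 0 ∧ f * h = aeval y G)
    (hfam : ∀ (K : Type v) [Field K] [Algebra k K] (A₀ A₁ : Subalgebra k K) (u : K)
      (φ : R →ₐ[k] K), IsMp 𝒜 A₀ A₁ u φ → FamSt 𝒜 A₀ A₁ u φ) :
    ∃ w : R →ₐ[k] k, w f ≠ 0 ∧ Hit 𝒜 w := by
  have h2 : (2 : k) ≠ 0 := by
    intro h
    have h3 : ((2 : ℕ) : k) = 0 := by exact_mod_cast h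
    rw [CharP.cast_eq_zero_iff k p] at h3
    exact hp2 ((Nat.prime_dvd_prime_iff_eq Fact.out Nat.prime_two).1 h3)
  exact charp_main_of p hP f (exists_curve p hP hN f hf)
    fun K _ _ A₀ A₁ u φ h m h3 h4 => hit_of_gc_of h2 hP h (hfam K A₀ A₁ u φ h.mp) m h3 h4

end Vale.Agent.P292.Mo
end

section

/-! # Part II.a (D): the tangent space `T0` embeds in the tangent space of the family. -/

namespace Vale.Agent.P292.Mo

open TensorProduct MvPolynomial

section dual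

variable {k : Type*} [Field k] {R : Type*} [CommRing R] [Algebra k R]
  {K : Type*} [Field K] [Algebra k K]

theorem defsd_map_one {φ : R →ₐ[k] K} {δ : R →ₗ[k] K}
    (hδ : ∀ r s, δ (r * s) = φ r * δ s + φ s * δ r) : δ 1 = 0 := by
  have h2 := hδ 1 1
  rw [mul_one, map_one φ, one_mul] at h2
  have h3 : δ 1 + 0 = δ 1 + δ 1 := by rw [add_zero]; exact h2
  exact (add_left_cancel h3).symm

/-- the homomorphism to the dual numbers given by a derivation -/
noncomputable def dualHom (φ : R →ₐ[k] K) (δ : R →ₗ[k] K)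
    (hδ : ∀ r s, δ (r * s) = φ r * δ s + φ s * δ r) :
    R →ₐ[k] DualNumber k ⊗[k] K :=
  AlgHom.ofLinearMap
    ((TensorProduct.mk k (DualNumber k) K 1).comp φ.toLinearMap +
      (TensorProduct.mk k (DualNumber k) K DualNumber.eps).comp δ)
    (by
      simp only [LinearMap.add_apply, LinearMap.comp_apply, TensorProduct.mk_apply,
        AlgHom.toLinearMap_apply, map_one φ, defsd_map_one hδ, tmul_zero, add_zero]
      rfl)
    (by
      intro r s
      have he : (DualNumber.eps : DualNumber k) * DualNumber.eps = 0 := DualNumber.eps_mul_eps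
      simp only [LinearMap.add_apply, LinearMap.comp_apply, TensorProduct.mk_apply,
        AlgHom.toLinearMap_apply, map_mul φ, hδ, tmul_add, add_mul, mul_add,
        Algebra.TensorProduct.tmul_mul_tmul, one_mul, mul_one, he, zero_tmul, add_zero]
      rw [mul_comm (δ r) (φ s), add_assoc, add_comm (DualNumber.eps ⊗ₜ[k] (φ s * δ r))])

theorem dualHom_apply (φ : R →ₐ[k] K) (δ : R →ₗ[k] K)
    (hδ : ∀ r s, δ (r * s) = φ r * δ s + φ s * δ r) (r : R) :
    dualHom φ δ hδ r = 1 ⊗ₜ φ r + DualNumber.eps ⊗ₜ δ r := rfl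

/-- A derivation is determined by its values at the generators. -/
theorem defsd_ext {φ : R →ₐ[k] K} {M : ℕ} {x : Fin M → R}
    (hgen : Function.Surjective (MvPolynomial.aeval (R := k) x)) {δ : R →ₗ[k] K}
    (hδ : ∀ r s, δ (r * s) = φ r * δ s + φ s * δ r) (h : ∀ i, δ (x i) = 0) : δ = 0 := by
  refine LinearMap.ext fun r => ?_
  obtain ⟨f, rfl⟩ := hgen r
  rw [LinearMap.zero_apply]
  induction f using MvPolynomial.induction_on with
  | C a =>
    rw [MvPolynomial.aeval_C, Algebra.algebraMap_eq_smul_one, map_smul, defsd_map_one hδ,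
      smul_zero]
  | add p q hp hq => rw [map_add, map_add, hp, hq, add_zero]
  | mul_X p i hp => rw [map_mul, hδ, hp, MvPolynomial.aeval_X, h i, mul_zero, mul_zero, add_zero]

end dual

section main

variable {k : Type*} [Field k] {R : Type*} [CommRing R] [Algebra k R]
  {𝒜 : ℕ → Submodule k R} [GradedAlgebra 𝒜] {K : Type*} [Field K] [Algebra k K]

omit [GradedAlgebra 𝒜] in
theorem defsd_der {A₁ : Subalgebra k K} {u : K} {I : Submodule k K} {φ : R →ₐ[k] K}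
    {δ : R →ₗ[k] K} (hδ : δ ∈ T0 𝒜 φ I A₁ u) : ∀ r s, δ (r * s) = φ r * δ s + φ s * δ r :=
  hδ.1.1

omit [GradedAlgebra 𝒜] in
theorem defsd_mem {A₀ A₁ : Subalgebra k K} {u : K} {I : Submodule k K}
    (hI : ∀ a ∈ I, a ∈ A₀) {φ : R →ₐ[k] K} {δ : R →ₗ[k] K} (hδ : δ ∈ T0 𝒜 φ I A₁ u) {n : ℕ}
    {r : R} (hr : r ∈ 𝒜 n) : δ r ∈ I ⊓ Sec A₀ A₁ u n :=
  ⟨hδ.1.2 r, mem_Sec.2 ⟨hI _ (hδ.1.2 r), hδ.2.2 n r hr⟩⟩

/-- The coordinates of a tangent vector. -/
noncomputable def defsdMap {M : ℕ} {x : Fin M → R} {d : Fin M → ℕ} (hx : ∀ i, x i ∈ 𝒜 (d i))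
    {A₀ A₁ : Subalgebra k K} {u : K} {I : Submodule k K} (hI : ∀ a ∈ I, a ∈ A₀)
    {φ : R →ₐ[k] K} [∀ i, Module.Finite k ↥(I ⊓ Sec A₀ A₁ u (d i))] :
    ↥(T0 𝒜 φ I A₁ u) →ₗ[k] (Idx (fun i => I ⊓ Sec A₀ A₁ u (d i)) → k) where
  toFun δ s := (Module.finBasis k ↥(I ⊓ Sec A₀ A₁ u (d s.1))).repr
    ⟨δ.1 (x s.1), defsd_mem hI δ.2 (hx s.1)⟩ s.2
  map_add' a b := by
    funext s
    rw [Pi.add_apply, ← Finsupp.add_apply, ← map_add]
    rfl
  map_smul' a b := by
    funext s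
    rw [Pi.smul_apply, RingHom.id_apply, ← Finsupp.smul_apply, ← map_smul]
    rfl

/-- (D) -/
theorem finrank_T0_le {M : ℕ} (x : Fin M → R) (d : Fin M → ℕ) (hx : ∀ i, x i ∈ 𝒜 (d i))
    (hgen : Function.Surjective (MvPolynomial.aeval (R := k) x))
    (A₀ A₁ : Subalgebra k K) (u : K) (I : Submodule k K) (hI : ∀ a ∈ I, a ∈ A₀) (φ : R →ₐ[k] K)
    [∀ i, Module.Finite k ↥(I ⊓ Sec A₀ A₁ u (d i))] :
    Module.finrank k (T0 𝒜 φ I A₁ u) ≤
      Module.finrank k (tanJ (eqs x (fun i => I ⊓ Sec A₀ A₁ u (d i)) φ)) := by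
  set V : Fin M → Submodule k K := fun i => I ⊓ Sec A₀ A₁ u (d i) with hV
  let Θ := defsdMap (𝒜 := 𝒜) (φ := φ) hx hI (x := x) (u := u) (A₁ := A₁)
  have hsum : ∀ (δ : ↥(T0 𝒜 φ I A₁ u)) (i : Fin M), δ.1 (x i) =
      ∑ j, Θ δ ⟨i, j⟩ • (Module.finBasis k (V i) j : K) := by
    intro δ i
    have h1 := (Module.finBasis k (V i)).sum_repr ⟨δ.1 (x i), defsd_mem hI δ.2 (hx i)⟩
    have h2 := congrArg Subtype.val h1
    rw [AddSubmonoidClass.coe_finsetSum] at h2
    exact h2.symm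
  have hinj : Function.Injective Θ := by
    intro a b hab
    have h1 : (a - b).1 = 0 := defsd_ext hgen (defsd_der (a - b).2) fun i => by
      change a.1 (x i) - b.1 (x i) = 0
      rw [hsum a i, hsum b i, hab, sub_self]
    exact sub_eq_zero.1 (Subtype.ext h1)
  have hmem : ∀ δ : ↥(T0 𝒜 φ I A₁ u), Θ δ ∈ tanJ (eqs x V φ) := by
    intro δ
    obtain ⟨τ, hτ1, hτ2⟩ := exists_point_of_hom x V φ (B := DualNumber k)
      (dualHom φ δ.1 (defsd_der δ.2)) (fun i => by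
        rw [dualHom_apply, add_sub_cancel_left]
        exact tmul_mem_InB _ _ (defsd_mem hI δ.2 (hx i)))
    have hτ3 : ∀ s : Idx V, τ (MvPolynomial.X s) = Θ δ s • (DualNumber.eps : DualNumber k) := by
      rintro ⟨i, j⟩
      have h1 := hτ2 i
      rw [dualHom_apply, add_right_inj, hsum δ i, tmul_sum] at h1
      have h2 := coord_unique (B := DualNumber k) (Module.finBasis k (V i))
        (t := fun j => Θ δ ⟨i, j⟩ • (DualNumber.eps : DualNumber k))
        (t' := fun j => τ (MvPolynomial.X ⟨i, j⟩)) (by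
          rw [← h1]
          refine Finset.sum_congr rfl fun j _ => ?_
          rw [smul_tmul])
      exact (congrFun h2 j).symm
    intro f hf
    have h3 := taylor τ (MvPolynomial.aeval fun _ => 0) (DualNumber.eps : DualNumber k) (Θ δ)
      (fun s => by rw [MvPolynomial.aeval_X, mul_zero]) DualNumber.eps_mul_eps
      (fun s => by rw [MvPolynomial.aeval_X, zero_add, hτ3]) f
    have h4 : τ f = 0 := hτ1 hf
    rw [h4, MvPolynomial.aeval_zero'] at h3
    have h5 := congrArg TrivSqZeroExt.snd h3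
    simp [TrivSqZeroExt.algebraMap_eq_inl] at h5
    exact h5.symm
  exact LinearMap.finrank_le_finrank_of_injective (f := Θ.codRestrict _ hmem)
    (fun a b h => hinj (congrArg Subtype.val h))

end main

end Vale.Agent.P292.Mo
end

section

/-! # Part II.a: the deformation lemma -/

namespace Vale.Agent.P292.Mo

open TensorProduct MvPolynomial

universe u v w

section admissible
variable {k : Type*} [Field k] {R : Type*} [CommRing R] [Algebra k R] {𝒜 : ℕ → Submodule k R}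
  [GradedAlgebra 𝒜] {K : Type*} [Field K] [Algebra k K] {M : ℕ} {x : Fin M → R} {d : Fin M → ℕ}
  {A₀ A₁ : Subalgebra k K} {u : K} {I : Submodule k K} {φ : R →ₐ[k] K}
  {B : Type*} [CommRing B] [Algebra k B]

theorem exists_dual {ι : Type*} [Fintype ι] [DecidableEq ι] {W : Submodule k K}
    (b : Module.Basis ι k W) (i : ι) :
    ∃ l : K →ₗ[k] k, ∀ j, l (b j : K) = if j = i then 1 else 0 := by
  obtain ⟨p, hp⟩ := W.subtype.exists_leftInverse_of_injective (by simp)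
  refine ⟨b.coord i ∘ₗ p, fun j => ?_⟩
  have h3 : p (b j : K) = b j := LinearMap.congr_fun hp (b j)
  rw [LinearMap.comp_apply, h3, Module.Basis.coord_apply, Module.Basis.repr_self,
    Finsupp.single_apply]

/-- values at the generators -/
theorem chg_pre_sub_mem (x : Fin M → R) (V : Fin M → Submodule k K) [∀ i, Module.Finite k (V i)]
    (φ : R →ₐ[k] K) (τ : MvPolynomial (Idx V) k →ₐ[k] B) (i : Fin M) :
    chg K τ (pre x V φ (X i)) - 1 ⊗ₜ φ (x i) ∈ InB B (V i) := by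
  rw [chg_pre_X, add_sub_cancel_left]
  exact Submodule.sum_mem _ fun j _ => tmul_mem_InB B _ (Submodule.coe_mem _)

/-- values at the closed point -/
theorem chg_pre_zero (x : Fin M → R) (V : Fin M → Submodule k K) [∀ i, Module.Finite k (V i)]
    (φ : R →ₐ[k] K) (τ : MvPolynomial (Idx V) k →ₐ[k] k) (hτ : ∀ s, τ (X s) = 0)
    (f : MvPolynomial (Fin M) k) :
    chg K τ (pre x V φ f) = 1 ⊗ₜ φ (aeval x f) := by
  have h1 : (chg K τ).comp (pre x V φ) =
      ((Algebra.TensorProduct.includeRight : K →ₐ[k] k ⊗[k] K).comp φ).comp (aeval x) := by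
    refine MvPolynomial.algHom_ext fun i => ?_
    rw [AlgHom.comp_apply, chg_pre_X, AlgHom.comp_apply, AlgHom.comp_apply, aeval_X,
      Algebra.TensorProduct.includeRight_apply]
    simp only [hτ, TensorProduct.zero_tmul, Finset.sum_const_zero, add_zero]
  exact DFunLike.congr_fun h1 f

theorem ez_chg {B' : Type*} [CommRing B'] [Algebra k B'] (τ : B →ₐ[k] B') (e : B' →ₐ[k] k)
    (y : B ⊗[k] K) : ez K e (chg K τ y) = ez K (e.comp τ) y := by
  induction y using TensorProduct.induction_on with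
  | zero => simp
  | tmul a b => simp
  | add x y hx hy => rw [map_add, map_add, map_add, hx, hy]

theorem ez_pre (x : Fin M → R) (V : Fin M → Submodule k K) [∀ i, Module.Finite k (V i)]
    (φ : R →ₐ[k] K) (τ : MvPolynomial (Idx V) k →ₐ[k] B) (e : B →ₐ[k] k)
    (hτ : ∀ s, e (τ (X s)) = 0) (f : MvPolynomial (Fin M) k) :
    ez K e (chg K τ (pre x V φ f)) = φ (aeval x f) := by
  rw [ez_chg, ez, AlgHom.comp_apply, chg_pre_zero x V φ (e.comp τ) hτ]
  simp

theorem lamB_ez (e : B →ₐ[k] k) (l : K →ₗ[k] k) (y : B ⊗[k] K) :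
    e (lamB B l y) = l (ez K e y) := by
  induction y using TensorProduct.induction_on with
  | zero => simp
  | tmul a b => simp [mul_comm]
  | add x y hx hy => rw [map_add, map_add, map_add, map_add, hx, hy]

/-- the conditions on the generators imply the conditions everywhere -/
theorem admissible (hx : ∀ i, x i ∈ 𝒜 (d i))
    (hgen : Function.Surjective (MvPolynomial.aeval (R := k) x)) (hu : u ≠ 0)
    (hI : ∀ a ∈ I, a ∈ A₀) (hIm : ∀ a ∈ A₀, ∀ b ∈ I, a * b ∈ I)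
    (hφ : ∀ n, ∀ r ∈ 𝒜 n, φ r ∈ Sec A₀ A₁ u n) (hφ0 : ∀ r, φ r ∈ A₀)
    (ψ : R →ₐ[k] B ⊗[k] K)
    (h : ∀ i, ψ (x i) - 1 ⊗ₜ φ (x i) ∈ InB B (I ⊓ Sec A₀ A₁ u (d i))) :
    (∀ r, ψ r - 1 ⊗ₜ φ r ∈ InB B I) ∧ (∀ n, ∀ r ∈ 𝒜 n, (1 ⊗ₜ (u ^ n)) * ψ r ∈ subB B A₁) ∧
      (∀ n, ∀ r ∈ 𝒜 n, ψ r ∈ InB B (Sec A₀ A₁ u n)) := by
  have hA : ∀ r, ψ r - 1 ⊗ₜ φ r ∈ InB B I := by
    intro r
    obtain ⟨f, rfl⟩ := hgen r
    exact sub_mem_of_X (x := x) hI hIm φ hφ0 (ψ.comp (aeval x)) (fun i => by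
      rw [AlgHom.comp_apply, aeval_X]
      exact InB_mono B inf_le_left (h i)) f
  have hB : ∀ n, ∀ r ∈ 𝒜 n, (1 ⊗ₜ (u ^ n)) * ψ r ∈ subB B A₁ := by
    intro n r hr
    have hpow : ∀ n : ℕ, ((1 : B) ⊗ₜ[k] u) ^ n = 1 ⊗ₜ (u ^ n) := fun n => by
      rw [Algebra.TensorProduct.tmul_pow, one_pow]
    have h1 : ∀ r, tw 𝒜 (1 ⊗ₜ u) ψ r ∈ subB B A₁ := by
      intro r
      obtain ⟨f, rfl⟩ := hgen r
      refine mem_of_X ((tw 𝒜 (1 ⊗ₜ u) ψ).comp (aeval x)) (subB B A₁) (fun i => ?_) f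
      rw [AlgHom.comp_apply, aeval_X, tw_apply 𝒜 _ _ (hx i), hpow]
      have h2 : ψ (x i) = (ψ (x i) - 1 ⊗ₜ φ (x i)) + 1 ⊗ₜ φ (x i) := by rw [sub_add_cancel]
      rw [h2, ← mem_InB_comap (pow_ne_zero _ hu)]
      refine add_mem (InB_mono B (inf_le_right.trans inf_le_right) (h i)) ?_
      exact tmul_mem_InB B _ ((hφ _ _ (hx i)).2)
    rw [← hpow, ← tw_apply 𝒜 _ _ hr]
    exact h1 r
  refine ⟨hA, hB, fun n r hr => ?_⟩
  refine mem_InB_inf _ ?_ ((mem_InB_comap (pow_ne_zero _ hu)).2 (hB n r hr))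
  have h2 : ψ r = (ψ r - 1 ⊗ₜ φ r) + 1 ⊗ₜ φ r := by rw [sub_add_cancel]
  rw [h2]
  exact add_mem (InB_mono B (fun a ha => hI a ha) (hA r)) (tmul_mem_InB B _ (hφ0 _))

end admissible

/-- the obstruction map -/
theorem exists_obs {k : Type*} [Field k] {R : Type*} [CommRing R] [Algebra k R]
    {𝒜 : ℕ → Submodule k R} {K : Type*} [Field K] [Algebra k K]
    {A₁ : Subalgebra k K} {u : K} {I : Submodule k K} {φ : R →ₐ[k] K}
    {O₁ O : Type*} [CommRing O₁] [CommRing O] [Algebra k O₁] [Algebra k O]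
    {π : O₁ →ₐ[k] O} {e₁ : O₁ →ₐ[k] k}
    (hs : IsSmall π e₁) {Ψ : R →ₐ[k] O ⊗[k] K} {Ψ₀ Ψ₁ : R →ₐ[k] O₁ ⊗[k] K}
    (h0 : ∀ r, chg K π (Ψ₀ r) = Ψ r) (h1 : ∀ r, chg K π (Ψ₁ r) = Ψ r)
    (he0 : ∀ r, ez K e₁ (Ψ₀ r) = φ r) (he1 : ∀ r, ez K e₁ (Ψ₁ r) = φ r) :
    ∃ ob : Module.Dual k O₁ →ₗ[k] ↥(ObS 𝒜 φ I A₁ u),
      ∀ l, ob l = 0 → obs Ψ₀ Ψ₁ l ∈ Der0 φ I ⊔ Der1 𝒜 φ A₁ u := by
  refine ⟨LinearMap.codRestrict (ObS 𝒜 φ I A₁ u)
    ((Der0 φ I ⊔ Der1 𝒜 φ A₁ u).mkQ ∘ₗ obs Ψ₀ Ψ₁)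
    (fun l => Submodule.mem_map_of_mem (obs_mem hs h0 h1 he0 he1 l)), fun l hl => ?_⟩
  have h2 := congrArg Subtype.val hl
  exact (Submodule.Quotient.mk_eq_zero _).1 h2

/-- **The deformation lemma.** -/
theorem exists_family {k : Type u} [Field k] {R : Type v} [CommRing R] [Algebra k R]
    (𝒜 : ℕ → Submodule k R) [GradedAlgebra 𝒜] [Algebra.FiniteType k R]
    {K : Type w} [Field K] [Algebra k K] {A₀ A₁ : Subalgebra k K} {u : K} {φ : R →ₐ[k] K}
    (mp : IsMp 𝒜 A₀ A₁ u φ)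
    (hsm : ∀ n, 0 < n → ∀ s ∈ 𝒜 n, Algebra.FormallySmooth k (Localization.Away s))
    (I : Submodule k K) (hI : ∀ a ∈ I, a ∈ A₀) (hIm : ∀ a ∈ A₀, ∀ b ∈ I, a * b ∈ I)
    (hfin : ∀ n, Module.Finite k (Sec A₀ A₁ u n))
    (hOb : Module.Finite k (ObS 𝒜 φ I A₁ u))
    (hlt : Module.finrank k (ObS 𝒜 φ I A₁ u) < Module.finrank k (T0 𝒜 φ I A₁ u)) :
    ∃ (D : Type u) (_ : CommRing D) (_ : Algebra k D) (_ : Algebra.FiniteType k D) (e : D →ₐ[k] k)
      (Ψ : R →ₐ[k] D ⊗[k] K),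
      (∀ (m : Ideal D) [m.IsMaximal], m = RingHom.ker e →
        ¬ IsArtinianRing (Localization.AtPrime m)) ∧
      (∀ n, ∀ r ∈ 𝒜 n, Ψ r ∈ InB D (Sec A₀ A₁ u n)) ∧ (∀ r, Ψ r - 1 ⊗ₜ φ r ∈ InB D I) ∧
      (∀ r, ∀ l : K →ₗ[k] k, e (lamB D l (Ψ r)) = l (φ r)) ∧
      Algebra.adjoin k {a : D | ∃ r, ∃ l : K →ₗ[k] k, lamB D l (Ψ r) = a} = ⊤ := by
  classical
  obtain ⟨M, x, d, hx, hgen⟩ := exists_homog_gens (k := k) 𝒜
  have hVfin : ∀ i, Module.Finite k ↥(I ⊓ Sec A₀ A₁ u (d i)) := fun i => by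
    have := hfin (d i)
    exact Submodule.finiteDimensional_of_le (inf_le_right : I ⊓ Sec A₀ A₁ u (d i) ≤ _)
  set V : Fin M → Submodule k K := fun i => I ⊓ Sec A₀ A₁ u (d i) with hV
  have hVfin' : ∀ i, Module.Finite k (V i) := hVfin
  have hu := mp.u_ne
  have hφ := mp.sec
  have hφ0 : ∀ r, φ r ∈ A₀ := by
    intro r
    rw [← DirectSum.sum_support_decompose 𝒜 r, map_sum]
    exact sum_mem fun i _ => (mem_Sec.1 (hφ i _ (SetLike.coe_mem _))).1
  let P := MvPolynomial (Idx V) k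
  let τ₀ : P →ₐ[k] k := aeval (fun _ => (0 : k))
  have hτ₀X : ∀ s, τ₀ (X s) = 0 := fun s => aeval_X _ _
  have hτ₀ : ∀ f, τ₀ f = constantCoeff f := fun f => by
    have h1 : (τ₀ : P →+* k) = constantCoeff := by
      refine MvPolynomial.ringHom_ext (fun a => ?_) (fun s => ?_)
      · rw [constantCoeff_C]
        exact MvPolynomial.aeval_C _ a
      · rw [constantCoeff_X]
        exact MvPolynomial.aeval_X _ s
    exact DFunLike.congr_fun h1 f
  set J : Ideal P := eqs x V φ with hJd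
  have hJτ : J ≤ RingHom.ker τ₀ := by
    rw [hJd, eqs_le_iff]
    intro f hf
    rw [chg_pre_zero x V φ τ₀ hτ₀X, hf, map_zero, TensorProduct.tmul_zero]
  have hJ : J ≤ m0 k (Idx V) := by
    intro f hf
    have h1 : τ₀ f = 0 := hJτ hf
    rw [hτ₀] at h1
    exact h1
  let qJ : P →ₐ[k] P ⧸ J := Ideal.Quotient.mkₐ k J
  have hqJ : J ≤ RingHom.ker qJ := fun f hf => Ideal.Quotient.eq_zero_iff_mem.2 hf
  obtain ⟨Ψ, hΨ⟩ := exists_hom_of_point x hgen V φ qJ hqJ
  let e : (P ⧸ J) →ₐ[k] k := Ideal.Quotient.liftₐ J τ₀ (fun f hf => hJτ hf)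
  have he : ∀ f, e (Ideal.Quotient.mk J f) = constantCoeff f := fun f => hτ₀ f
  have hΨX : ∀ i, Ψ (x i) = chg K qJ (pre x V φ (X i)) := fun i => by
    rw [← hΨ, aeval_X]
  obtain ⟨a1, a2, a3⟩ := admissible (B := P ⧸ J) hx hgen hu hI hIm hφ hφ0 Ψ (fun i => by
    rw [hΨX]
    exact chg_pre_sub_mem x V φ qJ i)
  refine ⟨P ⧸ J, inferInstance, inferInstance, inferInstance, e, Ψ, ?_, a3, a1, ?_, ?_⟩
  · intro m _ hm hArt
    obtain ⟨N, hN, hart⟩ := exists_pow_le J hJ e he m hm hArt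
    obtain ⟨L, hJL, hLm, e₁, he₁, hs, hdim⟩ := exists_small_obs J hJ hN hart
    set π := Ideal.Quotient.factorₐ k (Ideal.mul_le_right : m0 k (Idx V) * L ≤ L) with hπ
    let q1 : P →ₐ[k] P ⧸ (m0 k (Idx V) * L) := Ideal.Quotient.mkₐ k _
    have hq1 : ∀ s, e₁ (q1 (X s)) = 0 := fun s => by
      have h1 := he₁ (X s)
      rw [constantCoeff_X] at h1
      exact h1
    have hπq : ∀ f, π (q1 f) = Ideal.Quotient.mk L f := fun f => rfl
    have hπJ : ∀ f ∈ J, π (q1 f) = 0 := fun f hf => Ideal.Quotient.eq_zero_iff_mem.2 (hJL hf)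
    obtain ⟨ΨO, hΨO⟩ := exists_hom_of_point x hgen V φ (π.comp q1) (fun f hf => hπJ f hf)
    let eO : (P ⧸ L) →ₐ[k] k := Ideal.Quotient.liftₐ L τ₀ (fun f hf => by
      change τ₀ f = 0
      rw [hτ₀]
      exact hLm hf)
    have heO : ∀ a, eO (π a) = e₁ a := by
      intro a
      obtain ⟨f, rfl⟩ := Ideal.Quotient.mk_surjective a
      rw [he₁, ← hτ₀]
      rfl
    have heOe : eO.comp π = e₁ := AlgHom.ext heO
    have hΨOX : ∀ i, ΨO (x i) = chg K (π.comp q1) (pre x V φ (X i)) := fun i => by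
      rw [← hΨO, aeval_X]
    obtain ⟨b1, b2, b3⟩ := admissible (B := P ⧸ L) hx hgen hu hI hIm hφ hφ0 ΨO (fun i => by
      rw [hΨOX]
      exact chg_pre_sub_mem x V φ (π.comp q1) i)
    have hΨOe : ∀ r, ez K eO (ΨO r) = φ r := by
      intro r
      obtain ⟨f, rfl⟩ := hgen r
      rw [hΨO]
      refine ez_pre x V φ (π.comp q1) eO (fun s => ?_) f
      rw [AlgHom.comp_apply, heO, hq1]
    -- the two lifts
    obtain ⟨n0, hn0, s0, hs0A, hs0, hs0i⟩ := mp.unit0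
    obtain ⟨n1, hn1, s1, hs1A, hs1, hs1i⟩ := mp.unit1
    obtain ⟨Ψ₀, c1, c2, c3⟩ := exists_lift0 (A₀ := A₀) (I := I) (φ := φ) hs hgen hI hIm hφ0
      (hsm n0 hn0 s0 hs0A) hs0 hs0i ΨO ((chg K q1).comp (pre x V φ))
      (fun i => by
        rw [AlgHom.comp_apply]
        exact InB_mono _ inf_le_left (chg_pre_sub_mem x V φ q1 i))
      (fun i => by
        rw [AlgHom.comp_apply, ez_pre x V φ q1 e₁ hq1, aeval_X])
      (fun f => by
        rw [AlgHom.comp_apply, chg_comp, hΨO])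
    obtain ⟨Ψ₁, d1, d2⟩ := exists_lift1 (φ := φ) hs hu hs1A (hsm n1 hn1 s1 hs1A) hs1 hs1i eO heO ΨO
      hΨOe b2
    have he0 : ∀ r, ez K e₁ (Ψ₀ r) = φ r := fun r => by
      rw [← heOe, ← ez_chg, c2, hΨOe]
    have he1 : ∀ r, ez K e₁ (Ψ₁ r) = φ r := fun r => by
      rw [← heOe, ← ez_chg, d1, hΨOe]
    obtain ⟨ob, hob⟩ := exists_obs (𝒜 := 𝒜) (A₁ := A₁) (u := u) (I := I) hs c2 d1 he0 he1
    have h3 := hdim ob (fun l hl => key_claim hs hx hu hI hφ q1 hq1 hπJ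
      (fun i => by
        rw [hΨOX, chg_comp]) c2 d1 he0 c3 d2 l (hob l hl))
    have h4 := finrank_T0_le (𝒜 := 𝒜) x d hx hgen A₀ A₁ u I hI φ
    exact absurd (h4.trans h3) (not_le.2 hlt)
  · intro r l
    rw [lamB_ez]
    obtain ⟨f, rfl⟩ := hgen r
    rw [hΨ]
    congr 1
    exact ez_pre x V φ qJ e (fun s => by
      have h1 := he (X s)
      rw [constantCoeff_X] at h1
      exact h1) f
  · set S := Algebra.adjoin k {a : P ⧸ J | ∃ r, ∃ l : K →ₗ[k] k, lamB (P ⧸ J) l (Ψ r) = a} with hS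
    rw [eq_top_iff]
    rintro a -
    obtain ⟨f, rfl⟩ := Ideal.Quotient.mk_surjective a
    change qJ f ∈ S
    induction f using MvPolynomial.induction_on with
    | C a =>
      rw [← MvPolynomial.algebraMap_eq, AlgHom.commutes]
      exact S.algebraMap_mem a
    | add p q hp hq => rw [map_add]; exact add_mem hp hq
    | mul_X p s hp =>
      rw [map_mul]
      refine mul_mem hp ?_
      obtain ⟨i, j⟩ := s
      obtain ⟨l, hl⟩ := exists_dual (Module.finBasis k (V i)) j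
      have h1 : lamB (P ⧸ J) l (Ψ (x i)) = l (φ (x i)) • 1 + qJ (X ⟨i, j⟩) := by
        rw [hΨX, chg_pre_X, map_add, map_sum, lamB_tmul]
        congr 1
        simp [hl]
      have h2 : qJ (X ⟨i, j⟩) = lamB (P ⧸ J) l (Ψ (x i)) - l (φ (x i)) • 1 := by
        rw [h1, add_sub_cancel_left]
      rw [h2]
      exact sub_mem (Algebra.subset_adjoin ⟨x i, l, rfl⟩) (S.smul_mem S.one_mem _)

end Vale.Agent.P292.Mo
end

section

/-! # P292, Mori step, F7: the main theorem in characteristic `p`. -/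

namespace Vale.Agent.P292.Mo

open MvPolynomial

universe u v w

section F

variable {k : Type u} [Field k]

/-- F7: the main theorem in characteristic `p`. -/
theorem charp_main {R : Type v} [CommRing R] [Algebra k R] {𝒜 : ℕ → Submodule k R}
    [GradedAlgebra 𝒜] {P : R →ₗ[k] R →ₗ[k] R} [IsAlgClosed k] (p : ℕ) [Fact p.Prime] [CharP k p]
    (hp2 : p ≠ 2) (hP : IsPM 𝒜 P) {e n : ℕ} {y : Fin n → R} (hN : IsNoe 𝒜 p e y) (f : R)
    (hf : ∃ h : R, ∃ G : MvPolynomial (Fin n) k, G ≠ 0 ∧ f * h = aeval y G) :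
    ∃ w : R →ₐ[k] k, w f ≠ 0 ∧ Hit 𝒜 w := by
  have := hP.finiteType
  exact charp_main_of' p hp2 hP hN f hf fun K _ _ A₀ A₁ u φ mp I hI hIm hfin hOb hlt =>
    exists_family 𝒜 mp hP.smooth I hI hIm hfin hOb hlt

end F

end Vale.Agent.P292.Mo
end
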