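import Mathlib
import Vale.Agent.P292.Bn.N6
import Vale.Agent.P292.Bn.N7
import Vale.Agent.P292.Bn.N9
import Vale.Agent.P292.Bdl.B1

set_option linter.all false

section

set_option linter.all false

/-! # Q2 part I, block D: curves with a maximal field of definition; every deformation of such a
curve comes from a derivation of the field. -/

namespace Vale.Agent.P292

open MvPolynomial

universe u v w

section cfs

variable {R : Type u} [CommRing R] [Algebra ℂ R]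

/-- The algebra generated by the coefficients of a family of curves. -/
noncomputable def cfs {A : Type v} [CommRing A] [Algebra ℂ A]
    (Φ : R →ₐ[ℂ] MvPolynomial (Fin 2) A) : Subalgebra ℂ A :=
  Algebra.adjoin ℂ {c | ∃ r m, c = coeff m (Φ r)}

theorem coeff_mem_cfs {A : Type v} [CommRing A] [Algebra ℂ A]
    (Φ : R →ₐ[ℂ] MvPolynomial (Fin 2) A) (r : R) (m : Fin 2 →₀ ℕ) : coeff m (Φ r) ∈ cfs Φ :=
  Algebra.subset_adjoin ⟨r, m, rfl⟩

/-- There are `n` algebraically independent elements in the algebra of the coefficients. -/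
def TrGE {A : Type v} [CommRing A] [Algebra ℂ A] (Φ : R →ₐ[ℂ] MvPolynomial (Fin 2) A) (n : ℕ) :
    Prop :=
  ∃ x : Fin n → A, (∀ i, x i ∈ cfs Φ) ∧ AlgebraicIndependent ℂ x

theorem cfs_le {A : Type v} [CommRing A] [Algebra ℂ A]
    (Φ : R →ₐ[ℂ] MvPolynomial (Fin 2) A) {s : Set R} (hs : Algebra.adjoin ℂ s = ⊤)
    (B : Subalgebra ℂ A) (hB : ∀ r ∈ s, ∀ m, coeff m (Φ r) ∈ B) : cfs Φ ≤ B := by
  classical
  refine Algebra.adjoin_le ?_
  rintro c ⟨r, m, rfl⟩
  have hr : r ∈ Algebra.adjoin ℂ s := by rw [hs]; trivial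
  have key : ∀ m, coeff m (Φ r) ∈ B := by
    induction hr using Algebra.adjoin_induction with
    | mem r hr => exact hB r hr
    | algebraMap c =>
      intro m
      rw [AlgHom.commutes, MvPolynomial.algebraMap_apply, coeff_C]
      split_ifs
      · exact B.algebraMap_mem c
      · exact B.zero_mem
    | add x y _ _ hx hy => intro m; rw [map_add, coeff_add]; exact B.add_mem (hx m) (hy m)
    | mul x y _ _ hx hy =>
      intro m
      rw [map_mul, coeff_mul]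
      exact B.sum_mem fun e _ => B.mul_mem (hx _) (hy _)
  exact key m

theorem trGE_map_iff {A : Type v} [CommRing A] [Algebra ℂ A] {Ω : Type w} [CommRing Ω]
    [Algebra ℂ Ω] (ι : A →ₐ[ℂ] Ω) (hι : Function.Injective ι)
    (Φ : R →ₐ[ℂ] MvPolynomial (Fin 2) A) (n : ℕ) (h : TrGE Φ n) :
    TrGE ((mapAlgHom ι).comp Φ) n := by
  obtain ⟨x, hx, hi⟩ := h
  refine ⟨ι ∘ x, fun i => ?_, hi.map' hι⟩
  have h1 : (cfs Φ).map ι ≤ cfs ((mapAlgHom ι).comp Φ) := by
    rw [cfs, AlgHom.map_adjoin]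
    refine Algebra.adjoin_mono ?_
    rintro _ ⟨_, ⟨r, m, rfl⟩, rfl⟩
    exact ⟨r, m, by simp [coeff_map]⟩
  exact h1 ⟨x i, hx i, rfl⟩

theorem trGE_le {𝒜 : ℕ → Submodule ℂ R} [GradedAlgebra 𝒜] {K : Type v} [Field K] [Algebra ℂ K]
    {φ : R →ₐ[ℂ] MvPolynomial (Fin 2) K} {d : ℕ}
    (hdeg : ∀ k, ∀ r ∈ 𝒜 k, (φ r).IsHomogeneous (d * k)) {s : Finset R}
    (hs : Algebra.adjoin ℂ (s : Set R) = ⊤) {n : ℕ} (h : TrGE φ n) :
    n ≤ Fintype.card (Σ r : s, box (dbd 𝒜 d r.1)) := by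
  classical
  obtain ⟨x, hx, hi⟩ := h
  let z : (Σ r : s, box (dbd 𝒜 d r.1)) → K := fun j => coeff j.2.1 (φ j.1.1)
  have h1 : cfs φ ≤ (aeval z : MvPolynomial _ ℂ →ₐ[ℂ] K).range := by
    refine cfs_le φ hs _ fun r hr m => ?_
    by_cases hm : m ∈ box (dbd 𝒜 d r)
    · refine ⟨X ⟨⟨r, hr⟩, ⟨m, hm⟩⟩, ?_⟩
      change aeval z (X _) = _
      rw [aeval_X]
    · rw [coeff_eq_zero_of_notMem_box hdeg r m hm]
      exact Subalgebra.zero_mem _
  choose y hy using fun i => h1 (hx i)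
  have h2 : AlgebraicIndependent ℂ y := by
    refine AlgebraicIndependent.of_comp (aeval z : MvPolynomial _ ℂ →ₐ[ℂ] K) ?_
    have : (aeval z : MvPolynomial _ ℂ →ₐ[ℂ] K) ∘ y = x := funext fun i => hy i
    rw [this]
    exact hi
  have h3 := h2.lift_cardinalMk_le_trdeg
  rw [MvPolynomial.trdeg_of_isDomain] at h3
  simp only [Cardinal.lift_natCast, Cardinal.mk_fintype, Fintype.card_fin] at h3
  exact_mod_cast h3

end cfs

section arc

variable {R : Type u} [CommRing R] [Algebra ℂ R]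

/-- The reduction of a family over power series with the same transcendence degree is injective
on the algebra of coefficients. -/
theorem cfs_reduction_injective {A : Type v} [CommRing A] [IsDomain A] [Algebra ℂ A]
    {K : Type w} [CommRing K] [Algebra ℂ K] (π : A →ₐ[ℂ] K)
    (Φ : R →ₐ[ℂ] MvPolynomial (Fin 2) A) {n : ℕ} (hn : TrGE ((mapAlgHom π).comp Φ) n)
    (hmax : ¬ TrGE Φ (n + 1)) (z : A) (hz : z ∈ cfs Φ) (hπ : π z = 0) : z = 0 := by
  classical
  by_contra hz0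
  obtain ⟨x, hx, hi⟩ := hn
  have h1 : cfs ((mapAlgHom π).comp Φ) ≤ (cfs Φ).map π := by
    rw [cfs, cfs, AlgHom.map_adjoin]
    refine Algebra.adjoin_mono ?_
    rintro _ ⟨r, m, rfl⟩
    exact ⟨coeff m (Φ r), ⟨r, m, rfl⟩, by simp [coeff_map]⟩
  choose y hy using fun i => h1 (hx i)
  have hyx : π ∘ y = x := funext fun i => (hy i).2
  have h2 : AlgebraicIndependent ℂ y := by
    refine AlgebraicIndependent.of_comp π ?_
    rw [hyx]
    exact hi
  have h3 : ¬ AlgebraicIndependent ℂ (fun o : Option (Fin n) => o.elim z y) := by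
    intro h4
    refine hmax ⟨fun i => (fun o : Option (Fin n) => o.elim z y) (finSuccEquiv n i), fun i => ?_,
      h4.comp _ (finSuccEquiv n).injective⟩
    change ((finSuccEquiv n i).elim z y) ∈ cfs Φ
    rcases finSuccEquiv n i with _ | j
    · exact hz
    · exact (hy j).1
  rw [h2.option_iff_transcendental, Transcendental, not_not] at h3
  obtain ⟨q, hq0, hq⟩ := h3.exists_nonzero_coeff_and_aeval_eq_zero
    (mem_nonZeroDivisors_of_ne_zero hz0)
  -- apply the reduction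
  have h5 : π (q.coeff 0 : A) = 0 := by
    have h6 : (Polynomial.aeval z q : A) = (q.coeff 0 : A) + z * Polynomial.aeval z q.divX := by
      conv_lhs => rw [← Polynomial.divX_mul_X_add q]
      rw [map_add, map_mul, Polynomial.aeval_X, Polynomial.aeval_C]
      rw [add_comm, mul_comm]
      rfl
    rw [h6] at hq
    have h7 := congrArg π hq
    rwa [map_add, map_mul, hπ, zero_mul, add_zero, map_zero] at h7
  have h8 : (q.coeff 0 : A) ∈ (aeval y : MvPolynomial (Fin n) ℂ →ₐ[ℂ] A).range := by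
    rw [← Algebra.adjoin_range_eq_range_aeval]
    exact (q.coeff 0).2
  obtain ⟨p, hp⟩ := h8
  have h9 : aeval x p = 0 := by
    rw [← hyx]
    have : aeval (π ∘ y) p = π (aeval y p) := by
      rw [← AlgHom.comp_apply, comp_aeval]
      rfl
    rw [this]
    rw [← h5, ← hp]
    rfl
  have h10 : p = 0 := by
    have := hi
    rw [algebraicIndependent_iff] at this
    exact this p h9
  apply hq0
  apply Subtype.ext
  rw [← hp, h10]
  simp

/-- The derivation of the field defined by an arc with the same transcendence degree. -/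
theorem exists_derivation_of_arc {K : Type v} [Field K] [Algebra ℂ K]
    {φ : R →ₐ[ℂ] MvPolynomial (Fin 2) K} {δ : R →ₗ[ℂ] MvPolynomial (Fin 2) K}
    (Φ : R →ₐ[ℂ] MvPolynomial (Fin 2) (PowerSeries K))
    (h0 : ∀ r, map PowerSeries.constantCoeff (Φ r) = φ r)
    (h1 : ∀ r m, PowerSeries.coeff 1 (coeff m (Φ r)) = coeff m (δ r)) {n : ℕ}
    (hn : TrGE φ n) (hmax : ¬ TrGE Φ (n + 1)) :
    ∃ D : Derivation ℂ K K, ∀ r, mapD D (φ r) = δ r := by
  classical
  let π : PowerSeries K →ₐ[ℂ] K :=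
    { (PowerSeries.constantCoeff : PowerSeries K →+* K) with
      commutes' := fun c => by
        change PowerSeries.constantCoeff (algebraMap ℂ (PowerSeries K) c) = _
        rw [PowerSeries.algebraMap_apply, PowerSeries.constantCoeff_C] }
  have hπ : ∀ f, π f = PowerSeries.constantCoeff f := fun f => rfl
  have hcomp : (mapAlgHom π).comp Φ = φ := by
    ext r : 1
    rw [← h0 r]
    rfl
  have hinj : ∀ f ∈ cfs Φ, ∀ g ∈ cfs Φ, π f = π g → f = g := by
    intro f hf g hg hfg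
    rw [← sub_eq_zero]
    refine cfs_reduction_injective π Φ (n := n) (by rwa [hcomp]) hmax _ (sub_mem hf hg) ?_
    rw [map_sub, hfg, sub_self]
  have hlift : ∀ a : cfs φ, ∃ f ∈ cfs Φ, π f = (a : K) := by
    rintro ⟨a, ha⟩
    have h2 : cfs φ ≤ (cfs Φ).map π := by
      rw [← hcomp, cfs, cfs, AlgHom.map_adjoin]
      refine Algebra.adjoin_mono ?_
      rintro _ ⟨r, m, rfl⟩
      exact ⟨coeff m (Φ r), ⟨r, m, rfl⟩, by simp [coeff_map]⟩
    obtain ⟨f, hf, hfa⟩ := h2 ha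
    exact ⟨f, hf, hfa⟩
  choose L hL hLπ using hlift
  have hLmul : ∀ a b, L (a * b) = L a * L b := fun a b =>
    hinj _ (hL _) _ (mul_mem (hL _) (hL _)) (by rw [map_mul, hLπ, hLπ, hLπ]; rfl)
  have hLadd : ∀ a b, L (a + b) = L a + L b := fun a b =>
    hinj _ (hL _) _ (add_mem (hL _) (hL _)) (by rw [map_add, hLπ, hLπ, hLπ]; rfl)
  have hLsmul : ∀ (c : ℂ) a, L (c • a) = c • L a := fun c a =>
    hinj _ (hL _) _ (Subalgebra.smul_mem _ (hL _) c) (by rw [map_smul, hLπ, hLπ]; rfl)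
  let d : Derivation ℂ (cfs φ) K := Derivation.mk'
    { toFun := fun a => PowerSeries.coeff 1 (L a)
      map_add' := fun a b => by rw [hLadd, map_add]
      map_smul' := fun c a => by
        rw [hLsmul, RingHom.id_apply, Algebra.smul_def c (L a), PowerSeries.algebraMap_apply,
          PowerSeries.coeff_C_mul, Algebra.smul_def] } (fun a b => by
    change PowerSeries.coeff 1 (L (a * b)) = a • PowerSeries.coeff 1 (L b) +
      b • PowerSeries.coeff 1 (L a)
    have e1 : PowerSeries.constantCoeff (L a) = (a : K) := hLπ a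
    have e2 : PowerSeries.constantCoeff (L b) = (b : K) := hLπ b
    rw [hLmul, PowerSeries.coeff_one_mul, e1, e2, Subalgebra.smul_def, Subalgebra.smul_def,
      smul_eq_mul, smul_eq_mul]
    ring)
  have hd : ∀ a, d a = PowerSeries.coeff 1 (L a) := fun a => rfl
  have : CharZero K := charZero_of_injective_algebraMap (algebraMap ℂ K).injective
  obtain ⟨D, hD⟩ := exists_derivation_extend (k := ℂ) (A := cfs φ) (E := K)
    Subtype.val_injective d
  refine ⟨D, fun r => ?_⟩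
  ext m
  rw [coeff_mapD]
  have h2 := hD ⟨coeff m (φ r), coeff_mem_cfs φ r m⟩
  have h3 : L ⟨coeff m (φ r), coeff_mem_cfs φ r m⟩ = coeff m (Φ r) := by
    refine hinj _ (hL _) _ (coeff_mem_cfs Φ r m) ?_
    rw [hLπ, hπ]
    change coeff m (φ r) = _
    rw [← h0 r, coeff_map]
  rw [hd, h3, h1] at h2
  exact h2

end arc

section classes

variable {R : Type u} [CommRing R] [Algebra ℂ R] {𝒜 : ℕ → Submodule ℂ R} [GradedAlgebra 𝒜]
  {P : R →ₗ[ℂ] R →ₗ[ℂ] R}

theorem q2d_exists_max (hX : IsContactFano 𝒜 P) {d : ℕ}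
    (Cls : ∀ (Ω : Type u) [Field Ω] [IsAlgClosed Ω] [Algebra ℂ Ω],
      (R →ₐ[ℂ] MvPolynomial (Fin 2) Ω) → Prop)
    (hCls : ∀ (Ω : Type u) [Field Ω] [IsAlgClosed Ω] [Algebra ℂ Ω]
      (φ : R →ₐ[ℂ] MvPolynomial (Fin 2) Ω), Cls Ω φ → IsCurve 𝒜 d φ)
    (hne : ∃ (Ω : Type u) (_ : Field Ω) (_ : IsAlgClosed Ω) (_ : Algebra ℂ Ω)
      (φ : R →ₐ[ℂ] MvPolynomial (Fin 2) Ω), Cls Ω φ) :
    ∃ (n : ℕ) (Ω : Type u) (_ : Field Ω) (_ : IsAlgClosed Ω) (_ : Algebra ℂ Ω)
      (φ : R →ₐ[ℂ] MvPolynomial (Fin 2) Ω), Cls Ω φ ∧ TrGE φ n ∧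
      ∀ (Ω' : Type u) [Field Ω'] [IsAlgClosed Ω'] [Algebra ℂ Ω']
        (φ' : R →ₐ[ℂ] MvPolynomial (Fin 2) Ω'), Cls Ω' φ' → ¬ TrGE φ' (n + 1) := by
  classical
  have := hX.finiteType
  obtain ⟨s, hs, -⟩ := exists_generators 𝒜 hX.connected
  by_contra hcon
  push Not at hcon
  have key : ∀ n : ℕ, ∃ (Ω : Type u) (_ : Field Ω) (_ : IsAlgClosed Ω) (_ : Algebra ℂ Ω)
      (φ : R →ₐ[ℂ] MvPolynomial (Fin 2) Ω), Cls Ω φ ∧ TrGE φ n := by
    intro n
    induction n with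
    | zero =>
      obtain ⟨Ω, i1, i2, i3, φ, hφ⟩ := hne
      refine ⟨Ω, i1, i2, i3, φ, hφ, fun i => i.elim0, fun i => i.elim0, ?_⟩
      rw [algebraicIndependent_empty_type_iff]
      exact (algebraMap ℂ Ω).injective
    | succ n ih =>
      obtain ⟨Ω, i1, i2, i3, φ, hφ, hn⟩ := ih
      obtain ⟨Ω', j1, j2, j3, φ', hφ', hn'⟩ := hcon n Ω i1 i2 i3 φ hφ hn
      exact ⟨Ω', j1, j2, j3, φ', hφ', hn'⟩
  obtain ⟨Ω, i1, i2, i3, φ, hφ, hn⟩ := key (Fintype.card (Σ r : s, box (dbd 𝒜 d r.1)) + 1)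
  have := trGE_le (hCls Ω φ hφ).degree hs hn
  omega

/-- The algebraic closure of the field of Laurent series. -/
abbrev ArcField (K : Type u) [Field K] : Type u := AlgebraicClosure (FractionRing (PowerSeries K))

/-- The embedding of the power series. -/
noncomputable def arcMap (K : Type u) [Field K] [Algebra ℂ K] :
    PowerSeries K →ₐ[ℂ] ArcField K :=
  IsScalarTower.toAlgHom ℂ (PowerSeries K) (ArcField K)

theorem arcMap_injective (K : Type u) [Field K] [Algebra ℂ K] :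
    Function.Injective (arcMap K) := by
  have h1 : Function.Injective (algebraMap (PowerSeries K) (ArcField K)) := by
    rw [IsScalarTower.algebraMap_eq (PowerSeries K) (FractionRing (PowerSeries K)) (ArcField K)]
    exact (algebraMap (FractionRing (PowerSeries K)) (ArcField K)).injective.comp
      (IsFractionRing.injective _ _)
  exact h1

/-- The generic member of an arc of curves is a curve. -/
theorem q2d_isCurve {K : Type u} [Field K] [IsAlgClosed K] [Algebra ℂ K] {d : ℕ}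
    {φ : R →ₐ[ℂ] MvPolynomial (Fin 2) K} (hφ : IsCurve 𝒜 d φ)
    (Φ : R →ₐ[ℂ] MvPolynomial (Fin 2) (PowerSeries K))
    (hdeg : ∀ k, ∀ r ∈ 𝒜 k, (Φ r).IsHomogeneous (d * k))
    (h0 : ∀ r, map PowerSeries.constantCoeff (Φ r) = φ r) :
    IsCurve 𝒜 d ((mapAlgHom (arcMap K)).comp Φ) := by
  classical
  let π : PowerSeries K →ₐ[ℂ] K :=
    { (PowerSeries.constantCoeff : PowerSeries K →+* K) with
      commutes' := fun c => by
        change PowerSeries.constantCoeff (algebraMap ℂ (PowerSeries K) c) = _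
        rw [PowerSeries.algebraMap_apply, PowerSeries.constantCoeff_C] }
  have hcomp : (mapAlgHom π).comp Φ = φ := by
    ext r : 1
    rw [← h0 r]
    rfl
  have hp : (Ideal.span {(PowerSeries.X : PowerSeries K)}).IsPrime := by
    rw [Ideal.span_singleton_prime PowerSeries.X_ne_zero]
    exact PowerSeries.X_prime
  obtain ⟨O, hO⟩ := exists_valuationSubring_prime (arcMap K : PowerSeries K →+* ArcField K)
    (arcMap_injective K) (Ideal.span {(PowerSeries.X : PowerSeries K)})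
  refine IsCurve.of_reduction π (fun a => ⟨PowerSeries.C a, PowerSeries.constantCoeff_C a⟩)
    (arcMap K) O (fun a => (hO a).1) (fun a ha => ((hO a).2).1 ?_) Φ hdeg (by rwa [hcomp])
  rw [Ideal.mem_span_singleton, PowerSeries.X_dvd_iff]
  exact ha

theorem q2d_pt {K : Type u} [Field K] [Algebra ℂ K]
    {φ : R →ₐ[ℂ] MvPolynomial (Fin 2) K}
    (Φ : R →ₐ[ℂ] MvPolynomial (Fin 2) (PowerSeries K))
    (h0 : ∀ r, map PowerSeries.constantCoeff (Φ r) = φ r) (a : Fin 2 → ℕ) (r : R) :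
    ∃ f : PowerSeries K, PowerSeries.constantCoeff f = pt φ (fun i => (a i : K)) r ∧
      pt ((mapAlgHom (arcMap K)).comp Φ) (fun i => (a i : ArcField K)) r = arcMap K f := by
  refine ⟨eval (fun i => (a i : PowerSeries K)) (Φ r), ?_, ?_⟩
  · rw [pt_apply, ← h0 r, eval_map, ← eval₂_id, hom_eval₂]
    congr 1
  · rw [pt_apply]
    change eval _ (map (arcMap K : PowerSeries K →+* ArcField K) (Φ r)) =
      (arcMap K : PowerSeries K →+* ArcField K) _
    rw [eval_map, ← eval₂_id, hom_eval₂]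
    congr 1
    funext i
    exact (map_natCast _ _).symm

theorem q2d_vec10 {K : Type*} [Field K] : (fun i => ((![1, 0] : Fin 2 → ℕ) i : K)) = ![1, 0] := by
  funext i
  fin_cases i <;> simp

theorem q2d_vec01 {K : Type*} [Field K] : (fun i => ((![0, 1] : Fin 2 → ℕ) i : K)) = ![0, 1] := by
  funext i
  fin_cases i <;> simp

theorem q2d_isAnch {K : Type u} [Field K] [IsAlgClosed K] [Algebra ℂ K] {d : ℕ}
    {φ : R →ₐ[ℂ] MvPolynomial (Fin 2) K} (hφ : IsAnch 𝒜 d φ)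
    (Φ : R →ₐ[ℂ] MvPolynomial (Fin 2) (PowerSeries K))
    (hdeg : ∀ k, ∀ r ∈ 𝒜 k, (Φ r).IsHomogeneous (d * k))
    (h0 : ∀ r, map PowerSeries.constantCoeff (Φ r) = φ r) :
    IsAnch 𝒜 d ((mapAlgHom (arcMap K)).comp Φ) := by
  refine ⟨q2d_isCurve hφ.curve Φ hdeg h0, ?_⟩
  rw [injective_iff_map_eq_zero]
  intro r hr
  obtain ⟨f, hf1, hf2⟩ := q2d_pt Φ h0 ![1, 0] r
  rw [q2d_vec10] at hf1 hf2
  rw [hf2, map_eq_zero_iff _ (arcMap_injective K)] at hr
  rw [hr, map_zero] at hf1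
  exact (injective_iff_map_eq_zero (pt φ ![1, 0])).1 hφ.inj r hf1.symm

theorem q2d_nonProp {K : Type u} [Field K] [IsAlgClosed K] [Algebra ℂ K]
    {φ : R →ₐ[ℂ] MvPolynomial (Fin 2) K} (hφ : NonProp 𝒜 φ)
    (Φ : R →ₐ[ℂ] MvPolynomial (Fin 2) (PowerSeries K))
    (h0 : ∀ r, map PowerSeries.constantCoeff (Φ r) = φ r) :
    NonProp 𝒜 ((mapAlgHom (arcMap K)).comp Φ) := by
  obtain ⟨k, r, hr, s, hs, hne⟩ := hφ
  refine ⟨k, r, hr, s, hs, fun heq => hne ?_⟩
  obtain ⟨f1, hf1, hf1'⟩ := q2d_pt Φ h0 ![1, 0] r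
  obtain ⟨f2, hf2, hf2'⟩ := q2d_pt Φ h0 ![1, 0] s
  obtain ⟨g1, hg1, hg1'⟩ := q2d_pt Φ h0 ![0, 1] r
  obtain ⟨g2, hg2, hg2'⟩ := q2d_pt Φ h0 ![0, 1] s
  rw [q2d_vec10] at hf1 hf2 hf1' hf2'
  rw [q2d_vec01] at hg1 hg2 hg1' hg2'
  rw [hf1', hf2', hg1', hg2', ← map_mul, ← map_mul] at heq
  have h1 := arcMap_injective K heq
  rw [← hf1, ← hf2, ← hg1, ← hg2, ← map_mul, ← map_mul, h1]

theorem q2d_b_ne_zero (hX : IsContactFano 𝒜 P) {K : Type u} [Field K] [IsAlgClosed K]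
    [Algebra ℂ K] {φ : R →ₐ[ℂ] MvPolynomial (Fin 2) K} (hφ : IsCurve 𝒜 2 φ) {b : K}
    (hb : omC P φ (pd φ 0) (pd φ 1) = C b) (hb0 : b ≠ 0)
    (Φ : R →ₐ[ℂ] MvPolynomial (Fin 2) (PowerSeries K))
    (hdeg : ∀ k, ∀ r ∈ 𝒜 k, (Φ r).IsHomogeneous (2 * k))
    (h0 : ∀ r, map PowerSeries.constantCoeff (Φ r) = φ r) :
    ∃ b' : ArcField K, omC P ((mapAlgHom (arcMap K)).comp Φ)
      (pd ((mapAlgHom (arcMap K)).comp Φ) 0) (pd ((mapAlgHom (arcMap K)).comp Φ) 1) = C b' ∧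
      b' ≠ 0 := by
  classical
  set φ' := (mapAlgHom (arcMap K)).comp Φ with hφ'
  have hc' : IsCurve 𝒜 2 φ' := q2d_isCurve hφ Φ hdeg h0
  obtain ⟨b', hb'⟩ := exists_b hX hc'
  refine ⟨b', hb', fun hb0' => hb0 ?_⟩
  have hNV : IsNV 𝒜 φ := by
    obtain ⟨k, hk, r, hr, h1⟩ := hφ.bpf ![1, 0] vec10_ne
    exact ⟨k, hk, r, hr, fun h2 => h1 (by rw [h2, map_zero])⟩
  obtain ⟨N, x, k, g, l, -, -, hg, hdet, hch⟩ := exists_chart_kd hX φ hNV
  have e1 := omC_chart hX hφ (isHDer_pd hφ 0) (isHDer_pd hφ 1) x g hg hch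
  have hmap : ∀ r, φ' r = map (arcMap K : PowerSeries K →+* ArcField K) (Φ r) := fun r => rfl
  have hinj : Function.Injective (map (arcMap K : PowerSeries K →+* ArcField K) :
      MvPolynomial (Fin 2) (PowerSeries K) → MvPolynomial (Fin 2) (ArcField K)) :=
    map_injective _ (arcMap_injective K)
  have hg' : φ' g ≠ 0 := by
    intro h1
    apply hg
    rw [hmap, map_eq_zero_iff _ hinj] at h1
    rw [← h0, h1, map_zero]
  have e2 := omC_chart hX hc' (isHDer_pd hc' 0) (isHDer_pd hc' 1) x g hg' hch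
  rw [hb', hb0', C_0, mul_zero] at e2
  have e3 : (∑ i, ∑ j, pderiv 0 (Φ (x i)) *
      Φ (Matrix.adjugate (Matrix.of fun i j => P (x i) (x j)) i j) * pderiv 1 (Φ (x j))) = 0 := by
    apply hinj
    rw [map_zero]
    rw [e2]
    simp only [map_sum, map_mul, pderiv_map, pd_apply, hmap]
  have e4 : φ (Matrix.det (Matrix.of fun i j => P (x i) (x j))) * C b = 0 := by
    rw [hb] at e1
    rw [e1]
    have e5 := congrArg (map (PowerSeries.constantCoeff : PowerSeries K →+* K)) e3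
    rw [map_zero] at e5
    rw [← e5]
    simp only [map_sum, map_mul, pderiv_map, pd_apply, ← h0]
  have e6 := (mul_eq_zero.mp e4).resolve_left hdet
  rwa [C_eq_zero] at e6

theorem q2d_isFull {K : Type u} [Field K] [IsAlgClosed K] [Algebra ℂ K] {d n : ℕ}
    {φ : R →ₐ[ℂ] MvPolynomial (Fin 2) K} (hn : TrGE φ n)
    (hmax : ∀ (Φ : R →ₐ[ℂ] MvPolynomial (Fin 2) (PowerSeries K)),
      (∀ k, ∀ r ∈ 𝒜 k, (Φ r).IsHomogeneous (d * k)) →
      (∀ r, map PowerSeries.constantCoeff (Φ r) = φ r) →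
      ¬ TrGE ((mapAlgHom (arcMap K)).comp Φ) (n + 1))
    (harc : ∀ δ, IsHDer 𝒜 d φ 0 δ → ∃ Φ : R →ₐ[ℂ] MvPolynomial (Fin 2) (PowerSeries K),
      (∀ k, ∀ r ∈ 𝒜 k, (Φ r).IsHomogeneous (d * k)) ∧
      (∀ r, map PowerSeries.constantCoeff (Φ r) = φ r) ∧
      ∀ r e, PowerSeries.coeff 1 (coeff e (Φ r)) = coeff e (δ r)) : IsFull 𝒜 d φ := by
  intro δ hδ
  obtain ⟨Φ, h1, h2, h3⟩ := harc δ hδ
  exact exists_derivation_of_arc Φ h2 h3 hn fun h4 =>
    hmax Φ h1 h2 (trGE_map_iff _ (arcMap_injective K) Φ _ h4)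

/-- The arc property: every deformation of first order extends to an arc. -/
def HasArcs (𝒜 : ℕ → Submodule ℂ R) : Prop :=
  ∀ (K : Type u) [Field K] [IsAlgClosed K] [Algebra ℂ K] (d : ℕ)
    (φ : R →ₐ[ℂ] MvPolynomial (Fin 2) K), IsAnch 𝒜 d φ → ∀ δ, IsHDer 𝒜 d φ 0 δ →
    ∃ Φ : R →ₐ[ℂ] MvPolynomial (Fin 2) (PowerSeries K),
      (∀ k, ∀ r ∈ 𝒜 k, (Φ r).IsHomogeneous (d * k)) ∧
      (∀ r, map PowerSeries.constantCoeff (Φ r) = φ r) ∧
      ∀ r e, PowerSeries.coeff 1 (coeff e (Φ r)) = coeff e (δ r)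

theorem q2d_full_line (hX : IsContactFano 𝒜 P) (harc : HasArcs 𝒜) {K : Type u} [Field K]
    [IsAlgClosed K] [Algebra ℂ K] {φ : R →ₐ[ℂ] MvPolynomial (Fin 2) K} {d : ℕ}
    (hφ : IsAnch 𝒜 d φ) :
    ∃ (Ω : Type u) (_ : Field Ω) (_ : IsAlgClosed Ω) (_ : Algebra ℂ Ω)
      (ψ : R →ₐ[ℂ] MvPolynomial (Fin 2) Ω), IsAnch 𝒜 d ψ ∧ IsFull 𝒜 d ψ := by
  obtain ⟨n, Ω, i1, i2, i3, ψ, h1, h2, h3⟩ := q2d_exists_max hX (d := d)
    (fun Ω _ _ _ φ => IsAnch 𝒜 d φ) (fun Ω _ _ _ φ h => h.curve)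
    ⟨K, inferInstance, inferInstance, inferInstance, φ, hφ⟩
  exact ⟨Ω, i1, i2, i3, ψ, h1, q2d_isFull h2
    (fun Φ h4 h5 => h3 _ _ (q2d_isAnch h1 Φ h4 h5)) (harc Ω d ψ h1)⟩

theorem q2d_full_conic (hX : IsContactFano 𝒜 P) (harc : HasArcs 𝒜) {K : Type u} [Field K]
    [IsAlgClosed K] [Algebra ℂ K] {φ : R →ₐ[ℂ] MvPolynomial (Fin 2) K}
    (hφ : IsAnch 𝒜 2 φ) {b : K} (hb : omC P φ (pd φ 0) (pd φ 1) = C b) (hb0 : b ≠ 0) :
    ∃ (Ω : Type u) (_ : Field Ω) (_ : IsAlgClosed Ω) (_ : Algebra ℂ Ω)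
      (ψ : R →ₐ[ℂ] MvPolynomial (Fin 2) Ω), IsAnch 𝒜 2 ψ ∧ IsFull 𝒜 2 ψ ∧
      ∃ b' : Ω, omC P ψ (pd ψ 0) (pd ψ 1) = C b' ∧ b' ≠ 0 := by
  obtain ⟨n, Ω, i1, i2, i3, ψ, h1, h2, h3⟩ := q2d_exists_max hX (d := 2)
    (fun Ω _ _ _ φ => IsAnch 𝒜 2 φ ∧ ∃ b : Ω, omC P φ (pd φ 0) (pd φ 1) = C b ∧ b ≠ 0)
    (fun Ω _ _ _ φ h => h.1.curve)
    ⟨K, inferInstance, inferInstance, inferInstance, φ, hφ, b, hb, hb0⟩
  obtain ⟨h1, b1, hb1, hb1'⟩ := h1
  exact ⟨Ω, i1, i2, i3, ψ, h1, q2d_isFull h2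
    (fun Φ h4 h5 => h3 _ _ ⟨q2d_isAnch h1 Φ h4 h5, q2d_b_ne_zero hX h1.curve hb1 hb1' Φ h4 h5⟩)
    (harc Ω 2 ψ h1), b1, hb1, hb1'⟩

theorem q2d_full_conic' (hX : IsContactFano 𝒜 P) (harc : HasArcs 𝒜) {K : Type u} [Field K]
    [IsAlgClosed K] [Algebra ℂ K] {φ : R →ₐ[ℂ] MvPolynomial (Fin 2) K}
    (hφ : IsAnch 𝒜 2 φ) (hp : NonProp 𝒜 φ) :
    ∃ (Ω : Type u) (_ : Field Ω) (_ : IsAlgClosed Ω) (_ : Algebra ℂ Ω)
      (ψ : R →ₐ[ℂ] MvPolynomial (Fin 2) Ω), IsAnch 𝒜 2 ψ ∧ IsFull 𝒜 2 ψ ∧ NonProp 𝒜 ψ := by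
  obtain ⟨n, Ω, i1, i2, i3, ψ, h1, h2, h3⟩ := q2d_exists_max hX (d := 2)
    (fun Ω _ _ _ φ => IsAnch 𝒜 2 φ ∧ NonProp 𝒜 φ) (fun Ω _ _ _ φ h => h.1.curve)
    ⟨K, inferInstance, inferInstance, inferInstance, φ, hφ, hp⟩
  exact ⟨Ω, i1, i2, i3, ψ, h1.1, q2d_isFull h2
    (fun Φ h4 h5 => h3 _ _ ⟨q2d_isAnch h1.1 Φ h4 h5, q2d_nonProp h1.2 Φ h5⟩)
    (harc Ω 2 ψ h1.1), h1.2⟩

end classes

end Vale.Agent.P292
end

section

/-! # Arcs of curves, part 1: derivations of degree `K` along families of curves of degree `d`. -/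

namespace Vale.Agent.P292.VF

open MvPolynomial

universe u v w z

variable {R : Type u} [CommRing R] [Algebra ℂ R] {𝒜 : ℕ → Submodule ℂ R}

section basic

variable {A : Type v} [CommRing A] [Algebra ℂ A] {B : Type w} [CommRing B] [Algebra ℂ B]

/-- `D` is a derivation of degree `K` along `Φ` (a family of curves of degree `d`). -/
structure HZ (𝒜 : ℕ → Submodule ℂ R) (d : ℕ) (Φ : R →ₐ[ℂ] MvPolynomial (Fin 2) A) (K : ℕ)
    (D : R →ₗ[ℂ] MvPolynomial (Fin 2) A) : Prop where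
  der : IsDer Φ D
  deg : ∀ k, ∀ r ∈ 𝒜 k, (D r).IsHomogeneous (d * k + K)

variable {d : ℕ}

theorem HZ.smul {Φ : R →ₐ[ℂ] MvPolynomial (Fin 2) A} {K j : ℕ}
    {D : R →ₗ[ℂ] MvPolynomial (Fin 2) A} (h : HZ 𝒜 d Φ K D) {f : MvPolynomial (Fin 2) A}
    (hf : f.IsHomogeneous j) : HZ 𝒜 d Φ (j + K) (f • D) where
  der := (DerAt Φ).smul_mem f h.der
  deg k r hr := by
    have := hf.mul (h.deg k r hr)
    rw [show d * k + (j + K) = j + (d * k + K) by ring]
    exact this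

theorem HZ.add {Φ : R →ₐ[ℂ] MvPolynomial (Fin 2) A} {K : ℕ}
    {D D' : R →ₗ[ℂ] MvPolynomial (Fin 2) A} (h : HZ 𝒜 d Φ K D) (h' : HZ 𝒜 d Φ K D') :
    HZ 𝒜 d Φ K (D + D') where
  der := (DerAt Φ).add_mem h.der h'.der
  deg k r hr := (h.deg k r hr).add (h'.deg k r hr)

theorem HZ.sub {Φ : R →ₐ[ℂ] MvPolynomial (Fin 2) A} {K : ℕ}
    {D D' : R →ₗ[ℂ] MvPolynomial (Fin 2) A} (h : HZ 𝒜 d Φ K D) (h' : HZ 𝒜 d Φ K D') :
    HZ 𝒜 d Φ K (D - D') where
  der := (DerAt Φ).sub_mem h.der h'.der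
  deg k r hr := (h.deg k r hr).sub (h'.deg k r hr)

theorem HZ.zero {Φ : R →ₐ[ℂ] MvPolynomial (Fin 2) A} {K : ℕ} : HZ 𝒜 d Φ K 0 where
  der := (DerAt Φ).zero_mem
  deg _ _ _ := isHomogeneous_zero _ _ _

/-- auxiliary function for `hz` -/
noncomputable def hzAux (𝒜 : ℕ → Submodule ℂ R) (d K : ℕ)
    (D : R →ₗ[ℂ] MvPolynomial (Fin 2) A) (k : ℕ) : 𝒜 k →ₗ[ℂ] MvPolynomial (Fin 2) A :=
  ((homogeneousComponent (d * k + K)).restrictScalars ℂ) ∘ₗ D ∘ₗ (𝒜 k).subtype

/-- The part of degree `K` of a linear map. -/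
noncomputable def hz (𝒜 : ℕ → Submodule ℂ R) [GradedAlgebra 𝒜] (d K : ℕ)
    (D : R →ₗ[ℂ] MvPolynomial (Fin 2) A) : R →ₗ[ℂ] MvPolynomial (Fin 2) A :=
  (DirectSum.toModule ℂ ℕ _ (hzAux 𝒜 d K D)) ∘ₗ (DirectSum.decomposeLinearEquiv 𝒜).toLinearMap

variable [GradedAlgebra 𝒜]

theorem hz_mem {K : ℕ} {D : R →ₗ[ℂ] MvPolynomial (Fin 2) A} {k : ℕ} {r : R}
    (hr : r ∈ 𝒜 k) : hz 𝒜 d K D r = homogeneousComponent (d * k + K) (D r) := by
  have h0 : hz 𝒜 d K D r = hzAux 𝒜 d K D k ⟨r, hr⟩ := by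
    unfold hz
    rw [LinearMap.comp_apply]
    have h1 : (DirectSum.decomposeLinearEquiv 𝒜).toLinearMap r =
        DirectSum.lof ℂ ℕ (fun i => 𝒜 i) k ⟨r, hr⟩ := DirectSum.decompose_of_mem 𝒜 hr
    rw [h1, DirectSum.toModule_lof]
  rw [h0]; rfl

theorem hz_add (K : ℕ) (D D' : R →ₗ[ℂ] MvPolynomial (Fin 2) A) :
    hz 𝒜 d K (D + D') = hz 𝒜 d K D + hz 𝒜 d K D' := by
  refine ext_graded (𝒜 := 𝒜) fun k r hr => ?_
  rw [LinearMap.add_apply, hz_mem hr, hz_mem hr, hz_mem hr, LinearMap.add_apply, map_add]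

theorem HZ.hz_eq {Φ : R →ₐ[ℂ] MvPolynomial (Fin 2) A} {K : ℕ}
    {D : R →ₗ[ℂ] MvPolynomial (Fin 2) A} (h : HZ 𝒜 d Φ K D) : hz 𝒜 d K D = D := by
  refine ext_graded (𝒜 := 𝒜) fun k r hr => ?_
  rw [hz_mem hr, homogeneousComponent_of_mem (h.deg k r hr), if_pos rfl]

theorem isHZ_hz {Φ : R →ₐ[ℂ] MvPolynomial (Fin 2) A}
    (hΦ : ∀ k, ∀ r ∈ 𝒜 k, (Φ r).IsHomogeneous (d * k))
    {D : R →ₗ[ℂ] MvPolynomial (Fin 2) A} (h : IsDer Φ D) (K : ℕ) :
    HZ 𝒜 d Φ K (hz 𝒜 d K D) where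
  deg k r hr := by
    rw [hz_mem hr]
    exact homogeneousComponent_isHomogeneous _ _
  der := by
    have key : ∀ i, ∀ r ∈ 𝒜 i, ∀ j, ∀ s ∈ 𝒜 j,
        hz 𝒜 d K D (r * s) = Φ r * hz 𝒜 d K D s + Φ s * hz 𝒜 d K D r := by
      intro i r hr j s hs
      have hrs : r * s ∈ 𝒜 (i + j) := SetLike.GradedMul.mul_mem hr hs
      rw [hz_mem hrs, hz_mem hr, hz_mem hs, h r s, map_add]
      rw [show d * (i + j) + K = d * i + (d * j + K) by ring,
        homogeneousComponent_mul_left (hΦ _ r hr)]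
      rw [show d * i + (d * j + K) = d * j + (d * i + K) by ring,
        homogeneousComponent_mul_left (hΦ _ s hs)]
    intro r s
    refine DirectSum.Decomposition.inductionOn 𝒜 ?_ (fun {i} m => ?_) ?_ r
    · simp
    · refine DirectSum.Decomposition.inductionOn 𝒜 ?_ (fun {j} n => key i m m.2 j n n.2) ?_ s
      · simp
      · intro a b ha hb
        rw [mul_add, map_add, map_add, map_add, ha, hb]
        ring
    · intro a b ha hb
      rw [add_mul, map_add, map_add, map_add, ha, hb]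
      ring

theorem map_hz (π : A →ₐ[ℂ] B) (K : ℕ) (D : R →ₗ[ℂ] MvPolynomial (Fin 2) A)
    (D' : R →ₗ[ℂ] MvPolynomial (Fin 2) B) (h : ∀ r, map (π : A →+* B) (D r) = D' r) (r : R) :
    map (π : A →+* B) (hz 𝒜 d K D r) = hz 𝒜 d K D' r := by
  refine DirectSum.Decomposition.inductionOn 𝒜 ?_ (fun {i} m => ?_) ?_ r
  · simp
  · obtain ⟨m, hm⟩ := m
    rw [hz_mem hm, hz_mem hm, ← h]
    ext e
    rw [coeff_map, coeff_homogeneousComponent, coeff_homogeneousComponent, coeff_map]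
    split_ifs
    · rfl
    · exact map_zero _
  · intro a b ha hb
    rw [map_add, map_add, map_add, ha, hb]

/-- Patching of the two charts. -/
theorem exists_patchZ {Φ : R →ₐ[ℂ] MvPolynomial (Fin 2) A} {M : ℕ}
    {S T : R →ₗ[ℂ] MvPolynomial (Fin 2) A} (hS : HZ 𝒜 d Φ M S)
    (h : ∀ r, X 1 ^ M * S r = X 0 ^ M * T r) :
    ∃ D : R →ₗ[ℂ] MvPolynomial (Fin 2) A, HZ 𝒜 d Φ 0 D ∧ ∀ r, X 0 ^ M * D r = S r := by
  obtain ⟨D, hD⟩ := exists_factor
    (LinearMap.mulLeft ℂ (X 0 ^ M : MvPolynomial (Fin 2) A))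
    (fun f g hfg => X_pow_mul_injective 0 M hfg) S (fun r => exists_X_pow_mul (h r))
  have hD' : ∀ r, X 0 ^ M * D r = S r := hD
  refine ⟨D, ⟨fun r s => ?_, fun k r hr => ?_⟩, hD'⟩
  · apply X_pow_mul_injective 0 M
    rw [mul_add, mul_left_comm, hD', hD', hS.der, mul_left_comm, hD']
  · intro e he
    have h1 : coeff (Finsupp.single 0 M + e) (S r) = coeff e (D r) := by
      rw [← hD', X_pow_eq_monomial, coeff_monomial_mul, one_mul]
    have h2 := hS.deg k r hr (by rw [h1]; exact he)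
    rw [map_add] at h2
    have h3 : Finsupp.weight (1 : Fin 2 → ℕ) (Finsupp.single 0 M) = M := by
      rw [Finsupp.weight_single]; simp
    rw [h3] at h2
    omega

end basic

section field

variable {κ : Type z} [Field κ] [Algebra ℂ κ]
  {A : Type v} [CommRing A] [Algebra ℂ A] [Algebra κ A] [IsScalarTower ℂ κ A]
  {B : Type w} [CommRing B] [Algebra ℂ B] [Algebra κ B] [IsScalarTower ℂ κ B]
  {d : ℕ}

/-- The map `p ↦ ι p` from polynomials with coefficients in `κ` to polynomials with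
coefficients in `A`. -/
noncomputable def thetaK (κ : Type z) [Field κ] [Algebra ℂ κ]
    {A : Type v} [CommRing A] [Algebra ℂ A] [Algebra κ A] [IsScalarTower ℂ κ A] (ι : A) :
    MvPolynomial (Fin 2) κ →ₗ[ℂ] MvPolynomial (Fin 2) A where
  toFun p := C ι * map (algebraMap κ A) p
  map_add' p q := by rw [map_add, mul_add]
  map_smul' c p := by
    ext e
    rw [RingHom.id_apply, coeff_smul, coeff_C_mul, coeff_C_mul, coeff_map, coeff_map, coeff_smul,
      Algebra.smul_def c (coeff e p), map_mul, ← IsScalarTower.algebraMap_apply, Algebra.smul_def c]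
    ring

theorem thetaK_apply (ι : A) (p : MvPolynomial (Fin 2) κ) :
    thetaK κ ι p = C ι * map (algebraMap κ A) p := rfl

theorem coeff_thetaK (ι : A) (p : MvPolynomial (Fin 2) κ) (e : Fin 2 →₀ ℕ) :
    coeff e (thetaK κ ι p) = ι * algebraMap κ A (coeff e p) := by
  rw [thetaK_apply, coeff_C_mul, coeff_map]

theorem algebraMap_mul_ne_zeroK {ι : A} (hι : ι ≠ 0) {c : κ} (hc : c ≠ 0) :
    ι * algebraMap κ A c ≠ 0 := by
  intro h
  apply hι
  calc ι = ι * algebraMap κ A c * algebraMap κ A c⁻¹ := by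
        rw [mul_assoc, ← map_mul, mul_inv_cancel₀ hc, map_one, mul_one]
    _ = 0 := by rw [h, zero_mul]

theorem thetaK_injective {ι : A} (hι : ι ≠ 0) : Function.Injective (thetaK κ ι) := by
  rw [injective_iff_map_eq_zero]
  intro p hp
  ext e
  have h1 : coeff e (thetaK κ ι p) = 0 := by rw [hp, coeff_zero]
  rw [coeff_thetaK] at h1
  by_contra hne
  exact algebraMap_mul_ne_zeroK hι hne h1

theorem thetaK_mul {ι : A} {ρ : A →ₐ[κ] κ} (hι : ∀ x, ρ x = 0 → ι * x = 0)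
    (f : MvPolynomial (Fin 2) A) (p : MvPolynomial (Fin 2) κ) :
    thetaK κ ι (map (ρ : A →+* κ) f * p) = f * thetaK κ ι p := by
  have h1 : C ι * map (algebraMap κ A) (map (ρ : A →+* κ) f) = C ι * f := by
    ext e
    rw [coeff_C_mul, coeff_C_mul, coeff_map, coeff_map, ← sub_eq_zero, ← mul_sub]
    apply hι
    rw [map_sub]
    change ρ (algebraMap κ A (ρ (coeff e f))) - ρ (coeff e f) = 0
    rw [AlgHom.commutes]
    exact sub_self _
  rw [thetaK_apply, thetaK_apply, map_mul, ← mul_assoc, h1]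
  ring

theorem mem_range_thetaK {ι : A} {ρ : A →ₐ[κ] κ} (hι : ∀ x, ρ x = 0 → ι * x = 0)
    (f : MvPolynomial (Fin 2) A) (hf : ∀ e, coeff e f ∈ Ideal.span {ι}) :
    ∃ p, thetaK κ ι p = f := by
  choose x hx using fun e => Ideal.mem_span_singleton'.mp (hf e)
  refine ⟨∑ e ∈ f.support, monomial e (ρ (x e)), ?_⟩
  ext e
  rw [coeff_thetaK, coeff_sum]
  simp only [coeff_monomial]
  rw [Finset.sum_ite_eq' f.support e (fun e => ρ (x e))]
  split_ifs with h
  · rw [← hx e, mul_comm (x e), ← sub_eq_zero, ← mul_sub]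
    apply hι
    rw [map_sub, AlgHom.commutes]
    exact sub_self _
  · rw [map_zero, mul_zero]
    exact (notMem_support_iff.mp h).symm

theorem thetaK_isHomogeneous_iff {ι : A} (hι : ι ≠ 0) {p : MvPolynomial (Fin 2) κ} {n : ℕ} :
    (thetaK κ ι p).IsHomogeneous n ↔ p.IsHomogeneous n := by
  constructor
  · intro h e he
    exact h (by rw [coeff_thetaK]; exact algebraMap_mul_ne_zeroK hι he)
  · intro h e he
    rw [coeff_thetaK] at he
    refine h fun h0 => he ?_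
    rw [h0, map_zero, mul_zero]

/-- A derivation with values in `ι A[s, t]` is `ι` times a derivation along the special fibre. -/
theorem exists_thetaK_factor {ι : A} (hι0 : ι ≠ 0) {ρ : A →ₐ[κ] κ}
    (hι : ∀ x, ρ x = 0 → ι * x = 0) {Φ : R →ₐ[ℂ] MvPolynomial (Fin 2) A}
    {φ₀ : R →ₐ[ℂ] MvPolynomial (Fin 2) κ} (hΦ : ∀ r, map (ρ : A →+* κ) (Φ r) = φ₀ r) {K : ℕ}
    {D : R →ₗ[ℂ] MvPolynomial (Fin 2) A} (hD : HZ 𝒜 d Φ K D)
    (h : ∀ r e, coeff e (D r) ∈ Ideal.span {ι}) :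
    ∃ η : R →ₗ[ℂ] MvPolynomial (Fin 2) κ, HZ 𝒜 d φ₀ K η ∧ ∀ r, thetaK κ ι (η r) = D r := by
  obtain ⟨η, hη⟩ := exists_factor (thetaK κ ι) (thetaK_injective hι0) D
    (fun r => mem_range_thetaK hι (D r) (h r))
  refine ⟨η, ⟨fun r s => ?_, fun k r hr => ?_⟩, hη⟩
  · apply thetaK_injective hι0
    rw [hη, map_add, ← hΦ r, ← hΦ s, thetaK_mul hι, thetaK_mul hι, hη, hη]
    exact hD.der r s
  · rw [← thetaK_isHomogeneous_iff hι0, hη]
    exact hD.deg k r hr

/-- `ι` times a derivation along the special fibre. -/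
theorem HZ.thetaK {ι : A} {ρ : A →ₐ[κ] κ} (hι : ∀ x, ρ x = 0 → ι * x = 0)
    {Φ : R →ₐ[ℂ] MvPolynomial (Fin 2) A} {φ₀ : R →ₐ[ℂ] MvPolynomial (Fin 2) κ}
    (hΦ : ∀ r, map (ρ : A →+* κ) (Φ r) = φ₀ r) {K : ℕ}
    {η : R →ₗ[ℂ] MvPolynomial (Fin 2) κ} (hη : HZ 𝒜 d φ₀ K η) :
    HZ 𝒜 d Φ K (VF.thetaK κ ι ∘ₗ η) where
  der r s := by
    rw [LinearMap.comp_apply, hη.der, map_add, ← hΦ r, ← hΦ s, thetaK_mul hι, thetaK_mul hι]
    rfl
  deg k r hr := by
    intro e he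
    rw [LinearMap.comp_apply, coeff_thetaK] at he
    exact hη.deg k r hr (fun h0 => he (by rw [h0, map_zero, mul_zero]))

theorem thetaK_X_pow {ι : A} {ρ : A →ₐ[κ] κ} (hι : ∀ x, ρ x = 0 → ι * x = 0) (i : Fin 2) (M : ℕ)
    (p : MvPolynomial (Fin 2) κ) : VF.thetaK κ ι (X i ^ M * p) = X i ^ M * VF.thetaK κ ι p := by
  rw [← thetaK_mul hι, map_pow, map_X]

theorem map_thetaK {ι : A} (π : A →ₐ[ℂ] B) (hπι : π ι = 0) (p : MvPolynomial (Fin 2) κ) :
    map (π : A →+* B) (VF.thetaK κ ι p) = 0 := by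
  rw [thetaK_apply, map_mul, map_C]
  have : (π : A →+* B) ι = 0 := hπι
  rw [this, C_0, zero_mul]

variable {P : R →ₗ[ℂ] R →ₗ[ℂ] R} [GradedAlgebra 𝒜]

/-- There is a chart at every nonvertex point. -/
theorem exists_isChart_atK (hX : IsContactFano 𝒜 P) {E : Type w} [CommRing E] [IsDomain E]
    [Algebra ℂ E] {x : R →ₐ[ℂ] E} (hx : IsNV 𝒜 x) :
    ∃ (N : ℕ) (y : Fin N → R) (δ : R), x δ ≠ 0 ∧ IsChart P y δ := by
  have hft : Algebra.FiniteType ℂ R := hX.finiteType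
  obtain ⟨k, hk, r, hr, hne⟩ := hx
  obtain ⟨p, hp, hpr⟩ := kd_exists_closed x r hne
  obtain ⟨N, y, δ, hδ, hc⟩ := exists_isChart_at hX (p := p) fun h => hpr (h k hk r hr)
  exact ⟨N, y, δ, fun h => hδ (hp _ h), hc⟩

/-- Away from the line `X i = 0` every derivation along `Φ` is a combination of Hamiltonian
derivations. -/
theorem exists_pow_smul_mem_HamK [IsAlgClosed κ] (hX : IsContactFano 𝒜 P)
    {φ₀ : R →ₐ[ℂ] MvPolynomial (Fin 2) κ}
    (h0 : IsCurve 𝒜 d φ₀) {ρ : A →ₐ[κ] κ} (hnil : ∀ x, ρ x = 0 → IsNilpotent x)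
    {Φ : R →ₐ[ℂ] MvPolynomial (Fin 2) A} (hΦ : ∀ r, map (ρ : A →+* κ) (Φ r) = φ₀ r)
    {D : R →ₗ[ℂ] MvPolynomial (Fin 2) A} (hD : IsDer Φ D) (i : Fin 2) :
    ∃ M₀, ∀ M ≥ M₀, (X i ^ M : MvPolynomial (Fin 2) A) • D ∈ Ham P Φ := by
  let S := MvPolynomial (Fin 2) A
  let J : Ideal S := (Ham P Φ).comap (LinearMap.toSpanSingleton S _ D)
  have hJ : ∀ f : S, f ∈ J ↔ f • D ∈ Ham P Φ := fun f => Iff.rfl
  have hρ : Function.Surjective (ρ : A →+* κ) := fun c => ⟨algebraMap κ A c, ρ.commutes c⟩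
  have hsurj : Function.Surjective (map (ρ : A →+* κ) : S →+* MvPolynomial (Fin 2) κ) :=
    map_surjective _ hρ
  let J0 : Ideal (MvPolynomial (Fin 2) κ) := J.map (map (ρ : A →+* κ))
  have hrad : (X i : MvPolynomial (Fin 2) κ) ∈ J0.radical := by
    rw [← vanishingIdeal_zeroLocus_eq_radical (K := κ), mem_vanishingIdeal_iff]
    intro x hx
    by_contra hne
    have hx0 : x ≠ 0 := by
      rintro rfl
      simp at hne
    have hnv : IsNV 𝒜 (pt φ₀ x) := h0.bpf x hx0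
    obtain ⟨N, y, δ, hδ, hc⟩ := exists_isChart_atK hX hnv
    have h1 : Φ δ ∈ J := (hJ _).2 (smul_mem_Ham_of_chart hc hD)
    have h2 : φ₀ δ ∈ J0 := by
      rw [← hΦ]
      exact Ideal.mem_map_of_mem _ h1
    rw [pt_apply] at hδ
    exact hδ (by simpa [aeval_eq_eval] using mem_zeroLocus_iff.mp hx _ h2)
  obtain ⟨N, hN⟩ := hrad
  obtain ⟨f, hf, hfN⟩ := (Ideal.mem_map_iff_of_surjective _ hsurj).mp hN
  have hn : IsNilpotent (X i ^ N - f : S) := by
    rw [MvPolynomial.isNilpotent_iff]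
    intro e
    apply hnil
    have h3 : map (ρ : A →+* κ) (X i ^ N - f) = 0 := by
      rw [map_sub, hfN, map_pow, map_X, sub_self]
    have h4 := congrArg (coeff e) h3
    rw [coeff_map, coeff_zero] at h4
    exact h4
  obtain ⟨L, hL⟩ := hn
  have hmem : ((X i : S) ^ N) ^ L ∈ J := by
    rw [← Ideal.Quotient.eq_zero_iff_mem, map_pow]
    have h5 : Ideal.Quotient.mk J (X i ^ N) = Ideal.Quotient.mk J (X i ^ N - f) := by
      rw [map_sub, Ideal.Quotient.eq_zero_iff_mem.mpr hf, sub_zero]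
    rw [h5, ← map_pow, hL, map_zero]
  refine ⟨N * L, fun M hM => (hJ _).1 ?_⟩
  obtain ⟨c, rfl⟩ := Nat.exists_eq_add_of_le hM
  rw [pow_add, pow_mul]
  exact J.mul_mem_right _ hmem

/-- In high degrees every derivation along `φ₀` splits into two parts. -/
def SplitZ (𝒜 : ℕ → Submodule ℂ R) (d : ℕ) {κ : Type z} [Field κ] [Algebra ℂ κ]
    (φ₀ : R →ₐ[ℂ] MvPolynomial (Fin 2) κ) : Prop :=
  ∃ M₀ : ℕ, ∀ M ≥ M₀, ∀ D : R →ₗ[ℂ] MvPolynomial (Fin 2) κ, HZ 𝒜 d φ₀ (M + M) D →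
    ∃ α β : R →ₗ[ℂ] MvPolynomial (Fin 2) κ, HZ 𝒜 d φ₀ M α ∧ HZ 𝒜 d φ₀ M β ∧
      D = (X 1 ^ M : MvPolynomial (Fin 2) κ) • α - (X 0 ^ M : MvPolynomial (Fin 2) κ) • β

/-- one chart -/
theorem exists_chart_liftK [IsAlgClosed κ] (hX : IsContactFano 𝒜 P)
    {ρ' : B →ₐ[κ] κ} {φ₀ : R →ₐ[ℂ] MvPolynomial (Fin 2) κ} (h0 : IsCurve 𝒜 d φ₀)
    (hnil : ∀ x, ρ' x = 0 → IsNilpotent x) (π : A →ₐ[ℂ] B)
    (hπ : Function.Surjective π) {Φ : R →ₐ[ℂ] MvPolynomial (Fin 2) A}
    {Φ' : R →ₐ[ℂ] MvPolynomial (Fin 2) B} (hρ : ∀ r, map (ρ' : B →+* κ) (Φ' r) = φ₀ r)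
    (hdeg : ∀ k, ∀ r ∈ 𝒜 k, (Φ r).IsHomogeneous (d * k))
    (hΦ' : ∀ r, map (π : A →+* B) (Φ r) = Φ' r)
    {D' : R →ₗ[ℂ] MvPolynomial (Fin 2) B} (hD' : HZ 𝒜 d Φ' 0 D') (i : Fin 2) :
    ∃ M₀, ∀ M ≥ M₀, ∃ S : R →ₗ[ℂ] MvPolynomial (Fin 2) A, HZ 𝒜 d Φ M S ∧
      ∀ r, map (π : A →+* B) (S r) = X i ^ M * D' r := by
  obtain ⟨M₀, hM₀⟩ := exists_pow_smul_mem_HamK hX h0 hnil hρ hD'.der i
  refine ⟨M₀, fun M hM => ?_⟩
  obtain ⟨S0, hS0, hS0'⟩ := exists_ham_lift π hπ hΦ' _ (hM₀ M hM)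
  refine ⟨hz 𝒜 d M S0, isHZ_hz hdeg (Ham_le hX.leibniz Φ hS0) M, fun r => ?_⟩
  rw [map_hz π M S0 _ hS0' r]
  have h1 : HZ 𝒜 d Φ' (M + 0) ((X i ^ M : MvPolynomial (Fin 2) B) • D') :=
    hD'.smul (isHomogeneous_X_pow i M)
  rw [add_zero] at h1
  rw [h1.hz_eq]
  rfl

/-- Lifting of a section over a small extension. -/
theorem exists_liftK [IsAlgClosed κ] (hX : IsContactFano 𝒜 P)
    {ρ : A →ₐ[κ] κ} {ρ' : B →ₐ[κ] κ} {φ₀ : R →ₐ[ℂ] MvPolynomial (Fin 2) κ}
    (h0 : IsCurve 𝒜 d φ₀) (hsplit : SplitZ 𝒜 d φ₀)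
    (hnil : ∀ x, ρ' x = 0 → IsNilpotent x) (π : A →ₐ[ℂ] B)
    (hπ : Function.Surjective π) {ι : A} (hι0 : ι ≠ 0) (hι : ∀ x, ρ x = 0 → ι * x = 0)
    (hπι : π ι = 0) (hker : ∀ x, π x = 0 → x ∈ Ideal.span {ι})
    {Φ : R →ₐ[ℂ] MvPolynomial (Fin 2) A} (hΦ : ∀ r, map (ρ : A →+* κ) (Φ r) = φ₀ r)
    {Φ' : R →ₐ[ℂ] MvPolynomial (Fin 2) B} (hρ : ∀ r, map (ρ' : B →+* κ) (Φ' r) = φ₀ r)
    (hdeg : ∀ k, ∀ r ∈ 𝒜 k, (Φ r).IsHomogeneous (d * k))
    (hΦ' : ∀ r, map (π : A →+* B) (Φ r) = Φ' r)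
    {D' : R →ₗ[ℂ] MvPolynomial (Fin 2) B} (hD' : HZ 𝒜 d Φ' 0 D') :
    ∃ D : R →ₗ[ℂ] MvPolynomial (Fin 2) A, HZ 𝒜 d Φ 0 D ∧
      ∀ r, map (π : A →+* B) (D r) = D' r := by
  obtain ⟨M1, h1⟩ := exists_chart_liftK hX h0 hnil π hπ hρ hdeg hΦ' hD' 0
  obtain ⟨M2, h2⟩ := exists_chart_liftK hX h0 hnil π hπ hρ hdeg hΦ' hD' 1
  obtain ⟨M3, h3⟩ := hsplit
  obtain ⟨M, hM1, hM2, hM3⟩ : ∃ M, M1 ≤ M ∧ M2 ≤ M ∧ M3 ≤ M :=
    ⟨M1 + M2 + M3, by omega, by omega, by omega⟩
  obtain ⟨S, hS, hSπ⟩ := h1 M hM1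
  obtain ⟨T, hT, hTπ⟩ := h2 M hM2
  have hΔ : HZ 𝒜 d Φ (M + M) ((X 1 ^ M : MvPolynomial (Fin 2) A) • S -
      (X 0 ^ M : MvPolynomial (Fin 2) A) • T) :=
    (hS.smul (isHomogeneous_X_pow 1 M)).sub (hT.smul (isHomogeneous_X_pow 0 M))
  obtain ⟨η, hη, hηΔ⟩ := exists_thetaK_factor hι0 hι hΦ hΔ (fun r e => by
    apply hker
    have h4 : map (π : A →+* B) (((X 1 ^ M : MvPolynomial (Fin 2) A) • S -
        (X 0 ^ M : MvPolynomial (Fin 2) A) • T) r) = 0 := by
      rw [LinearMap.sub_apply, LinearMap.smul_apply, LinearMap.smul_apply, smul_eq_mul,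
        smul_eq_mul, map_sub, map_mul, map_mul, hSπ, hTπ, map_pow, map_pow, map_X, map_X]
      ring
    have h5 := congrArg (coeff e) h4
    rw [coeff_map, coeff_zero] at h5
    exact h5)
  obtain ⟨α, β, hα, hβ, hαβ⟩ := h3 M hM3 η hη
  have hS' : HZ 𝒜 d Φ M (S - VF.thetaK κ ι ∘ₗ α) := hS.sub (HZ.thetaK hι hΦ hα)
  obtain ⟨D, hD, hDS⟩ := exists_patchZ (T := T - VF.thetaK κ ι ∘ₗ β) hS' (fun r => by
    have h6 := hηΔ r
    rw [hαβ, LinearMap.sub_apply, LinearMap.smul_apply, LinearMap.smul_apply, smul_eq_mul,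
      smul_eq_mul, map_sub, thetaK_X_pow hι, thetaK_X_pow hι, LinearMap.sub_apply,
      LinearMap.smul_apply, LinearMap.smul_apply, smul_eq_mul, smul_eq_mul] at h6
    rw [LinearMap.sub_apply, LinearMap.sub_apply, LinearMap.comp_apply, LinearMap.comp_apply]
    linear_combination -h6)
  refine ⟨D, hD, fun r => ?_⟩
  apply X_pow_mul_injective 0 M
  rw [← hSπ r]
  have h7 : map (π : A →+* B) (X 0 ^ M * D r) = map (π : A →+* B) ((S - VF.thetaK κ ι ∘ₗ α) r) := by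
    rw [hDS]
  rw [map_mul, map_pow, map_X, LinearMap.sub_apply, map_sub, LinearMap.comp_apply,
    map_thetaK π hπι, sub_zero] at h7
  exact h7

end field

end Vale.Agent.P292.VF
end

section

/-! # Arcs of curves, part 2: every derivation of degree `0` along a free curve is the tangent
vector of an arc. -/

namespace Vale.Agent.P292.VF

open MvPolynomial

universe u v w z

/-! ### truncated power series -/

section trunc

variable {κ : Type z} [Field κ]

/-- Truncated power series. -/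
abbrev TR (κ : Type z) [Field κ] (N : ℕ) : Type z :=
  PowerSeries κ ⧸ Ideal.span {(PowerSeries.X : PowerSeries κ) ^ N}

/-- truncation -/
noncomputable abbrev mkT (κ : Type z) [Field κ] (N : ℕ) : PowerSeries κ →ₐ[κ] TR κ N :=
  Ideal.Quotient.mkₐ κ _

theorem mkT_eq_zero_iff {N : ℕ} {f : PowerSeries κ} :
    mkT κ N f = 0 ↔ ∀ n < N, PowerSeries.coeff n f = 0 := by
  rw [Ideal.Quotient.mkₐ_eq_mk, Ideal.Quotient.eq_zero_iff_mem, Ideal.mem_span_singleton,
    PowerSeries.X_pow_dvd_iff]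

theorem mkT_eq_iff {N : ℕ} {f g : PowerSeries κ} :
    mkT κ N f = mkT κ N g ↔ ∀ n < N, PowerSeries.coeff n f = PowerSeries.coeff n g := by
  rw [← sub_eq_zero, ← map_sub, mkT_eq_zero_iff]
  simp only [map_sub, sub_eq_zero]

theorem mkT_surjective (N : ℕ) : Function.Surjective (mkT κ N) :=
  Ideal.Quotient.mkₐ_surjective κ _

/-- the residue map -/
noncomputable def rhoT (κ : Type z) [Field κ] (N : ℕ) : TR κ (N + 1) →ₐ[κ] κ :=
  Ideal.Quotient.liftₐ _
    { (PowerSeries.constantCoeff : PowerSeries κ →+* κ) with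
      commutes' := fun c => PowerSeries.constantCoeff_C c } (fun f hf => by
    rw [Ideal.mem_span_singleton, PowerSeries.X_pow_dvd_iff] at hf
    have := hf 0 (Nat.succ_pos N)
    rwa [PowerSeries.coeff_zero_eq_constantCoeff_apply] at this)

theorem rhoT_mk (N : ℕ) (f : PowerSeries κ) :
    rhoT κ N (mkT κ (N + 1) f) = PowerSeries.constantCoeff f := rfl

theorem isNilpotent_of_rhoT {N : ℕ} {x : TR κ (N + 1)} (hx : rhoT κ N x = 0) :
    IsNilpotent x := by
  obtain ⟨f, rfl⟩ := mkT_surjective (N + 1) x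
  rw [rhoT_mk] at hx
  have h1 : (PowerSeries.X : PowerSeries κ) ∣ f := PowerSeries.X_dvd_iff.mpr hx
  refine ⟨N + 1, ?_⟩
  rw [← map_pow, Ideal.Quotient.mkₐ_eq_mk, Ideal.Quotient.eq_zero_iff_mem,
    Ideal.mem_span_singleton]
  exact pow_dvd_pow_of_dvd h1 _

variable [Algebra ℂ κ]

/-- the transition maps -/
noncomputable def piT (κ : Type z) [Field κ] [Algebra ℂ κ] (N : ℕ) : TR κ (N + 1) →ₐ[ℂ] TR κ N :=
  Ideal.Quotient.liftₐ _ ((mkT κ N).restrictScalars ℂ) (fun f hf => by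
    rw [Ideal.mem_span_singleton] at hf
    rw [AlgHom.restrictScalars_apply, Ideal.Quotient.mkₐ_eq_mk, Ideal.Quotient.eq_zero_iff_mem,
      Ideal.mem_span_singleton]
    exact (pow_dvd_pow _ (Nat.le_succ N)).trans hf)

theorem piT_mk (N : ℕ) (f : PowerSeries κ) : piT κ N (mkT κ (N + 1) f) = mkT κ N f := rfl

theorem piT_surjective (N : ℕ) : Function.Surjective (piT κ N) := fun x => by
  obtain ⟨f, rfl⟩ := mkT_surjective N x
  exact ⟨mkT κ (N + 1) f, rfl⟩

/-- the generator of the kernel -/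
noncomputable def iotaT (κ : Type z) [Field κ] (N : ℕ) : TR κ (N + 1) :=
  mkT κ (N + 1) (PowerSeries.X ^ N)

omit [Algebra ℂ κ] in
theorem iotaT_ne_zero (N : ℕ) : iotaT κ N ≠ 0 := by
  intro h
  have h1 := mkT_eq_zero_iff.mp h N (Nat.lt_succ_self N)
  rw [PowerSeries.coeff_X_pow, if_pos rfl] at h1
  exact one_ne_zero h1

omit [Algebra ℂ κ] in
theorem iotaT_mul {N : ℕ} {x : TR κ (N + 1)} (hx : rhoT κ N x = 0) : iotaT κ N * x = 0 := by
  obtain ⟨f, rfl⟩ := mkT_surjective (N + 1) x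
  rw [rhoT_mk] at hx
  obtain ⟨g, rfl⟩ := PowerSeries.X_dvd_iff.mpr hx
  rw [iotaT, ← map_mul, Ideal.Quotient.mkₐ_eq_mk, Ideal.Quotient.eq_zero_iff_mem,
    Ideal.mem_span_singleton, ← mul_assoc, ← pow_succ]
  exact Dvd.intro g rfl

theorem piT_iotaT (N : ℕ) : piT κ N (iotaT κ N) = 0 := by
  rw [iotaT, piT_mk, mkT_eq_zero_iff]
  intro n hn
  rw [PowerSeries.coeff_X_pow, if_neg hn.ne]

theorem mem_span_iotaT {N : ℕ} {x : TR κ (N + 1)} (hx : piT κ N x = 0) :
    x ∈ Ideal.span {iotaT κ N} := by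
  obtain ⟨f, rfl⟩ := mkT_surjective (N + 1) x
  rw [piT_mk, Ideal.Quotient.mkₐ_eq_mk, Ideal.Quotient.eq_zero_iff_mem,
    Ideal.mem_span_singleton] at hx
  obtain ⟨g, rfl⟩ := hx
  rw [map_mul]
  exact Ideal.mul_mem_right _ _ (Ideal.mem_span_singleton_self _)

end trunc

/-! ### coefficientwise linear maps -/

section mapLin

variable {A : Type v} [CommRing A] [Algebra ℂ A] {B : Type w} [CommRing B] [Algebra ℂ B]

/-- A linear map applied to all coefficients. -/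
noncomputable def mapLin (g : A →ₗ[ℂ] B) :
    MvPolynomial (Fin 2) A →ₗ[ℂ] MvPolynomial (Fin 2) B :=
  have key : ∀ (p : MvPolynomial (Fin 2) A) (m : Fin 2 →₀ ℕ),
      coeff m (∑ e ∈ p.support, monomial e (g (coeff e p))) = g (coeff m p) := by
    classical
    intro p m
    rw [coeff_sum]
    simp only [coeff_monomial, Finset.sum_ite_eq', mem_support_iff]
    by_cases hm : coeff m p = 0
    · simp [hm]
    · simp [hm]
  { toFun := fun p => ∑ e ∈ p.support, monomial e (g (coeff e p))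
    map_add' := fun p q => by
      ext m
      rw [coeff_add, key, key, key, coeff_add, map_add]
    map_smul' := fun c p => by
      ext m
      rw [RingHom.id_apply, coeff_smul, key, key, coeff_smul, map_smul] }

theorem coeff_mapLin (g : A →ₗ[ℂ] B) (p : MvPolynomial (Fin 2) A) (m : Fin 2 →₀ ℕ) :
    coeff m (mapLin g p) = g (coeff m p) := by
  classical
  change coeff m (∑ e ∈ p.support, monomial e (g (coeff e p))) = g (coeff m p)
  rw [coeff_sum]
  simp only [coeff_monomial, Finset.sum_ite_eq', mem_support_iff]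
  by_cases hm : coeff m p = 0
  · simp [hm]
  · simp [hm]

theorem mapLin_isHomogeneous (g : A →ₗ[ℂ] B) {p : MvPolynomial (Fin 2) A} {n : ℕ}
    (hp : p.IsHomogeneous n) : (mapLin g p).IsHomogeneous n := by
  intro e he
  rw [coeff_mapLin] at he
  exact hp (fun h => he (by rw [h, map_zero]))

/-- A derivation applied to all coefficients is a derivation. -/
theorem mapLin_mul (D : Derivation ℂ A A) (p q : MvPolynomial (Fin 2) A) :
    mapLin (D : A →ₗ[ℂ] A) (p * q) =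
      p * mapLin (D : A →ₗ[ℂ] A) q + q * mapLin (D : A →ₗ[ℂ] A) p := by
  classical
  ext m
  rw [coeff_mapLin, coeff_mul, coeff_add, coeff_mul, mul_comm q, coeff_mul,
    ← Finset.sum_add_distrib]
  change D _ = _
  rw [map_sum]
  refine Finset.sum_congr rfl fun x _ => ?_
  rw [Derivation.leibniz, coeff_mapLin, coeff_mapLin, smul_eq_mul, smul_eq_mul]
  change _ = _ * D _ + D _ * _
  ring

end mapLin

/-! ### congruences -/

section cong

variable {κ : Type z} [Field κ]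

/-- congruence modulo `X ^ N` -/
def Cong (N : ℕ) (p q : MvPolynomial (Fin 2) (PowerSeries κ)) : Prop :=
  ∀ e, ∀ n < N, PowerSeries.coeff n (coeff e p) = PowerSeries.coeff n (coeff e q)

theorem cong_iff {N : ℕ} {p q : MvPolynomial (Fin 2) (PowerSeries κ)} :
    Cong N p q ↔ map (mkT κ N : PowerSeries κ →+* TR κ N) p =
      map (mkT κ N : PowerSeries κ →+* TR κ N) q := by
  constructor
  · intro h
    ext e
    rw [coeff_map, coeff_map]
    exact mkT_eq_iff.mpr (h e)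
  · intro h e
    have h1 := congrArg (coeff e) h
    rw [coeff_map, coeff_map] at h1
    exact mkT_eq_iff.mp h1

theorem Cong.mono {N M : ℕ} {p q : MvPolynomial (Fin 2) (PowerSeries κ)} (h : Cong N p q)
    (hM : M ≤ N) : Cong M p q := fun e n hn => h e n (hn.trans_le hM)

theorem Cong.symm {N : ℕ} {p q : MvPolynomial (Fin 2) (PowerSeries κ)} (h : Cong N p q) :
    Cong N q p := fun e n hn => (h e n hn).symm

theorem Cong.trans {N : ℕ} {p q r : MvPolynomial (Fin 2) (PowerSeries κ)} (h : Cong N p q)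
    (h' : Cong N q r) : Cong N p r := fun e n hn => (h e n hn).trans (h' e n hn)

theorem Cong.mul {N : ℕ} {p q p' q' : MvPolynomial (Fin 2) (PowerSeries κ)} (h : Cong N p q)
    (h' : Cong N p' q') : Cong N (p * p') (q * q') := by
  rw [cong_iff] at *
  rw [map_mul, map_mul, h, h']

theorem Cong.add {N : ℕ} {p q p' q' : MvPolynomial (Fin 2) (PowerSeries κ)} (h : Cong N p q)
    (h' : Cong N p' q') : Cong N (p + p') (q + q') := by
  rw [cong_iff] at *
  rw [map_add, map_add, h, h']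

variable [Algebra ℂ κ]

/-- the derivative of power series -/
noncomputable def dX (κ : Type z) [Field κ] [Algebra ℂ κ] :
    Derivation ℂ (PowerSeries κ) (PowerSeries κ) :=
  (PowerSeries.derivative κ).restrictScalars ℂ

theorem coeff_dX (f : PowerSeries κ) (n : ℕ) :
    PowerSeries.coeff n (dX κ f) = PowerSeries.coeff (n + 1) f * (n + 1) :=
  PowerSeries.coeff_derivative f n

/-- the antiderivative of power series -/
noncomputable def intX (κ : Type z) [Field κ] [Algebra ℂ κ] :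
    PowerSeries κ →ₗ[ℂ] PowerSeries κ where
  toFun f := PowerSeries.mk fun n => PowerSeries.coeff (n - 1) f * (n : κ)⁻¹
  map_add' f g := by
    ext n
    rw [map_add, PowerSeries.coeff_mk, PowerSeries.coeff_mk, PowerSeries.coeff_mk, map_add,
      add_mul]
  map_smul' c f := by
    ext n
    have h : ∀ (g : PowerSeries κ) (m : ℕ), PowerSeries.coeff m (c • g) =
        c • PowerSeries.coeff m g := fun g m => rfl
    rw [RingHom.id_apply, PowerSeries.coeff_mk, h, h, PowerSeries.coeff_mk, smul_mul_assoc]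

theorem coeff_intX (f : PowerSeries κ) (n : ℕ) :
    PowerSeries.coeff n (intX κ f) = PowerSeries.coeff (n - 1) f * (n : κ)⁻¹ := by
  exact PowerSeries.coeff_mk n fun n => PowerSeries.coeff (n - 1) f * (n : κ)⁻¹

theorem coeff_intX_zero (f : PowerSeries κ) : PowerSeries.coeff 0 (intX κ f) = 0 := by
  rw [coeff_intX, Nat.cast_zero, inv_zero, mul_zero]

theorem dX_intX (f : PowerSeries κ) : dX κ (intX κ f) = f := by
  have : CharZero κ := charZero_of_injective_algebraMap (algebraMap ℂ κ).injective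
  ext n
  rw [coeff_dX, coeff_intX, Nat.add_sub_cancel, Nat.cast_add_one, mul_assoc,
    inv_mul_cancel₀ (Nat.cast_add_one_ne_zero n), mul_one]

end cong

end Vale.Agent.P292.VF
end

section

/-! # Arcs of curves, part 3. -/

namespace Vale.Agent.P292.VF

open MvPolynomial

universe u v w z

variable {R : Type u} [CommRing R] [Algebra ℂ R] {𝒜 : ℕ → Submodule ℂ R}
  {P : R →ₗ[ℂ] R →ₗ[ℂ] R} {κ : Type z} [Field κ] [Algebra ℂ κ] {d : ℕ}

theorem Cong.deriv {n : ℕ} {p q : MvPolynomial (Fin 2) (PowerSeries κ)} (h : Cong (n + 1) p q) :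
    Cong n (mapLin (dX κ : PowerSeries κ →ₗ[ℂ] PowerSeries κ) p)
      (mapLin (dX κ : PowerSeries κ →ₗ[ℂ] PowerSeries κ) q) := by
  intro e m hm
  rw [coeff_mapLin, coeff_mapLin]
  change PowerSeries.coeff m (dX κ _) = PowerSeries.coeff m (dX κ _)
  rw [coeff_dX, coeff_dX, h e (m + 1) (by omega)]

theorem cong_of_deriv {n : ℕ} {p q : MvPolynomial (Fin 2) (PowerSeries κ)}
    (h0 : ∀ e, PowerSeries.coeff 0 (coeff e p) = PowerSeries.coeff 0 (coeff e q))
    (h : Cong n (mapLin (dX κ : PowerSeries κ →ₗ[ℂ] PowerSeries κ) p)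
      (mapLin (dX κ : PowerSeries κ →ₗ[ℂ] PowerSeries κ) q)) : Cong (n + 1) p q := by
  have : CharZero κ := charZero_of_injective_algebraMap (algebraMap ℂ κ).injective
  intro e m hm
  cases m with
  | zero => exact h0 e
  | succ m =>
    have h1 := h e m (by omega)
    rw [coeff_mapLin, coeff_mapLin] at h1
    change PowerSeries.coeff m (dX κ _) = PowerSeries.coeff m (dX κ _) at h1
    rw [coeff_dX, coeff_dX] at h1
    exact mul_right_cancel₀ (Nat.cast_add_one_ne_zero m) h1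

/-- constants -/
noncomputable def cT (κ : Type z) [Field κ] [Algebra ℂ κ] : κ →ₗ[ℂ] PowerSeries κ :=
  (Algebra.linearMap κ (PowerSeries κ)).restrictScalars ℂ

theorem coeff_cT (a : κ) (n : ℕ) : PowerSeries.coeff n (cT κ a) = if n = 0 then a else 0 :=
  PowerSeries.coeff_C n a

theorem dX_cT (a : κ) : dX κ (cT κ a) = 0 := by
  ext n
  rw [coeff_dX, coeff_cT, if_neg (Nat.succ_ne_zero n), zero_mul, map_zero]

/-- constants times `X` -/
noncomputable def xT (κ : Type z) [Field κ] [Algebra ℂ κ] : κ →ₗ[ℂ] PowerSeries κ :=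
  (LinearMap.mulLeft ℂ (PowerSeries.X : PowerSeries κ)) ∘ₗ cT κ

theorem xT_apply (a : κ) : xT κ a = PowerSeries.X * cT κ a := rfl

theorem coeff_xT_zero (a : κ) : PowerSeries.coeff 0 (xT κ a) = 0 := by
  rw [xT_apply, PowerSeries.coeff_zero_X_mul]

theorem coeff_xT_succ (a : κ) (n : ℕ) :
    PowerSeries.coeff (n + 1) (xT κ a) = if n = 0 then a else 0 := by
  rw [xT_apply, PowerSeries.coeff_succ_X_mul, coeff_cT]

theorem dX_xT (a : κ) : dX κ (xT κ a) = cT κ a := by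
  ext n
  rw [coeff_dX, coeff_xT_succ, coeff_cT]
  split_ifs with h
  · subst h; simp
  · rw [zero_mul]

omit [Algebra ℂ κ] in
/-- the constant term of a polynomial with power series coefficients -/
theorem map_constantCoeff_eq_iff {p : MvPolynomial (Fin 2) (PowerSeries κ)}
    {q : MvPolynomial (Fin 2) κ} :
    map (PowerSeries.constantCoeff : PowerSeries κ →+* κ) p = q ↔
      ∀ e, PowerSeries.coeff 0 (coeff e p) = coeff e q := by
  constructor
  · rintro rfl e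
    rw [coeff_map, PowerSeries.coeff_zero_eq_constantCoeff_apply]
  · intro h
    ext e
    rw [coeff_map, ← h e, PowerSeries.coeff_zero_eq_constantCoeff_apply]

/-- arcs modulo `X ^ N` -/
structure IsArc (𝒜 : ℕ → Submodule ℂ R) (d N : ℕ) (φ : R →ₐ[ℂ] MvPolynomial (Fin 2) κ)
    (Ψ : R →ₗ[ℂ] MvPolynomial (Fin 2) (PowerSeries κ)) : Prop where
  const : ∀ r, map (PowerSeries.constantCoeff : PowerSeries κ →+* κ) (Ψ r) = φ r
  one : Cong N (Ψ 1) 1
  mul : ∀ r s, Cong N (Ψ (r * s)) (Ψ r * Ψ s)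
  deg : ∀ k, ∀ r ∈ 𝒜 k, (Ψ r).IsHomogeneous (d * k)

theorem IsArc.mono {N M : ℕ} {φ : R →ₐ[ℂ] MvPolynomial (Fin 2) κ}
    {Ψ : R →ₗ[ℂ] MvPolynomial (Fin 2) (PowerSeries κ)} (h : IsArc 𝒜 d N φ Ψ) (hM : M ≤ N) :
    IsArc 𝒜 d M φ Ψ :=
  ⟨h.const, h.one.mono hM, fun r s => (h.mul r s).mono hM, h.deg⟩

/-- the algebra homomorphism of a truncated arc -/
noncomputable def IsArc.hom {N : ℕ} {φ : R →ₐ[ℂ] MvPolynomial (Fin 2) κ}
    {Ψ : R →ₗ[ℂ] MvPolynomial (Fin 2) (PowerSeries κ)} (h : IsArc 𝒜 d N φ Ψ) :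
    R →ₐ[ℂ] MvPolynomial (Fin 2) (TR κ N) :=
  AlgHom.ofLinearMap ((mapAlgHom ((mkT κ N).restrictScalars ℂ)).toLinearMap ∘ₗ Ψ)
    ((cong_iff.mp h.one).trans
      (map_one (map (mkT κ N : PowerSeries κ →+* TR κ N) : MvPolynomial (Fin 2) _ →+* _)))
    (fun r s => (cong_iff.mp (h.mul r s)).trans
      (map_mul (map (mkT κ N : PowerSeries κ →+* TR κ N) : MvPolynomial (Fin 2) _ →+* _) _ _))

theorem IsArc.hom_apply {N : ℕ} {φ : R →ₐ[ℂ] MvPolynomial (Fin 2) κ}
    {Ψ : R →ₗ[ℂ] MvPolynomial (Fin 2) (PowerSeries κ)} (h : IsArc 𝒜 d N φ Ψ) (r : R) :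
    h.hom r = map (mkT κ N : PowerSeries κ →+* TR κ N) (Ψ r) := rfl

/-- The next step of an arc. -/
theorem exists_next [IsAlgClosed κ] [GradedAlgebra 𝒜] (hX : IsContactFano 𝒜 P)
    {φ : R →ₐ[ℂ] MvPolynomial (Fin 2) κ} (h0 : IsCurve 𝒜 d φ) (hs : SplitZ 𝒜 d φ) {N : ℕ}
    {Ψ : R →ₗ[ℂ] MvPolynomial (Fin 2) (PowerSeries κ)} (h : IsArc 𝒜 d (N + 2) φ Ψ) :
    ∃ Ψ' : R →ₗ[ℂ] MvPolynomial (Fin 2) (PowerSeries κ), IsArc 𝒜 d (N + 3) φ Ψ' ∧
      ∀ r, Cong (N + 2) (Ψ' r) (Ψ r) := by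
  let Φ := h.hom
  have h' : IsArc 𝒜 d (N + 1) φ Ψ := h.mono (by omega)
  let Φ' := h'.hom
  let dM := mapLin (dX κ : PowerSeries κ →ₗ[ℂ] PowerSeries κ)
  let D' : R →ₗ[ℂ] MvPolynomial (Fin 2) (TR κ (N + 1)) :=
    (mapAlgHom ((mkT κ (N + 1)).restrictScalars ℂ)).toLinearMap ∘ₗ dM ∘ₗ Ψ
  have hD'a : ∀ r, D' r = map (mkT κ (N + 1) : PowerSeries κ →+* TR κ (N + 1)) (dM (Ψ r)) :=
    fun r => rfl
  have hD' : HZ 𝒜 d Φ' 0 D' := by
    constructor
    · intro r s
      have h1 := cong_iff.mp (h.mul r s).deriv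
      rw [hD'a, hD'a, hD'a, h1, mapLin_mul, map_add, map_mul, map_mul]
      rfl
    · intro k r hr
      rw [hD'a, add_zero]
      exact (mapLin_isHomogeneous _ (h.deg k r hr)).map _
  have hΦ : ∀ r, map (rhoT κ (N + 1) : TR κ (N + 2) →+* κ) (Φ r) = φ r := fun r => by
    rw [← h.const r, h.hom_apply, map_map]
    rfl
  have hΦ' : ∀ r, map (rhoT κ N : TR κ (N + 1) →+* κ) (Φ' r) = φ r := fun r => by
    rw [← h.const r, h'.hom_apply, map_map]
    rfl
  have hπ : ∀ r, map (piT κ (N + 1) : TR κ (N + 2) →+* TR κ (N + 1)) (Φ r) = Φ' r := fun r => by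
    rw [h.hom_apply, h'.hom_apply, map_map]
    rfl
  obtain ⟨D, hD, hDπ⟩ := exists_liftK (ρ := rhoT κ (N + 1)) (ρ' := rhoT κ N) hX h0 hs
    (fun x hx => isNilpotent_of_rhoT hx) (piT κ (N + 1)) (piT_surjective _) (iotaT_ne_zero _)
    (fun x hx => iotaT_mul hx) (piT_iotaT _) (fun x hx => mem_span_iotaT hx) hΦ hΦ'
    (fun k r hr => (h.deg k r hr).map _) hπ hD'
  obtain ⟨g, hg⟩ := LinearMap.exists_rightInverse_of_surjective
    ((mkT κ (N + 2)).restrictScalars ℂ).toLinearMap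
    (LinearMap.range_eq_top.mpr (mkT_surjective (N + 2)))
  have hg' : ∀ x, mkT κ (N + 2) (g x) = x := fun x => LinearMap.congr_fun hg x
  let E : R →ₗ[ℂ] MvPolynomial (Fin 2) (PowerSeries κ) := mapLin g ∘ₗ D
  have hE : ∀ r, map (mkT κ (N + 2) : PowerSeries κ →+* TR κ (N + 2)) (E r) = D r := fun r => by
    ext e
    rw [coeff_map]
    change mkT κ (N + 2) (coeff e (mapLin g (D r))) = _
    rw [coeff_mapLin, hg']
  have hE' : ∀ r, map (mkT κ (N + 1) : PowerSeries κ →+* TR κ (N + 1)) (E r) = D' r := fun r => by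
    rw [← hDπ r, ← hE r, map_map]
    rfl
  let Ψ' : R →ₗ[ℂ] MvPolynomial (Fin 2) (PowerSeries κ) :=
    mapLin (cT κ) ∘ₗ φ.toLinearMap + mapLin (intX κ) ∘ₗ E
  have hΨ' : ∀ r, Ψ' r = mapLin (cT κ) (φ r) + mapLin (intX κ) (E r) := fun r => rfl
  have hc : ∀ r e, PowerSeries.coeff 0 (coeff e (Ψ' r)) = coeff e (φ r) := fun r e => by
    rw [hΨ', coeff_add, coeff_mapLin, coeff_mapLin, map_add, coeff_cT, coeff_intX_zero,
      if_pos rfl, add_zero]
  have hc' : ∀ r, map (PowerSeries.constantCoeff : PowerSeries κ →+* κ) (Ψ' r) = φ r :=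
    fun r => map_constantCoeff_eq_iff.mpr (hc r)
  have hd : ∀ r, dM (Ψ' r) = E r := fun r => by
    ext1 e
    change coeff e (mapLin _ (Ψ' r)) = _
    rw [coeff_mapLin, hΨ', coeff_add, coeff_mapLin, coeff_mapLin]
    change dX κ _ = _
    rw [map_add, dX_cT, dX_intX, zero_add]
  have hcong : ∀ r, Cong (N + 2) (Ψ' r) (Ψ r) := fun r => by
    refine cong_of_deriv (fun e => ?_) ?_
    · rw [hc, ← h.const r, coeff_map, PowerSeries.coeff_zero_eq_constantCoeff_apply]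
    · change Cong (N + 1) (dM (Ψ' r)) (dM (Ψ r))
      rw [hd, cong_iff, hE', hD'a]
  have hcong' : ∀ r, map (mkT κ (N + 2) : PowerSeries κ →+* TR κ (N + 2)) (Ψ' r) = Φ r :=
    fun r => cong_iff.mp (hcong r)
  refine ⟨Ψ', ⟨hc', ?_, fun r s => ?_, fun k r hr => ?_⟩, hcong⟩
  · refine cong_of_deriv (fun e => ?_) ?_
    · rw [hc, map_one]
      have h1 := map_constantCoeff_eq_iff.mp
        (map_one (map (PowerSeries.constantCoeff : PowerSeries κ →+* κ) :
          MvPolynomial (Fin 2) (PowerSeries κ) →+* MvPolynomial (Fin 2) κ)) e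
      exact h1.symm
    · change Cong (N + 2) (dM (Ψ' 1)) (dM 1)
      rw [hd, cong_iff, hE, isDer_one hD.der]
      have h1 : dM 1 = 0 := by
        ext1 e
        change coeff e (mapLin _ 1) = _
        rw [coeff_mapLin, coeff_zero, coeff_one]
        split_ifs
        · exact (dX κ).map_one_eq_zero
        · exact map_zero _
      rw [h1, map_zero]
  · refine cong_of_deriv (fun e => ?_) ?_
    · rw [hc, map_mul]
      have h1 := map_constantCoeff_eq_iff.mp (show map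
        (PowerSeries.constantCoeff : PowerSeries κ →+* κ) (Ψ' r * Ψ' s) = φ r * φ s by
          rw [map_mul, hc', hc']) e
      exact h1.symm
    · change Cong (N + 2) (dM (Ψ' (r * s))) (dM (Ψ' r * Ψ' s))
      have h1 : dM (Ψ' r * Ψ' s) = Ψ' r * dM (Ψ' s) + Ψ' s * dM (Ψ' r) := mapLin_mul _ _ _
      rw [h1, hd, hd, hd, cong_iff, hE, hD.der, map_add, map_mul, map_mul, hE, hE, hcong', hcong']
  · rw [hΨ']
    refine (mapLin_isHomogeneous _ (h0.degree k r hr)).add (mapLin_isHomogeneous _ ?_)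
    have h1 := mapLin_isHomogeneous g (hD.deg k r hr)
    rwa [add_zero] at h1

end Vale.Agent.P292.VF
end

section

/-! # Arcs of curves: the limit. -/

namespace Vale.Agent.P292.VF

open MvPolynomial

universe u v w z

variable {R : Type u} [CommRing R] [Algebra ℂ R] {𝒜 : ℕ → Submodule ℂ R}
  {P : R →ₗ[ℂ] R →ₗ[ℂ] R} {κ : Type z} [Field κ] [Algebra ℂ κ] {d : ℕ}

/-- The first order arc with tangent vector `δ`. -/
theorem isArc_two {φ : R →ₐ[ℂ] MvPolynomial (Fin 2) κ} (h0 : IsCurve 𝒜 d φ)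
    {δ : R →ₗ[ℂ] MvPolynomial (Fin 2) κ} (hδ : HZ 𝒜 d φ 0 δ) :
    IsArc 𝒜 d 2 φ (mapLin (cT κ) ∘ₗ φ.toLinearMap + mapLin (xT κ) ∘ₗ δ) := by
  let Ψ : R →ₗ[ℂ] MvPolynomial (Fin 2) (PowerSeries κ) :=
    mapLin (cT κ) ∘ₗ φ.toLinearMap + mapLin (xT κ) ∘ₗ δ
  have hΨ : ∀ r, Ψ r = mapLin (cT κ) (φ r) + mapLin (xT κ) (δ r) := fun r => rfl
  let dM := mapLin (dX κ : PowerSeries κ →ₗ[ℂ] PowerSeries κ)
  have hc : ∀ r e, PowerSeries.coeff 0 (coeff e (Ψ r)) = coeff e (φ r) := fun r e => by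
    rw [hΨ, coeff_add, coeff_mapLin, coeff_mapLin, map_add, coeff_cT, coeff_xT_zero,
      if_pos rfl, add_zero]
  have hc' : ∀ r, map (PowerSeries.constantCoeff : PowerSeries κ →+* κ) (Ψ r) = φ r :=
    fun r => map_constantCoeff_eq_iff.mpr (hc r)
  have hd : ∀ r, dM (Ψ r) = mapLin (cT κ) (δ r) := fun r => by
    ext1 e
    change coeff e (mapLin _ (Ψ r)) = _
    rw [coeff_mapLin, hΨ, coeff_add, coeff_mapLin, coeff_mapLin, coeff_mapLin]
    change dX κ _ = _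
    rw [map_add, dX_cT, dX_xT, zero_add]
  have hcd : ∀ p : MvPolynomial (Fin 2) κ,
      map (PowerSeries.constantCoeff : PowerSeries κ →+* κ) (mapLin (cT κ) p) = p := fun p =>
    map_constantCoeff_eq_iff.mpr fun e => by rw [coeff_mapLin, coeff_cT, if_pos rfl]
  have hcong1 : ∀ p q : MvPolynomial (Fin 2) (PowerSeries κ),
      map (PowerSeries.constantCoeff : PowerSeries κ →+* κ) p =
        map (PowerSeries.constantCoeff : PowerSeries κ →+* κ) q → Cong 1 p q := by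
    intro p q h e n hn
    obtain rfl : n = 0 := by omega
    have h1 := congrArg (coeff e) h
    rw [coeff_map, coeff_map] at h1
    rw [PowerSeries.coeff_zero_eq_constantCoeff_apply,
      PowerSeries.coeff_zero_eq_constantCoeff_apply]
    exact h1
  refine ⟨hc', ?_, fun r s => ?_, fun k r hr => ?_⟩
  · refine cong_of_deriv (n := 1) (fun e => ?_) ?_
    · change PowerSeries.coeff 0 (coeff e (Ψ 1)) = _
      rw [hc, map_one]
      have h1 := map_constantCoeff_eq_iff.mp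
        (map_one (map (PowerSeries.constantCoeff : PowerSeries κ →+* κ) :
          MvPolynomial (Fin 2) (PowerSeries κ) →+* MvPolynomial (Fin 2) κ)) e
      exact h1.symm
    · change Cong 1 (dM (Ψ 1)) (dM 1)
      have h1 : dM 1 = 0 := by
        ext1 e
        change coeff e (mapLin _ 1) = _
        rw [coeff_mapLin, coeff_zero, coeff_one]
        split_ifs
        · exact (dX κ).map_one_eq_zero
        · exact map_zero _
      rw [hd, h1, isDer_one hδ.der, map_zero]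
      exact fun _ _ _ => rfl
  · refine cong_of_deriv (n := 1) (fun e => ?_) ?_
    · change PowerSeries.coeff 0 (coeff e (Ψ (r * s))) = PowerSeries.coeff 0 (coeff e (Ψ r * Ψ s))
      rw [hc, map_mul]
      have h1 := map_constantCoeff_eq_iff.mp (show map
        (PowerSeries.constantCoeff : PowerSeries κ →+* κ) (Ψ r * Ψ s) = φ r * φ s by
          rw [map_mul, hc', hc']) e
      exact h1.symm
    · change Cong 1 (dM (Ψ (r * s))) (dM (Ψ r * Ψ s))
      have h1 : dM (Ψ r * Ψ s) = Ψ r * dM (Ψ s) + Ψ s * dM (Ψ r) := mapLin_mul _ _ _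
      apply hcong1
      rw [h1, hd, hd, hd, hcd, hδ.der, map_add, map_mul, map_mul, hcd, hcd, hc', hc']
  · refine (mapLin_isHomogeneous _ (h0.degree k r hr)).add (mapLin_isHomogeneous _ ?_)
    have h1 := hδ.deg k r hr
    rwa [add_zero] at h1

/-- The limit of a compatible sequence of truncated arcs. -/
theorem exists_limit [GradedAlgebra 𝒜] {φ : R →ₐ[ℂ] MvPolynomial (Fin 2) κ}
    (F : ℕ → (R →ₗ[ℂ] MvPolynomial (Fin 2) (PowerSeries κ)))
    (hF : ∀ N, IsArc 𝒜 d (N + 2) φ (F N))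
    (hF' : ∀ N r, Cong (N + 2) (F (N + 1) r) (F N r)) :
    ∃ Φ : R →ₐ[ℂ] MvPolynomial (Fin 2) (PowerSeries κ),
      (∀ k, ∀ r ∈ 𝒜 k, (Φ r).IsHomogeneous (d * k)) ∧ ∀ N r, Cong (N + 2) (Φ r) (F N r) := by
  classical
  have hmono : ∀ M N, N ≤ M → ∀ r, Cong (N + 2) (F M r) (F N r) := by
    intro M N hNM r
    induction M, hNM using Nat.le_induction with
    | base => exact fun _ _ _ => rfl
    | succ M hM ih => exact ((hF' M r).mono (by omega)).trans ih
  -- finiteness of the supports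
  have hsupp : ∀ r, ∃ E : Finset (Fin 2 →₀ ℕ), ∀ N, ∀ e, e ∉ E → coeff e (F N r) = 0 := by
    intro r
    refine DirectSum.Decomposition.inductionOn 𝒜 ?_ (fun {i} m => ?_) ?_ r
    · exact ⟨∅, fun N e _ => by rw [map_zero, coeff_zero]⟩
    · refine ⟨(Finsupp.finite_of_degree_le (σ := Fin 2) (d * i)).toFinset, fun N e he => ?_⟩
      by_contra hne
      apply he
      have h1 := (hF N).deg i m m.2 hne
      rw [Set.Finite.mem_toFinset, Set.mem_ofPred_eq, Finsupp.degree_eq_weight_one]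
      exact le_of_eq h1
    · rintro a b ⟨E, hE⟩ ⟨E', hE'⟩
      refine ⟨E ∪ E', fun N e he => ?_⟩
      rw [Finset.mem_union, not_or] at he
      rw [map_add, coeff_add, hE N e he.1, hE' N e he.2, add_zero]
  choose E hE using hsupp
  let c : R → (Fin 2 →₀ ℕ) → PowerSeries κ := fun r e =>
    PowerSeries.mk fun n => PowerSeries.coeff n (coeff e (F n r))
  have hcoeff : ∀ r e, coeff e (∑ e ∈ E r, monomial e (c r e)) = c r e := by
    intro r e
    rw [coeff_sum]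
    simp only [coeff_monomial]
    rw [Finset.sum_ite_eq' (E r) e (fun e => c r e)]
    split_ifs with h
    · rfl
    · ext n
      change _ = PowerSeries.coeff n (PowerSeries.mk _)
      rw [PowerSeries.coeff_mk, hE r n e h, map_zero]
  let L : R →ₗ[ℂ] MvPolynomial (Fin 2) (PowerSeries κ) :=
    { toFun := fun r => ∑ e ∈ E r, monomial e (c r e)
      map_add' := fun r s => by
        ext1 e
        rw [coeff_add, hcoeff, hcoeff, hcoeff]
        ext n
        change PowerSeries.coeff n (PowerSeries.mk _) =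
          PowerSeries.coeff n (PowerSeries.mk _ + PowerSeries.mk _)
        rw [map_add, PowerSeries.coeff_mk, PowerSeries.coeff_mk, PowerSeries.coeff_mk, map_add,
          coeff_add, map_add]
      map_smul' := fun a r => by
        have h : ∀ (g : PowerSeries κ) (m : ℕ), PowerSeries.coeff m (a • g) =
          a • PowerSeries.coeff m g := fun g m => rfl
        ext1 e
        rw [RingHom.id_apply, coeff_smul, hcoeff, hcoeff]
        ext n
        change PowerSeries.coeff n (PowerSeries.mk _) =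
          PowerSeries.coeff n (a • PowerSeries.mk _)
        rw [h, PowerSeries.coeff_mk, PowerSeries.coeff_mk, map_smul, coeff_smul, h] }
  have hL : ∀ r e n, PowerSeries.coeff n (coeff e (L r)) =
      PowerSeries.coeff n (coeff e (F n r)) := by
    intro r e n
    change PowerSeries.coeff n (coeff e (∑ e ∈ E r, monomial e (c r e))) = _
    rw [hcoeff]
    exact PowerSeries.coeff_mk _ _
  have hLF : ∀ N r, Cong (N + 2) (L r) (F N r) := by
    intro N r e n hn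
    rw [hL]
    rcases le_total n N with h | h
    · exact (hmono N n h r e n (by omega)).symm
    · exact hmono n N h r e n hn
  have hext : ∀ p q : MvPolynomial (Fin 2) (PowerSeries κ), (∀ N, Cong (N + 2) p q) → p = q := by
    intro p q h
    ext e n
    exact h n e n (by omega)
  let Φ : R →ₐ[ℂ] MvPolynomial (Fin 2) (PowerSeries κ) := AlgHom.ofLinearMap L
    (hext _ _ fun N => (hLF N 1).trans (hF N).one)
    (fun r s => hext _ _ fun N => ((hLF N (r * s)).trans ((hF N).mul r s)).trans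
      ((hLF N r).symm.mul (hLF N s).symm))
  refine ⟨Φ, fun k r hr => ?_, hLF⟩
  intro e he
  by_contra hne
  apply he
  change coeff e (L r) = 0
  ext n
  rw [hL, map_zero]
  have h1 : coeff e (F n r) = 0 := by
    by_contra h2
    exact hne ((hF n).deg k r hr h2)
  rw [h1, map_zero]

/-- Every derivation of degree `0` along a curve with the splitting property is the tangent
vector of an arc. -/
theorem exists_arc [IsAlgClosed κ] [GradedAlgebra 𝒜] (hX : IsContactFano 𝒜 P)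
    {φ : R →ₐ[ℂ] MvPolynomial (Fin 2) κ} (h0 : IsCurve 𝒜 d φ) (hs : SplitZ 𝒜 d φ)
    {δ : R →ₗ[ℂ] MvPolynomial (Fin 2) κ} (hδ : HZ 𝒜 d φ 0 δ) :
    ∃ Φ : R →ₐ[ℂ] MvPolynomial (Fin 2) (PowerSeries κ),
      (∀ k, ∀ r ∈ 𝒜 k, (Φ r).IsHomogeneous (d * k)) ∧
      (∀ r, map (PowerSeries.constantCoeff : PowerSeries κ →+* κ) (Φ r) = φ r) ∧
      ∀ r e, PowerSeries.coeff 1 (coeff e (Φ r)) = coeff e (δ r) := by
  let step : ∀ N, {Ψ : R →ₗ[ℂ] MvPolynomial (Fin 2) (PowerSeries κ) // IsArc 𝒜 d (N + 2) φ Ψ} →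
      {Ψ : R →ₗ[ℂ] MvPolynomial (Fin 2) (PowerSeries κ) // IsArc 𝒜 d (N + 3) φ Ψ} :=
    fun N Ψ => ⟨(exists_next hX h0 hs Ψ.2).choose, (exists_next hX h0 hs Ψ.2).choose_spec.1⟩
  have hstep : ∀ N (Ψ : {Ψ : R →ₗ[ℂ] MvPolynomial (Fin 2) (PowerSeries κ) //
      IsArc 𝒜 d (N + 2) φ Ψ}) r, Cong (N + 2) ((step N Ψ).1 r) (Ψ.1 r) :=
    fun N Ψ r => (exists_next hX h0 hs Ψ.2).choose_spec.2 r
  let F : ∀ N, {Ψ : R →ₗ[ℂ] MvPolynomial (Fin 2) (PowerSeries κ) // IsArc 𝒜 d (N + 2) φ Ψ} :=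
    fun N => Nat.rec ⟨_, isArc_two h0 hδ⟩ step N
  obtain ⟨Φ, h1, h2⟩ := exists_limit (fun N => (F N).1) (fun N => (F N).2)
    (fun N r => hstep N (F N) r)
  have h3 : ∀ r e n, n < 2 → PowerSeries.coeff n (coeff e (Φ r)) =
      PowerSeries.coeff n (coeff e (mapLin (cT κ) (φ r) + mapLin (xT κ) (δ r))) :=
    fun r e n hn => h2 0 r e n hn
  refine ⟨Φ, h1, fun r => ?_, fun r e => ?_⟩
  · refine map_constantCoeff_eq_iff.mpr fun e => ?_
    rw [h3 r e 0 (by omega), coeff_add, coeff_mapLin, coeff_mapLin, map_add, coeff_cT,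
      coeff_xT_zero, if_pos rfl, add_zero]
  · rw [h3 r e 1 (by omega), coeff_add, coeff_mapLin, coeff_mapLin, map_add, coeff_cT,
      coeff_xT_succ _ 0, if_pos rfl, if_neg one_ne_zero, zero_add]

end Vale.Agent.P292.VF
end

section

/-! # Arcs of curves: splitting of derivations of high degree from a frame. -/

namespace Vale.Agent.P292.VF

open MvPolynomial

universe u v w z

variable {R : Type u} [CommRing R] [Algebra ℂ R] {𝒜 : ℕ → Submodule ℂ R}
  {κ : Type z} [Field κ]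

omit [Field κ] in
theorem arc_weight_fin_two (e : Fin 2 →₀ ℕ) :
    Finsupp.weight (1 : Fin 2 → ℕ) e = e 0 + e 1 := by
  rw [Finsupp.weight_apply, Finsupp.sum_fintype _ _ (fun i => by simp)]
  simp

/-- Splitting of forms. -/
theorem arc_exists_split_form {p : MvPolynomial (Fin 2) κ} {M e : ℕ}
    (hp : p.IsHomogeneous (M + M + e)) :
    ∃ p₁ p₂ : MvPolynomial (Fin 2) κ, p₁.IsHomogeneous (M + e) ∧ p₂.IsHomogeneous (M + e) ∧
      p = X 1 ^ M * p₁ - X 0 ^ M * p₂ := by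
  classical
  have h1 : X 1 ^ M * (p.divMonomial (Finsupp.single 1 M)) +
      p.modMonomial (Finsupp.single 1 M) = p := by
    rw [X_pow_eq_monomial]
    exact divMonomial_add_modMonomial _ _
  set q := p.modMonomial (Finsupp.single 1 M) with hq
  have hqc : ∀ f, coeff f q ≠ 0 → f 1 < M ∧ coeff f p ≠ 0 := by
    intro f hf
    by_cases h : Finsupp.single 1 M ≤ f
    · exact absurd (coeff_modMonomial_of_le _ h) hf
    · refine ⟨?_, ?_⟩
      · rw [Finsupp.single_le_iff] at h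
        omega
      · rwa [hq, coeff_modMonomial_of_not_le _ h] at hf
  have hdvd : (monomial (Finsupp.single 0 M) (1 : κ)) ∣ q := by
    rw [monomial_one_dvd_iff_modMonomial_eq_zero]
    ext f
    rw [coeff_zero]
    by_cases hf : Finsupp.single 0 M ≤ f
    · exact coeff_modMonomial_of_le _ hf
    · rw [coeff_modMonomial_of_not_le _ hf]
      by_contra hne
      obtain ⟨h3, h4⟩ := hqc f hne
      have h5 := hp h4
      rw [arc_weight_fin_two] at h5
      apply hf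
      rw [Finsupp.single_le_iff]
      omega
  obtain ⟨q', hq'⟩ := hdvd
  refine ⟨p.divMonomial (Finsupp.single 1 M), -q', ?_, ?_, ?_⟩
  · intro f hf
    rw [coeff_divMonomial] at hf
    have h5 := hp hf
    rw [arc_weight_fin_two] at h5 ⊢
    simp at h5
    omega
  · refine IsHomogeneous.neg (fun f hf => ?_)
    have h3 : coeff (Finsupp.single 0 M + f) q = coeff f q' := by
      rw [hq', coeff_monomial_mul, one_mul]
    obtain ⟨h4, h5⟩ := hqc _ (by rw [h3]; exact hf)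
    have h6 := hp h5
    rw [arc_weight_fin_two] at h6 ⊢
    simp at h6
    omega
  · rw [mul_neg, sub_neg_eq_add, X_pow_eq_monomial (n := 0), ← hq']
    exact h1.symm

variable [Algebra ℂ κ] {d : ℕ}

/-- The product of a form and a derivation of nonpositive degree. -/
theorem smul_isHZ {φ : R →ₐ[ℂ] MvPolynomial (Fin 2) κ} {e : ℤ} {e' M : ℕ} (he : e = -(e' : ℤ))
    {δ : R →ₗ[ℂ] MvPolynomial (Fin 2) κ} (hδ : IsHDer 𝒜 d φ e δ) {c : MvPolynomial (Fin 2) κ}
    (hc : c.IsHomogeneous (M + e')) : HZ 𝒜 d φ M (c • δ) where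
  der := (DerAt φ).smul_mem c hδ.der
  deg k r hr := by
    rw [LinearMap.smul_apply, smul_eq_mul]
    rcases le_or_gt e' (d * k) with h | h
    · have h1 := hc.mul (hδ.homog k r hr (d * k - e') (by push_cast [Nat.cast_sub h]; rw [he]; ring))
      rwa [show M + e' + (d * k - e') = d * k + M by omega] at h1
    · have h1 : (d * k + e : ℤ) < 0 := by
        rw [he]
        have : ((d * k : ℕ) : ℤ) < e' := by exact_mod_cast h
        push_cast at this
        linarith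
      rw [hδ.neg k h1 r hr, mul_zero]
      exact isHomogeneous_zero _ _ _

/-- The splitting property from a frame of derivations of nonpositive degrees. -/
theorem splitZ_of_frame {φ : R →ₐ[ℂ] MvPolynomial (Fin 2) κ} {ι : Type*} [Fintype ι]
    {e : ι → ℤ} (he : ∀ i, e i ≤ 0) {δ : ι → R →ₗ[ℂ] MvPolynomial (Fin 2) κ}
    (hδ : ∀ i, IsHDer 𝒜 d φ (e i) (δ i))
    (hgen : ∀ (K : ℕ) (θ : R →ₗ[ℂ] MvPolynomial (Fin 2) κ), HZ 𝒜 d φ K θ →
      ∃ c : ι → MvPolynomial (Fin 2) κ, (∀ i, ∀ m : ℕ, (m : ℤ) = K - e i →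
        (c i).IsHomogeneous m) ∧ θ = ∑ i, c i • δ i) : SplitZ 𝒜 d φ := by
  classical
  refine ⟨0, fun M _ D hD => ?_⟩
  obtain ⟨c, hc, rfl⟩ := hgen (M + M) D hD
  have he' : ∀ i, e i = -((e i).natAbs : ℤ) := fun i => by
    have := he i
    omega
  have hc' : ∀ i, (c i).IsHomogeneous (M + M + (e i).natAbs) := fun i =>
    hc i _ (by have := he' i; omega)
  choose p₁ p₂ h1 h2 h3 using fun i => arc_exists_split_form (hc' i)
  have hsum : ∀ (f : ι → R →ₗ[ℂ] MvPolynomial (Fin 2) κ) (_ : ∀ i, HZ 𝒜 d φ M (f i)),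
      HZ 𝒜 d φ M (∑ i, f i) := fun f hf =>
    Finset.sum_induction f (HZ 𝒜 d φ M) (fun _ _ ha hb => ha.add hb) HZ.zero (fun i _ => hf i)
  refine ⟨∑ i, p₁ i • δ i, ∑ i, p₂ i • δ i, hsum _ fun i => smul_isHZ (he' i) (hδ i) (h1 i),
    hsum _ fun i => smul_isHZ (he' i) (hδ i) (h2 i), ?_⟩
  rw [Finset.smul_sum, Finset.smul_sum, ← Finset.sum_sub_distrib]
  refine Finset.sum_congr rfl fun i _ => ?_
  conv_lhs => rw [h3 i]
  ext1 r
  simp only [LinearMap.sub_apply, LinearMap.smul_apply, smul_eq_mul]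
  ring

end Vale.Agent.P292.VF
end

section

/-! # Arcs along anchored curves, and full anchored curves. -/

namespace Vale.Agent.P292

open MvPolynomial

universe u v w

variable {R : Type u} [CommRing R] [Algebra ℂ R] {𝒜 : ℕ → Submodule ℂ R} [GradedAlgebra 𝒜]
  {P : R →ₗ[ℂ] R →ₗ[ℂ] R}

theorem IsHDer.hz {κ : Type v} [Field κ] [Algebra ℂ κ] {d : ℕ}
    {φ : R →ₐ[ℂ] MvPolynomial (Fin 2) κ} {K : ℕ} {δ : R →ₗ[ℂ] MvPolynomial (Fin 2) κ}
    (h : IsHDer 𝒜 d φ K δ) : VF.HZ 𝒜 d φ K δ :=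
  ⟨h.der, fun k r hr => h.homog k r hr (d * k + K) (by push_cast; ring)⟩

theorem IsHDer.of_hz {κ : Type v} [Field κ] [Algebra ℂ κ] {d : ℕ}
    {φ : R →ₐ[ℂ] MvPolynomial (Fin 2) κ} {K : ℕ} {δ : R →ₗ[ℂ] MvPolynomial (Fin 2) κ}
    (h : VF.HZ 𝒜 d φ K δ) : IsHDer 𝒜 d φ K δ :=
  IsHDer.fr_of_zhom h.1 fun k r hr => (ZHom.of_nat (h.2 k r hr)).congr (by push_cast; ring)

theorem IsHFrame.splitZ (hX : IsContactFano 𝒜 P) [IsDomain R] {κ : Type v} [Field κ]
    [IsAlgClosed κ] [Algebra ℂ κ] {d : ℕ} {φ : R →ₐ[ℂ] MvPolynomial (Fin 2) κ}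
    (hφ : IsCurve 𝒜 d φ) {e : Fin (cdim R) → ℤ}
    {δ : Fin (cdim R) → R →ₗ[ℂ] MvPolynomial (Fin 2) κ} {c : κ}
    (h : IsHFrame 𝒜 P d φ e δ c) : VF.SplitZ 𝒜 d φ := by
  refine VF.splitZ_of_frame h.nonpos h.hder fun K θ hθ => ?_
  obtain ⟨p, hp, hp'⟩ := h.exists_coeff_zhom hX hφ (IsHDer.of_hz hθ)
  exact ⟨p, fun i m hm => (hp i).nat m hm, hp'⟩

/-- Anchored curves have arcs. -/
theorem hasArcs (hX : IsContactFano 𝒜 P) [IsDomain R] : HasArcs 𝒜 := by
  intro K _ _ _ d φ hφ δ hδ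
  obtain ⟨e, δ', c, hf⟩ := hφ.exists_hframe hX
  exact VF.exists_arc hX hφ.curve (hf.splitZ hX hφ.curve) (IsHDer.hz (K := 0) hδ)

/-- D, lines: a full anchored line exists as soon as an anchored line exists. -/
theorem exists_full_line (hX : IsContactFano 𝒜 P) [IsDomain R] {K : Type u} [Field K]
    [IsAlgClosed K] [Algebra ℂ K] {φ : R →ₐ[ℂ] MvPolynomial (Fin 2) K} (hφ : IsAnch 𝒜 1 φ) :
    ∃ (Ω : Type u) (_ : Field Ω) (_ : IsAlgClosed Ω) (_ : Algebra ℂ Ω)
      (ψ : R →ₐ[ℂ] MvPolynomial (Fin 2) Ω), IsAnch 𝒜 1 ψ ∧ IsFull 𝒜 1 ψ :=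
  q2d_full_line hX (hasArcs hX) hφ

/-- D, conics with `b ≠ 0`. -/
theorem exists_full_conic (hX : IsContactFano 𝒜 P) [IsDomain R] {K : Type u} [Field K]
    [IsAlgClosed K] [Algebra ℂ K] {φ : R →ₐ[ℂ] MvPolynomial (Fin 2) K} (hφ : IsAnch 𝒜 2 φ)
    {b : K} (hb : omC P φ (pd φ 0) (pd φ 1) = C b) (hb0 : b ≠ 0) :
    ∃ (Ω : Type u) (_ : Field Ω) (_ : IsAlgClosed Ω) (_ : Algebra ℂ Ω)
      (ψ : R →ₐ[ℂ] MvPolynomial (Fin 2) Ω), IsAnch 𝒜 2 ψ ∧ IsFull 𝒜 2 ψ ∧
      ∃ b' : Ω, omC P ψ (pd ψ 0) (pd ψ 1) = C b' ∧ b' ≠ 0 :=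
  q2d_full_conic hX (hasArcs hX) hφ hb hb0

/-- D, conics with non-proportional ends. -/
theorem exists_full_conic' (hX : IsContactFano 𝒜 P) [IsDomain R] {K : Type u} [Field K]
    [IsAlgClosed K] [Algebra ℂ K] {φ : R →ₐ[ℂ] MvPolynomial (Fin 2) K} (hφ : IsAnch 𝒜 2 φ)
    (hp : NonProp 𝒜 φ) :
    ∃ (Ω : Type u) (_ : Field Ω) (_ : IsAlgClosed Ω) (_ : Algebra ℂ Ω)
      (ψ : R →ₐ[ℂ] MvPolynomial (Fin 2) Ω), IsAnch 𝒜 2 ψ ∧ IsFull 𝒜 2 ψ ∧ NonProp 𝒜 ψ :=
  q2d_full_conic' hX (hasArcs hX) hφ hp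

end Vale.Agent.P292
end

section

/-! Step 2: the two point function of conics and its differential are bounded at every
valuation. -/

namespace Vale.Agent.P292.LS

open MvPolynomial

section poly

variable {K : Type*} [Field K]

/-- the linear functional on `K[s,t]` with given values on monomials -/
noncomputable def lin (w : (Fin 2 →₀ ℕ) → K) : MvPolynomial (Fin 2) K →ₗ[K] K :=
  (basisMonomials (Fin 2) K).constr K w

lemma lin_monomial (w : (Fin 2 →₀ ℕ) → K) (m : Fin 2 →₀ ℕ) (c : K) :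
    lin w (monomial m c) = c * w m := by
  have h : monomial m c = c • basisMonomials (Fin 2) K m := by
    rw [coe_basisMonomials, smul_monomial, smul_eq_mul, mul_one]
  rw [h, map_smul, lin, Module.Basis.constr_basis, smul_eq_mul]

lemma lin_eq (w : (Fin 2 →₀ ℕ) → K) (f : MvPolynomial (Fin 2) K) :
    lin w f = ∑ m ∈ f.support, coeff m f * w m := by
  conv_lhs => rw [f.as_sum]
  rw [map_sum]
  exact Finset.sum_congr rfl fun m _ => lin_monomial w m _

lemma lin_mul (w : (Fin 2 →₀ ℕ) → K) (f g : MvPolynomial (Fin 2) K) :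
    lin w (f * g) = ∑ m ∈ f.support, ∑ m' ∈ g.support,
      coeff m f * coeff m' g * w (m + m') := by
  conv_lhs => rw [f.as_sum, g.as_sum]
  rw [Finset.sum_mul_sum, map_sum]
  refine Finset.sum_congr rfl fun m _ => ?_
  rw [map_sum]
  refine Finset.sum_congr rfl fun m' _ => ?_
  rw [monomial_mul, lin_monomial]

lemma lin_mul_sub (w : (Fin 2 →₀ ℕ) → K) (f g : MvPolynomial (Fin 2) K) :
    lin w (f * g) - lin w f * lin w g = ∑ m ∈ f.support, ∑ m' ∈ g.support,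
      coeff m f * coeff m' g * (w (m + m') - w m * w m') := by
  rw [lin_mul, lin_eq w f, lin_eq w g, Finset.sum_mul_sum, ← Finset.sum_sub_distrib]
  refine Finset.sum_congr rfl fun m _ => ?_
  rw [← Finset.sum_sub_distrib]
  refine Finset.sum_congr rfl fun m' _ => ?_
  ring

/-- polynomials whose coefficients lie in given additive subgroups -/
def coeffSubring (A : (Fin 2 →₀ ℕ) → AddSubgroup K) (h1 : 1 ∈ A 0)
    (hA : ∀ m m', ∀ a ∈ A m, ∀ a' ∈ A m', a * a' ∈ A (m + m')) :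
    Subring (MvPolynomial (Fin 2) K) where
  carrier := {f | ∀ m, coeff m f ∈ A m}
  mul_mem' := by
    intro f g hf hg m
    rw [coeff_mul]
    refine sum_mem fun x hx => ?_
    have := hA _ _ _ (hf x.1) _ (hg x.2)
    rwa [Finset.HasAntidiagonal.mem_antidiagonal.mp hx] at this
  one_mem' := by
    intro m
    rw [coeff_one]
    split_ifs with h
    · rw [← h]; exact h1
    · exact zero_mem _
  add_mem' := by
    intro f g hf hg m
    rw [coeff_add]
    exact add_mem (hf m) (hg m)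
  zero_mem' := by
    intro m
    rw [coeff_zero]
    exact zero_mem _
  neg_mem' := by
    intro f hf m
    rw [coeff_neg]
    exact neg_mem (hf m)

lemma mem_coeffSubring {A : (Fin 2 →₀ ℕ) → AddSubgroup K} {h1 : 1 ∈ A 0}
    {hA : ∀ m m', ∀ a ∈ A m, ∀ a' ∈ A m', a * a' ∈ A (m + m')} {f : MvPolynomial (Fin 2) K} :
    f ∈ coeffSubring A h1 hA ↔ ∀ m, coeff m f ∈ A m := Iff.rfl

end poly

section valuation

variable {K : Type*} [Field K] {Γ : Type*} [LinearOrderedCommGroupWithZero Γ]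
  (v : Valuation K Γ)

lemma mul_lt_one_of_le_of_lt {a b : Γ} (ha : a ≤ 1) (hb : b < 1) : a * b < 1 :=
  lt_of_le_of_lt (by simpa using mul_le_mul' ha le_rfl) hb

lemma mul_lt_one_of_lt_of_le {a b : Γ} (ha : a < 1) (hb : b ≤ 1) : a * b < 1 := by
  rw [mul_comm]; exact mul_lt_one_of_le_of_lt hb ha

/-- the weight of a monomial -/
noncomputable def wt (i j : Fin 2) (α β : ℕ) (γ : K) (m : Fin 2 →₀ ℕ) : K :=
  if α * m i = β * m j then γ ^ m j else 0

/-- coefficients for the first subring -/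
def QA (i j : Fin 2) (α β : ℕ) (γ : K) (m : Fin 2 →₀ ℕ) : AddSubgroup K where
  carrier := {a | v a * v γ ^ m j ≤ 1 ∧ (α * m i < β * m j → v a * v γ ^ m j < 1)}
  add_mem' := by
    rintro a b ⟨ha, ha'⟩ ⟨hb, hb'⟩
    have h : v (a + b) * v γ ^ m j ≤ max (v a * v γ ^ m j) (v b * v γ ^ m j) := by
      rcases le_total (v a) (v b) with h | h
      · exact le_trans (mul_le_mul' (le_trans (v.map_add a b) (max_le h le_rfl)) le_rfl)
          (le_max_right _ _)
      · exact le_trans (mul_le_mul' (le_trans (v.map_add a b) (max_le le_rfl h)) le_rfl)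
          (le_max_left _ _)
    exact ⟨le_trans h (max_le ha hb), fun h' => lt_of_le_of_lt h (max_lt (ha' h') (hb' h'))⟩
  zero_mem' := by simp
  neg_mem' := by
    rintro a ha
    simpa [Valuation.map_neg] using ha

lemma QA_mul (i j : Fin 2) (α β : ℕ) (γ : K) (m m' : Fin 2 →₀ ℕ) (a : K)
    (ha : a ∈ QA v i j α β γ m) (a' : K) (ha' : a' ∈ QA v i j α β γ m') :
    a * a' ∈ QA v i j α β γ (m + m') := by
  obtain ⟨ha1, ha2⟩ := ha
  obtain ⟨hb1, hb2⟩ := ha'
  have e : v (a * a') * v γ ^ (m + m') j = (v a * v γ ^ m j) * (v a' * v γ ^ m' j) := by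
    rw [map_mul, Finsupp.add_apply, pow_add]
    exact mul_mul_mul_comm _ _ _ _
  refine ⟨?_, fun h => ?_⟩
  · rw [e]
    exact mul_le_one' ha1 hb1
  · rw [e]
    rw [Finsupp.add_apply, Finsupp.add_apply, mul_add, mul_add] at h
    rcases lt_or_ge (α * m i) (β * m j) with h1 | h1
    · exact mul_lt_one_of_lt_of_le (ha2 h1) hb1
    · exact mul_lt_one_of_le_of_lt ha1 (hb2 (by omega))

/-- the first subring -/
def Q1 (i j : Fin 2) (α β : ℕ) (γ : K) : Subring (MvPolynomial (Fin 2) K) :=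
  coeffSubring (QA v i j α β γ) (by constructor <;> simp) (QA_mul v i j α β γ)

lemma mem_Q1 {i j : Fin 2} {α β : ℕ} {γ : K} {f : MvPolynomial (Fin 2) K} :
    f ∈ Q1 v i j α β γ ↔ ∀ m, v (coeff m f) * v γ ^ m j ≤ 1 ∧
      (α * m i < β * m j → v (coeff m f) * v γ ^ m j < 1) := Iff.rfl

lemma lin_le_one {i j : Fin 2} {α β : ℕ} {γ : K} {f : MvPolynomial (Fin 2) K}
    (hf : f ∈ Q1 v i j α β γ) : v (lin (wt i j α β γ) f) ≤ 1 := by
  rw [lin_eq]
  refine v.map_sum_le fun m _ => ?_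
  rw [wt]
  split_ifs with h
  · rw [map_mul, map_pow]
    exact (hf m).1
  · simp

lemma lin_mul_sub_lt {i j : Fin 2} {α β : ℕ} {γ : K} {f g : MvPolynomial (Fin 2) K}
    (hf : f ∈ Q1 v i j α β γ) (hg : g ∈ Q1 v i j α β γ) :
    v (lin (wt i j α β γ) (f * g) - lin (wt i j α β γ) f * lin (wt i j α β γ) g) < 1 := by
  rw [lin_mul_sub]
  refine v.map_sum_lt one_ne_zero fun m _ => v.map_sum_lt one_ne_zero fun m' _ => ?_
  obtain ⟨ha1, ha2⟩ := hf m
  obtain ⟨hb1, hb2⟩ := hg m'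
  have hz : v (0 : K) < 1 := by rw [map_zero]; exact zero_lt_one
  rw [wt, wt, wt]
  simp only [Finsupp.add_apply, mul_add]
  by_cases h1 : α * m i = β * m j
  · by_cases h2 : α * m' i = β * m' j
    · rw [if_pos h1, if_pos h2, if_pos (by omega), pow_add, sub_self, mul_zero]
      exact hz
    · rw [if_pos h1, if_neg h2, if_neg (by omega), mul_zero, sub_self, mul_zero]
      exact hz
  · rw [if_neg h1, zero_mul, sub_zero]
    by_cases h3 : α * m i + α * m' i = β * m j + β * m' j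
    · rw [if_pos h3]
      have e : v (coeff m f * coeff m' g * γ ^ (m j + m' j)) =
          (v (coeff m f) * v γ ^ m j) * (v (coeff m' g) * v γ ^ m' j) := by
        rw [map_mul, map_mul, map_pow, pow_add]
        exact mul_mul_mul_comm _ _ _ _
      rw [e]
      rcases lt_or_ge (α * m i) (β * m j) with h4 | h4
      · exact mul_lt_one_of_lt_of_le (ha2 h4) hb1
      · exact mul_lt_one_of_le_of_lt ha1 (hb2 (by omega))
    · rw [if_neg h3, mul_zero]
      exact hz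

/-- coefficients for the second subring -/
def QB (γ : K) (m : Fin 2 →₀ ℕ) : AddSubgroup K where
  carrier := {a | v a * v γ ^ min (m 0) (m 1) ≤ 1 ∧ (¬ Even (m 0 + m 1) → a = 0)}
  add_mem' := by
    rintro a b ⟨ha, ha'⟩ ⟨hb, hb'⟩
    refine ⟨?_, fun h => by rw [ha' h, hb' h, add_zero]⟩
    have h : v (a + b) * v γ ^ min (m 0) (m 1) ≤
        max (v a * v γ ^ min (m 0) (m 1)) (v b * v γ ^ min (m 0) (m 1)) := by
      rcases le_total (v a) (v b) with h | h
      · exact le_trans (mul_le_mul' (le_trans (v.map_add a b) (max_le h le_rfl)) le_rfl)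
          (le_max_right _ _)
      · exact le_trans (mul_le_mul' (le_trans (v.map_add a b) (max_le le_rfl h)) le_rfl)
          (le_max_left _ _)
    exact le_trans h (max_le ha hb)
  zero_mem' := by simp
  neg_mem' := by
    rintro a ha
    simpa [Valuation.map_neg] using ha

lemma QB_mul (γ : K) (hγ : v γ ≤ 1) (m m' : Fin 2 →₀ ℕ) (a : K)
    (ha : a ∈ QB v γ m) (a' : K) (ha' : a' ∈ QB v γ m') :
    a * a' ∈ QB v γ (m + m') := by
  obtain ⟨ha1, ha2⟩ := ha
  obtain ⟨hb1, hb2⟩ := ha'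
  refine ⟨?_, fun h => ?_⟩
  · have h1 : v γ ^ min ((m + m') 0) ((m + m') 1) ≤
        v γ ^ (min (m 0) (m 1) + min (m' 0) (m' 1)) := by
      refine pow_le_pow_right_of_le_one' hγ ?_
      rw [Finsupp.add_apply, Finsupp.add_apply]
      omega
    calc v (a * a') * v γ ^ min ((m + m') 0) ((m + m') 1)
        ≤ v (a * a') * v γ ^ (min (m 0) (m 1) + min (m' 0) (m' 1)) := mul_le_mul' le_rfl h1
      _ = (v a * v γ ^ min (m 0) (m 1)) * (v a' * v γ ^ min (m' 0) (m' 1)) := by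
          rw [map_mul, pow_add]; exact mul_mul_mul_comm _ _ _ _
      _ ≤ 1 := mul_le_one' ha1 hb1
  · rw [Finsupp.add_apply, Finsupp.add_apply] at h
    by_cases h1 : Even (m 0 + m 1)
    · have h2 : ¬ Even (m' 0 + m' 1) := by
        intro h2
        apply h
        have := h1.add h2
        rwa [show m 0 + m 1 + (m' 0 + m' 1) = m 0 + m' 0 + (m 1 + m' 1) by ring] at this
      rw [hb2 h2, mul_zero]
    · rw [ha2 h1, zero_mul]

/-- the second subring -/
def Q2 (γ : K) (hγ : v γ ≤ 1) : Subring (MvPolynomial (Fin 2) K) :=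
  coeffSubring (QB v γ) (by constructor <;> simp) (QB_mul v γ hγ)

lemma mem_Q2 {γ : K} {hγ : v γ ≤ 1} {f : MvPolynomial (Fin 2) K} :
    f ∈ Q2 v γ hγ ↔ ∀ m, v (coeff m f) * v γ ^ min (m 0) (m 1) ≤ 1 ∧
      (¬ Even (m 0 + m 1) → coeff m f = 0) := Iff.rfl

lemma lin_mul_sub_le {γ : K} {hγ : v γ ≤ 1} {f g : MvPolynomial (Fin 2) K}
    (hf : f ∈ Q2 v γ hγ) (hg : g ∈ Q2 v γ hγ) :
    v (lin (wt 0 1 1 1 γ) (f * g) - lin (wt 0 1 1 1 γ) f * lin (wt 0 1 1 1 γ) g) ≤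
      v γ ^ 2 := by
  rw [lin_mul_sub]
  refine v.map_sum_le fun m hm => v.map_sum_le fun m' hm' => ?_
  obtain ⟨ha1, ha2⟩ := hf m
  obtain ⟨hb1, hb2⟩ := hg m'
  have ha3 : Even (m 0 + m 1) := by
    by_contra h
    exact (mem_support_iff.mp hm) (ha2 h)
  have hb3 : Even (m' 0 + m' 1) := by
    by_contra h
    exact (mem_support_iff.mp hm') (hb2 h)
  have hz : v (0 : K) ≤ v γ ^ 2 := by rw [map_zero]; exact zero_le
  rw [wt, wt, wt]
  simp only [Finsupp.add_apply, one_mul]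
  by_cases h1 : m 0 = m 1
  · by_cases h2 : m' 0 = m' 1
    · rw [if_pos h1, if_pos h2, if_pos (by omega), pow_add, sub_self, mul_zero]
      exact hz
    · rw [if_pos h1, if_neg h2, if_neg (by omega), mul_zero, sub_self, mul_zero]
      exact hz
  · rw [if_neg h1, zero_mul, sub_zero]
    by_cases h3 : m 0 + m' 0 = m 1 + m' 1
    · rw [if_pos h3]
      obtain ⟨a, ha⟩ := ha3
      obtain ⟨b, hb⟩ := hb3
      have h4 : min (m 0) (m 1) + min (m' 0) (m' 1) + 2 ≤ m 1 + m' 1 := by omega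
      have e : v (coeff m f * coeff m' g * γ ^ (m 1 + m' 1)) =
          (v (coeff m f) * v (coeff m' g)) * v γ ^ (m 1 + m' 1) := by
        rw [map_mul, map_mul, map_pow]
      rw [e]
      calc (v (coeff m f) * v (coeff m' g)) * v γ ^ (m 1 + m' 1)
          ≤ (v (coeff m f) * v (coeff m' g)) *
              v γ ^ (min (m 0) (m 1) + min (m' 0) (m' 1) + 2) :=
            mul_le_mul' le_rfl (pow_le_pow_right_of_le_one' hγ h4)
        _ = ((v (coeff m f) * v γ ^ min (m 0) (m 1)) *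
              (v (coeff m' g) * v γ ^ min (m' 0) (m' 1))) * v γ ^ 2 := by
            rw [pow_add, pow_add, ← mul_assoc, mul_mul_mul_comm]
        _ ≤ 1 * v γ ^ 2 := mul_le_mul' (mul_le_one' ha1 hb1) le_rfl
        _ = v γ ^ 2 := one_mul _
    · rw [if_neg h3, mul_zero]
      exact hz

lemma lin_le_one' {γ : K} {hγ : v γ ≤ 1} {f : MvPolynomial (Fin 2) K}
    (hf : f ∈ Q2 v γ hγ) : v (lin (wt 0 1 1 1 γ) f) ≤ 1 := by
  rw [lin_eq]
  refine v.map_sum_le fun m _ => ?_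
  rw [wt]
  split_ifs with h
  · rw [map_mul, map_pow]
    have := (hf m).1
    rw [one_mul, one_mul] at h
    rwa [h, min_self] at this
  · simp

/-- the three fold product -/
lemma lin_mul3 {γ : K} {hγ : v γ ≤ 1} {f g h : MvPolynomial (Fin 2) K}
    (hf : f ∈ Q2 v γ hγ) (hg : g ∈ Q2 v γ hγ) (hh : h ∈ Q2 v γ hγ) :
    v (lin (wt 0 1 1 1 γ) (f * g * h) -
      lin (wt 0 1 1 1 γ) f * lin (wt 0 1 1 1 γ) g * lin (wt 0 1 1 1 γ) h) ≤ v γ ^ 2 := by
  have e : lin (wt 0 1 1 1 γ) (f * g * h) -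
      lin (wt 0 1 1 1 γ) f * lin (wt 0 1 1 1 γ) g * lin (wt 0 1 1 1 γ) h =
      (lin (wt 0 1 1 1 γ) (f * g * h) - lin (wt 0 1 1 1 γ) (f * g) * lin (wt 0 1 1 1 γ) h) +
      (lin (wt 0 1 1 1 γ) (f * g) - lin (wt 0 1 1 1 γ) f * lin (wt 0 1 1 1 γ) g) *
        lin (wt 0 1 1 1 γ) h := by ring
  rw [e]
  refine le_trans (v.map_add _ _) (max_le (lin_mul_sub_le v (mul_mem hf hg) hh) ?_)
  rw [map_mul]
  calc _ ≤ v γ ^ 2 * 1 := mul_le_mul' (lin_mul_sub_le v hf hg) (lin_le_one' v hh)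
    _ = _ := mul_one _

/-- the kernel of an approximate homomorphism to the residue field -/
def nearKer {R : Type*} [CommRing R] (l : R →+ K) (h1 : ∀ r, v (l r) ≤ 1)
    (h2 : ∀ r s, v (l (r * s) - l r * l s) < 1) : Ideal R where
  carrier := {r | v (l r) < 1}
  add_mem' := by
    intro a b ha hb
    change v (l (a + b)) < 1
    rw [map_add]
    exact lt_of_le_of_lt (v.map_add _ _) (max_lt ha hb)
  zero_mem' := by
    change v (l 0) < 1
    rw [map_zero, map_zero]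
    exact zero_lt_one
  smul_mem' := by
    intro c x hx
    change v (l (c * x)) < 1
    have e : l (c * x) = (l (c * x) - l c * l x) + l c * l x := by ring
    rw [e]
    refine lt_of_le_of_lt (v.map_add _ _) (max_lt (h2 c x) ?_)
    rw [map_mul]
    exact mul_lt_one_of_le_of_lt (h1 c) hx

lemma mem_nearKer {R : Type*} [CommRing R] {l : R →+ K} {h1 : ∀ r, v (l r) ≤ 1}
    {h2 : ∀ r s, v (l (r * s) - l r * l s) < 1} {r : R} :
    r ∈ nearKer v l h1 h2 ↔ v (l r) < 1 := Iff.rfl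

lemma nearKer_isPrime {R : Type*} [CommRing R] {l : R →+ K} {h1 : ∀ r, v (l r) ≤ 1}
    {h2 : ∀ r s, v (l (r * s) - l r * l s) < 1} (h : l 1 = 1) :
    (nearKer v l h1 h2).IsPrime := by
  constructor
  · intro h'
    have : (1 : R) ∈ nearKer v l h1 h2 := by rw [h']; trivial
    rw [mem_nearKer, h, map_one] at this
    exact lt_irrefl _ this
  · intro x y hxy
    by_contra hcon
    push Not at hcon
    obtain ⟨hx, hy⟩ := hcon
    rw [mem_nearKer, not_lt] at hx hy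
    rw [mem_nearKer] at hxy
    have hx' : v (l x) = 1 := le_antisymm (h1 x) hx
    have hy' : v (l y) = 1 := le_antisymm (h1 y) hy
    have e : l x * l y = l (x * y) - (l (x * y) - l x * l y) := by ring
    have h3 : v (l x * l y) < 1 := by
      rw [e]
      exact lt_of_le_of_lt (v.map_sub _ _) (max_lt hxy (h2 x y))
    rw [map_mul, hx', hy', mul_one] at h3
    exact lt_irrefl _ h3

end valuation

section gen

variable {R : Type*} [CommRing R] [Algebra ℂ R]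
variable {K : Type*} [Field K] [Algebra ℂ K]

/-- a subring containing the constants and the images of generators contains the image -/
lemma forall_mem_of_generators (Φ : R →ₐ[ℂ] MvPolynomial (Fin 2) K) (s : Set R)
    (hs : Algebra.adjoin ℂ s = ⊤) (Q : Subring (MvPolynomial (Fin 2) K))
    (hC : ∀ c : ℂ, C (algebraMap ℂ K c) ∈ Q) (hQ : ∀ r ∈ s, Φ r ∈ Q) (r : R) : Φ r ∈ Q := by
  have hr : r ∈ Algebra.adjoin ℂ s := by rw [hs]; trivial
  induction hr using Algebra.adjoin_induction with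
  | mem x hx => exact hQ x hx
  | algebraMap c =>
    rw [AlgHom.commutes]
    exact hC c
  | add x y _ _ hx hy => rw [map_add]; exact add_mem hx hy
  | mul x y _ _ hx hy => rw [map_mul]; exact mul_mem hx hy

end gen

section node

variable {R : Type*} [CommRing R] [Algebra ℂ R] {𝒜 : ℕ → Submodule ℂ R}
variable {K : Type*} [Field K] [Algebra ℂ K] {Γ : Type*} [LinearOrderedCommGroupWithZero Γ]
  (v : Valuation K Γ)

omit [Algebra ℂ K] in
/-- the degree of a monomial in two variables -/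
lemma sum_of_homogeneous {f : MvPolynomial (Fin 2) K} {n : ℕ} (hf : f.IsHomogeneous n)
    {m : Fin 2 →₀ ℕ} (hm : coeff m f ≠ 0) : m 0 + m 1 = n := by
  have h := hf hm
  rw [Finsupp.weight_apply, Finsupp.sum_fintype _ _ (by simp)] at h
  simpa [Fin.sum_univ_two] using h

omit [Algebra ℂ K] in
lemma sum_of_homogeneous' {f : MvPolynomial (Fin 2) K} {n : ℕ} (hf : f.IsHomogeneous n)
    {m : Fin 2 →₀ ℕ} (hm : coeff m f ≠ 0) {i j : Fin 2} (hij : i ≠ j) : m i + m j = n := by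
  have h := sum_of_homogeneous hf hm
  have h2 : (i = 0 ∧ j = 1) ∨ (i = 1 ∧ j = 0) := by omega
  rcases h2 with ⟨rfl, rfl⟩ | ⟨rfl, rfl⟩
  · exact h
  · rw [add_comm]; exact h

lemma ext_fin2 {m m' : Fin 2 →₀ ℕ} {i j : Fin 2} (hij : i ≠ j) (h1 : m i = m' i)
    (h2 : m j = m' j) : m = m' := by
  ext l
  have h3 : l = i ∨ l = j := by omega
  rcases h3 with rfl | rfl
  · exact h1
  · exact h2

omit [Algebra ℂ K] in
lemma lin_wt_homogeneous {f : MvPolynomial (Fin 2) K} {n : ℕ} (hf : f.IsHomogeneous n)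
    {i j : Fin 2} (hij : i ≠ j) (m₁ : Fin 2 →₀ ℕ) (hn : m₁ i + m₁ j = n) (hn0 : n ≠ 0)
    (γ : K) : lin (wt i j (m₁ j) (m₁ i) γ) f = coeff m₁ f * γ ^ m₁ j := by
  classical
  rw [lin_eq]
  have h1 : ∀ m ∈ f.support, m ≠ m₁ →
      coeff m f * wt i j (m₁ j) (m₁ i) γ m = 0 := by
    intro m hm hne
    rw [wt, if_neg, mul_zero]
    intro h
    apply hne
    have h2 := sum_of_homogeneous' hf (mem_support_iff.mp hm) hij
    have h3 : m j * n = m₁ j * n := by
      rw [← hn] at h2 ⊢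
      have h4 : m i = m₁ i + m₁ j - m j := by omega
      nlinarith
    have h5 : m j = m₁ j := Nat.eq_of_mul_eq_mul_right (Nat.pos_of_ne_zero hn0) h3
    exact ext_fin2 hij (by omega) h5
  by_cases hm : m₁ ∈ f.support
  · rw [Finset.sum_eq_single_of_mem m₁ hm h1, wt, if_pos (mul_comm _ _)]
  · rw [Finset.sum_eq_zero (fun m hm' => h1 m hm' (by rintro rfl; exact hm hm')),
      notMem_support_iff.mp hm, zero_mul]

/-- the approximate point of weight `(α, β)` -/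
noncomputable def wpt (Φ : R →ₐ[ℂ] MvPolynomial (Fin 2) K) (w : (Fin 2 →₀ ℕ) → K) :
    R →+ K where
  toFun r := lin w (Φ r)
  map_zero' := by rw [map_zero, map_zero]
  map_add' := by intro x y; rw [map_add, map_add]

lemma wpt_apply (Φ : R →ₐ[ℂ] MvPolynomial (Fin 2) K) (w : (Fin 2 →₀ ℕ) → K) (r : R) :
    wpt Φ w r = lin w (Φ r) := rfl

lemma wpt_one (Φ : R →ₐ[ℂ] MvPolynomial (Fin 2) K) (i j : Fin 2) (α β : ℕ) (γ : K) :
    wpt Φ (wt i j α β γ) 1 = 1 := by
  rw [wpt_apply, map_one]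
  have h : (1 : MvPolynomial (Fin 2) K) = monomial 0 1 := rfl
  rw [h, lin_monomial, wt, if_pos (by simp)]
  simp

/-- the node is not the vertex: the case where the unit coefficient is on the side `i` -/
lemma node_nonvertex (Φ : R →ₐ[ℂ] MvPolynomial (Fin 2) K)
    (hΦ : ∀ k, ∀ r ∈ 𝒜 k, (Φ r).IsHomogeneous (2 * k))
    (hC : ∀ c : ℂ, v (algebraMap ℂ K c) ≤ 1)
    (s : Finset R) (hs : Algebra.adjoin ℂ (s : Set R) = ⊤) (hn : ∀ r ∈ s, ∃ k ≠ 0, r ∈ 𝒜 k)
    (γ : K) (hγ : v γ < 1) {i j : Fin 2} (hij : i ≠ j)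
    (hQ : ∀ r ∈ s, ∀ m, v (coeff m (Φ r)) * v γ ^ min (m i) (m j) ≤ 1)
    (r₁ : R) (hr₁ : r₁ ∈ s) (m₁ : Fin 2 →₀ ℕ) (h1 : v (coeff m₁ (Φ r₁)) * v γ ^ m₁ j = 1)
    (hpos : 0 < m₁ j) (hle : m₁ j ≤ m₁ i)
    (hLb : ∀ p : Ideal R, p.IsPrime → (∃ k, 0 < k ∧ ∃ r ∈ 𝒜 k, r ∉ p) →
      ∀ d : ℕ, (∀ k, ∀ r ∈ 𝒜 k, r ∉ p → d ∣ k) → d = 1) :
    ∃ k, 0 < k ∧ ∃ r ∈ 𝒜 k, ∃ m : Fin 2 →₀ ℕ, m i = k ∧ m j = k ∧
      v (coeff m (Φ r)) * v γ ^ k = 1 := by
  classical
  choose! deg hdeg0 hdeg using hn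
  -- the extremal pairs
  let S : Finset (R × (Fin 2 →₀ ℕ)) := (s ×ˢ (s.biUnion fun r => (Φ r).support)).filter
    fun p => p.2 j ≤ p.2 i ∧ v (coeff p.2 (Φ p.1)) * v γ ^ p.2 j = 1
  have hS : ∀ r ∈ s, ∀ m : Fin 2 →₀ ℕ, m j ≤ m i → v (coeff m (Φ r)) * v γ ^ m j = 1 →
      (r, m) ∈ S := by
    intro r hr m hm h
    refine Finset.mem_filter.mpr ⟨Finset.mem_product.mpr ⟨hr, ?_⟩, hm, h⟩
    refine Finset.mem_biUnion.mpr ⟨r, hr, mem_support_iff.mpr ?_⟩
    intro h0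
    rw [h0, map_zero, zero_mul] at h
    exact zero_ne_one h
  have hSm : ∀ p ∈ S, p.1 ∈ s ∧ p.2 j ≤ p.2 i ∧ v (coeff p.2 (Φ p.1)) * v γ ^ p.2 j = 1 ∧
      p.2 i + p.2 j = 2 * deg p.1 := by
    intro p hp
    obtain ⟨h2, h3, h4⟩ := Finset.mem_filter.mp hp
    have h5 := (Finset.mem_product.mp h2).1
    refine ⟨h5, h3, h4, sum_of_homogeneous' (hΦ _ _ (hdeg _ h5)) ?_ hij⟩
    intro h0
    rw [h0, map_zero, zero_mul] at h4
    exact zero_ne_one h4
  obtain ⟨⟨r₂, m₂⟩, hp₂, hmin⟩ := Finset.exists_min_image S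
    (fun p => (p.2 i : ℚ) / (p.2 i + p.2 j)) ⟨_, hS r₁ hr₁ m₁ hle h1⟩
  obtain ⟨hr₂, hle₂, h2, hsum₂⟩ := hSm _ hp₂
  simp only at hr₂ hle₂ h2 hsum₂ hmin
  have hmin' : ∀ r ∈ s, ∀ m : Fin 2 →₀ ℕ, m j ≤ m i → v (coeff m (Φ r)) * v γ ^ m j = 1 →
      m₂ i * m j ≤ m₂ j * m i := by
    intro r hr m hm h
    have h3 := hmin _ (hS r hr m hm h)
    have h4 := (hSm _ (hS r hr m hm h)).2.2.2
    simp only at h3 h4
    have h5 : 0 < m i + m j := by
      have := Nat.pos_of_ne_zero (hdeg0 r hr)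
      omega
    have h6 : 0 < m₂ i + m₂ j := by
      have := Nat.pos_of_ne_zero (hdeg0 _ hr₂)
      omega
    have h5' : (0 : ℚ) < m i + m j := by exact_mod_cast h5
    have h6' : (0 : ℚ) < m₂ i + m₂ j := by exact_mod_cast h6
    rw [div_le_div_iff₀ h6' h5'] at h3
    have h7 : m₂ i * (m i + m j) ≤ m i * (m₂ i + m₂ j) := by exact_mod_cast h3
    nlinarith
  set k₀ := deg r₂ with hk₀
  have hk₀pos : 0 < k₀ := Nat.pos_of_ne_zero (hdeg0 _ hr₂)
  -- the second point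
  have hgen : ∀ r, Φ r ∈ Q1 v i j (m₂ j) (m₂ i) γ := by
    refine forall_mem_of_generators Φ (s : Set R) hs _ ?_ ?_
    · intro c m
      rw [coeff_C]
      split_ifs with h
      · subst h
        refine ⟨?_, ?_⟩
        · simpa using hC c
        · intro h; simp at h
      · exact zero_mem _
    · intro r hr m
      have hq := hQ r hr m
      have hfirst : v (coeff m (Φ r)) * v γ ^ m j ≤ 1 :=
        le_trans (mul_le_mul' le_rfl (pow_le_pow_right_of_le_one' hγ.le (min_le_right _ _))) hq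
      refine ⟨hfirst, fun hlt => ?_⟩
      rcases lt_or_ge (m i) (m j) with h3 | h3
      · rw [min_eq_left h3.le] at hq
        have e : v γ ^ m j = v γ ^ m i * v γ ^ (m j - m i) := by
          rw [← pow_add]; congr 1; omega
        rw [e, ← mul_assoc]
        refine mul_lt_one_of_le_of_lt hq (pow_lt_one₀ zero_le hγ (by omega))
      · refine lt_of_le_of_ne hfirst fun h => ?_
        have := hmin' r hr m h3 h
        omega
  have hone := wpt_one Φ i j (m₂ j) (m₂ i) γ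
  have hm1 : ∀ r, v (wpt Φ (wt i j (m₂ j) (m₂ i) γ) r) ≤ 1 := fun r => lin_le_one v (hgen r)
  have hm2 : ∀ r r', v (wpt Φ (wt i j (m₂ j) (m₂ i) γ) (r * r') -
      wpt Φ (wt i j (m₂ j) (m₂ i) γ) r * wpt Φ (wt i j (m₂ j) (m₂ i) γ) r') < 1 := by
    intro r r'
    rw [wpt_apply, wpt_apply, wpt_apply, map_mul]
    exact lin_mul_sub_lt v (hgen r) (hgen r')
  have hprime := nearKer_isPrime (v := v) (h1 := hm1) (h2 := hm2) hone
  have hval : wpt Φ (wt i j (m₂ j) (m₂ i) γ) r₂ = coeff m₂ (Φ r₂) * γ ^ m₂ j := by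
    rw [wpt_apply]
    exact lin_wt_homogeneous (hΦ _ _ (hdeg _ hr₂)) hij m₂ hsum₂ (by omega) γ
  have hnot : r₂ ∉ nearKer v (wpt Φ (wt i j (m₂ j) (m₂ i) γ)) hm1 hm2 := by
    rw [mem_nearKer, hval, map_mul, map_pow, h2]
    exact lt_irrefl _
  have hd := hLb _ hprime ⟨k₀, hk₀pos, r₂, hdeg _ hr₂, hnot⟩ (k₀ / Nat.gcd k₀ (m₂ j)) (by
    intro k r hr hrp
    have hne : wpt Φ (wt i j (m₂ j) (m₂ i) γ) r ≠ 0 := by
      intro h0
      apply hrp
      rw [mem_nearKer, h0, map_zero]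
      exact zero_lt_one
    rw [wpt_apply, lin_eq] at hne
    obtain ⟨m, hm, hne'⟩ := Finset.exists_ne_zero_of_sum_ne_zero hne
    have h3 : m₂ j * m i = m₂ i * m j := by
      by_contra h
      rw [wt, if_neg h, mul_zero] at hne'
      exact hne' rfl
    have h4 := sum_of_homogeneous' (hΦ k r hr) (mem_support_iff.mp hm) hij
    have h5 : m₂ j * k = k₀ * m j := by nlinarith
    have hg : 0 < Nat.gcd k₀ (m₂ j) := Nat.gcd_pos_of_pos_left _ hk₀pos
    have hcop : Nat.Coprime (k₀ / Nat.gcd k₀ (m₂ j)) (m₂ j / Nat.gcd k₀ (m₂ j)) :=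
      Nat.coprime_div_gcd_div_gcd hg
    refine hcop.dvd_of_dvd_mul_left ?_
    refine ⟨m j, ?_⟩
    refine Nat.eq_of_mul_eq_mul_left hg ?_
    rw [← mul_assoc, ← mul_assoc, Nat.mul_div_cancel' (Nat.gcd_dvd_right _ _),
      Nat.mul_div_cancel' (Nat.gcd_dvd_left _ _)]
    exact h5)
  have hdvd : k₀ ∣ m₂ j := by
    have h3 : k₀ = Nat.gcd k₀ (m₂ j) := by
      have := Nat.div_mul_cancel (Nat.gcd_dvd_left k₀ (m₂ j))
      rw [hd, one_mul] at this
      exact this.symm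
    rw [h3]
    exact Nat.gcd_dvd_right _ _
  have hpos₂ : 0 < m₂ j := by
    have h3 := hmin' r₁ hr₁ m₁ hle h1
    rcases Nat.eq_zero_or_pos (m₂ j) with h | h
    · rw [h, zero_mul] at h3
      have h4 : 0 < m₂ i := by omega
      have := Nat.mul_pos h4 hpos
      omega
    · exact h
  have h3 : m₂ j = k₀ := by
    have := Nat.le_of_dvd hpos₂ hdvd
    omega
  refine ⟨k₀, hk₀pos, r₂, hdeg _ hr₂, m₂, by omega, h3, ?_⟩
  rw [← h3]
  exact h2

/-- the choice of the scaling -/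
lemma exists_scaling [IsAlgClosed K] (Φ : R →ₐ[ℂ] MvPolynomial (Fin 2) K) (s : Finset R)
    (hend : ∀ r ∈ s, ∀ m : Fin 2 →₀ ℕ, (m 0 = 0 ∨ m 1 = 0) → v (coeff m (Φ r)) ≤ 1) :
    (∀ r ∈ s, ∀ m, v (coeff m (Φ r)) ≤ 1) ∨ ∃ γ : K, γ ≠ 0 ∧ v γ < 1 ∧
      (∀ r ∈ s, ∀ m : Fin 2 →₀ ℕ, v (coeff m (Φ r)) * v γ ^ min (m 0) (m 1) ≤ 1) ∧
      ∃ r ∈ s, ∃ m : Fin 2 →₀ ℕ, 0 < m 0 ∧ 0 < m 1 ∧
        v (coeff m (Φ r)) * v γ ^ min (m 0) (m 1) = 1 := by
  classical
  let T : Finset (R × (Fin 2 →₀ ℕ)) := (s ×ˢ (s.biUnion fun r => (Φ r).support)).filter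
    fun p => 1 < v (coeff p.2 (Φ p.1))
  have hT : ∀ r ∈ s, ∀ m : Fin 2 →₀ ℕ, 1 < v (coeff m (Φ r)) → (r, m) ∈ T := by
    intro r hr m h
    refine Finset.mem_filter.mpr ⟨Finset.mem_product.mpr ⟨hr, ?_⟩, h⟩
    refine Finset.mem_biUnion.mpr ⟨r, hr, mem_support_iff.mpr ?_⟩
    intro h0
    rw [h0, map_zero] at h
    exact not_lt_of_ge zero_le h
  have hT' : ∀ p ∈ T, p.1 ∈ s ∧ 1 < v (coeff p.2 (Φ p.1)) ∧ 0 < min (p.2 0) (p.2 1) := by
    intro p hp
    obtain ⟨h2, h3⟩ := Finset.mem_filter.mp hp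
    have h5 := (Finset.mem_product.mp h2).1
    refine ⟨h5, h3, ?_⟩
    by_contra h
    have h6 : p.2 0 = 0 ∨ p.2 1 = 0 := by omega
    exact not_lt_of_ge (hend _ h5 _ h6) h3
  rcases T.eq_empty_or_nonempty with hE | hE
  · left
    intro r hr m
    by_contra h
    have := hT r hr m (not_le.mp h)
    rw [hE] at this
    exact absurd this (Finset.notMem_empty _)
  right
  have hg : ∀ p : R × (Fin 2 →₀ ℕ), ∃ g : K, 0 < min (p.2 0) (p.2 1) →
      g ^ min (p.2 0) (p.2 1) = (coeff p.2 (Φ p.1))⁻¹ := by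
    intro p
    by_cases h : 0 < min (p.2 0) (p.2 1)
    · obtain ⟨g, hg⟩ := IsAlgClosed.exists_pow_nat_eq (coeff p.2 (Φ p.1))⁻¹ h
      exact ⟨g, fun _ => hg⟩
    · exact ⟨0, fun h' => absurd h' h⟩
  choose g hg using hg
  have hval : ∀ p ∈ T, v (coeff p.2 (Φ p.1)) * v (g p) ^ min (p.2 0) (p.2 1) = 1 := by
    intro p hp
    obtain ⟨h1, h2, h3⟩ := hT' p hp
    rw [← map_pow, hg p h3, ← map_mul, mul_inv_cancel₀, map_one]
    intro h0
    rw [h0, map_zero] at h2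
    exact not_lt_of_ge zero_le h2
  obtain ⟨q, hq, hmin⟩ := Finset.exists_min_image T (fun p => v (g p)) hE
  have hq1 := hval q hq
  obtain ⟨hq2, hq3, hq4⟩ := hT' q hq
  have hlt : v (g q) < 1 := by
    by_contra h
    rw [not_lt] at h
    have h1 : 1 ≤ v (g q) ^ min (q.2 0) (q.2 1) := one_le_pow_of_one_le' h _
    have h2 : 1 * 1 < v (coeff q.2 (Φ q.1)) * v (g q) ^ min (q.2 0) (q.2 1) :=
      lt_of_lt_of_le (by rw [one_mul]; exact hq3)
        (le_trans (by rw [mul_one]) (mul_le_mul' le_rfl h1))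
    rw [one_mul, hq1] at h2
    exact lt_irrefl _ h2
  refine ⟨g q, ?_, hlt, ?_, q.1, hq2, q.2, by omega, by omega, hq1⟩
  · intro h0
    rw [h0, map_zero, zero_pow (by omega), mul_zero] at hq1
    exact zero_ne_one hq1
  · intro r hr m
    by_cases h : 1 < v (coeff m (Φ r))
    · have h1 := hT r hr m h
      calc v (coeff m (Φ r)) * v (g q) ^ min (m 0) (m 1)
          ≤ v (coeff m (Φ r)) * v (g (r, m)) ^ min (m 0) (m 1) :=
            mul_le_mul' le_rfl (pow_le_pow_left' (hmin _ h1) _)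
        _ = 1 := hval _ h1
    · exact mul_le_one' (not_lt.mp h) (pow_le_one' hlt.le _)

omit [Algebra ℂ K] in
lemma lin_X_mul (γ : K) (f : MvPolynomial (Fin 2) K) :
    lin (wt 0 1 1 1 γ) (X 0 * X 1 * f) = γ * lin (wt 0 1 1 1 γ) f := by
  induction f using MvPolynomial.induction_on' with
  | add p q hp hq => rw [mul_add, map_add, map_add, mul_add, hp, hq]
  | monomial m c =>
    rw [X, X, monomial_mul, monomial_mul, lin_monomial, lin_monomial, wt, wt]
    simp only [Finsupp.add_apply, one_mul]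
    simp only [Finsupp.single_eq_same, Finsupp.single_apply]
    norm_num
    by_cases h : m 0 = m 1
    · rw [if_pos (by omega), if_pos h]
      ring
    · rw [if_neg (by omega), if_neg h]

omit [Algebra ℂ K] in
lemma lin_euler (γ : K) (f : MvPolynomial (Fin 2) K) :
    lin (wt 0 1 1 1 γ) (X 0 * pderiv 0 f) = lin (wt 0 1 1 1 γ) (X 1 * pderiv 1 f) := by
  induction f using MvPolynomial.induction_on' with
  | add p q hp hq => rw [map_add, map_add, mul_add, mul_add, map_add, map_add, hp, hq]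
  | monomial m c =>
    rw [X_mul_pderiv_monomial, X_mul_pderiv_monomial, map_nsmul, map_nsmul, lin_monomial, wt]
    by_cases h : m 0 = m 1
    · rw [h]
    · rw [if_neg (by omega)]
      simp

omit [Algebra ℂ K] in
lemma coeff_euler (i : Fin 2) (f : MvPolynomial (Fin 2) K) (m : Fin 2 →₀ ℕ) :
    coeff m (X i * pderiv i f) = m i • coeff m f := by
  induction f using MvPolynomial.induction_on' with
  | add p q hp hq => rw [map_add, mul_add, coeff_add, coeff_add, hp, hq, smul_add]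
  | monomial m' c =>
    rw [X_mul_pderiv_monomial, coeff_smul, coeff_monomial]
    split_ifs with h
    · rw [h]
    · simp

omit [Algebra ℂ K] in
lemma coeff_pderiv' (i : Fin 2) (f : MvPolynomial (Fin 2) K) (m : Fin 2 →₀ ℕ) :
    coeff m (pderiv i f) = (m i + 1) • coeff (Finsupp.single i 1 + m) f := by
  have h := coeff_euler i f (Finsupp.single i 1 + m)
  rw [coeff_X_mul] at h
  rw [h, Finsupp.add_apply, Finsupp.single_eq_same, add_comm 1]

omit [Algebra ℂ K] in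
lemma lin_wt01 (f : MvPolynomial (Fin 2) K) :
    lin (wt 0 1 1 0 (1 : K)) f = aeval ![0, 1] f := by
  induction f using MvPolynomial.induction_on' with
  | add p q hp hq => rw [map_add, map_add, hp, hq]
  | monomial m c =>
    rw [lin_monomial, wt, aeval_monomial, Finsupp.prod_fintype _ _ (by simp)]
    simp only [Fin.prod_univ_two, one_mul, zero_mul, one_pow, Algebra.algebraMap_self,
      RingHom.id_apply, Matrix.cons_val_zero, Matrix.cons_val_one, mul_one]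
    by_cases h : m 0 = 0
    · rw [if_pos h, h, pow_zero]
    · rw [if_neg h, zero_pow h]

omit [Algebra ℂ K] in
lemma aeval_01 {f : MvPolynomial (Fin 2) K} {n : ℕ} (hf : f.IsHomogeneous n)
    {m : Fin 2 →₀ ℕ} (h0 : m 0 = 0) (h1 : m 1 = n) : aeval ![0, 1] f = coeff m f := by
  classical
  rw [← lin_wt01, lin_eq]
  have key : ∀ m' ∈ f.support, m' ≠ m → coeff m' f * wt 0 1 1 0 (1 : K) m' = 0 := by
    intro m' hm' hne
    rw [wt, if_neg, mul_zero]
    intro h
    apply hne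
    have h2 := sum_of_homogeneous hf (mem_support_iff.mp hm')
    exact ext_fin2 (i := 0) (j := 1) (by decide) (by omega) (by omega)
  by_cases hm : m ∈ f.support
  · rw [Finset.sum_eq_single_of_mem m hm key, wt, if_pos (by omega), one_pow, mul_one]
  · rw [Finset.sum_eq_zero (fun m' hm' => key m' hm' (by rintro rfl; exact hm hm')),
      notMem_support_iff.mp hm]

omit [Algebra ℂ K] in
lemma aeval_10 {f : MvPolynomial (Fin 2) K} {n : ℕ} (hf : f.IsHomogeneous n)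
    {m : Fin 2 →₀ ℕ} (h0 : m 1 = 0) (h1 : m 0 = n) : aeval ![1, 0] f = coeff m f := by
  classical
  have e : ∀ g : MvPolynomial (Fin 2) K, aeval ![1, 0] g = lin (wt 1 0 1 0 (1 : K)) g := by
    intro g
    induction g using MvPolynomial.induction_on' with
    | add p q hp hq => rw [map_add, map_add, hp, hq]
    | monomial m c =>
      rw [lin_monomial, wt, aeval_monomial, Finsupp.prod_fintype _ _ (by simp)]
      simp only [Fin.prod_univ_two, one_mul, zero_mul, one_pow, Algebra.algebraMap_self,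
        RingHom.id_apply, Matrix.cons_val_zero, Matrix.cons_val_one]
      by_cases h : m 1 = 0
      · rw [if_pos h, h, pow_zero]
      · rw [if_neg h, zero_pow h]
  rw [e, lin_eq]
  have key : ∀ m' ∈ f.support, m' ≠ m → coeff m' f * wt 1 0 1 0 (1 : K) m' = 0 := by
    intro m' hm' hne
    rw [wt, if_neg, mul_zero]
    intro h
    apply hne
    have h2 := sum_of_homogeneous hf (mem_support_iff.mp hm')
    exact ext_fin2 (i := 0) (j := 1) (by decide) (by omega) (by omega)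
  by_cases hm : m ∈ f.support
  · rw [Finset.sum_eq_single_of_mem m hm key, wt, if_pos (by omega), one_pow, mul_one]
  · rw [Finset.sum_eq_zero (fun m' hm' => key m' hm' (by rintro rfl; exact hm hm')),
      notMem_support_iff.mp hm]

lemma v_nat_le (hC : ∀ c : ℂ, v (algebraMap ℂ K c) ≤ 1) (n : ℕ) : v (n : K) ≤ 1 := by
  have := hC n
  rwa [map_natCast] at this

lemma mul_pderiv_mem (hC : ∀ c : ℂ, v (algebraMap ℂ K c) ≤ 1) {γ : K} {hγ : v γ ≤ 1}
    {f : MvPolynomial (Fin 2) K} (hf : f ∈ Q2 v γ hγ) (i : Fin 2) :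
    X i * pderiv i f ∈ Q2 v γ hγ := by
  intro m
  rw [coeff_euler, nsmul_eq_mul]
  refine ⟨?_, fun h => by rw [(hf m).2 h, mul_zero]⟩
  rw [map_mul, mul_assoc]
  exact mul_le_one' (v_nat_le v hC _) (hf m).1

/-- the symmetry of the adjugate of a skew matrix with nonzero determinant -/
lemma adjugate_skew {N : ℕ} (A : Matrix (Fin N) (Fin N) R) (hA : A.transpose = -A)
    (hdet : A.det ≠ 0) (i j : Fin N) : A.adjugate i j = -A.adjugate j i := by
  have hN : Even N := by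
    by_contra h
    have h1 : A.det = -A.det := by
      conv_lhs => rw [← Matrix.det_transpose, hA, Matrix.det_neg, Fintype.card_fin,
        (Nat.not_even_iff_odd.mp h).neg_one_pow]
      ring
    apply hdet
    have h2 : (2 : ℂ) • A.det = 0 := by
      rw [two_smul]
      nth_rewrite 1 [h1]
      ring
    have h3 := congrArg (fun x => (2⁻¹ : ℂ) • x) h2
    simpa [smul_smul] using h3
  rcases Nat.eq_zero_or_pos N with h0 | h0
  · subst h0
    exact i.elim0
  have h1 : A.transpose.adjugate = -A.adjugate := by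
    rw [hA]
    have e : -A = (-1 : R) • A := by rw [neg_smul, one_smul]
    rw [e, Matrix.adjugate_smul, Fintype.card_fin]
    have h2 : Odd (N - 1) := by
      obtain ⟨k, hk⟩ := hN
      exact ⟨k - 1, by omega⟩
    rw [h2.neg_one_pow, neg_smul, one_smul]
  rw [← Matrix.adjugate_transpose] at h1
  have h2 := congrFun (congrFun h1 j) i
  rw [Matrix.transpose_apply, Matrix.neg_apply] at h2
  exact h2

/-- the estimate at the node -/
lemma b_le (Φ : R →ₐ[ℂ] MvPolynomial (Fin 2) K)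
    (hC : ∀ c : ℂ, v (algebraMap ℂ K c) ≤ 1) {γ : K} (hγ0 : γ ≠ 0) (hγ : v γ ≤ 1)
    (hgen : ∀ r, Φ r ∈ Q2 v γ hγ) (b : K) {N : ℕ} (A : Matrix (Fin N) (Fin N) R)
    (hA : A.transpose = -A) (x : Fin N → R) (hdet : v (lin (wt 0 1 1 1 γ) (Φ A.det)) = 1)
    (hstar : C b * Φ A.det = ∑ i, ∑ j, pderiv 0 (Φ (x i)) * Φ (A.adjugate i j) *
      pderiv 1 (Φ (x j))) : v b ≤ v γ := by
  have hdet0 : A.det ≠ 0 := by
    intro h
    rw [h, map_zero, map_zero, map_zero] at hdet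
    exact zero_ne_one hdet
  have hs : X 0 * X 1 * (C b * Φ A.det) = ∑ i, ∑ j, (X 0 * pderiv 0 (Φ (x i))) *
      Φ (A.adjugate i j) * (X 1 * pderiv 1 (Φ (x j))) := by
    rw [hstar, Finset.mul_sum]
    refine Finset.sum_congr rfl fun i _ => ?_
    rw [Finset.mul_sum]
    refine Finset.sum_congr rfl fun j _ => ?_
    ring
  have h1 := congrArg (lin (wt 0 1 1 1 γ)) hs
  rw [lin_X_mul, ← smul_eq_C_mul, map_smul, smul_eq_mul] at h1
  -- the approximate value is zero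
  have hzero : ∑ i, ∑ j, lin (wt 0 1 1 1 γ) (X 0 * pderiv 0 (Φ (x i))) *
      lin (wt 0 1 1 1 γ) (Φ (A.adjugate i j)) *
      lin (wt 0 1 1 1 γ) (X 1 * pderiv 1 (Φ (x j))) = 0 := by
    have e : ∀ i j, lin (wt 0 1 1 1 γ) (Φ (A.adjugate i j)) =
        -lin (wt 0 1 1 1 γ) (Φ (A.adjugate j i)) := by
      intro i j
      rw [adjugate_skew A hA hdet0 i j, map_neg, map_neg]
    set S := ∑ i, ∑ j, lin (wt 0 1 1 1 γ) (X 0 * pderiv 0 (Φ (x i))) *
      lin (wt 0 1 1 1 γ) (Φ (A.adjugate i j)) *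
      lin (wt 0 1 1 1 γ) (X 1 * pderiv 1 (Φ (x j))) with hS
    have h2 : S = -S := by
      conv_lhs => rw [hS, Finset.sum_comm]
      rw [hS, ← Finset.sum_neg_distrib]
      refine Finset.sum_congr rfl fun i _ => ?_
      rw [← Finset.sum_neg_distrib]
      refine Finset.sum_congr rfl fun j _ => ?_
      rw [e j i, ← lin_euler, ← lin_euler]
      ring
    have h3 : (2 : K) ≠ 0 := by
      have : CharZero K := charZero_of_injective_algebraMap (algebraMap ℂ K).injective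
      exact two_ne_zero
    have h4 : (2 : K) * S = 0 := by linear_combination h2
    exact (mul_eq_zero.mp h4).resolve_left h3
  have h2 : v (γ * (b * lin (wt 0 1 1 1 γ) (Φ A.det))) ≤ v γ ^ 2 := by
    rw [h1, ← sub_zero (lin (wt 0 1 1 1 γ) _), ← hzero, map_sum, ← Finset.sum_sub_distrib]
    refine v.map_sum_le fun i _ => ?_
    rw [map_sum, ← Finset.sum_sub_distrib]
    refine v.map_sum_le fun j _ => ?_
    exact lin_mul3 v (mul_pderiv_mem v hC (hgen _) 0) (hgen _)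
      (mul_pderiv_mem v hC (hgen _) 1)
  rw [map_mul, map_mul, hdet, mul_one, pow_two] at h2
  exact le_of_mul_le_mul_left h2 (zero_lt_iff.mpr ((v.ne_zero_iff).mpr hγ0))

end node

section final

universe u

variable {R : Type u} [CommRing R] [Algebra ℂ R] {𝒜 : ℕ → Submodule ℂ R} [GradedAlgebra 𝒜]
  {P : R →ₗ[ℂ] R →ₗ[ℂ] R}

/-- the degrees in which a non-vertex prime is nonzero generate the group of integers -/
lemma lineBundle_prime (hX : IsContactFano 𝒜 P) (p : Ideal R)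
    (hp : ∃ k, 0 < k ∧ ∃ r ∈ 𝒜 k, r ∉ p) [hp' : p.IsPrime] (d : ℕ)
    (hd : ∀ k, ∀ r ∈ 𝒜 k, r ∉ p → d ∣ k) : d = 1 := by
  have : Algebra.FiniteType ℂ R := hX.finiteType
  obtain ⟨k, hk, r, hr, hrp⟩ := hp
  obtain ⟨q, hq, hqr⟩ : ∃ q : R →ₐ[ℂ] ℂ, (∀ s ∈ p, q s = 0) ∧ q r ≠ 0 := by
    by_contra h
    push Not at h
    have h1 := mem_radical_of_forall p r h
    rw [hp'.radical] at h1
    exact hrp h1
  refine hX.lineBundle q (fun h => hqr (h k hk r hr)) d fun k' r' hr' hne => ?_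
  exact hd k' r' hr' fun h => hne (hq r' h)

variable {K : Type*} [Field K] [Algebra ℂ K] {Γ : Type*} [LinearOrderedCommGroupWithZero Γ]
  (v : Valuation K Γ)

/-- Boundedness of the two point function: `v b ≤ v γ` and `γ ^ min(m₀, m₁)` bounds the
coefficient of `s ^ m₀ t ^ m₁`. -/
theorem bound (hX : IsContactFano 𝒜 P) [IsAlgClosed K]
    (hC : ∀ c : ℂ, v (algebraMap ℂ K c) ≤ 1)
    (Φ : R →ₐ[ℂ] MvPolynomial (Fin 2) K)
    (hΦ : ∀ k, ∀ r ∈ 𝒜 k, (Φ r).IsHomogeneous (2 * k))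
    (h10 : ∀ r, v (aeval ![1, 0] (Φ r)) ≤ 1) (h01 : ∀ r, v (aeval ![0, 1] (Φ r)) ≤ 1)
    (hne : ∃ k, 0 < k ∧ ∃ r ∈ 𝒜 k, v (aeval ![0, 1] (Φ r)) = 1) (b : K)
    (hchart : ∀ p : Ideal R, p.IsPrime → (∀ r, Φ r = 0 → r ∈ p) →
      (∃ k, 0 < k ∧ ∃ r ∈ 𝒜 k, r ∉ p) →
      ∃ (N : ℕ) (x : Fin N → R), (Matrix.of fun i j => P (x i) (x j)).det ∉ p ∧
        C b * Φ (Matrix.of fun i j => P (x i) (x j)).det =
          ∑ i, ∑ j, pderiv 0 (Φ (x i)) *
            Φ ((Matrix.of fun i j => P (x i) (x j)).adjugate i j) * pderiv 1 (Φ (x j))) :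
    ∃ γ : K, γ ≠ 0 ∧ v γ ≤ 1 ∧ v b ≤ v γ ∧
      ∀ r m, v (coeff m (Φ r)) * v γ ^ min (m 0) (m 1) ≤ 1 := by
  classical
  have hft : Algebra.FiniteType ℂ R := hX.finiteType
  obtain ⟨s, hs, hn⟩ := exists_generators 𝒜 hX.connected
  have hskew : ∀ (N : ℕ) (x : Fin N → R),
      (Matrix.of fun i j => P (x i) (x j)).transpose = -(Matrix.of fun i j => P (x i) (x j)) := by
    intro N x
    ext i j
    rw [Matrix.transpose_apply, Matrix.neg_apply, Matrix.of_apply, Matrix.of_apply]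
    exact hX.skew _ _
  have hend : ∀ r ∈ s, ∀ m : Fin 2 →₀ ℕ, (m 0 = 0 ∨ m 1 = 0) → v (coeff m (Φ r)) ≤ 1 := by
    intro r hr m hm
    obtain ⟨k, hk0, hk⟩ := hn r hr
    by_cases hc : coeff m (Φ r) = 0
    · rw [hc, map_zero]; exact zero_le
    have hsum := sum_of_homogeneous (hΦ k r hk) hc
    rcases hm with hm | hm
    · rw [← aeval_01 (hΦ k r hk) hm (by omega)]
      exact h01 r
    · rw [← aeval_10 (hΦ k r hk) hm (by omega)]
      exact h10 r
  rcases exists_scaling v Φ s hend with hA | ⟨γ, hγ0, hγ1, hγ2, r₁, hr₁, m₁, hm0, hm1, hm⟩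
  · -- good reduction
    have hgen : ∀ r, Φ r ∈ Q1 v 0 1 1 0 (1 : K) := by
      refine forall_mem_of_generators Φ (s : Set R) hs _ ?_ ?_
      · intro c m
        rw [coeff_C]
        split_ifs with h
        · refine ⟨?_, fun h => by simp at h⟩
          simpa using hC c
        · exact zero_mem _
      · intro r hr m
        refine ⟨?_, fun h => by simp at h⟩
        simpa using hA r hr m
    have hone := wpt_one Φ 0 1 1 0 (1 : K)
    have hm1 : ∀ r, v (wpt Φ (wt 0 1 1 0 (1 : K)) r) ≤ 1 := fun r => lin_le_one v (hgen r)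
    have hm2 : ∀ r r', v (wpt Φ (wt 0 1 1 0 (1 : K)) (r * r') -
        wpt Φ (wt 0 1 1 0 (1 : K)) r * wpt Φ (wt 0 1 1 0 (1 : K)) r') < 1 := by
      intro r r'
      rw [wpt_apply, wpt_apply, wpt_apply, map_mul]
      exact lin_mul_sub_lt v (hgen r) (hgen r')
    have hprime := nearKer_isPrime (v := v) (h1 := hm1) (h2 := hm2) hone
    obtain ⟨k, hk, r, hr, hr1⟩ := hne
    obtain ⟨N, x, hdet, hstar⟩ := hchart _ hprime (fun r hr => by
      rw [mem_nearKer, wpt_apply, hr, map_zero, map_zero]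
      exact zero_lt_one) ⟨k, hk, r, hr, by
      rw [mem_nearKer, wpt_apply, lin_wt01, hr1]
      exact lt_irrefl _⟩
    refine ⟨1, one_ne_zero, by rw [map_one], ?_, fun r m => ?_⟩
    · rw [map_one]
      rw [mem_nearKer, not_lt] at hdet
      have hdet1 : v (lin (wt 0 1 1 0 (1 : K))
          (Φ (Matrix.of fun i j => P (x i) (x j)).det)) = 1 := le_antisymm (hm1 _) hdet
      have h1 := congrArg (lin (wt 0 1 1 0 (1 : K))) hstar
      rw [← smul_eq_C_mul, map_smul, smul_eq_mul] at h1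
      have h2 : v (b * lin (wt 0 1 1 0 (1 : K))
          (Φ (Matrix.of fun i j => P (x i) (x j)).det)) ≤ 1 := by
        rw [h1, map_sum]
        refine v.map_sum_le fun i _ => ?_
        rw [map_sum]
        refine v.map_sum_le fun j _ => ?_
        refine lin_le_one v (mul_mem (mul_mem ?_ (hgen _)) ?_)
        · intro m
          refine ⟨?_, fun h => by simp at h⟩
          have h3 := (hgen (x i) (Finsupp.single 0 1 + m)).1
          rw [coeff_pderiv', nsmul_eq_mul, map_mul, v.map_one, one_pow, mul_one]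
          rw [v.map_one, one_pow, mul_one] at h3
          exact mul_le_one' (v_nat_le v hC _) h3
        · intro m
          refine ⟨?_, fun h => by simp at h⟩
          have h3 := (hgen (x j) (Finsupp.single 1 1 + m)).1
          rw [coeff_pderiv', nsmul_eq_mul, map_mul, v.map_one, one_pow, mul_one]
          rw [v.map_one, one_pow, mul_one] at h3
          exact mul_le_one' (v_nat_le v hC _) h3
      rwa [map_mul, hdet1, mul_one] at h2
    · have h3 := (hgen r m).1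
      rw [map_one, one_pow, mul_one] at h3 ⊢
      exact h3
  · -- chain
    have hγ : v γ ≤ 1 := hγ1.le
    have hgen : ∀ r, Φ r ∈ Q2 v γ hγ := by
      refine forall_mem_of_generators Φ (s : Set R) hs _ ?_ ?_
      · intro c m
        rw [coeff_C]
        split_ifs with h
        · subst h
          refine ⟨?_, fun h => by simp at h⟩
          simpa using hC c
        · exact zero_mem _
      · intro r hr m
        refine ⟨hγ2 r hr m, fun h => ?_⟩
        obtain ⟨k, hk0, hk⟩ := hn r hr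
        by_contra hc
        have := sum_of_homogeneous (hΦ k r hk) hc
        exact h (by rw [this]; exact even_two_mul k)
    have hgen1 : ∀ r, Φ r ∈ Q1 v 0 1 1 1 γ := by
      refine forall_mem_of_generators Φ (s : Set R) hs _ ?_ ?_
      · intro c m
        rw [coeff_C]
        split_ifs with h
        · subst h
          refine ⟨?_, fun h => by simp at h⟩
          simpa using hC c
        · exact zero_mem _
      · intro r hr m
        have hq := hγ2 r hr m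
        refine ⟨le_trans (mul_le_mul' le_rfl
          (pow_le_pow_right_of_le_one' hγ (min_le_right _ _))) hq, fun h => ?_⟩
        rw [one_mul, one_mul] at h
        rw [min_eq_left h.le] at hq
        have e : v γ ^ m 1 = v γ ^ m 0 * v γ ^ (m 1 - m 0) := by
          rw [← pow_add]; congr 1; omega
        rw [e, ← mul_assoc]
        refine mul_lt_one_of_le_of_lt hq (pow_lt_one₀ zero_le hγ1 (by omega))
    have hLb : ∀ p : Ideal R, p.IsPrime → (∃ k, 0 < k ∧ ∃ r ∈ 𝒜 k, r ∉ p) →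
        ∀ d : ℕ, (∀ k, ∀ r ∈ 𝒜 k, r ∉ p → d ∣ k) → d = 1 := by
      intro p hp h d hd
      exact lineBundle_prime hX p h d hd
    have hnode : ∃ k, 0 < k ∧ ∃ r ∈ 𝒜 k, ∃ m : Fin 2 →₀ ℕ, m 0 = k ∧ m 1 = k ∧
        v (coeff m (Φ r)) * v γ ^ k = 1 := by
      rcases le_total (m₁ 1) (m₁ 0) with h | h
      · rw [min_eq_right h] at hm
        exact node_nonvertex v Φ hΦ hC s hs hn γ hγ1 (i := 0) (j := 1) (by decide) hγ2 r₁ hr₁
          m₁ hm hm1 h hLb
      · rw [min_eq_left h] at hm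
        obtain ⟨k, hk, r, hr, m, h0, h1, h2⟩ := node_nonvertex v Φ hΦ hC s hs hn γ hγ1
          (i := 1) (j := 0) (by decide)
          (fun r hr m => by rw [min_comm]; exact hγ2 r hr m) r₁ hr₁ m₁ hm hm0 h hLb
        exact ⟨k, hk, r, hr, m, h1, h0, h2⟩
    obtain ⟨k, hk, r, hr, m, h0, h1, h2⟩ := hnode
    have hone := wpt_one Φ 0 1 1 1 γ
    have hm1 : ∀ r, v (wpt Φ (wt 0 1 1 1 γ) r) ≤ 1 := fun r => lin_le_one v (hgen1 r)
    have hm2 : ∀ r r', v (wpt Φ (wt 0 1 1 1 γ) (r * r') -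
        wpt Φ (wt 0 1 1 1 γ) r * wpt Φ (wt 0 1 1 1 γ) r') < 1 := by
      intro r r'
      rw [wpt_apply, wpt_apply, wpt_apply, map_mul]
      exact lin_mul_sub_lt v (hgen1 r) (hgen1 r')
    have hprime := nearKer_isPrime (v := v) (h1 := hm1) (h2 := hm2) hone
    obtain ⟨N, x, hdet, hstar⟩ := hchart _ hprime (fun r hr => by
      rw [mem_nearKer, wpt_apply, hr, map_zero, map_zero]
      exact zero_lt_one) ⟨k, hk, r, hr, by
      rw [mem_nearKer, wpt_apply]
      have e := lin_wt_homogeneous (hΦ k r hr) (i := 0) (j := 1) (by decide) m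
        (by omega) (by omega) γ
      have e2 : wt 0 1 1 1 γ = wt 0 1 (m 1) (m 0) γ := by
        funext m'
        rw [wt, wt, h0, h1]
        congr 1
        apply propext
        constructor
        · intro h; rw [one_mul, one_mul] at h; rw [h]
        · intro h
          rw [one_mul, one_mul]
          exact Nat.eq_of_mul_eq_mul_left hk h
      rw [e2, e, map_mul, map_pow, h1, h2]
      exact lt_irrefl _⟩
    rw [mem_nearKer, not_lt] at hdet
    refine ⟨γ, hγ0, hγ, ?_, fun r m => (hgen r m).1⟩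
    exact b_le v Φ hC hγ0 hγ hgen b _ (hskew N x) x (le_antisymm (hm1 _) hdet) hstar

/-- The consequence used for `B = b ^ 2` and its differential. -/
theorem bound' (hX : IsContactFano 𝒜 P) [IsAlgClosed K]
    (hC : ∀ c : ℂ, v (algebraMap ℂ K c) ≤ 1)
    (Φ : R →ₐ[ℂ] MvPolynomial (Fin 2) K)
    (hΦ : ∀ k, ∀ r ∈ 𝒜 k, (Φ r).IsHomogeneous (2 * k))
    (h10 : ∀ r, v (aeval ![1, 0] (Φ r)) ≤ 1) (h01 : ∀ r, v (aeval ![0, 1] (Φ r)) ≤ 1)
    (hne : ∃ k, 0 < k ∧ ∃ r ∈ 𝒜 k, v (aeval ![0, 1] (Φ r)) = 1) (b : K)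
    (hchart : ∀ p : Ideal R, p.IsPrime → (∀ r, Φ r = 0 → r ∈ p) →
      (∃ k, 0 < k ∧ ∃ r ∈ 𝒜 k, r ∉ p) →
      ∃ (N : ℕ) (x : Fin N → R), (Matrix.of fun i j => P (x i) (x j)).det ∉ p ∧
        C b * Φ (Matrix.of fun i j => P (x i) (x j)).det =
          ∑ i, ∑ j, pderiv 0 (Φ (x i)) *
            Φ ((Matrix.of fun i j => P (x i) (x j)).adjugate i j) * pderiv 1 (Φ (x j))) :
    v b ≤ 1 ∧ ∀ r (m : Fin 2 →₀ ℕ), min (m 0) (m 1) ≤ 1 → v (b * coeff m (Φ r)) ≤ 1 := by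
  obtain ⟨γ, hγ0, hγ1, hb, h⟩ := bound v hX hC Φ hΦ h10 h01 hne b hchart
  refine ⟨hb.trans hγ1, fun r m hm => ?_⟩
  rw [map_mul, mul_comm]
  rcases Nat.eq_zero_or_pos (min (m 0) (m 1)) with h0 | h0
  · have h1 := h r m
    rw [h0, pow_zero, mul_one] at h1
    exact mul_le_one' h1 (hb.trans hγ1)
  · have h1 := h r m
    rw [show min (m 0) (m 1) = 1 by omega, pow_one] at h1
    exact le_trans (mul_le_mul' le_rfl hb) h1

end final

end Vale.Agent.P292.LS
end

section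

/-! # N1: the bound for every valuation ring. -/

namespace Vale.Agent.P292

open MvPolynomial

universe u v

variable {R : Type u} [CommRing R] [Algebra ℂ R] {𝒜 : ℕ → Submodule ℂ R} [GradedAlgebra 𝒜]
  {P : R →ₗ[ℂ] R →ₗ[ℂ] R}

/-- N1, with the chart formula `omC_chart` as a hypothesis. The strong form: there is `γ` with
`v b ≤ v γ` and `γ ^ min (i, j)` times the coefficient of `s ^ i t ^ j` integral. -/
theorem bound_strong_aux {Ω : Type v} [Field Ω] [IsAlgClosed Ω] [Algebra ℂ Ω]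
    {φ : R →ₐ[ℂ] MvPolynomial (Fin 2) Ω} (hX : IsContactFano 𝒜 P) (hφ : IsCurve 𝒜 2 φ) {b : Ω}
    (hstar : ∀ (N : ℕ) (x : Fin N → R) (g : R), φ g ≠ 0 →
      (∀ r, ∃ c : Fin N → R, g • KaehlerDifferential.D ℂ R r =
        ∑ i, c i • KaehlerDifferential.D ℂ R (x i)) →
      φ (Matrix.det (Matrix.of fun i j => P (x i) (x j))) * C b =
        ∑ i, ∑ j, pd φ 0 (x i) * φ (Matrix.adjugate (Matrix.of fun i j => P (x i) (x j)) i j) *
          pd φ 1 (x j))
    {Γ : Type*} [LinearOrderedCommGroupWithZero Γ] (v : Valuation Ω Γ)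
    (hv : ∀ c : ℂ, v (algebraMap ℂ Ω c) ≤ 1)
    (h10 : ∀ r, v (pt φ ![1, 0] r) ≤ 1) (h01 : ∀ r, v (pt φ ![0, 1] r) ≤ 1)
    (n01 : ∃ k : ℕ, 0 < k ∧ ∃ r ∈ 𝒜 k, v (pt φ ![0, 1] r) = 1) :
    ∃ γ : Ω, γ ≠ 0 ∧ v γ ≤ 1 ∧ v b ≤ v γ ∧
      ∀ r m, v (coeff m (φ r)) * v γ ^ min (m 0) (m 1) ≤ 1 := by
  refine LS.bound v hX hv φ hφ.degree h10 h01 n01 b ?_
  intro p hp hker ⟨k, hk, r, hr, hrp⟩
  obtain ⟨N, x, g, h, hF, hg⟩ := exists_frame_of_prime hX p hp hk hr hrp
  refine ⟨N, x, fun hmem => hg (Ideal.mul_mem_left _ _ hmem), ?_⟩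
  have hg0 : φ g ≠ 0 := fun h0 => hg (Ideal.mul_mem_right _ _ (hker g h0))
  rw [mul_comm]
  exact hstar N x g hg0 fun r => ⟨h r, hF.smul_D r⟩

/-- N1, with the chart formula `omC_chart` as a hypothesis. -/
theorem bound_aux {Ω : Type v} [Field Ω] [IsAlgClosed Ω] [Algebra ℂ Ω]
    {φ : R →ₐ[ℂ] MvPolynomial (Fin 2) Ω} (hX : IsContactFano 𝒜 P) (hφ : IsCurve 𝒜 2 φ) {b : Ω}
    (hstar : ∀ (N : ℕ) (x : Fin N → R) (g : R), φ g ≠ 0 →
      (∀ r, ∃ c : Fin N → R, g • KaehlerDifferential.D ℂ R r =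
        ∑ i, c i • KaehlerDifferential.D ℂ R (x i)) →
      φ (Matrix.det (Matrix.of fun i j => P (x i) (x j))) * C b =
        ∑ i, ∑ j, pd φ 0 (x i) * φ (Matrix.adjugate (Matrix.of fun i j => P (x i) (x j)) i j) *
          pd φ 1 (x j))
    (v : ValuationSubring Ω) (hv : ∀ c : ℂ, algebraMap ℂ Ω c ∈ v)
    (h10 : ∀ r, pt φ ![1, 0] r ∈ v) (h01 : ∀ r, pt φ ![0, 1] r ∈ v)
    (n01 : ∃ k : ℕ, 0 < k ∧ ∃ r ∈ 𝒜 k, v.valuation (pt φ ![0, 1] r) = 1) :
    b ∈ v ∧ ∀ k : ℕ, 0 < k → ∀ r ∈ 𝒜 k, b * cf (φ r) 1 (2 * k - 1) ∈ v ∧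
      b * cf (φ r) (2 * k - 1) 1 ∈ v := by
  obtain ⟨γ, hγ0, hγ1, hb, h⟩ := bound_strong_aux hX hφ hstar v.valuation
    (fun c => (v.valuation_le_one_iff _).mpr (hv c))
    (fun r => (v.valuation_le_one_iff _).mpr (h10 r))
    (fun r => (v.valuation_le_one_iff _).mpr (h01 r)) n01
  have key : ∀ (r : R) (m : Fin 2 →₀ ℕ), min (m 0) (m 1) ≤ 1 → b * coeff m (φ r) ∈ v := by
    intro r m hm
    rw [← v.valuation_le_one_iff, map_mul, mul_comm]
    have h1 := h r m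
    rcases Nat.eq_zero_or_pos (min (m 0) (m 1)) with h0 | h0
    · rw [h0, pow_zero, mul_one] at h1
      exact mul_le_one' h1 (hb.trans hγ1)
    · rw [show min (m 0) (m 1) = 1 by omega, pow_one] at h1
      exact le_trans (mul_le_mul' le_rfl hb) h1
  refine ⟨(v.valuation_le_one_iff _).mp (hb.trans hγ1), fun k _ r _ => ⟨?_, ?_⟩⟩
  · refine key r _ ?_
    simp only [Finsupp.add_apply, Finsupp.single_eq_same, Finsupp.single_apply]
    norm_num
  · refine key r _ ?_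
    simp only [Finsupp.add_apply, Finsupp.single_eq_same, Finsupp.single_apply]
    norm_num

/-- N1: the bound, for every valuation ring. -/
theorem bound {Ω : Type v} [Field Ω] [IsAlgClosed Ω] [Algebra ℂ Ω]
    {φ : R →ₐ[ℂ] MvPolynomial (Fin 2) Ω} (hX : IsContactFano 𝒜 P) (hφ : IsCurve 𝒜 2 φ) {b : Ω}
    (hb : omC P φ (pd φ 0) (pd φ 1) = C b) (v : ValuationSubring Ω)
    (hv : ∀ c : ℂ, algebraMap ℂ Ω c ∈ v)
    (h10 : ∀ r, pt φ ![1, 0] r ∈ v) (h01 : ∀ r, pt φ ![0, 1] r ∈ v)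
    (_n10 : ∃ k : ℕ, 0 < k ∧ ∃ r ∈ 𝒜 k, v.valuation (pt φ ![1, 0] r) = 1)
    (n01 : ∃ k : ℕ, 0 < k ∧ ∃ r ∈ 𝒜 k, v.valuation (pt φ ![0, 1] r) = 1) :
    b ∈ v ∧ ∀ k : ℕ, 0 < k → ∀ r ∈ 𝒜 k, b * cf (φ r) 1 (2 * k - 1) ∈ v ∧
      b * cf (φ r) (2 * k - 1) 1 ∈ v := by
  refine bound_aux hX hφ (fun N x g hg h => ?_) v hv h10 h01 n01
  rw [← hb]
  exact omC_chart hX hφ (isHDer_pd hφ 0) (isHDer_pd hφ 1) x g hg h

/-- The strong form of N1: there is `γ` with `v b ≤ v γ ≤ 1` and `γ ^ min (i, j)` times the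
coefficient of `s ^ i t ^ j` integral. -/
theorem bound_strong {Ω : Type v} [Field Ω] [IsAlgClosed Ω] [Algebra ℂ Ω]
    {φ : R →ₐ[ℂ] MvPolynomial (Fin 2) Ω} (hX : IsContactFano 𝒜 P) (hφ : IsCurve 𝒜 2 φ) {b : Ω}
    (hb : omC P φ (pd φ 0) (pd φ 1) = C b)
    {Γ : Type*} [LinearOrderedCommGroupWithZero Γ] (v : Valuation Ω Γ)
    (hv : ∀ c : ℂ, v (algebraMap ℂ Ω c) ≤ 1)
    (h10 : ∀ r, v (pt φ ![1, 0] r) ≤ 1) (h01 : ∀ r, v (pt φ ![0, 1] r) ≤ 1)
    (n01 : ∃ k : ℕ, 0 < k ∧ ∃ r ∈ 𝒜 k, v (pt φ ![0, 1] r) = 1) :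
    ∃ γ : Ω, γ ≠ 0 ∧ v γ ≤ 1 ∧ v b ≤ v γ ∧
      ∀ r m, v (coeff m (φ r)) * v γ ^ min (m 0) (m 1) ≤ 1 := by
  refine bound_strong_aux hX hφ (fun N x g hg h => ?_) v hv h10 h01 n01
  rw [← hb]
  exact omC_chart hX hφ (isHDer_pd hφ 0) (isHDer_pd hφ 1) x g hg h

end Vale.Agent.P292
end

section

/-! # A conic which is not tangent to the contact distribution does not move with fixed end
points: its coefficients are algebraic over the field of its end points. -/

namespace Vale.Agent.P292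

open MvPolynomial

universe u v w

variable {R : Type u} [CommRing R] [Algebra ℂ R] {𝒜 : ℕ → Submodule ℂ R} [GradedAlgebra 𝒜]
  {P : R →ₗ[ℂ] R →ₗ[ℂ] R}

/-- A linear form which vanishes at two points is zero. -/
theorem fc1_eq_zero {κ : Type v} [Field κ] {p : MvPolynomial (Fin 2) κ} (hp : p.IsHomogeneous 1)
    (h10 : eval ![1, 0] p = 0) (h01 : eval ![0, 1] p = 0) : p = 0 := by
  obtain ⟨h0, h1⟩ := pderiv_of_homog_one hp
  have he := hp.sum_X_mul_pderiv
  rw [Fin.sum_univ_two, one_nsmul, h0, h1, h10, h01, C_0, mul_zero, mul_zero, add_zero] at he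
  exact he.symm

section

variable {Ω : Type v} [Field Ω] [IsAlgClosed Ω] [Algebra ℂ Ω]
  {φ : R →ₐ[ℂ] MvPolynomial (Fin 2) Ω}

/-- A derivation which kills the end points of a conic kills `b`. -/
theorem fc1_apply_b (hX : IsContactFano 𝒜 P) (hφ : IsCurve 𝒜 2 φ) {b : Ω}
    (hb : omC P φ (pd φ 0) (pd φ 1) = C b) (D : Derivation ℂ Ω Ω)
    (h10 : ∀ r, D (pt φ ![1, 0] r) = 0) (h01 : ∀ r, D (pt φ ![0, 1] r) = 0) : D b = 0 := by
  have hz : ∀ i, omC P φ ((mapD D : Derivation ℂ _ _).toLinearMap ∘ₗ φ.toLinearMap) (pd φ i) =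
      0 := by
    intro i
    refine fc1_eq_zero (omC_homog hX hφ (isHDer_mapD hφ D) (isHDer_pd hφ i) (by norm_num)) ?_ ?_
    · rw [← omC_eval hX hφ (isHDer_mapD hφ D) (isHDer_pd hφ i) _ vec10_ne, evL_mapD_10']
      have h0 : alongAt (pt φ ![1, 0]) D = 0 := by
        ext r
        exact h10 r
      rw [h0]
      exact om_zero_left hX (hφ.isNV_pt vec10_ne) ((isHDer_pd hφ i).der.evL _)
    · rw [← omC_eval hX hφ (isHDer_mapD hφ D) (isHDer_pd hφ i) _ vec01_ne, evL_mapD_01]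
      have h0 : alongAt (pt φ ![0, 1]) D = 0 := by
        ext r
        exact h01 r
      rw [h0]
      exact om_zero_left hX (hφ.isNV_pt vec01_ne) ((isHDer_pd hφ i).der.evL _)
  have h := curve_closed hX hφ D
  rw [hz, hz, map_zero, map_zero, sub_zero, hb, mapD_C] at h
  exact C_eq_zero.1 h

/-- The coefficients of a conic with `b ≠ 0` are algebraic over the field of its end points. -/
theorem fc1_isAlgebraic (hX : IsContactFano 𝒜 P) (hφ : IsCurve 𝒜 2 φ) {b : Ω}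
    (hb : omC P φ (pd φ 0) (pd φ 1) = C b) (hb0 : b ≠ 0) (K : Type w) [Field K] [Algebra ℂ K]
    [Algebra K Ω] [IsScalarTower ℂ K Ω] (h10 : ∀ r, ∃ c : K, algebraMap K Ω c = pt φ ![1, 0] r)
    (h01 : ∀ r, ∃ c : K, algebraMap K Ω c = pt φ ![0, 1] r) (r : R) (m : Fin 2 →₀ ℕ) :
    IsAlgebraic K (coeff m (φ r)) := by
  classical
  have hchar : CharZero Ω := charZero_of_injective_algebraMap (algebraMap ℂ Ω).injective
  -- `b` is algebraic
  have hbalg : IsAlgebraic K b := by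
    by_contra hcon
    have htr : Transcendental K b := hcon
    let _ : Algebra (Polynomial K) Ω := (Polynomial.aeval b : Polynomial K →ₐ[K] Ω).toAlgebra
    have hinj : Function.Injective (algebraMap (Polynomial K) Ω) :=
      transcendental_iff_injective.1 htr
    have htower : IsScalarTower K (Polynomial K) Ω := IsScalarTower.of_algebraMap_eq fun c => by
      change _ = Polynomial.aeval b (Polynomial.C c)
      rw [Polynomial.aeval_C]
    obtain ⟨D, hD⟩ := exists_derivation_extend (k := K) (A := Polynomial K) (E := Ω) hinj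
      ((Algebra.linearMap (Polynomial K) Ω).compDer Polynomial.derivative')
    have hDb : D b = 1 := by
      have h1 := hD Polynomial.X
      have h2 : algebraMap (Polynomial K) Ω Polynomial.X = b := Polynomial.aeval_X b
      rw [h2] at h1
      rw [h1]
      change algebraMap (Polynomial K) Ω (Polynomial.derivative Polynomial.X) = 1
      rw [Polynomial.derivative_X, map_one]
    have hK : ∀ c : K, D (algebraMap K Ω c) = 0 := fun c => D.map_algebraMap c
    have h0 : D.restrictScalars ℂ b = 0 := by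
      refine fc1_apply_b hX hφ hb _ (fun r => ?_) (fun r => ?_)
      · obtain ⟨c, hc⟩ := h10 r
        rw [← hc]
        exact hK c
      · obtain ⟨c, hc⟩ := h01 r
        rw [← hc]
        exact hK c
    have h1 : D b = 0 := h0
    rw [hDb] at h1
    exact one_ne_zero h1
  by_contra hcon
  set a := coeff m (φ r) with ha
  have htr : Transcendental K a := hcon
  have ha0 : a ≠ 0 := by
    intro h0
    exact htr (by rw [h0]; exact isAlgebraic_zero)
  have hainv : Transcendental K a⁻¹ := by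
    intro h
    exact htr (by simpa using h.inv)
  -- a valuation with `a⁻¹` in the maximal ideal
  obtain ⟨O, hO⟩ := exists_valuationSubring_prime
    ((Polynomial.aeval a⁻¹ : Polynomial K →ₐ[K] Ω) : Polynomial K →+* Ω)
    (transcendental_iff_injective.1 hainv) (Ideal.span {(Polynomial.X : Polynomial K)})
    (h𝔭 := (Ideal.span_singleton_prime Polynomial.X_ne_zero).2 Polynomial.prime_X)
  have hv1 : O.valuation a⁻¹ < 1 := by
    have h1 := ((hO Polynomial.X).2).1 (Ideal.mem_span_singleton_self _)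
    have h2 : ((Polynomial.aeval a⁻¹ : Polynomial K →ₐ[K] Ω) : Polynomial K →+* Ω)
        Polynomial.X = a⁻¹ := Polynomial.aeval_X _
    rwa [h2] at h1
  have hKO : ∀ c : K, algebraMap K Ω c ∈ O := by
    intro c
    have h1 := (hO (Polynomial.C c)).1
    have h2 : ((Polynomial.aeval a⁻¹ : Polynomial K →ₐ[K] Ω) : Polynomial K →+* Ω)
        (Polynomial.C c) = algebraMap K Ω c := Polynomial.aeval_C _ _
    rwa [h2] at h1
  have hKle : ∀ c : K, O.valuation (algebraMap K Ω c) ≤ 1 := fun c =>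
    (O.valuation_le_one_iff _).2 (hKO c)
  have hKeq : ∀ c : K, c ≠ 0 → O.valuation (algebraMap K Ω c) = 1 := by
    intro c hc
    refine le_antisymm (hKle c) ?_
    have h1 := hKle c⁻¹
    rw [map_inv₀, map_inv₀] at h1
    have h2 : O.valuation (algebraMap K Ω c) ≠ 0 := by
      rw [Ne, Valuation.zero_iff]
      exact fun h => hc ((algebraMap K Ω).injective (by rw [h, map_zero]))
    rwa [inv_le_one₀ (zero_lt_iff.2 h2)] at h1
  -- elements algebraic over `K` are integral over `K`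
  have halg : ∀ z : Ω, IsAlgebraic K z → O.valuation z ≤ 1 := by
    intro z hz
    have hzi : IsIntegral K z := hz.isIntegral
    have h1 : IsIntegral O z := by
      let g : K →+* O := (algebraMap K Ω).codRestrict O.toSubring hKO
      exact IsIntegral.map_of_comp_eq g (RingHom.id Ω) rfl hzi
    obtain ⟨y, hy⟩ := IsIntegrallyClosed.isIntegral_iff.1 h1
    rw [← hy]
    exact (O.valuation_le_one_iff _).2 y.2
  have hvb : O.valuation b = 1 := by
    refine le_antisymm (halg b hbalg) ?_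
    have h1 := halg b⁻¹ hbalg.inv
    rw [map_inv₀] at h1
    have h2 : O.valuation b ≠ 0 := by
      rw [Ne, Valuation.zero_iff]
      exact hb0
    rwa [inv_le_one₀ (zero_lt_iff.2 h2)] at h1
  obtain ⟨γ, hγ0, hγ1, hbγ, hc⟩ := bound_strong hX hφ hb O.valuation
    (fun c => by
      rw [IsScalarTower.algebraMap_apply ℂ K Ω]
      exact hKle _)
    (fun r => by
      obtain ⟨c, hc⟩ := h10 r
      rw [← hc]
      exact hKle c)
    (fun r => by
      obtain ⟨c, hc⟩ := h01 r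
      rw [← hc]
      exact hKle c)
    (by
      obtain ⟨k, hk, r, hr, hne⟩ := hφ.bpf ![0, 1] vec01_ne
      refine ⟨k, hk, r, hr, ?_⟩
      obtain ⟨c, hc⟩ := h01 r
      rw [← hc]
      refine hKeq c fun h0 => hne ?_
      have h1 : pt φ ![0, 1] r = 0 := by rw [← hc, h0, map_zero]
      exact h1)
  have hγ : O.valuation γ = 1 := le_antisymm hγ1 (by rw [← hvb]; exact hbγ)
  have h1 := hc r m
  rw [hγ, one_pow, mul_one, ← ha] at h1
  have h2 : O.valuation a ≠ 0 := by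
    rw [Ne, Valuation.zero_iff]
    exact ha0
  rw [map_inv₀, inv_lt_one₀ (zero_lt_iff.2 h2)] at hv1
  exact absurd h1 (not_le.2 hv1)

/-- A derivation which kills the end points of a conic with `b ≠ 0` kills all coefficients. -/
theorem fc1_apply_coeff (hX : IsContactFano 𝒜 P) (hφ : IsCurve 𝒜 2 φ) {b : Ω}
    (hb : omC P φ (pd φ 0) (pd φ 1) = C b) (hb0 : b ≠ 0) (D : Derivation ℂ Ω Ω)
    (h10 : ∀ r, D (pt φ ![1, 0] r) = 0) (h01 : ∀ r, D (pt φ ![0, 1] r) = 0) (r : R)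
    (m : Fin 2 →₀ ℕ) : D (coeff m (φ r)) = 0 := by
  classical
  -- the field of constants of `D`
  let K : IntermediateField ℂ Ω :=
    { carrier := {z | D z = 0}
      mul_mem' := fun {a b} ha hb => by
        change D (a * b) = 0
        have ha' : D a = 0 := ha
        have hb' : D b = 0 := hb
        rw [Derivation.leibniz, ha', hb', smul_zero, smul_zero, add_zero]
      add_mem' := fun {a b} ha hb => by
        change D (a + b) = 0
        have ha' : D a = 0 := ha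
        have hb' : D b = 0 := hb
        rw [map_add, ha', hb', add_zero]
      algebraMap_mem' := fun c => D.map_algebraMap c
      inv_mem' := fun a ha => by
        change D a⁻¹ = 0
        have ha' : D a = 0 := ha
        rw [Derivation.leibniz_inv, ha', smul_zero] }
  have hK : ∀ z, z ∈ K ↔ D z = 0 := fun z => Iff.rfl
  have hchar : CharZero Ω := charZero_of_injective_algebraMap (algebraMap ℂ Ω).injective
  have h1 := fc1_isAlgebraic hX hφ hb hb0 K (fun r => ⟨⟨_, (hK _).2 (h10 r)⟩, rfl⟩)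
    (fun r => ⟨⟨_, (hK _).2 (h01 r)⟩, rfl⟩) r m
  -- a derivation kills elements algebraic over its constants
  have hmin := minpoly.aeval K (coeff m (φ r))
  let DK : Derivation K Ω Ω := Derivation.mk' (R := K)
    { toFun := D
      map_add' := map_add D
      map_smul' := fun c z => by
        have h2 : D (algebraMap K Ω c) = 0 := (hK _).1 c.2
        rw [Algebra.smul_def, Derivation.leibniz, RingHom.id_apply, h2, smul_zero, add_zero,
          smul_eq_mul]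
        exact (Algebra.smul_def c (D z)).symm }
    (fun a b => D.leibniz a b)
  have hsep : Polynomial.aeval (coeff m (φ r)) (Polynomial.derivative
      (minpoly K (coeff m (φ r)))) ≠ 0 := by
    have h2 : (minpoly K (coeff m (φ r))).Separable :=
      (minpoly.irreducible h1.isIntegral).separable
    exact h2.aeval_derivative_ne_zero hmin
  have h3 : DK (Polynomial.aeval (coeff m (φ r)) (minpoly K (coeff m (φ r)))) =
      Polynomial.aeval (coeff m (φ r)) (Polynomial.derivative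
        (minpoly K (coeff m (φ r)))) • DK (coeff m (φ r)) := by
    rw [Derivation.map_aeval]
  rw [hmin, map_zero, smul_eq_mul] at h3
  exact (mul_eq_zero.1 h3.symm).resolve_left hsep

end

end Vale.Agent.P292
end
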