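import Mathlib
import Vale.Agent.P292.Bn.N7
import Vale.Agent.P292.Bn.N6
import Vale.Agent.P292.Bdl.B5
import Vale.Agent.P292.Bdl.B4
import Vale.Agent.P292.Bdl.B3
import Vale.Agent.P292.Bn.N9
import Vale.Agent.P292.LS.Curve
import Vale.Agent.P292.Bdl.B1
import Vale.Agent.P292.K.Defs
import Vale.Agent.P292.Bn.N2

set_option linter.all false

section

/-! # There is no line through a closed point and the generic point of a divisor. -/

namespace Vale.Agent.P292

open MvPolynomial

universe u v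

variable {R : Type u} [CommRing R] [Algebra ℂ R]

/-- A derivation over `y` which kills the kernel of `y` comes from a derivation of the field. -/
theorem lwq_exists_D {κ : Type v} [Field κ] [Algebra ℂ κ] (y : R →ₐ[ℂ] κ) {δ : R →ₗ[ℂ] κ}
    (hδ : IsDer y δ) (h : ∀ r, y r = 0 → δ r = 0) :
    ∃ D : Derivation ℂ κ κ, ∀ r, D (y r) = δ r := by
  let I : Ideal R := RingHom.ker y
  have hI : I.IsPrime := RingHom.ker_isPrime _
  let g : R ⧸ I →ₐ[ℂ] κ := Ideal.Quotient.liftₐ I y (fun a ha => ha)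
  have hgm : ∀ r, g (Ideal.Quotient.mk I r) = y r := fun r => rfl
  have hg : Function.Injective g := by
    rw [injective_iff_map_eq_zero]
    intro a ha
    obtain ⟨r, rfl⟩ := Ideal.Quotient.mk_surjective a
    rw [Ideal.Quotient.eq_zero_iff_mem]
    exact ha
  let δ' : (R ⧸ I) →ₗ[ℂ] κ := ((I.restrictScalars ℂ).liftQ δ (fun r hr => h r hr)) ∘ₗ
    (Submodule.Quotient.restrictScalarsEquiv ℂ I).symm.toLinearMap
  have hδ' : ∀ r, δ' (Ideal.Quotient.mk I r) = δ r := fun r => rfl
  let _ := g.toRingHom.toAlgebra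
  have : IsScalarTower ℂ (R ⧸ I) κ := IsScalarTower.of_algebraMap_eq fun c => (g.commutes c).symm
  have : CharZero κ := charZero_of_injective_algebraMap (algebraMap ℂ κ).injective
  let d : Derivation ℂ (R ⧸ I) κ := Derivation.mk' δ' (fun a b => by
    obtain ⟨r, rfl⟩ := Ideal.Quotient.mk_surjective a
    obtain ⟨s, rfl⟩ := Ideal.Quotient.mk_surjective b
    rw [← map_mul, hδ', hδ', hδ', hδ r s]
    rfl)
  obtain ⟨D, hD⟩ := exists_derivation_extend (k := ℂ) (A := R ⧸ I) (E := κ) hg d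
  exact ⟨D, fun r => (hD (Ideal.Quotient.mk I r)).trans (hδ' r)⟩

variable {𝒜 : ℕ → Submodule ℂ R} [GradedAlgebra 𝒜] {P : R →ₗ[ℂ] R →ₗ[ℂ] R}

omit [Algebra ℂ R] in
/-- A uniformizer of a height one prime. -/
theorem lwq_uniformizer [IsDomain R] (p : Ideal R) [p.IsPrime]
    (hdvr : IsDiscreteValuationRing (Localization.AtPrime p)) :
    ∃ π ∈ p, ∀ c ∈ p, ∃ v u, v ∉ p ∧ v * c = π * u := by
  let L := Localization.AtPrime p
  obtain ⟨ϖ, hϖ⟩ := IsDiscreteValuationRing.exists_irreducible L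
  have hmax := (IsDiscreteValuationRing.irreducible_iff_uniformizer ϖ).mp hϖ
  obtain ⟨⟨π, s⟩, hπ⟩ := IsLocalization.surj p.primeCompl ϖ
  have hinj : Function.Injective (algebraMap R L) :=
    IsLocalization.injective L (Ideal.primeCompl_le_nonZeroDivisors p)
  have hπp : π ∈ p := by
    have h1 : algebraMap R L π ∈ IsLocalRing.maximalIdeal L := by
      rw [← hπ]
      refine Ideal.mul_mem_right _ _ ?_
      rw [hmax]
      exact Ideal.mem_span_singleton_self _
    have h2 := IsLocalization.AtPrime.to_map_mem_maximal_iff L p π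
    exact h2.mp h1
  refine ⟨π, hπp, fun c hc => ?_⟩
  have h1 : algebraMap R L c ∈ IsLocalRing.maximalIdeal L :=
    (IsLocalization.AtPrime.to_map_mem_maximal_iff L p c).mpr hc
  rw [hmax, Ideal.mem_span_singleton'] at h1
  obtain ⟨z, hz⟩ := h1
  obtain ⟨⟨u, t⟩, hu⟩ := IsLocalization.surj p.primeCompl z
  refine ⟨s * t, u, ?_, ?_⟩
  · intro h2
    rcases (inferInstance : p.IsPrime).mem_or_mem h2 with h3 | h3
    · exact s.2 h3
    · exact t.2 h3
  · apply hinj
    rw [map_mul, map_mul, map_mul, ← hz, ← hu, ← hπ]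
    ring

section

variable {κ : Type v} [Field κ] [IsAlgClosed κ] [Algebra ℂ κ]
  {Ψ : R →ₐ[ℂ] MvPolynomial (Fin 2) κ}

/-- The tangent vectors of the family of lines through a fixed point are isotropic. -/
theorem lwq_om (hX : IsContactFano 𝒜 P) (hΨ : IsCurve 𝒜 1 Ψ) (D₁ D₂ : Derivation ℂ κ κ)
    (h₁ : ∀ r, D₁ (pt Ψ ![1, 0] r) = 0) (h₂ : ∀ r, D₂ (pt Ψ ![1, 0] r) = 0) :
    om P (pt Ψ ![0, 1]) (alongAt (pt Ψ ![0, 1]) D₁) (alongAt (pt Ψ ![0, 1]) D₂) = 0 := by
  have key : ∀ D : Derivation ℂ κ κ, (∀ r, D (pt Ψ ![1, 0] r) = 0) →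
      ∃ δ', IsHDer 𝒜 1 Ψ (0 - 1) δ' ∧ evL ![0, 1] δ' = alongAt (pt Ψ ![0, 1]) D := by
    intro D hD
    have hδ := isHDer_mapD hΨ D
    obtain ⟨δ', hδ', hmul⟩ := exists_div_X_one hΨ hδ (fun r => by
      change eval ![1, 0] (mapD D (Ψ r)) = 0
      rw [mm_eval_mapD D _ (mm_D_one_zero D), ← pt_apply]
      exact hD r)
    refine ⟨δ', hδ', LinearMap.ext fun r => ?_⟩
    have h5 := congrArg (eval ![(0 : κ), 1]) (hmul r)
    change eval ![0, 1] (mapD D (Ψ r)) = _ at h5
    rw [mm_eval_mapD D _ (mm_D_zero_one D)] at h5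
    rw [evL_apply, alongAt_apply, pt_apply, h5]
    simp
  obtain ⟨δ₁, hδ₁, e₁⟩ := key D₁ h₁
  obtain ⟨δ₂, hδ₂, e₂⟩ := key D₂ h₂
  rw [← e₁, ← e₂, omC_eval hX hΨ hδ₁ hδ₂ ![0, 1] mm_zero_one_ne,
    omC_eq_zero hX hΨ hδ₁ hδ₂ (by norm_num), map_zero]

/-- **There is no line through a closed point and the generic point of a divisor.** -/
theorem no_line_to_dvr (hX : IsContactFano 𝒜 P) [IsDomain R] (hdim : 3 ≤ cdim R)
    (hΨ : IsCurve 𝒜 1 Ψ) (w : R →ₐ[ℂ] ℂ) (hw : ∀ r, pt Ψ ![1, 0] r = algebraMap ℂ κ (w r))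
    (q : Ideal R) [q.IsPrime] (hdvr : IsDiscreteValuationRing (Localization.AtPrime q))
    (hq : ∀ r, r ∈ q ↔ pt Ψ ![0, 1] r = 0) : False := by
  classical
  set y : R →ₐ[ℂ] κ := pt Ψ ![0, 1] with hy
  have hnv : IsNV 𝒜 y := mm_isNV_pt hΨ mm_zero_one_ne
  obtain ⟨k, hk, r₀, hr₀, hyr₀⟩ := id hnv
  obtain ⟨N, x, g, c₀, hF, hdet⟩ := exists_frame_of_point hX y hk hr₀ hyr₀
  rw [map_mul] at hdet
  have hg : g ≠ 0 := by
    rintro rfl
    rw [map_zero, zero_mul] at hdet
    exact hdet rfl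
  have hN : 3 ≤ N := hdim.trans (cdim_le_of_isFrame hF hg)
  have hdet' : y (brMat P x).det ≠ 0 := right_ne_zero_of_mul hdet
  let M : Matrix (Fin N) (Fin N) κ := Matrix.of fun i j => y (P (x i) (x j))
  have hMdet : M.det ≠ 0 := by
    have : M = (y : R →+* κ).mapMatrix (brMat P x) := by
      ext i j; rfl
    rw [this, ← RingHom.map_det]
    exact hdet'
  obtain ⟨π, hπ, hπq⟩ := lwq_uniformizer q hdvr
  -- derivations over `y` which kill the uniformizer are isotropic
  have hkill : ∀ δ : R →ₗ[ℂ] κ, IsDer y δ → δ π = 0 →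
      ∃ D : Derivation ℂ κ κ, ∀ r, D (y r) = δ r := by
    intro δ hδ h0
    refine lwq_exists_D y hδ fun c hc => ?_
    obtain ⟨v, u, hv, hvu⟩ := hπq c ((hq c).2 hc)
    have h1 := hδ v c
    rw [hvu, hδ π u, (hq π).1 hπ, h0, hc] at h1
    have h2 : y v ≠ 0 := fun h => hv ((hq v).2 h)
    have h3 : y v * δ c = 0 := by linear_combination -h1
    exact (mul_eq_zero.1 h3).resolve_left h2
  have hiso : ∀ δ₁ δ₂ : R →ₗ[ℂ] κ, IsDer y δ₁ → IsDer y δ₂ → δ₁ π = 0 → δ₂ π = 0 →
      om P y δ₁ δ₂ = 0 := by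
    intro δ₁ δ₂ h₁ h₂ e₁ e₂
    obtain ⟨D₁, hD₁⟩ := hkill δ₁ h₁ e₁
    obtain ⟨D₂, hD₂⟩ := hkill δ₂ h₂ e₂
    have h := lwq_om hX hΨ D₁ D₂ (fun r => by rw [hw, Derivation.map_algebraMap])
      (fun r => by rw [hw, Derivation.map_algebraMap])
    have a₁ : alongAt y D₁ = δ₁ := LinearMap.ext hD₁
    have a₂ : alongAt y D₂ = δ₂ := LinearMap.ext hD₂
    rwa [← hy, a₁, a₂] at h
  have hMskew : ∀ i j, M i j = - M j i := fun i j => by
    change y (P (x i) (x j)) = - y (P (x j) (x i))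
    rw [hX.skew, map_neg]
  by_cases hc : ∀ i, y (P (x i) π) = 0
  · have hM0 : M = 0 := by
      ext i j
      have h1 := hiso (hamAt P y (x j)) (hamAt P y (x i)) (isDer_hamAt hX y _) (isDer_hamAt hX y _)
        (hc j) (hc i)
      rw [om_ham hX hnv (isDer_hamAt hX y _)] at h1
      exact h1
    have : Nonempty (Fin N) := ⟨⟨0, by omega⟩⟩
    rw [hM0, Matrix.det_zero] at hMdet
    exact hMdet rfl
  · push Not at hc
    obtain ⟨i₀, hi₀⟩ := hc
    set c : Fin N → κ := fun i => y (P (x i) π) with hcdef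
    have hci : c i₀ ≠ 0 := hi₀
    have hder : ∀ i, IsDer y (c i₀ • hamAt P y (x i) - c i • hamAt P y (x i₀)) := fun i =>
      (DerAt y).sub_mem ((DerAt y).smul_mem _ (isDer_hamAt hX y _))
        ((DerAt y).smul_mem _ (isDer_hamAt hX y _))
    have hrel : ∀ i j, c i₀ * M j i = c j * M i₀ i + c i * M j i₀ := by
      intro i j
      have h1 := hiso _ _ (hder i) (hder j) (by
        change c i₀ * y (P (x i) π) - c i * y (P (x i₀) π) = 0
        rw [hcdef]; ring) (by
        change c i₀ * y (P (x j) π) - c j * y (P (x i₀) π) = 0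
        rw [hcdef]; ring)
      rw [om_sub_left hX hnv ((DerAt y).smul_mem _ (isDer_hamAt hX y _))
        ((DerAt y).smul_mem _ (isDer_hamAt hX y _)) (hder j),
        om_smul_left hX hnv (isDer_hamAt hX y _) (hder j),
        om_smul_left hX hnv (isDer_hamAt hX y _) (hder j),
        om_ham hX hnv (hder j), om_ham hX hnv (hder j)] at h1
      have h2 : c i₀ * (c i₀ * M j i - c j * M i₀ i) - c i * (c i₀ * M j i₀ - c j * M i₀ i₀) = 0 :=
        h1
      have h3 : M i₀ i₀ = 0 := by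
        change y (P (x i₀) (x i₀)) = 0
        rw [hX.alternating, map_zero]
      rw [h3] at h2
      have h4 : c i₀ * (c i₀ * M j i - c j * M i₀ i - c i * M j i₀) = 0 := by
        linear_combination h2
      have h5 := (mul_eq_zero.1 h4).resolve_left hci
      linear_combination h5
    obtain ⟨z, hz0, hz⟩ : ∃ z : Fin N → κ, z ≠ 0 ∧
        (Matrix.of ![c, fun j => M i₀ j]).mulVec z = 0 := by
      have h1 : LinearMap.ker (Matrix.of ![c, fun j => M i₀ j]).mulVecLin ≠ ⊥ :=
        LinearMap.ker_ne_bot_of_finrank_lt (by simp; omega)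
      obtain ⟨z, hz, hz0⟩ := Submodule.exists_mem_ne_zero_of_ne_bot h1
      exact ⟨z, hz0, hz⟩
    have hz1 : ∑ j, c j * z j = 0 := congrFun hz 0
    have hz2 : ∑ j, M i₀ j * z j = 0 := congrFun hz 1
    apply hz0
    refine Matrix.eq_zero_of_mulVec_eq_zero hMdet ?_
    ext j
    change ∑ i, M j i * z i = 0
    have h6 : c i₀ * ∑ i, M j i * z i = 0 := by
      rw [Finset.mul_sum]
      have h7 : ∀ i ∈ Finset.univ, c i₀ * (M j i * z i) =
          c j * (M i₀ i * z i) + M j i₀ * (c i * z i) := fun i _ => by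
        linear_combination z i * hrel i j
      rw [Finset.sum_congr rfl h7, Finset.sum_add_distrib, ← Finset.mul_sum, ← Finset.mul_sum,
        hz1, hz2, mul_zero, mul_zero, add_zero]
    exact (mul_eq_zero.1 h6).resolve_left hci

end

end Vale.Agent.P292
end

section

/-! # Exponentials of derivations of the ring of power series `K[[x, z]]` -/

namespace Vale.Agent.P292

open MvPowerSeries

universe u v w

/-! ### the exponential of a derivation which raises the order -/

section exp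

variable {K : Type v} [Field K] [Algebra ℂ K]

/-- Power series of order at least `n`. -/
def N1Low {K : Type v} [Field K] (n : ℕ) (f : MvPowerSeries (Fin 2) K) : Prop :=
  ∀ m : Fin 2 →₀ ℕ, m.degree < n → coeff m f = 0

omit [Algebra ℂ K] in
theorem N1Low.mono {n n' : ℕ} {f : MvPowerSeries (Fin 2) K} (h : N1Low n f) (hn : n' ≤ n) :
    N1Low n' f := fun m hm => h m (hm.trans_le hn)

omit [Algebra ℂ K] in
theorem N1Low.mul {n n' : ℕ} {f g : MvPowerSeries (Fin 2) K} (hf : N1Low n f)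
    (hg : N1Low n' g) : N1Low (n + n') (f * g) := by
  classical
  intro m hm
  rw [coeff_mul]
  refine Finset.sum_eq_zero fun p hp => ?_
  rw [Finset.HasAntidiagonal.mem_antidiagonal] at hp
  have hd : m.degree = p.1.degree + p.2.degree := by rw [← hp, map_add]
  by_cases h1 : p.1.degree < n
  · rw [hf _ h1, zero_mul]
  · rw [hg p.2 (by omega), mul_zero]

omit [Algebra ℂ K] in
/-- The leading coefficients of a product. -/
theorem N1Low.coeff_mul {n : ℕ} {f g : MvPowerSeries (Fin 2) K} (hf : N1Low n f)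
    {m : Fin 2 →₀ ℕ} (hm : m.degree = n) : coeff m (f * g) = coeff m f * coeff 0 g := by
  classical
  rw [MvPowerSeries.coeff_mul, Finset.sum_eq_single (m, 0)]
  · intro p hp hne
    rw [Finset.HasAntidiagonal.mem_antidiagonal] at hp
    have hd : m.degree = p.1.degree + p.2.degree := by rw [← hp, map_add]
    by_cases h1 : p.1.degree < n
    · rw [hf _ h1, zero_mul]
    · exfalso
      apply hne
      have h2 : p.2.degree = 0 := by omega
      have h3 : p.2 = 0 := (Finsupp.degree_eq_zero_iff _).1 h2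
      rw [h3, add_zero] at hp
      rw [← hp, ← h3]
  · intro h
    exfalso
    apply h
    rw [Finset.HasAntidiagonal.mem_antidiagonal, add_zero]

/-- Divided powers of a derivation. -/
noncomputable def n1Pow (G : Derivation ℂ (MvPowerSeries (Fin 2) K) (MvPowerSeries (Fin 2) K)) :
    ℕ → MvPowerSeries (Fin 2) K →ₗ[ℂ] MvPowerSeries (Fin 2) K
  | 0 => LinearMap.id
  | k + 1 => ((k + 1 : ℂ)⁻¹) • ((G : MvPowerSeries (Fin 2) K →ₗ[ℂ] MvPowerSeries (Fin 2) K) ∘ₗ
      n1Pow G k)

variable (G : Derivation ℂ (MvPowerSeries (Fin 2) K) (MvPowerSeries (Fin 2) K))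

theorem n1Pow_zero (f : MvPowerSeries (Fin 2) K) : n1Pow G 0 f = f := rfl

theorem n1Pow_succ (k : ℕ) (f : MvPowerSeries (Fin 2) K) :
    (k + 1 : ℂ) • n1Pow G (k + 1) f = G (n1Pow G k f) := by
  change (k + 1 : ℂ) • (((k + 1 : ℂ)⁻¹) • G (n1Pow G k f)) = _
  rw [smul_smul, mul_inv_cancel₀ (Nat.cast_add_one_ne_zero k), one_smul]

theorem n1Pow_one (f : MvPowerSeries (Fin 2) K) : n1Pow G 1 f = G f := by
  have := n1Pow_succ G 0 f
  simpa [n1Pow_zero] using this

/-- Leibniz rule for divided powers. -/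
theorem n1Pow_mul (k : ℕ) (f g : MvPowerSeries (Fin 2) K) :
    n1Pow G k (f * g) = ∑ p ∈ Finset.HasAntidiagonal.antidiagonal k, n1Pow G p.1 f * n1Pow G p.2 g := by
  let E : MvPowerSeries (Fin 2) K → PowerSeries (MvPowerSeries (Fin 2) K) := fun f =>
    PowerSeries.mk fun k => n1Pow G k f
  have hE : ∀ f k, PowerSeries.coeff k (E f) = n1Pow G k f := fun f k => PowerSeries.coeff_mk _ _
  have key : ∀ k, n1Pow G k (f * g) = PowerSeries.coeff k (E f * E g) := by
    intro k
    induction k with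
    | zero =>
      rw [PowerSeries.coeff_mul, Finset.Nat.antidiagonal_zero, Finset.sum_singleton, hE, hE]
      rfl
    | succ k ih =>
      have h1 := n1Pow_succ G k (f * g)
      have h2 := congrArg (PowerSeries.coeff k)
        ((PowerSeries.derivative (MvPowerSeries (Fin 2) K)).leibniz (E f) (E g))
      have h3 : PowerSeries.coeff k
          (PowerSeries.derivative (MvPowerSeries (Fin 2) K) (E f * E g)) =
          G (PowerSeries.coeff k (E f * E g)) := by
        rw [h2, map_add, smul_eq_mul, smul_eq_mul, PowerSeries.coeff_mul, PowerSeries.coeff_mul,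
          PowerSeries.coeff_mul, map_sum]
        have h4 : ∀ f j, PowerSeries.coeff j
            (PowerSeries.derivative (MvPowerSeries (Fin 2) K) (E f)) =
            G (PowerSeries.coeff j (E f)) := by
          intro f j
          rw [PowerSeries.coeff_derivative, hE, hE, ← n1Pow_succ, Algebra.smul_def, mul_comm]
          congr 1
          rw [map_add, map_natCast, map_one]
        simp only [h4, Derivation.leibniz, smul_eq_mul, Finset.sum_add_distrib]
        congr 1
        rw [← Finset.Nat.sum_antidiagonal_swap]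
        rfl
      have h5 : (k + 1 : ℂ) • PowerSeries.coeff (k + 1) (E f * E g) =
          G (PowerSeries.coeff k (E f * E g)) := by
        rw [← h3, PowerSeries.coeff_derivative, Algebra.smul_def, mul_comm]
        congr 1
        rw [map_add, map_natCast, map_one]
      have h6 : (k + 1 : ℂ) • n1Pow G (k + 1) (f * g) =
          (k + 1 : ℂ) • PowerSeries.coeff (k + 1) (E f * E g) := by
        rw [h1, h5, ih]
      have hk : (k + 1 : ℂ) ≠ 0 := Nat.cast_add_one_ne_zero k
      have h7 := congrArg (fun t => ((k + 1 : ℂ)⁻¹) • t) h6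
      simp only [smul_smul, inv_mul_cancel₀ hk, one_smul] at h7
      exact h7
  rw [key, PowerSeries.coeff_mul]
  simp only [hE]

theorem n1Pow_one_right (k : ℕ) : n1Pow G (k + 1) (1 : MvPowerSeries (Fin 2) K) = 0 := by
  induction k with
  | zero =>
    rw [n1Pow_one, Derivation.map_one_eq_zero]
  | succ k ih =>
    change ((k + 1 : ℕ) + 1 : ℂ)⁻¹ • G (n1Pow G (k + 1) 1) = 0
    rw [ih, map_zero, smul_zero]

variable {G}

theorem n1Pow_low {n : ℕ} (hG : ∀ k f, N1Low k f → N1Low (k + n) (G f)) (k : ℕ)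
    {j : ℕ} {f : MvPowerSeries (Fin 2) K} (hf : N1Low j f) : N1Low (j + k * n) (n1Pow G k f) := by
  induction k with
  | zero =>
    rw [Nat.zero_mul, add_zero]
    exact hf
  | succ k ih =>
    intro m hm
    change coeff m ((k + 1 : ℂ)⁻¹ • G (n1Pow G k f)) = 0
    have h1 := hG _ _ ih m (by rw [add_assoc]; rwa [Nat.succ_mul] at hm)
    have h2 : coeff m ((k + 1 : ℂ)⁻¹ • G (n1Pow G k f)) =
      (k + 1 : ℂ)⁻¹ • coeff m (G (n1Pow G k f)) := rfl
    rw [h2, h1, smul_zero]

variable (G) in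
/-- The exponential of a derivation, as a linear map. -/
noncomputable def n1ExpL : MvPowerSeries (Fin 2) K →ₗ[ℂ] MvPowerSeries (Fin 2) K where
  toFun f := fun m => ∑ k ∈ Finset.range (m.degree + 1), coeff m (n1Pow G k f)
  map_add' f g := by
    ext m
    change ∑ k ∈ Finset.range (m.degree + 1), coeff m (n1Pow G k (f + g)) =
      ∑ k ∈ Finset.range (m.degree + 1), coeff m (n1Pow G k f) +
      ∑ k ∈ Finset.range (m.degree + 1), coeff m (n1Pow G k g)
    rw [← Finset.sum_add_distrib]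
    refine Finset.sum_congr rfl fun k _ => ?_
    rw [map_add, map_add]
  map_smul' c f := by
    ext m
    change ∑ k ∈ Finset.range (m.degree + 1), coeff m (n1Pow G k (c • f)) =
      c • ∑ k ∈ Finset.range (m.degree + 1), coeff m (n1Pow G k f)
    rw [Finset.smul_sum]
    refine Finset.sum_congr rfl fun k _ => ?_
    rw [map_smul]
    rfl

theorem coeff_n1ExpL (f : MvPowerSeries (Fin 2) K) (m : Fin 2 →₀ ℕ) :
    coeff m (n1ExpL G f) = ∑ k ∈ Finset.range (m.degree + 1), coeff m (n1Pow G k f) := rfl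

omit [Algebra ℂ K] in
theorem n1_zero_low (f : MvPowerSeries (Fin 2) K) : N1Low 0 f := fun _ hm =>
  absurd hm (Nat.not_lt_zero _)

theorem coeff_n1ExpL_of_le {n : ℕ} (hn : 0 < n) (hG : ∀ k f, N1Low k f → N1Low (k + n) (G f))
    (f : MvPowerSeries (Fin 2) K) {m : Fin 2 →₀ ℕ} {N : ℕ} (hN : m.degree ≤ N) :
    coeff m (n1ExpL G f) = coeff m (∑ k ∈ Finset.range (N + 1), n1Pow G k f) := by
  rw [coeff_n1ExpL, map_sum]
  refine Finset.sum_subset (Finset.range_subset_range.2 (by omega)) fun k _ hk => ?_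
  rw [Finset.mem_range] at hk
  refine n1Pow_low hG k (n1_zero_low f) m ?_
  have h1 : k * 1 ≤ k * n := Nat.mul_le_mul_left k hn
  omega

/-- The exponential is multiplicative. -/
theorem n1ExpL_mul {n : ℕ} (hn : 0 < n) (hG : ∀ k f, N1Low k f → N1Low (k + n) (G f))
    (f g : MvPowerSeries (Fin 2) K) : n1ExpL G (f * g) = n1ExpL G f * n1ExpL G g := by
  classical
  ext m
  set N := m.degree with hN
  rw [coeff_n1ExpL_of_le hn hG _ (le_refl m.degree)]
  have h1 : coeff m (n1ExpL G f * n1ExpL G g) =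
      coeff m ((∑ k ∈ Finset.range (N + 1), n1Pow G k f) *
        ∑ k ∈ Finset.range (N + 1), n1Pow G k g) := by
    rw [MvPowerSeries.coeff_mul, MvPowerSeries.coeff_mul]
    refine Finset.sum_congr rfl fun p hp => ?_
    rw [Finset.HasAntidiagonal.mem_antidiagonal] at hp
    have hd : m.degree = p.1.degree + p.2.degree := by rw [← hp, map_add]
    rw [coeff_n1ExpL_of_le hn hG f (N := N) (by omega),
      coeff_n1ExpL_of_le hn hG g (N := N) (by omega)]
  rw [h1, Finset.sum_mul_sum, ← Finset.sum_product', map_sum, map_sum, ← hN]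
  -- the terms of large order vanish
  have h2 : ∀ p : ℕ × ℕ, N < p.1 + p.2 → coeff m (n1Pow G p.1 f * n1Pow G p.2 g) = 0 := by
    intro p hp
    refine ((n1Pow_low hG p.1 (n1_zero_low f)).mul (n1Pow_low hG p.2 (n1_zero_low g))) m ?_
    have h3 : p.1 * 1 ≤ p.1 * n := Nat.mul_le_mul_left _ hn
    have h4 : p.2 * 1 ≤ p.2 * n := Nat.mul_le_mul_left _ hn
    omega
  have h3 : ∑ p ∈ Finset.range (N + 1) ×ˢ Finset.range (N + 1),
      coeff m (n1Pow G p.1 f * n1Pow G p.2 g) =
      ∑ p ∈ (Finset.range (N + 1) ×ˢ Finset.range (N + 1)).filter (fun p => p.1 + p.2 < N + 1),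
        coeff m (n1Pow G p.1 f * n1Pow G p.2 g) := by
    rw [Finset.sum_filter_of_ne]
    intro p _ hne
    by_contra hlt
    exact hne (h2 p (by omega))
  rw [h3, ← Finset.sum_fiberwise_of_maps_to (t := Finset.range (N + 1))
    (g := fun p : ℕ × ℕ => p.1 + p.2) (fun p hp => by
      rw [Finset.mem_filter] at hp
      exact Finset.mem_range.2 hp.2)]
  refine Finset.sum_congr rfl fun k hk => ?_
  rw [Finset.mem_range] at hk
  rw [n1Pow_mul, map_sum]
  refine Finset.sum_congr ?_ fun _ _ => rfl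
  ext p
  rw [Finset.HasAntidiagonal.mem_antidiagonal, Finset.mem_filter, Finset.mem_filter, Finset.mem_product,
    Finset.mem_range, Finset.mem_range]
  constructor
  · intro h
    exact ⟨⟨⟨by omega, by omega⟩, by omega⟩, h⟩
  · intro h
    exact h.2

theorem n1ExpL_one : n1ExpL G (1 : MvPowerSeries (Fin 2) K) = 1 := by
  ext m
  rw [coeff_n1ExpL, Finset.sum_range_succ', n1Pow_zero]
  rw [Finset.sum_eq_zero, zero_add]
  intro k _
  rw [n1Pow_one_right, map_zero]

/-- The exponential of a derivation which raises the order, as an endomorphism. -/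
noncomputable def n1Exp {n : ℕ} (hn : 0 < n) (hG : ∀ k f, N1Low k f → N1Low (k + n) (G f)) :
    MvPowerSeries (Fin 2) K →ₐ[ℂ] MvPowerSeries (Fin 2) K :=
  AlgHom.ofLinearMap (n1ExpL G) n1ExpL_one (n1ExpL_mul hn hG)

theorem n1Exp_apply {n : ℕ} (hn : 0 < n) (hG : ∀ k f, N1Low k f → N1Low (k + n) (G f))
    (f : MvPowerSeries (Fin 2) K) : n1Exp hn hG f = n1ExpL G f := rfl

/-- The first terms of the exponential. -/
theorem coeff_n1Exp_of_lt {n : ℕ} (hn : 0 < n) (hG : ∀ k f, N1Low k f → N1Low (k + n) (G f))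
    (f : MvPowerSeries (Fin 2) K) {m : Fin 2 →₀ ℕ} (hm : m.degree < n) :
    coeff m (n1Exp hn hG f) = coeff m f := by
  rw [n1Exp_apply, coeff_n1ExpL, Finset.sum_range_succ', n1Pow_zero, Finset.sum_eq_zero, zero_add]
  intro k _
  refine n1Pow_low hG (k + 1) (n1_zero_low f) m ?_
  rw [Nat.succ_mul]
  omega

theorem coeff_n1Exp_of_eq {n : ℕ} (hn : 0 < n) (hG : ∀ k f, N1Low k f → N1Low (k + n) (G f))
    (f : MvPowerSeries (Fin 2) K) {m : Fin 2 →₀ ℕ} (hm : m.degree = n) :
    coeff m (n1Exp hn hG f) = coeff m f + coeff m (G f) := by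
  rw [n1Exp_apply, coeff_n1ExpL_of_le hn hG f (N := n + 1) (by omega), map_sum,
    Finset.sum_range_succ', Finset.sum_range_succ', n1Pow_zero]
  have h1 : n1Pow G (0 + 1) f = G f := n1Pow_one G f
  rw [h1, Finset.sum_eq_zero, zero_add, add_comm]
  intro k _
  refine n1Pow_low hG (k + 1 + 1) (n1_zero_low f) m ?_
  rw [Nat.succ_mul, Nat.succ_mul]
  omega

/-- A coefficientwise property of the terms is inherited by the exponential. -/
theorem coeff_n1Exp_eq_zero {n : ℕ} (hn : 0 < n) (hG : ∀ k f, N1Low k f → N1Low (k + n) (G f))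
    {T : Set (Fin 2 →₀ ℕ)} (hT : ∀ f : MvPowerSeries (Fin 2) K, (∀ m ∈ T, coeff m f = 0) →
      ∀ m ∈ T, coeff m (G f) = 0) {f : MvPowerSeries (Fin 2) K} (hf : ∀ m ∈ T, coeff m f = 0)
    {m : Fin 2 →₀ ℕ} (hm : m ∈ T) : coeff m (n1Exp hn hG f) = 0 := by
  rw [n1Exp_apply, coeff_n1ExpL]
  refine Finset.sum_eq_zero fun k _ => ?_
  have key : ∀ k, ∀ m ∈ T, coeff m (n1Pow G k f) = 0 := by
    intro k
    induction k with
    | zero => exact hf
    | succ k ih =>
      intro m hm
      change (k + 1 : ℂ)⁻¹ • coeff m (G (n1Pow G k f)) = 0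
      rw [hT _ ih m hm, smul_zero]
  exact key k m hm

/-- Coefficients which `G` kills are not changed. -/
theorem coeff_n1Exp_of_kill {n : ℕ} (hn : 0 < n) (hG : ∀ k f, N1Low k f → N1Low (k + n) (G f))
    {m : Fin 2 →₀ ℕ} (hT : ∀ f : MvPowerSeries (Fin 2) K, coeff m (G f) = 0)
    (f : MvPowerSeries (Fin 2) K) : coeff m (n1Exp hn hG f) = coeff m f := by
  rw [n1Exp_apply, coeff_n1ExpL, Finset.sum_range_succ', n1Pow_zero, Finset.sum_eq_zero, zero_add]
  intro k _
  change (k + 1 : ℂ)⁻¹ • coeff m (G (n1Pow G k f)) = 0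
  rw [hT, smul_zero]

end exp

/-! ### derivations of the coefficient field -/

section der

variable {K : Type v} [Field K] [Algebra ℂ K]

/-- A derivation of `K` applied to the coefficients. -/
noncomputable def n1Map (D : Derivation ℂ K K) :
    Derivation ℂ (MvPowerSeries (Fin 2) K) (MvPowerSeries (Fin 2) K) :=
  Derivation.mk'
    { toFun := fun f => fun m => D (coeff m f)
      map_add' := fun f g => by
        ext m
        change D (coeff m (f + g)) = D (coeff m f) + D (coeff m g)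
        rw [map_add, map_add]
      map_smul' := fun c f => by
        ext m
        change D (c • coeff m f) = c • D (coeff m f)
        rw [D.map_smul] } (fun f g => by
    classical
    ext m
    change D (coeff m (f * g)) = coeff m (f • (_ : MvPowerSeries (Fin 2) K) +
      g • (_ : MvPowerSeries (Fin 2) K))
    rw [map_add, smul_eq_mul, smul_eq_mul, mul_comm g, coeff_mul, coeff_mul, coeff_mul, map_sum,
      ← Finset.sum_add_distrib]
    refine Finset.sum_congr rfl fun p _ => ?_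
    rw [Derivation.leibniz, smul_eq_mul, smul_eq_mul]
    change _ = coeff p.1 f * D (coeff p.2 g) + D (coeff p.1 f) * coeff p.2 g
    ring)

theorem coeff_n1Map (D : Derivation ℂ K K) (f : MvPowerSeries (Fin 2) K) (m : Fin 2 →₀ ℕ) :
    coeff m (n1Map D f) = D (coeff m f) := rfl

/-- The derivation `∑ x^e D_e`. -/
noncomputable def n1G (T : Finset (Fin 2 →₀ ℕ)) (D : (Fin 2 →₀ ℕ) → Derivation ℂ K K) :
    Derivation ℂ (MvPowerSeries (Fin 2) K) (MvPowerSeries (Fin 2) K) :=
  ∑ e ∈ T, (monomial e (1 : K) : MvPowerSeries (Fin 2) K) • n1Map (D e)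

theorem coeff_n1G (T : Finset (Fin 2 →₀ ℕ)) (D : (Fin 2 →₀ ℕ) → Derivation ℂ K K)
    (f : MvPowerSeries (Fin 2) K) (m : Fin 2 →₀ ℕ) :
    coeff m (n1G T D f) = ∑ e ∈ T, if e ≤ m then D e (coeff (m - e) f) else 0 := by
  classical
  have h1 : n1G T D f = ∑ e ∈ T, (monomial e (1 : K) : MvPowerSeries (Fin 2) K) *
      n1Map (D e) f := by
    rw [n1G]
    induction T using Finset.induction_on with
    | empty => simp
    | insert a T ha ih =>
      rw [Finset.sum_insert ha, Finset.sum_insert ha, Derivation.add_apply, ih,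
        Derivation.smul_apply, smul_eq_mul]
  rw [h1, map_sum]
  refine Finset.sum_congr rfl fun e _ => ?_
  rw [coeff_monomial_mul]
  split_ifs with h
  · rw [one_mul, coeff_n1Map]
  · rfl

theorem n1G_low {T : Finset (Fin 2 →₀ ℕ)} {n : ℕ} (hT : ∀ e ∈ T, e.degree = n)
    (D : (Fin 2 →₀ ℕ) → Derivation ℂ K K) (k : ℕ) (f : MvPowerSeries (Fin 2) K)
    (hf : N1Low k f) : N1Low (k + n) (n1G T D f) := by
  intro m hm
  rw [coeff_n1G]
  refine Finset.sum_eq_zero fun e he => ?_
  split_ifs with h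
  · rw [hf, map_zero]
    obtain ⟨c, rfl⟩ := exists_add_of_le h
    rw [add_tsub_cancel_left]
    rw [map_add, hT e he] at hm
    omega
  · rfl

/-- The coefficients of degree `n`. -/
theorem coeff_n1G_of_eq {T : Finset (Fin 2 →₀ ℕ)} {n : ℕ} (hT : ∀ e ∈ T, e.degree = n)
    (D : (Fin 2 →₀ ℕ) → Derivation ℂ K K) (f : MvPowerSeries (Fin 2) K) {m : Fin 2 →₀ ℕ}
    (hm : m.degree = n) : coeff m (n1G T D f) = if m ∈ T then D m (coeff 0 f) else 0 := by
  classical
  rw [coeff_n1G]
  have h1 : ∀ e ∈ T, (if e ≤ m then D e (coeff (m - e) f) else 0) =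
      if e = m then D m (coeff 0 f) else 0 := by
    intro e he
    by_cases h : e ≤ m
    · obtain ⟨c, rfl⟩ := exists_add_of_le h
      have h2 : c.degree = 0 := by
        rw [map_add, hT e he] at hm
        omega
      have h3 : c = 0 := (Finsupp.degree_eq_zero_iff _).1 h2
      rw [h3, add_zero, if_pos le_rfl, if_pos rfl, tsub_self]
    · rw [if_neg h, if_neg]
      rintro rfl
      exact h le_rfl
  rw [Finset.sum_congr rfl h1, Finset.sum_ite_eq']

end der

end Vale.Agent.P292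
end

section

/-! # Two lines through a generic point: the formal smoothing of the chain. -/

namespace Vale.Agent.P292

open MvPowerSeries

universe u v w

variable {R : Type u} [CommRing R] [Algebra ℂ R] {𝒜 : ℕ → Submodule ℂ R}
  {K : Type v} [Field K] [Algebra ℂ K]

omit [Algebra ℂ K] in
theorem n1_degree (m : Fin 2 →₀ ℕ) : m.degree = m 0 + m 1 := by
  rw [Finsupp.degree_eq_sum, Fin.sum_univ_two]

omit [Algebra ℂ K] in
/-- The coefficients of a polynomial in one of the two variables. -/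
theorem n1_coeff_aeval (p : Fin 2) (f : Polynomial K) (m : Fin 2 →₀ ℕ) :
    coeff m (Polynomial.aeval (MvPowerSeries.X p : MvPowerSeries (Fin 2) K) f) =
      if m = Finsupp.single p (m p) then f.coeff (m p) else 0 := by
  classical
  induction f using Polynomial.induction_on' with
  | add f g hf hg =>
    rw [map_add, map_add, hf, hg, Polynomial.coeff_add]
    split_ifs
    · rfl
    · rw [add_zero]
  | monomial n a =>
    rw [Polynomial.aeval_monomial, Polynomial.coeff_monomial, X_pow_eq]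
    have h1 : (algebraMap K (MvPowerSeries (Fin 2) K)) a = C a := rfl
    rw [h1, coeff_C_mul, coeff_monomial]
    by_cases h : m = Finsupp.single p n
    · rw [if_pos h, mul_one, if_pos, if_pos]
      · rw [h]; simp
      · rw [h]; simp
    · rw [if_neg h, mul_zero]
      split_ifs with h2 h3
      · exfalso
        apply h
        rw [h3]
        exact h2
      · rfl
      · rfl

/-- The curve `ψ`, dehomogenised at the point `(1, 0)`, as a map to power series in the variable
`X p`. -/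
noncomputable def n1Init (ψ : R →ₐ[ℂ] MvPolynomial (Fin 2) K) (p : Fin 2) :
    R →ₐ[ℂ] MvPowerSeries (Fin 2) K :=
  ((Polynomial.aeval (MvPowerSeries.X p : MvPowerSeries (Fin 2) K) :
    Polynomial K →ₐ[K] MvPowerSeries (Fin 2) K).restrictScalars ℂ).comp ((nwDehom K 0).comp ψ)

theorem coeff_n1Init (ψ : R →ₐ[ℂ] MvPolynomial (Fin 2) K) (p : Fin 2) (r : R)
    (m : Fin 2 →₀ ℕ) : coeff m (n1Init ψ p r) =
      if m = Finsupp.single p (m p) then (nwDehom K 0 (ψ r)).coeff (m p) else 0 :=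
  n1_coeff_aeval p _ m

/-- The invariant of the construction. -/
structure N1St (𝒜 : ℕ → Submodule ℂ R) (f₁ f₂ : R →ₐ[ℂ] MvPowerSeries (Fin 2) K) (n : ℕ)
    (F : (R →ₐ[ℂ] MvPowerSeries (Fin 2) K) × (R →ₐ[ℂ] MvPowerSeries (Fin 2) K)) : Prop where
  w1 : ∀ k, ∀ r ∈ 𝒜 k, ∀ m : Fin 2 →₀ ℕ, m 1 + k < m 0 → coeff m (F.1 r) = 0
  w2 : ∀ k, ∀ r ∈ 𝒜 k, ∀ m : Fin 2 →₀ ℕ, m 0 + k < m 1 → coeff m (F.2 r) = 0
  a1 : ∀ r, ∀ m : Fin 2 →₀ ℕ, m 1 = 0 → coeff m (F.1 r) = coeff m (f₁ r)
  a2 : ∀ r, ∀ m : Fin 2 →₀ ℕ, m 0 = 0 → coeff m (F.2 r) = coeff m (f₂ r)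
  eq : ∀ r, ∀ m : Fin 2 →₀ ℕ, m.degree < n → coeff m (F.1 r) = coeff m (F.2 r)

/-- The step of the construction. -/
theorem N1St.step {f₁ f₂ : R →ₐ[ℂ] MvPowerSeries (Fin 2) K} {y : R →ₐ[ℂ] K}
    (hy : Function.Injective y) (hf₁ : ∀ r, coeff 0 (f₁ r) = y r) {n : ℕ} (hn : 0 < n)
    {F : (R →ₐ[ℂ] MvPowerSeries (Fin 2) K) × (R →ₐ[ℂ] MvPowerSeries (Fin 2) K)}
    (h : N1St 𝒜 f₁ f₂ n F) :
    ∃ F' : (R →ₐ[ℂ] MvPowerSeries (Fin 2) K) × (R →ₐ[ℂ] MvPowerSeries (Fin 2) K),
      N1St 𝒜 f₁ f₂ (n + 1) F' ∧ ∀ r, ∀ m : Fin 2 →₀ ℕ, m.degree < n →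
        coeff m (F'.2 r) = coeff m (F.2 r) := by
  classical
  have hc1 : ∀ r, coeff 0 (F.1 r) = y r := fun r => by rw [h.a1 r 0 rfl, hf₁]
  have hc2 : ∀ r, coeff 0 (F.2 r) = y r := fun r => by
    rw [← h.eq r 0 (by rw [map_zero]; exact hn), hc1]
  -- the differences are derivations
  let d : (Fin 2 →₀ ℕ) → R →ₗ[ℂ] K := fun m =>
    ((coeff m : MvPowerSeries (Fin 2) K →ₗ[K] K).restrictScalars ℂ) ∘ₗ F.1.toLinearMap -
    ((coeff m : MvPowerSeries (Fin 2) K →ₗ[K] K).restrictScalars ℂ) ∘ₗ F.2.toLinearMap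
  have hd : ∀ m r, d m r = coeff m (F.1 r) - coeff m (F.2 r) := fun m r => rfl
  have hlow : ∀ r, N1Low n (F.1 r - F.2 r) := fun r m hm => by
    rw [map_sub, h.eq r m hm, sub_self]
  have hder : ∀ m : Fin 2 →₀ ℕ, m.degree = n → IsDer y (d m) := by
    intro m hm r s
    have e1 : coeff m (F.1 (r * s)) - coeff m (F.2 (r * s)) =
        coeff m ((F.1 r - F.2 r) * F.1 s) + coeff m ((F.1 s - F.2 s) * F.2 r) := by
      rw [← map_add, ← map_sub, map_mul, map_mul]
      congr 1
      ring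
    rw [hd, e1, (hlow r).coeff_mul hm, (hlow s).coeff_mul hm, hc1, hc2, hd, hd, map_sub, map_sub]
    ring
  have hD : ∀ m : Fin 2 →₀ ℕ, ∃ D : Derivation ℂ K K, m.degree = n → ∀ r, D (y r) = d m r := by
    intro m
    by_cases hm : m.degree = n
    · obtain ⟨D, hD⟩ := lwq_exists_D y (hder m hm) (fun r hr => by
        rw [hy (by rw [hr, map_zero] : y r = y 0), map_zero])
      exact ⟨D, fun _ => hD⟩
    · exact ⟨0, fun h => absurd h hm⟩
  choose D hD using hD
  let Tn : Finset (Fin 2 →₀ ℕ) := (Finsupp.finite_of_degree_le (σ := Fin 2) n).toFinset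
  have hTn : ∀ m : Fin 2 →₀ ℕ, m.degree = n → m ∈ Tn := fun m hm => by
    rw [Set.Finite.mem_toFinset]
    exact hm.le
  let T₁ : Finset (Fin 2 →₀ ℕ) := Tn.filter fun m => m.degree = n ∧ m 0 < m 1
  let T₂ : Finset (Fin 2 →₀ ℕ) := Tn.filter fun m => m.degree = n ∧ m 1 ≤ m 0
  have hT₁ : ∀ e ∈ T₁, e.degree = n ∧ e 0 < e 1 := fun e he => (Finset.mem_filter.1 he).2
  have hT₂ : ∀ e ∈ T₂, e.degree = n ∧ e 1 ≤ e 0 := fun e he => (Finset.mem_filter.1 he).2
  let G₁ := n1G T₁ (fun m => - D m)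
  let G₂ := n1G T₂ D
  have hG₁ : ∀ k f, N1Low k f → N1Low (k + n) (G₁ f) :=
    n1G_low (fun e he => (hT₁ e he).1) _
  have hG₂ : ∀ k f, N1Low k f → N1Low (k + n) (G₂ f) :=
    n1G_low (fun e he => (hT₂ e he).1) _
  refine ⟨((n1Exp hn hG₁).comp F.1, (n1Exp hn hG₂).comp F.2), ⟨?_, ?_, ?_, ?_, ?_⟩, ?_⟩
  · intro k r hr m hm
    refine coeff_n1Exp_eq_zero hn hG₁ (T := {m | m 1 + k < m 0}) (fun f hf m hm => ?_)
      (fun m hm => h.w1 k r hr m hm) hm
    change coeff m (n1G T₁ _ f) = 0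
    rw [coeff_n1G]
    refine Finset.sum_eq_zero fun e he => ?_
    split_ifs with hle
    · rw [hf, map_zero]
      obtain ⟨c, rfl⟩ := exists_add_of_le hle
      rw [add_tsub_cancel_left]
      have h1 := (hT₁ e he).2
      simp only [Set.mem_ofPred_eq, Finsupp.add_apply] at hm ⊢
      omega
    · rfl
  · intro k r hr m hm
    refine coeff_n1Exp_eq_zero hn hG₂ (T := {m | m 0 + k < m 1}) (fun f hf m hm => ?_)
      (fun m hm => h.w2 k r hr m hm) hm
    change coeff m (n1G T₂ _ f) = 0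
    rw [coeff_n1G]
    refine Finset.sum_eq_zero fun e he => ?_
    split_ifs with hle
    · rw [hf, map_zero]
      obtain ⟨c, rfl⟩ := exists_add_of_le hle
      rw [add_tsub_cancel_left]
      have h1 := (hT₂ e he).2
      simp only [Set.mem_ofPred_eq, Finsupp.add_apply] at hm ⊢
      omega
    · rfl
  · intro r m hm
    change coeff m (n1Exp hn hG₁ (F.1 r)) = _
    rw [coeff_n1Exp_of_kill hn hG₁ (fun f => ?_), h.a1 r m hm]
    change coeff m (n1G T₁ _ f) = 0
    rw [coeff_n1G]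
    refine Finset.sum_eq_zero fun e he => ?_
    rw [if_neg]
    intro hle
    have h1 := (hT₁ e he).2
    have h2 := hle 1
    omega
  · intro r m hm
    change coeff m (n1Exp hn hG₂ (F.2 r)) = _
    rw [coeff_n1Exp_of_kill hn hG₂ (fun f => ?_), h.a2 r m hm]
    change coeff m (n1G T₂ _ f) = 0
    rw [coeff_n1G]
    refine Finset.sum_eq_zero fun e he => ?_
    rw [if_neg]
    intro hle
    have h1 := (hT₂ e he)
    have h2 := hle 0
    rw [n1_degree] at h1
    omega
  · intro r m hm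
    change coeff m (n1Exp hn hG₁ (F.1 r)) = coeff m (n1Exp hn hG₂ (F.2 r))
    rcases Nat.lt_succ_iff_lt_or_eq.1 hm with hm | hm
    · rw [coeff_n1Exp_of_lt hn hG₁ _ hm, coeff_n1Exp_of_lt hn hG₂ _ hm, h.eq r m hm]
    · rw [coeff_n1Exp_of_eq hn hG₁ _ hm, coeff_n1Exp_of_eq hn hG₂ _ hm]
      change _ + coeff m (n1G T₁ _ _) = _ + coeff m (n1G T₂ _ _)
      rw [coeff_n1G_of_eq (fun e he => (hT₁ e he).1) _ _ hm,
        coeff_n1G_of_eq (fun e he => (hT₂ e he).1) _ _ hm, hc1, hc2]
      have h1 := hD m hm r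
      rw [hd] at h1
      by_cases h2 : m 0 < m 1
      · have h3 : m ∈ T₁ := Finset.mem_filter.2 ⟨hTn m hm, hm, h2⟩
        have h4 : m ∉ T₂ := fun h => by
          have := (hT₂ m h).2
          omega
        rw [if_pos h3, if_neg h4, Derivation.neg_apply, h1]
        ring
      · have h3 : m ∈ T₂ := Finset.mem_filter.2 ⟨hTn m hm, hm, by omega⟩
        have h4 : m ∉ T₁ := fun h => by
          have := (hT₁ m h).2
          omega
        rw [if_neg h4, if_pos h3, h1]
        ring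
  · intro r m hm
    exact coeff_n1Exp_of_lt hn hG₂ _ hm

/-- **Formal smoothing of a chain of two lines** with a generic node. -/
theorem exists_smoothing {ψ₁ ψ₂ : R →ₐ[ℂ] MvPolynomial (Fin 2) K}
    (h₁ : ∀ k, ∀ r ∈ 𝒜 k, (ψ₁ r).IsHomogeneous (1 * k))
    (h₂ : ∀ k, ∀ r ∈ 𝒜 k, (ψ₂ r).IsHomogeneous (1 * k))
    (hinj : Function.Injective (pt ψ₁ ![1, 0])) (heq : pt ψ₁ ![1, 0] = pt ψ₂ ![1, 0]) :
    ∃ Φ : R →ₐ[ℂ] MvPowerSeries (Fin 2) K,
      (∀ k, ∀ r ∈ 𝒜 k, ∀ m : Fin 2 →₀ ℕ, m 1 + k < m 0 → coeff m (Φ r) = 0) ∧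
      (∀ k, ∀ r ∈ 𝒜 k, ∀ m : Fin 2 →₀ ℕ, m 0 + k < m 1 → coeff m (Φ r) = 0) ∧
      (∀ r i, coeff (Finsupp.single 0 i) (Φ r) = (nwDehom K 0 (ψ₁ r)).coeff i) ∧
      ∀ r i, coeff (Finsupp.single 1 i) (Φ r) = (nwDehom K 0 (ψ₂ r)).coeff i := by
  classical
  set f₁ := n1Init ψ₁ 0 with hf₁
  set f₂ := n1Init ψ₂ 1 with hf₂
  have hz1 : ∀ r, coeff 0 (f₁ r) = pt ψ₁ ![1, 0] r := fun r => by
    rw [hf₁, coeff_n1Init, pt_apply, nw_eval_one_zero, if_pos (by simp)]
    rfl
  have hz2 : ∀ r, coeff 0 (f₂ r) = pt ψ₂ ![1, 0] r := fun r => by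
    rw [hf₂, coeff_n1Init, pt_apply, nw_eval_one_zero, if_pos (by simp)]
    rfl
  have hnz : ∀ {p : Polynomial K} {k i : ℕ}, p.natDegree ≤ 1 * k → k < i → p.coeff i = 0 :=
    fun hp hi => Polynomial.coeff_eq_zero_of_natDegree_lt (by omega)
  have h0 : N1St 𝒜 f₁ f₂ (0 + 1) (f₁, f₂) := by
    refine ⟨fun k r hr m hm => ?_, fun k r hr m hm => ?_, fun r m _ => rfl, fun r m _ => rfl,
      fun r m hm => ?_⟩
    · change coeff m (f₁ r) = 0
      rw [hf₁, coeff_n1Init]
      split_ifs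
      · exact hnz (nwDehom_natDegree_le 0 1 (by decide) (h₁ k r hr)) (by omega)
      · rfl
    · change coeff m (f₂ r) = 0
      rw [hf₂, coeff_n1Init]
      split_ifs
      · exact hnz (nwDehom_natDegree_le 0 1 (by decide) (h₂ k r hr)) (by omega)
      · rfl
    · have h3 : m = 0 := (Finsupp.degree_eq_zero_iff _).1 (by omega)
      rw [h3]
      change coeff 0 (f₁ r) = coeff 0 (f₂ r)
      rw [hz1, hz2, heq]
  let F : ∀ n : ℕ, {F : (R →ₐ[ℂ] MvPowerSeries (Fin 2) K) × (R →ₐ[ℂ] MvPowerSeries (Fin 2) K) //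
      N1St 𝒜 f₁ f₂ (n + 1) F} := fun n => Nat.rec ⟨(f₁, f₂), h0⟩
    (fun n F => ⟨(F.2.step hinj hz1 (Nat.succ_pos n)).choose,
      (F.2.step hinj hz1 (Nat.succ_pos n)).choose_spec.1⟩) n
  have hF : ∀ n r, ∀ m : Fin 2 →₀ ℕ, m.degree < n + 1 →
      coeff m ((F (n + 1)).1.2 r) = coeff m ((F n).1.2 r) := fun n r m hm =>
    ((F n).2.step hinj hz1 (Nat.succ_pos n)).choose_spec.2 r m hm
  have hmono : ∀ N n, n ≤ N → ∀ r, ∀ m : Fin 2 →₀ ℕ, m.degree < n + 1 →
      coeff m ((F N).1.2 r) = coeff m ((F n).1.2 r) := by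
    intro N n hn r m hm
    induction N, hn using Nat.le_induction with
    | base => rfl
    | succ N hN ih => rw [hF N r m (by omega), ih]
  -- the limit
  let L : R →ₗ[ℂ] MvPowerSeries (Fin 2) K :=
    { toFun := fun r => fun m => coeff m ((F m.degree).1.2 r)
      map_add' := fun r s => by
        ext m
        change coeff m ((F m.degree).1.2 (r + s)) = coeff m ((F m.degree).1.2 r) +
          coeff m ((F m.degree).1.2 s)
        rw [map_add, map_add]
      map_smul' := fun c r => by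
        ext m
        change coeff m ((F m.degree).1.2 (c • r)) = c • coeff m ((F m.degree).1.2 r)
        rw [map_smul]
        rfl }
  have hL : ∀ r, ∀ m : Fin 2 →₀ ℕ, ∀ N, m.degree ≤ N →
      coeff m (L r) = coeff m ((F N).1.2 r) := by
    intro r m N hN
    exact (hmono N m.degree hN r m (Nat.lt_succ_self _)).symm
  have hL1 : ∀ r, ∀ m : Fin 2 →₀ ℕ, coeff m (L r) = coeff m ((F m.degree).1.1 r) := by
    intro r m
    rw [hL r m _ le_rfl]
    exact ((F m.degree).2.eq r m (Nat.lt_succ_self _)).symm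
  let Φ : R →ₐ[ℂ] MvPowerSeries (Fin 2) K := AlgHom.ofLinearMap L
    (by
      ext m
      rw [hL 1 m _ le_rfl, map_one])
    (fun r s => by
      ext m
      rw [hL (r * s) m _ le_rfl, map_mul, coeff_mul, coeff_mul]
      refine Finset.sum_congr rfl fun p hp => ?_
      rw [Finset.HasAntidiagonal.mem_antidiagonal] at hp
      have hdeg : m.degree = p.1.degree + p.2.degree := by rw [← hp, map_add]
      rw [hL r p.1 m.degree (by omega), hL s p.2 m.degree (by omega)])
  refine ⟨Φ, fun k r hr m hm => ?_, fun k r hr m hm => ?_, fun r i => ?_, fun r i => ?_⟩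
  · change coeff m (L r) = 0
    rw [hL1]
    exact (F m.degree).2.w1 k r hr m hm
  · change coeff m (L r) = 0
    rw [hL r m _ le_rfl]
    exact (F m.degree).2.w2 k r hr m hm
  · change coeff (Finsupp.single 0 i) (L r) = _
    rw [hL1, (F _).2.a1 r _ (by simp), hf₁, coeff_n1Init, if_pos (by simp)]
    simp
  · change coeff (Finsupp.single 1 i) (L r) = _
    rw [hL r _ _ le_rfl, (F _).2.a2 r _ (by simp), hf₂, coeff_n1Init, if_pos (by simp)]
    simp

end Vale.Agent.P292
end

section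

set_option linter.all false

/-! # Q2 part I, block N2: definitions.

`x = q s / t`, `z = q t / s`, `T = s t`; the form attached to `F T^k` with
`F = ∑ F_m x^(m 0) z^(m 1)` (`|m 0 - m 1| ≤ k` on the support of `F`) is
`∑ F_m q^(m 0 + m 1) s^(k + m 0 - m 1) t^(k + m 1 - m 0)`. -/

namespace Vale.Agent.P292

open MvPolynomial

universe u v w

section
variable {K : Type v} [Field K]

/-- exponent of `x^(m 0) z^(m 1) T^k` in `s, t`. -/
noncomputable def ndExp (k : ℕ) (m : Fin 2 →₀ ℕ) : Fin 2 →₀ ℕ :=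
  Finsupp.single 0 (k + m 0 - m 1) + Finsupp.single 1 (k + m 1 - m 0)

/-- The form `∑ F_m q^(m 0 + m 1) s^(k + m 0 - m 1) t^(k + m 1 - m 0)`. -/
noncomputable def ndForm (k : ℕ) (F : MvPowerSeries (Fin 2) K) :
    MvPolynomial (Fin 2) (PowerSeries K) :=
  ∑ i ∈ Finset.range (2 * k + 1), monomial (Finsupp.single 0 i + Finsupp.single 1 (2 * k - i))
    (PowerSeries.mk fun N => ∑ p ∈ Finset.HasAntidiagonal.antidiagonal N,
      if k + p.1 = i + p.2 then
        MvPowerSeries.coeff (Finsupp.single 0 p.1 + Finsupp.single 1 p.2) F else 0)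

/-- support condition -/
def NdSupp (k : ℕ) (F : MvPowerSeries (Fin 2) K) : Prop :=
  (∀ m : Fin 2 →₀ ℕ, m 1 + k < m 0 → MvPowerSeries.coeff m F = 0) ∧
  (∀ m : Fin 2 →₀ ℕ, m 0 + k < m 1 → MvPowerSeries.coeff m F = 0)

end

end Vale.Agent.P292
end

section

set_option linter.all false

/-! # Q2 part I, block N2.1: the conic over `K⟦q⟧`. -/

namespace Vale.Agent.P292

open MvPolynomial

universe u v w

section
variable {K : Type v} [Field K]

/-- the power series coefficients -/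
noncomputable def ndSer (k : ℕ) (F : MvPowerSeries (Fin 2) K) (i : ℕ) : PowerSeries K :=
  PowerSeries.mk fun N => ∑ p ∈ Finset.HasAntidiagonal.antidiagonal N,
      if k + p.1 = i + p.2 then
        MvPowerSeries.coeff (Finsupp.single 0 p.1 + Finsupp.single 1 p.2) F else 0

theorem ndForm_eq (k : ℕ) (F : MvPowerSeries (Fin 2) K) : ndForm k F =
    ∑ i ∈ Finset.range (2 * k + 1),
      monomial (Finsupp.single 0 i + Finsupp.single 1 (2 * k - i)) (ndSer k F i) := rfl

theorem nd_single_eq (e : Fin 2 →₀ ℕ) : Finsupp.single 0 (e 0) + Finsupp.single 1 (e 1) = e := by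
  ext i
  fin_cases i <;> simp

theorem nd_ext {e e' : Fin 2 →₀ ℕ} (h0 : e 0 = e' 0) (h1 : e 1 = e' 1) : e = e' := by
  ext i
  fin_cases i
  · exact h0
  · exact h1

@[simp] theorem ndExp_zero (k : ℕ) (m : Fin 2 →₀ ℕ) : ndExp k m 0 = k + m 0 - m 1 := by
  simp [ndExp]

@[simp] theorem ndExp_one (k : ℕ) (m : Fin 2 →₀ ℕ) : ndExp k m 1 = k + m 1 - m 0 := by
  simp [ndExp]

theorem nd_coeff_form (k : ℕ) (F : MvPowerSeries (Fin 2) K) (e : Fin 2 →₀ ℕ) :
    coeff e (ndForm k F) = if e 0 + e 1 = 2 * k then ndSer k F (e 0) else 0 := by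
  classical
  rw [ndForm_eq, coeff_sum]
  split_ifs with h
  · rw [Finset.sum_eq_single (e 0)]
    · rw [coeff_monomial, if_pos]
      rw [show 2 * k - e 0 = e 1 by omega, nd_single_eq]
    · intro i _ hi
      rw [coeff_monomial, if_neg]
      intro h1
      apply hi
      have := DFunLike.congr_fun h1 0
      simpa using this
    · intro h1
      exfalso
      apply h1
      rw [Finset.mem_range]
      omega
  · refine Finset.sum_eq_zero fun i hi => ?_
    rw [coeff_monomial, if_neg]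
    intro h1
    apply h
    rw [Finset.mem_range] at hi
    rw [← h1]
    simp
    omega

theorem ndForm_isHomogeneous (k : ℕ) (F : MvPowerSeries (Fin 2) K) :
    (ndForm k F).IsHomogeneous (2 * k) := by
  rw [ndForm_eq]
  refine IsHomogeneous.sum _ _ _ fun i hi => ?_
  rw [Finset.mem_range] at hi
  refine isHomogeneous_monomial _ ?_
  rw [map_add, Finsupp.degree_single, Finsupp.degree_single]
  omega

theorem nd_coeff_ser (k : ℕ) (F : MvPowerSeries (Fin 2) K) (i N : ℕ) :
    PowerSeries.coeff N (ndSer k F i) = ∑ p ∈ Finset.HasAntidiagonal.antidiagonal N,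
      if k + p.1 = i + p.2 then
        MvPowerSeries.coeff (Finsupp.single 0 p.1 + Finsupp.single 1 p.2) F else 0 := by
  rw [ndSer, PowerSeries.coeff_mk]

/-- N2.1c the coefficient `F_m` is recovered -/
theorem coeff_ndForm {k : ℕ} (F : MvPowerSeries (Fin 2) K) (m : Fin 2 →₀ ℕ)
    (h0 : m 0 ≤ m 1 + k) (h1 : m 1 ≤ m 0 + k) :
    PowerSeries.coeff (m 0 + m 1) (coeff (ndExp k m) (ndForm k F)) =
      MvPowerSeries.coeff m F := by
  classical
  rw [nd_coeff_form, ndExp_zero, ndExp_one, if_pos (by omega), nd_coeff_ser,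
    Finset.sum_eq_single (m 0, m 1)]
  · rw [if_pos (by simp only; omega), nd_single_eq]
  · rintro ⟨a, b⟩ hab hne
    rw [if_neg]
    intro h
    apply hne
    rw [Finset.HasAntidiagonal.mem_antidiagonal] at hab
    simp only at hab h
    ext <;> simp only <;> omega
  · intro h
    exfalso
    apply h
    rw [Finset.HasAntidiagonal.mem_antidiagonal]

/-- N2.1d -/
theorem exists_of_coeff_ndForm_ne {k : ℕ} {F : MvPowerSeries (Fin 2) K} {N : ℕ}
    {e : Fin 2 →₀ ℕ} (h : PowerSeries.coeff N (coeff e (ndForm k F)) ≠ 0) :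
    ∃ m : Fin 2 →₀ ℕ, m 0 ≤ m 1 + k ∧ m 1 ≤ m 0 + k ∧ N = m 0 + m 1 ∧ e = ndExp k m := by
  classical
  rw [nd_coeff_form] at h
  split_ifs at h with he
  · rw [nd_coeff_ser] at h
    obtain ⟨p, hp, hp'⟩ := Finset.exists_ne_zero_of_sum_ne_zero h
    rw [Finset.HasAntidiagonal.mem_antidiagonal] at hp
    have h2 : k + p.1 = e 0 + p.2 := by
      by_contra h3
      rw [if_neg h3] at hp'
      exact hp' rfl
    refine ⟨Finsupp.single 0 p.1 + Finsupp.single 1 p.2, ?_, ?_, ?_, nd_ext ?_ ?_⟩ <;>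
      simp <;> omega
  · exact absurd (map_zero _) h

theorem nd_coeff_zero_of {k : ℕ} {F : MvPowerSeries (Fin 2) K} {N : ℕ}
    {e : Fin 2 →₀ ℕ} (h : ¬ ∃ m : Fin 2 →₀ ℕ, m 0 ≤ m 1 + k ∧ m 1 ≤ m 0 + k ∧ N = m 0 + m 1 ∧
      e = ndExp k m) : PowerSeries.coeff N (coeff e (ndForm k F)) = 0 := by
  by_contra h1
  exact h (exists_of_coeff_ndForm_ne h1)

theorem NdSupp.of_ne {k : ℕ} {F : MvPowerSeries (Fin 2) K} (hF : NdSupp k F) {m : Fin 2 →₀ ℕ}
    (h : MvPowerSeries.coeff m F ≠ 0) : m 0 ≤ m 1 + k ∧ m 1 ≤ m 0 + k := by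
  constructor
  · by_contra h1
    exact h (hF.1 m (by omega))
  · by_contra h1
    exact h (hF.2 m (by omega))

theorem nd_inj {k : ℕ} {m m' : Fin 2 →₀ ℕ} (h0 : m 0 ≤ m 1 + k) (h1 : m 1 ≤ m 0 + k)
    (h0' : m' 0 ≤ m' 1 + k) (h1' : m' 1 ≤ m' 0 + k) (h : m 0 + m 1 = m' 0 + m' 1)
    (he : ndExp k m = ndExp k m') : m = m' := by
  have h2 := DFunLike.congr_fun he 0
  rw [ndExp_zero, ndExp_zero] at h2
  exact nd_ext (by omega) (by omega)

theorem ndExp_add {k l : ℕ} {m m' : Fin 2 →₀ ℕ} (h0 : m 0 ≤ m 1 + k) (h1 : m 1 ≤ m 0 + k)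
    (h0' : m' 0 ≤ m' 1 + l) (h1' : m' 1 ≤ m' 0 + l) :
    ndExp k m + ndExp l m' = ndExp (k + l) (m + m') := by
  refine nd_ext ?_ ?_ <;> simp <;> omega

/-- N2.1a -/
theorem ndForm_mul {k l : ℕ} {F G : MvPowerSeries (Fin 2) K} (hF : NdSupp k F)
    (hG : NdSupp l G) : ndForm (k + l) (F * G) = ndForm k F * ndForm l G := by
  classical
  ext e N
  rw [coeff_mul, map_sum]
  simp_rw [PowerSeries.coeff_mul]
  rw [← Finset.sum_product']
  by_cases h : ∃ m : Fin 2 →₀ ℕ, m 0 ≤ m 1 + (k + l) ∧ m 1 ≤ m 0 + (k + l) ∧ N = m 0 + m 1 ∧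
      e = ndExp (k + l) m
  · obtain ⟨m, hm0, hm1, rfl, rfl⟩ := h
    rw [coeff_ndForm _ m hm0 hm1, MvPowerSeries.coeff_mul]
    refine Finset.sum_bij_ne_zero
      (fun p _ _ => ((ndExp k p.1, ndExp l p.2), (p.1 0 + p.1 1, p.2 0 + p.2 1))) ?_ ?_ ?_ ?_
    · rintro ⟨a, b⟩ hab hne
      rw [Finset.HasAntidiagonal.mem_antidiagonal] at hab
      obtain ⟨h1, h2⟩ := hF.of_ne (left_ne_zero_of_mul hne)
      obtain ⟨h3, h4⟩ := hG.of_ne (right_ne_zero_of_mul hne)
      simp only at hab h1 h2 h3 h4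
      rw [Finset.mem_product]
      refine ⟨?_, ?_⟩
      · rw [Finset.HasAntidiagonal.mem_antidiagonal]
        simp only
        rw [ndExp_add h1 h2 h3 h4, hab]
      · rw [Finset.HasAntidiagonal.mem_antidiagonal]
        simp only
        rw [← hab, Finsupp.add_apply, Finsupp.add_apply]
        omega
    · rintro ⟨a, b⟩ hab hne ⟨a', b'⟩ hab' hne' heq
      obtain ⟨h1, h2⟩ := hF.of_ne (left_ne_zero_of_mul hne)
      obtain ⟨h3, h4⟩ := hG.of_ne (right_ne_zero_of_mul hne)
      obtain ⟨h1', h2'⟩ := hF.of_ne (left_ne_zero_of_mul hne')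
      obtain ⟨h3', h4'⟩ := hG.of_ne (right_ne_zero_of_mul hne')
      simp only [Prod.mk.injEq] at heq h1 h2 h3 h4 h1' h2' h3' h4' ⊢
      exact ⟨nd_inj h1 h2 h1' h2' heq.2.1 heq.1.1, nd_inj h3 h4 h3' h4' heq.2.2 heq.1.2⟩
    · rintro ⟨⟨e1, e2⟩, ⟨n1, n2⟩⟩ hmem hne
      obtain ⟨a, h1, h2, h3, h4⟩ := exists_of_coeff_ndForm_ne (left_ne_zero_of_mul hne)
      obtain ⟨b, h1', h2', h3', h4'⟩ := exists_of_coeff_ndForm_ne (right_ne_zero_of_mul hne)
      simp only at h3 h4 h3' h4'
      subst h3 h4 h3' h4'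
      rw [Finset.mem_product, Finset.HasAntidiagonal.mem_antidiagonal, Finset.HasAntidiagonal.mem_antidiagonal] at hmem
      simp only at hmem
      obtain ⟨hm1', hm2'⟩ := hmem
      rw [ndExp_add h1 h2 h1' h2'] at hm1'
      have hab : a + b = m := by
        refine nd_inj (k := k + l) ?_ ?_ hm0 hm1 ?_ hm1' <;>
          rw [Finsupp.add_apply, Finsupp.add_apply] <;> omega
      refine ⟨(a, b), ?_, ?_, rfl⟩
      · rw [Finset.HasAntidiagonal.mem_antidiagonal]
        exact hab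
      · simp only
        have h5 := left_ne_zero_of_mul hne
        have h6 := right_ne_zero_of_mul hne
        simp only at h5 h6
        rw [coeff_ndForm F a h1 h2] at h5
        rw [coeff_ndForm G b h1' h2'] at h6
        exact mul_ne_zero h5 h6
    · rintro ⟨a, b⟩ hab hne
      obtain ⟨h1, h2⟩ := hF.of_ne (left_ne_zero_of_mul hne)
      obtain ⟨h3, h4⟩ := hG.of_ne (right_ne_zero_of_mul hne)
      simp only at h1 h2 h3 h4 ⊢
      rw [coeff_ndForm F a h1 h2, coeff_ndForm G b h3 h4]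
  · rw [nd_coeff_zero_of h]
    symm
    refine Finset.sum_eq_zero ?_
    rintro ⟨⟨e1, e2⟩, ⟨n1, n2⟩⟩ hmem
    by_contra hne
    obtain ⟨a, h1, h2, h3, h4⟩ := exists_of_coeff_ndForm_ne (left_ne_zero_of_mul hne)
    obtain ⟨b, h1', h2', h3', h4'⟩ := exists_of_coeff_ndForm_ne (right_ne_zero_of_mul hne)
    simp only at h3 h4 h3' h4'
    subst h3 h4 h3' h4'
    rw [Finset.mem_product, Finset.HasAntidiagonal.mem_antidiagonal, Finset.HasAntidiagonal.mem_antidiagonal] at hmem
    simp only at hmem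
    obtain ⟨hm1', hm2'⟩ := hmem
    rw [ndExp_add h1 h2 h1' h2'] at hm1'
    refine h ⟨a + b, ?_, ?_, ?_, hm1'.symm⟩ <;>
      rw [Finsupp.add_apply, Finsupp.add_apply] <;> omega

end

end Vale.Agent.P292
end

section

/-! # Two lines through a generic point: the smoothing has no base points. -/

namespace Vale.Agent.P292

universe u v w

section val

variable {K : Type v} [Field K] {Ω : Type w} [Field Ω]

/-- A valuation ring which dominates the ring of power series. -/
theorem bp_exists_val (ι : PowerSeries K →+* Ω) : ∃ O : ValuationSubring Ω,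
    (∀ f, O.valuation (ι f) ≤ 1) ∧ O.valuation (ι PowerSeries.X) < 1 := by
  obtain ⟨O, h, hl⟩ := IsLocalRing.exists_factor_valuationRing ι
  refine ⟨O, fun f => (O.valuation_le_one_iff _).2 (h f), ?_⟩
  have h1 : ¬ IsUnit (⟨ι PowerSeries.X, h _⟩ : O) := by
    intro hu
    have h2 : IsUnit (PowerSeries.X : PowerSeries K) := hl.map_nonunit _ hu
    rw [PowerSeries.isUnit_iff_constantCoeff, PowerSeries.constantCoeff_X] at h2
    exact not_isUnit_zero h2
  have h3 : (⟨ι PowerSeries.X, h _⟩ : O) ∈ IsLocalRing.maximalIdeal O := h1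
  exact (O.valuation_lt_one_iff _).1 h3

variable {ι : PowerSeries K →+* Ω} {O : ValuationSubring Ω}

theorem bp_sub_lt (hO : ∀ f, O.valuation (ι f) ≤ 1) (hq : O.valuation (ι PowerSeries.X) < 1)
    (G : PowerSeries K) :
    O.valuation (ι G - ι (PowerSeries.C (PowerSeries.constantCoeff G))) < 1 := by
  have h1 : PowerSeries.X ∣ G - PowerSeries.C (PowerSeries.constantCoeff G) := by
    rw [PowerSeries.X_dvd_iff, map_sub, PowerSeries.constantCoeff_C, sub_self]
  obtain ⟨H, hH⟩ := h1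
  rw [← map_sub, hH, map_mul, map_mul]
  exact lt_of_le_of_lt (mul_le_mul_right (hO H) _) (by rwa [mul_one])

theorem bp_C_eq_zero (hO : ∀ f, O.valuation (ι f) ≤ 1) {c : K}
    (h : O.valuation (ι (PowerSeries.C c)) < 1) : c = 0 := by
  by_contra hc
  have h1 : O.valuation (ι (PowerSeries.C c)) * O.valuation (ι (PowerSeries.C c⁻¹)) = 1 := by
    rw [← map_mul, ← map_mul, ← map_mul, mul_inv_cancel₀ hc, map_one, map_one, map_one]
  have h2 : O.valuation (ι (PowerSeries.C c)) * O.valuation (ι (PowerSeries.C c⁻¹)) < 1 :=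
    lt_of_le_of_lt (mul_le_mul_right (hO _) _) (by rwa [mul_one])
  rw [h1] at h2
  exact lt_irrefl _ h2

/-- The chart around a point of one of the two components. -/
theorem bp_chart (hO : ∀ f, O.valuation (ι f) ≤ 1) (hq : O.valuation (ι PowerSeries.X) < 1)
    (hq0 : ι PowerSeries.X ≠ 0) {k : ℕ} {a : ℕ → Ω} {G : ℕ → PowerSeries K}
    (ha : ∀ i ≤ 2 * k, ι PowerSeries.X ^ k * a i = ι PowerSeries.X ^ ((i - k) + (k - i)) * ι (G i))
    {p : Polynomial K} (hp : p.natDegree ≤ k)
    (hG : ∀ i, k ≤ i → i ≤ 2 * k → PowerSeries.constantCoeff (G i) = p.coeff (2 * k - i))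
    {z : Ω} (hz : O.valuation z ≤ 1) :
    O.valuation (∑ i ∈ Finset.range (2 * k + 1), a i * (ι PowerSeries.X * z) ^ (2 * k - i) -
      p.eval₂ (ι.comp PowerSeries.C) z) < 1 := by
  classical
  have h1 : p.eval₂ (ι.comp PowerSeries.C) z = ∑ i ∈ Finset.range (2 * k + 1),
      if k ≤ i then ι (PowerSeries.C (p.coeff (2 * k - i))) * z ^ (2 * k - i) else 0 := by
    rw [← Finset.sum_range_reflect]
    have h2 : ∀ j ∈ Finset.range (2 * k + 1),
        (if k ≤ 2 * k + 1 - 1 - j then ι (PowerSeries.C (p.coeff (2 * k - (2 * k + 1 - 1 - j)))) *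
          z ^ (2 * k - (2 * k + 1 - 1 - j)) else 0) =
        (ι.comp PowerSeries.C) (p.coeff j) * z ^ j := by
      intro j hj
      rw [Finset.mem_range] at hj
      have e : 2 * k - (2 * k + 1 - 1 - j) = j := by omega
      rw [e]
      split_ifs with h
      · rfl
      · rw [Polynomial.coeff_eq_zero_of_natDegree_lt (by omega), map_zero, zero_mul]
    rw [Finset.sum_congr rfl h2, Polynomial.eval₂_eq_sum_range' (n := 2 * k + 1) _ (by omega)]
  rw [h1, ← Finset.sum_sub_distrib]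
  refine Valuation.map_sum_lt _ one_ne_zero fun i hi => ?_
  rw [Finset.mem_range] at hi
  have h2 : a i * (ι PowerSeries.X * z) ^ (2 * k - i) =
      ι PowerSeries.X ^ (2 * (k - i)) * ι (G i) * z ^ (2 * k - i) := by
    have h3 := ha i (by omega)
    have h4 : ι PowerSeries.X ^ k ≠ 0 := pow_ne_zero _ hq0
    apply mul_left_cancel₀ h4
    rw [← mul_assoc, h3, mul_pow]
    have h5 : (i - k) + (k - i) + (2 * k - i) = k + 2 * (k - i) := by omega
    calc ι PowerSeries.X ^ ((i - k) + (k - i)) * ι (G i) *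
          (ι PowerSeries.X ^ (2 * k - i) * z ^ (2 * k - i))
        = ι PowerSeries.X ^ ((i - k) + (k - i) + (2 * k - i)) * ι (G i) * z ^ (2 * k - i) := by
          rw [pow_add _ ((i - k) + (k - i))]; ring
      _ = _ := by rw [h5, pow_add]; ring
  rw [h2]
  have hz' : O.valuation (z ^ (2 * k - i)) ≤ 1 := by
    rw [map_pow]; exact pow_le_one₀ zero_le hz
  split_ifs with h
  · have e : k - i = 0 := by omega
    rw [e, mul_zero, pow_zero, one_mul, ← hG i h (by omega), ← sub_mul, map_mul]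
    exact lt_of_le_of_lt (mul_le_mul_right hz' _) (by rw [mul_one]; exact bp_sub_lt hO hq _)
  · rw [sub_zero, map_mul, map_mul, map_pow]
    have h3 : O.valuation (ι PowerSeries.X) ^ (2 * (k - i)) < 1 :=
      pow_lt_one₀ zero_le hq (by omega)
    calc O.valuation (ι PowerSeries.X) ^ (2 * (k - i)) * O.valuation (ι (G i)) *
          O.valuation (z ^ (2 * k - i))
        ≤ O.valuation (ι PowerSeries.X) ^ (2 * (k - i)) * 1 * 1 :=
          mul_le_mul' (mul_le_mul_right (hO _) _) hz'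
      _ < 1 := by rwa [mul_one, mul_one]

/-- The chart around the node. -/
theorem bp_node (hO : ∀ f, O.valuation (ι f) ≤ 1) (hq : O.valuation (ι PowerSeries.X) < 1)
    {k : ℕ} {a : ℕ → Ω} {G : ℕ → PowerSeries K}
    (ha : ∀ i ≤ 2 * k, ι PowerSeries.X ^ k * a i = ι PowerSeries.X ^ ((i - k) + (k - i)) * ι (G i))
    {x y : Ω} (hx : x ≠ 0) (hy : y ≠ 0) (h1 : O.valuation (ι PowerSeries.X * x * y⁻¹) < 1)
    (h2 : O.valuation (ι PowerSeries.X * y * x⁻¹) < 1)
    (h0 : ∑ i ∈ Finset.range (2 * k + 1), a i * x ^ i * y ^ (2 * k - i) = 0) :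
    PowerSeries.constantCoeff (G k) = 0 := by
  classical
  have h3 : ∀ i ∈ Finset.range (2 * k + 1),
      (ι PowerSeries.X * x⁻¹ * y⁻¹) ^ k * (a i * x ^ i * y ^ (2 * k - i)) =
        ι (G i) * (ι PowerSeries.X * x * y⁻¹) ^ (i - k) *
          (ι PowerSeries.X * y * x⁻¹) ^ (k - i) := by
    intro i hi
    rw [Finset.mem_range] at hi
    have h4 := ha i (by omega)
    have e1 : (ι PowerSeries.X * x⁻¹ * y⁻¹) ^ k * (a i * x ^ i * y ^ (2 * k - i)) =
        (ι PowerSeries.X ^ k * a i) * (x⁻¹ ^ k * x ^ i) * (y⁻¹ ^ k * y ^ (2 * k - i)) := by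
      rw [mul_pow, mul_pow]; ring
    rw [e1, h4]
    have e2 : x⁻¹ ^ k * x ^ i = x ^ (i - k) * x⁻¹ ^ (k - i) := by
      rcases le_total k i with h | h
      · obtain ⟨j, rfl⟩ := exists_add_of_le h
        rw [Nat.add_sub_cancel_left, Nat.sub_eq_zero_of_le h, pow_zero, mul_one, pow_add,
          ← mul_assoc, ← mul_pow, inv_mul_cancel₀ hx, one_pow, one_mul]
      · obtain ⟨j, rfl⟩ := exists_add_of_le h
        rw [Nat.add_sub_cancel_left, Nat.sub_eq_zero_of_le h, pow_zero, one_mul, pow_add,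
          mul_right_comm, ← mul_pow, inv_mul_cancel₀ hx, one_pow, one_mul]
    have e3 : y⁻¹ ^ k * y ^ (2 * k - i) = y⁻¹ ^ (i - k) * y ^ (k - i) := by
      rcases le_total k i with h | h
      · obtain ⟨j, rfl⟩ := exists_add_of_le h
        have : 2 * k - (k + j) = k - j := by omega
        have hj : k = (k - j) + j := by omega
        rw [Nat.add_sub_cancel_left, Nat.sub_eq_zero_of_le h, pow_zero, mul_one, this]
        conv_lhs => rw [hj]
        rw [Nat.add_sub_cancel, pow_add, mul_right_comm, ← mul_pow, inv_mul_cancel₀ hy, one_pow,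
          one_mul]
      · obtain ⟨j, rfl⟩ := exists_add_of_le h
        have : 2 * (i + j) - i = (i + j) + j := by omega
        rw [Nat.add_sub_cancel_left, Nat.sub_eq_zero_of_le h, pow_zero, one_mul, this, pow_add y,
          ← mul_assoc, ← mul_pow, inv_mul_cancel₀ hy, one_pow, one_mul]
    rw [e2, e3, mul_pow, mul_pow, mul_pow, mul_pow, pow_add]
    ring
  have h4 : ∑ i ∈ Finset.range (2 * k + 1), ι (G i) * (ι PowerSeries.X * x * y⁻¹) ^ (i - k) *
      (ι PowerSeries.X * y * x⁻¹) ^ (k - i) = 0 := by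
    rw [← Finset.sum_congr rfl h3, ← Finset.mul_sum, h0, mul_zero]
  have h5 : O.valuation (∑ i ∈ (Finset.range (2 * k + 1)).erase k,
      ι (G i) * (ι PowerSeries.X * x * y⁻¹) ^ (i - k) *
      (ι PowerSeries.X * y * x⁻¹) ^ (k - i)) < 1 := by
    refine Valuation.map_sum_lt _ one_ne_zero fun i hi => ?_
    rw [Finset.mem_erase] at hi
    rw [map_mul, map_mul, map_pow, map_pow]
    rcases lt_or_gt_of_ne hi.1 with h | h
    · have e : i - k = 0 := by omega
      rw [e, pow_zero, mul_one]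
      exact lt_of_le_of_lt (mul_le_mul_left (hO _) _) (by
        rw [one_mul]; exact pow_lt_one₀ zero_le h2 (by omega))
    · have e : k - i = 0 := by omega
      rw [e, pow_zero, mul_one]
      exact lt_of_le_of_lt (mul_le_mul_left (hO _) _) (by
        rw [one_mul]; exact pow_lt_one₀ zero_le h1 (by omega))
  have h6 : ι (G k) = - ∑ i ∈ (Finset.range (2 * k + 1)).erase k,
      ι (G i) * (ι PowerSeries.X * x * y⁻¹) ^ (i - k) *
      (ι PowerSeries.X * y * x⁻¹) ^ (k - i) := by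
    rw [← Finset.add_sum_erase _ _ (Finset.mem_range.2 (by omega : k < 2 * k + 1)), Nat.sub_self,
      pow_zero, pow_zero, mul_one, mul_one] at h4
    exact eq_neg_of_add_eq_zero_left h4
  apply bp_C_eq_zero hO
  have h7 : ι (PowerSeries.C (PowerSeries.constantCoeff (G k))) = ι (G k) -
      (ι (G k) - ι (PowerSeries.C (PowerSeries.constantCoeff (G k)))) := by ring
  rw [h7]
  refine lt_of_le_of_lt (Valuation.map_sub _ _ _) (max_lt ?_ (bp_sub_lt hO hq _))
  rw [h6, Valuation.map_neg]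
  exact h5

end val

section nd

variable {K : Type v} [Field K]

theorem bp_coeff_ndForm (k i : ℕ) (hi : i ≤ 2 * k) (F : MvPowerSeries (Fin 2) K) :
    ∃ G : PowerSeries K, PowerSeries.constantCoeff G =
      MvPowerSeries.coeff (Finsupp.single 0 (i - k) + Finsupp.single 1 (k - i)) F ∧
      (ndForm k F).coeff (Finsupp.single 0 i + Finsupp.single 1 (2 * k - i)) =
        PowerSeries.X ^ ((i - k) + (k - i)) * G := by
  classical
  let g : PowerSeries K := PowerSeries.mk fun N => ∑ p ∈ Finset.HasAntidiagonal.antidiagonal N,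
      if k + p.1 = i + p.2 then
        MvPowerSeries.coeff (Finsupp.single 0 p.1 + Finsupp.single 1 p.2) F else 0
  have h1 : (ndForm k F).coeff (Finsupp.single 0 i + Finsupp.single 1 (2 * k - i)) = g := by
    rw [ndForm, MvPolynomial.coeff_sum, Finset.sum_eq_single i]
    · rw [MvPolynomial.coeff_monomial, if_pos rfl]
    · intro j hj hji
      rw [MvPolynomial.coeff_monomial, if_neg]
      intro h
      apply hji
      have := DFunLike.congr_fun h 0
      simpa using this
    · intro h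
      exact absurd (Finset.mem_range.2 (by omega)) h
  have h2 : PowerSeries.X ^ ((i - k) + (k - i)) ∣ g := by
    rw [PowerSeries.X_pow_dvd_iff]
    intro N hN
    rw [PowerSeries.coeff_mk]
    refine Finset.sum_eq_zero fun p hp => ?_
    rw [Finset.HasAntidiagonal.mem_antidiagonal] at hp
    rw [if_neg (by omega)]
  obtain ⟨G, hG⟩ := h2
  refine ⟨G, ?_, by rw [h1, hG]⟩
  have h3 : PowerSeries.coeff ((i - k) + (k - i)) g = PowerSeries.constantCoeff G := by
    rw [hG, PowerSeries.coeff_X_pow_mul', if_pos le_rfl, Nat.sub_self,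
      PowerSeries.coeff_zero_eq_constantCoeff]
  rw [← h3, PowerSeries.coeff_mk, Finset.sum_eq_single (i - k, k - i)]
  · rw [if_pos (by simp only; omega)]
  · intro p hp hne
    rw [Finset.HasAntidiagonal.mem_antidiagonal] at hp
    rw [if_neg]
    intro h
    apply hne
    ext
    · simp only; omega
    · simp only; omega
  · intro h
    exfalso
    apply h
    rw [Finset.HasAntidiagonal.mem_antidiagonal]

/-- The value of a binary form. -/
theorem bp_eval_form {κ : Type*} [Field κ] {N : ℕ} {p : MvPolynomial (Fin 2) κ}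
    (hp : p.IsHomogeneous N) (x : Fin 2 → κ) : MvPolynomial.eval x p =
      ∑ i ∈ Finset.range (N + 1), p.coeff (Finsupp.single 0 i + Finsupp.single 1 (N - i)) *
        x 0 ^ i * x 1 ^ (N - i) := by
  classical
  have h1 : p = ∑ i ∈ Finset.range (N + 1), MvPolynomial.monomial
      (Finsupp.single 0 i + Finsupp.single 1 (N - i))
      (p.coeff (Finsupp.single 0 i + Finsupp.single 1 (N - i))) := by
    ext m
    rw [MvPolynomial.coeff_sum]
    by_cases hm : m 0 + m 1 = N
    · have e : m = Finsupp.single 0 (m 0) + Finsupp.single 1 (N - m 0) := by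
        ext j
        fin_cases j
        · simp
        · simp; omega
      rw [Finset.sum_eq_single (m 0)]
      · rw [MvPolynomial.coeff_monomial, if_pos e.symm, ← e]
      · intro j hj hji
        rw [MvPolynomial.coeff_monomial, if_neg]
        intro h
        apply hji
        have := DFunLike.congr_fun h 0
        simpa using this
      · intro h
        exact absurd (Finset.mem_range.2 (by omega)) h
    · have hdeg : m.degree ≠ N := by
        rw [Finsupp.degree_eq_sum, Fin.sum_univ_two]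
        exact hm
      rw [hp.coeff_eq_zero hdeg]
      symm
      refine Finset.sum_eq_zero fun i hi => ?_
      rw [Finset.mem_range] at hi
      rw [MvPolynomial.coeff_monomial, if_neg]
      rintro rfl
      apply hm
      simp
      omega
  conv_lhs => rw [h1]
  rw [map_sum]
  refine Finset.sum_congr rfl fun i _ => ?_
  rw [MvPolynomial.eval_monomial, Finsupp.prod_add_index' (by simp) (by intros; rw [pow_add]),
    Finsupp.prod_single_index (by simp), Finsupp.prod_single_index (by simp), mul_assoc]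

/-- The dehomogenised forms of a curve generate the unit ideal. -/
theorem bp_span_eq_top {R : Type u} [CommRing R] [Algebra ℂ R] {𝒜 : ℕ → Submodule ℂ R}
    [IsAlgClosed K] [Algebra ℂ K] {ψ : R →ₐ[ℂ] MvPolynomial (Fin 2) K} (h : IsCurve 𝒜 1 ψ) :
    Ideal.span {p : Polynomial K | ∃ k, 0 < k ∧ ∃ r ∈ 𝒜 k, p = nwDehom K 1 (ψ r)} = ⊤ := by
  by_contra hne
  obtain ⟨g, hg⟩ := (IsPrincipalIdealRing.principal
    (Ideal.span {p : Polynomial K | ∃ k, 0 < k ∧ ∃ r ∈ 𝒜 k, p = nwDehom K 1 (ψ r)})).principal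
  have hgu : ¬ IsUnit g := fun hu => hne (by rw [hg]; exact Ideal.span_singleton_eq_top.2 hu)
  obtain ⟨x, hx⟩ : ∃ x, g.eval x = 0 := by
    by_cases hg0 : g.degree = 0
    · exact absurd (Polynomial.isUnit_iff_degree_eq_zero.2 hg0) hgu
    · exact IsAlgClosed.exists_root g hg0
  have hx2 : (![x, 1] : Fin 2 → K) ≠ 0 := fun h0 => by
    have := congrFun h0 1
    simp at this
  obtain ⟨k, hk, r, hr, hne2⟩ := h.bpf ![x, 1] hx2
  apply hne2
  have h1 : nwDehom K 1 (ψ r) ∈ Ideal.span {p : Polynomial K | ∃ k, 0 < k ∧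
      ∃ r ∈ 𝒜 k, p = nwDehom K 1 (ψ r)} := Ideal.subset_span ⟨k, hk, r, hr, rfl⟩
  rw [hg] at h1
  obtain ⟨c, hc⟩ := Ideal.mem_span_singleton'.1 h1
  rw [MvPolynomial.aeval_eq_eval]
  change MvPolynomial.eval ![x, 1] (ψ r) = 0
  rw [← eval_nwDehom_one, ← hc, Polynomial.eval_mul, hx, mul_zero]

/-- The dehomogenised forms of a curve have no common root, also modulo the maximal ideal. -/
theorem bp_exists_unit {R : Type u} [CommRing R] [Algebra ℂ R] {𝒜 : ℕ → Submodule ℂ R}
    [IsAlgClosed K] [Algebra ℂ K] {ψ : R →ₐ[ℂ] MvPolynomial (Fin 2) K} (h : IsCurve 𝒜 1 ψ)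
    {Ω : Type w} [Field Ω] {ι : PowerSeries K →+* Ω} {O : ValuationSubring Ω}
    (hO : ∀ f, O.valuation (ι f) ≤ 1) {z : Ω} (hz : O.valuation z ≤ 1) :
    ∃ k, 0 < k ∧ ∃ r ∈ 𝒜 k,
      ¬ O.valuation ((nwDehom K 1 (ψ r)).eval₂ (ι.comp PowerSeries.C) z) < 1 := by
  by_contra hcon
  push Not at hcon
  have hint : ∀ p : Polynomial K, O.valuation (p.eval₂ (ι.comp PowerSeries.C) z) ≤ 1 := by
    intro p
    rw [Polynomial.eval₂_eq_sum_range]
    refine Valuation.map_sum_le _ fun i _ => ?_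
    rw [map_mul, map_pow]
    exact mul_le_one' (hO _) (pow_le_one₀ zero_le hz)
  have key : ∀ p ∈ Ideal.span {p : Polynomial K | ∃ k, 0 < k ∧ ∃ r ∈ 𝒜 k,
      p = nwDehom K 1 (ψ r)}, O.valuation (p.eval₂ (ι.comp PowerSeries.C) z) < 1 := by
    intro p hp
    induction hp using Submodule.span_induction with
    | mem p hp =>
      obtain ⟨k, hk, r, hr, rfl⟩ := hp
      exact hcon k hk r hr
    | zero => rw [Polynomial.eval₂_zero, map_zero]; exact zero_lt_one
    | add p q _ _ hp hq =>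
      rw [Polynomial.eval₂_add]
      exact lt_of_le_of_lt (Valuation.map_add _ _ _) (max_lt hp hq)
    | smul a p _ hp =>
      rw [smul_eq_mul, Polynomial.eval₂_mul, map_mul]
      exact lt_of_le_of_lt (mul_le_mul_left (hint a) _) (by rwa [one_mul])
  have h1 := key 1 (by rw [bp_span_eq_top h]; exact Submodule.mem_top)
  rw [Polynomial.eval₂_one, map_one] at h1
  exact lt_irrefl _ h1

theorem bp_ndForm_isHomogeneous (k : ℕ) (F : MvPowerSeries (Fin 2) K) :
    (ndForm k F).IsHomogeneous (2 * k) := by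
  refine MvPolynomial.IsHomogeneous.sum _ _ _ fun i hi => ?_
  rw [Finset.mem_range] at hi
  refine MvPolynomial.isHomogeneous_monomial _ ?_
  simp only [map_add, Finsupp.degree_single]
  omega

end nd

section

variable {R : Type u} [CommRing R] [Algebra ℂ R] {𝒜 : ℕ → Submodule ℂ R}
  {K : Type v} [Field K] [Algebra ℂ K]

/-- N2.2: the smoothing has no base points. -/
theorem nd_isCurve [GradedAlgebra 𝒜] [IsAlgClosed K] {ψ₁ ψ₂ : R →ₐ[ℂ] MvPolynomial (Fin 2) K}
    (h₁ : IsCurve 𝒜 1 ψ₁) (h₂ : IsCurve 𝒜 1 ψ₂) {Φ : R →ₐ[ℂ] MvPowerSeries (Fin 2) K}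
    (hax1 : ∀ r i, MvPowerSeries.coeff (Finsupp.single 0 i) (Φ r) = (nwDehom K 0 (ψ₁ r)).coeff i)
    (hax2 : ∀ r i, MvPowerSeries.coeff (Finsupp.single 1 i) (Φ r) = (nwDehom K 0 (ψ₂ r)).coeff i)
    {φ : R →ₐ[ℂ] MvPolynomial (Fin 2) (PowerSeries K)} (hφ : ∀ k, ∀ r ∈ 𝒜 k, φ r = ndForm k (Φ r))
    {Ω : Type w} [Field Ω] [Algebra ℂ Ω] (ι : PowerSeries K →ₐ[ℂ] Ω) (hι : Function.Injective ι)
    (O : ValuationSubring Ω) (hO : ∀ a, ι a ∈ O) (hq : O.valuation (ι PowerSeries.X) < 1) :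
    IsCurve 𝒜 2 ((MvPolynomial.mapAlgHom ι).comp φ) := by
  classical
  have hq0 : (ι : PowerSeries K →+* Ω) PowerSeries.X ≠ 0 := fun h0 =>
    PowerSeries.X_ne_zero (hι (h0.trans (map_zero ι).symm))
  have hO' : ∀ f, O.valuation ((ι : PowerSeries K →+* Ω) f) ≤ 1 := fun f =>
    (O.valuation_le_one_iff _).2 (hO f)
  have hdeg : ∀ k, ∀ r ∈ 𝒜 k, (((MvPolynomial.mapAlgHom ι).comp φ) r).IsHomogeneous (2 * k) := by
    intro k r hr
    change (MvPolynomial.map (ι : PowerSeries K →+* Ω) (φ r)).IsHomogeneous _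
    rw [hφ k r hr]
    exact (bp_ndForm_isHomogeneous k _).map _
  refine ⟨hdeg, fun x hx => ?_⟩
  by_contra hcon
  push Not at hcon
  -- the data
  have main : ∀ k, 0 < k → ∀ r ∈ 𝒜 k, ∃ (a : ℕ → Ω) (G : ℕ → PowerSeries K),
      (∀ i ≤ 2 * k, (ι : PowerSeries K →+* Ω) PowerSeries.X ^ k * a i =
        (ι : PowerSeries K →+* Ω) PowerSeries.X ^ ((i - k) + (k - i)) *
          (ι : PowerSeries K →+* Ω) (G i)) ∧
      (∀ i ≤ 2 * k, PowerSeries.constantCoeff (G i) =
        MvPowerSeries.coeff (Finsupp.single 0 (i - k) + Finsupp.single 1 (k - i)) (Φ r)) ∧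
      ∑ i ∈ Finset.range (2 * k + 1), a i * x 0 ^ i * x 1 ^ (2 * k - i) = 0 := by
    intro k hk r hr
    have h1 : ∀ i, ∃ G : PowerSeries K, i ≤ 2 * k → PowerSeries.constantCoeff G =
      MvPowerSeries.coeff (Finsupp.single 0 (i - k) + Finsupp.single 1 (k - i)) (Φ r) ∧
      (ndForm k (Φ r)).coeff (Finsupp.single 0 i + Finsupp.single 1 (2 * k - i)) =
        PowerSeries.X ^ ((i - k) + (k - i)) * G := by
      intro i
      by_cases hi : i ≤ 2 * k
      · obtain ⟨G, hG⟩ := bp_coeff_ndForm k i hi (Φ r)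
        exact ⟨G, fun _ => hG⟩
      · exact ⟨0, fun h => absurd h hi⟩
    choose G hG using h1
    have hqk : (ι : PowerSeries K →+* Ω) PowerSeries.X ^ k ≠ 0 := pow_ne_zero _ hq0
    refine ⟨fun i => ((ι : PowerSeries K →+* Ω) PowerSeries.X ^ k)⁻¹ *
      (((MvPolynomial.mapAlgHom ι).comp φ) r).coeff
        (Finsupp.single 0 i + Finsupp.single 1 (2 * k - i)), G, fun i hi => ?_,
      fun i hi => (hG i hi).1, ?_⟩
    · rw [mul_inv_cancel_left₀ hqk]
      change (MvPolynomial.map (ι : PowerSeries K →+* Ω) (φ r)).coeff _ = _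
      rw [MvPolynomial.coeff_map, hφ k r hr, (hG i hi).2, map_mul, map_pow]
    · have h2 := hcon k hk r hr
      rw [MvPolynomial.aeval_eq_eval] at h2
      change MvPolynomial.eval x _ = 0 at h2
      rw [bp_eval_form (hdeg k r hr)] at h2
      simp only [mul_assoc]
      rw [← Finset.mul_sum]
      simp only [mul_assoc] at h2
      rw [h2, mul_zero]
  have hp : ∀ (ψ : R →ₐ[ℂ] MvPolynomial (Fin 2) K), IsCurve 𝒜 1 ψ → ∀ k, ∀ r ∈ 𝒜 k,
      (nwDehom K 1 (ψ r)).natDegree ≤ k ∧ ∀ i, k ≤ i → i ≤ 2 * k →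
        (nwDehom K 0 (ψ r)).coeff (i - k) = (nwDehom K 1 (ψ r)).coeff (2 * k - i) := by
    intro ψ hψ k r hr
    have h1 : (ψ r).IsHomogeneous k := by
      have := hψ.degree k r hr
      rwa [one_mul] at this
    refine ⟨nwDehom_natDegree_le 1 0 (by decide) h1, fun i hi hi2 => ?_⟩
    exact nwDehom_coeff_symm h1 (by omega)
  -- first chart
  have caseA : ∀ z : Ω, O.valuation z ≤ 1 → x 0 ≠ 0 →
      x 1 = (ι : PowerSeries K →+* Ω) PowerSeries.X * z * x 0 → False := by
    intro z hz hx0 hx1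
    obtain ⟨k, hk, r, hr, hu⟩ := bp_exists_unit (ι := (ι : PowerSeries K →+* Ω)) h₁ hO' hz
    obtain ⟨a, G, ha, hG, hsum⟩ := main k hk r hr
    obtain ⟨hpd, hpc⟩ := hp ψ₁ h₁ k r hr
    apply hu
    have h3 := bp_chart hO' hq hq0 ha hpd (fun i hi hi2 => by
      rw [hG i hi2, Nat.sub_eq_zero_of_le hi, Finsupp.single_zero, add_zero, hax1, hpc i hi hi2]) hz
    have h4 : ∑ i ∈ Finset.range (2 * k + 1),
        a i * ((ι : PowerSeries K →+* Ω) PowerSeries.X * z) ^ (2 * k - i) = 0 := by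
      have h5 : x 0 ^ (2 * k) ≠ 0 := pow_ne_zero _ hx0
      apply mul_left_cancel₀ h5
      rw [mul_zero, ← hsum, Finset.mul_sum]
      refine Finset.sum_congr rfl fun i hi => ?_
      rw [Finset.mem_range] at hi
      obtain ⟨j, hj⟩ := exists_add_of_le (show i ≤ 2 * k by omega)
      rw [hx1, hj, Nat.add_sub_cancel_left, mul_pow _ (x 0), pow_add (x 0)]
      ring
    rw [h4, zero_sub, Valuation.map_neg] at h3
    exact h3
  have caseB : ∀ z : Ω, O.valuation z ≤ 1 → x 1 ≠ 0 →
      x 0 = (ι : PowerSeries K →+* Ω) PowerSeries.X * z * x 1 → False := by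
    intro z hz hx1 hx0
    obtain ⟨k, hk, r, hr, hu⟩ := bp_exists_unit (ι := (ι : PowerSeries K →+* Ω)) h₂ hO' hz
    obtain ⟨a, G, ha, hG, hsum⟩ := main k hk r hr
    obtain ⟨hpd, hpc⟩ := hp ψ₂ h₂ k r hr
    apply hu
    have h3 := bp_chart (a := fun i => a (2 * k - i)) (G := fun i => G (2 * k - i)) hO' hq hq0
      (fun i hi => by
        have e : (i - k) + (k - i) = (2 * k - i - k) + (k - (2 * k - i)) := by omega
        rw [e]
        exact ha (2 * k - i) (by omega)) hpd (fun i hi hi2 => by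
      have e1 : 2 * k - i - k = 0 := by omega
      have e2 : k - (2 * k - i) = i - k := by omega
      rw [hG (2 * k - i) (by omega), e1, e2, Finsupp.single_zero, zero_add, hax2, hpc i hi hi2]) hz
    have h4 : ∑ i ∈ Finset.range (2 * k + 1),
        a (2 * k - i) * ((ι : PowerSeries K →+* Ω) PowerSeries.X * z) ^ (2 * k - i) = 0 := by
      have h5 : x 1 ^ (2 * k) ≠ 0 := pow_ne_zero _ hx1
      apply mul_left_cancel₀ h5
      rw [mul_zero, ← hsum, Finset.mul_sum, ← Finset.sum_range_reflect]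
      refine Finset.sum_congr rfl fun i hi => ?_
      rw [Finset.mem_range] at hi
      have e1 : 2 * k + 1 - 1 - i = 2 * k - i := by omega
      have e2 : 2 * k - (2 * k - i) = i := by omega
      rw [e1, e2, hx0]
      obtain ⟨j, hj⟩ := exists_add_of_le (show i ≤ 2 * k by omega)
      rw [hj, Nat.add_sub_cancel_left, mul_pow _ (x 1), pow_add (x 1)]
      ring
    rw [h4, zero_sub, Valuation.map_neg] at h3
    exact h3
  by_cases hx0 : x 0 = 0
  · have hx1 : x 1 ≠ 0 := fun h => hx (by funext j; fin_cases j <;> assumption)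
    exact caseB 0 (by rw [map_zero]; exact zero_le) hx1 (by rw [hx0]; ring)
  by_cases hx1 : x 1 = 0
  · exact caseA 0 (by rw [map_zero]; exact zero_le) hx0 (by rw [hx1]; ring)
  by_cases hz1 : O.valuation (((ι : PowerSeries K →+* Ω) PowerSeries.X * x 0)⁻¹ * x 1) ≤ 1
  · exact caseA _ hz1 hx0 (by
      have h3 := mul_ne_zero hq0 hx0
      calc x 1 = ((ι : PowerSeries K →+* Ω) PowerSeries.X * x 0) *
          (((ι : PowerSeries K →+* Ω) PowerSeries.X * x 0)⁻¹ * x 1) :=
            (mul_inv_cancel_left₀ h3 _).symm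
        _ = _ := by ring)
  by_cases hz0 : O.valuation (((ι : PowerSeries K →+* Ω) PowerSeries.X * x 1)⁻¹ * x 0) ≤ 1
  · exact caseB _ hz0 hx1 (by
      have h3 := mul_ne_zero hq0 hx1
      calc x 0 = ((ι : PowerSeries K →+* Ω) PowerSeries.X * x 1) *
          (((ι : PowerSeries K →+* Ω) PowerSeries.X * x 1)⁻¹ * x 0) :=
            (mul_inv_cancel_left₀ h3 _).symm
        _ = _ := by ring)
  -- the node
  have h10 : (![1, 0] : Fin 2 → K) ≠ 0 := fun h0 => by
    have := congrFun h0 0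
    simp at this
  obtain ⟨k, hk, r, hr, hne⟩ := h₁.bpf ![1, 0] h10
  apply hne
  rw [MvPolynomial.aeval_eq_eval]
  change MvPolynomial.eval ![1, 0] (ψ₁ r) = 0
  obtain ⟨a, G, ha, hG, hsum⟩ := main k hk r hr
  have h3 := bp_node hO' hq ha hx0 hx1 (by
    rw [not_le] at hz1
    have e : (ι : PowerSeries K →+* Ω) PowerSeries.X * x 0 * (x 1)⁻¹ =
        (((ι : PowerSeries K →+* Ω) PowerSeries.X * x 0)⁻¹ * x 1)⁻¹ := by
      rw [mul_inv, inv_inv]
    rw [e, map_inv₀]
    exact inv_lt_one_of_one_lt₀ hz1) (by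
    rw [not_le] at hz0
    have e : (ι : PowerSeries K →+* Ω) PowerSeries.X * x 1 * (x 0)⁻¹ =
        (((ι : PowerSeries K →+* Ω) PowerSeries.X * x 1)⁻¹ * x 0)⁻¹ := by
      rw [mul_inv, inv_inv]
    rw [e, map_inv₀]
    exact inv_lt_one_of_one_lt₀ hz0) hsum
  rw [hG k (by omega), Nat.sub_self, Finsupp.single_zero, Finsupp.single_zero, add_zero] at h3
  rw [nw_eval_one_zero, ← hax1, Finsupp.single_zero]
  exact h3

end

end Vale.Agent.P292
end

section

/-!
# P292, block U, part 1: extension of a curve to the integral closure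

`φ : R → A` a homomorphism of integrally closed domains, `Q` a monic polynomial over `R` with
`φ (disc Q) ≠ 0` all of whose roots over `A` lie in `A`, `M` a splitting field of `Q`.  Then `φ`
extends to the integral closure of `R` in `M`, and every extension separates the roots of `Q`.
-/

namespace Vale.Agent.P292

open Polynomial TensorProduct

/-- an injective homomorphism from a domain to an algebraically closed field extends to an
integral extension. -/
theorem u1_extend_inj {R T F : Type*} [CommRing R] [IsDomain R] [CommRing T] [IsDomain T]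
    [Algebra R T] [Algebra.IsIntegral R T] [FaithfulSMul R T]
    [Field F] [IsAlgClosed F] (ψ : R →+* F) (hψ : Function.Injective ψ) :
    ∃ Λ : T →+* F, ∀ r, Λ (algebraMap R T r) = ψ r := by
  let : Algebra R F := ψ.toAlgebra
  have : FaithfulSMul R F := (faithfulSMul_iff_algebraMap_injective _ _).2 hψ
  let ℓ : T →ₐ[R] F := IsAlgClosed.lift
  exact ⟨ℓ.toRingHom, fun r => ℓ.commutes r⟩

/-- a homomorphism from a domain to an algebraically closed field extends to an integral
extension. -/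
theorem u1_extend {R T F : Type*} [CommRing R] [IsDomain R] [CommRing T] [IsDomain T]
    [Algebra R T] [Algebra.IsIntegral R T] (hinj : Function.Injective (algebraMap R T))
    [Field F] [IsAlgClosed F] (ψ : R →+* F) : ∃ Λ : T →+* F, ∀ r, Λ (algebraMap R T r) = ψ r := by
  have : (RingHom.ker ψ).IsPrime := RingHom.ker_isPrime ψ
  obtain ⟨Q, hQ, hQP⟩ := Ideal.exists_ideal_over_prime_of_isIntegral_of_isDomain (S := T)
    (RingHom.ker ψ) (by rw [(RingHom.injective_iff_ker_eq_bot _).1 hinj]; exact bot_le)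
  have := hQ
  have : Q.LiesOver (RingHom.ker ψ) := ⟨hQP.symm⟩
  obtain ⟨ℓ, hℓ⟩ := u1_extend_inj (R := R ⧸ RingHom.ker ψ) (T := T ⧸ Q) (RingHom.kerLift ψ)
    (RingHom.kerLift_injective ψ)
  exact ⟨ℓ.comp (Ideal.Quotient.mk Q), fun r => hℓ (Ideal.Quotient.mk _ r)⟩

/-- the discriminant of a monic polynomial is a combination of it and its derivative. -/
theorem u1_disc {R : Type*} [CommRing R] {Q : R[X]} (hQ : Q.Monic) (hd : 0 < Q.natDegree) :
    ∃ p q : R[X], Q * p + derivative Q * q = C Q.discr := by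
  nontriviality R
  obtain ⟨p, q, -, -, h⟩ := exists_mul_add_mul_eq_C_resultant (m := Q.natDegree)
    (n := Q.natDegree - 1) Q (derivative Q) le_rfl (natDegree_derivative_le Q)
    (Or.inl (by omega))
  rw [resultant_deriv (natDegree_pos_iff_degree_pos.1 hd), hQ.leadingCoeff, mul_one] at h
  have h2 : ((-1 : R) ^ (Q.natDegree * (Q.natDegree - 1) / 2)) *
      ((-1 : R) ^ (Q.natDegree * (Q.natDegree - 1) / 2)) = 1 := by
    rw [← mul_pow]; simp
  refine ⟨C ((-1 : R) ^ (Q.natDegree * (Q.natDegree - 1) / 2)) * p,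
    C ((-1 : R) ^ (Q.natDegree * (Q.natDegree - 1) / 2)) * q, ?_⟩
  calc _ = C ((-1 : R) ^ (Q.natDegree * (Q.natDegree - 1) / 2)) *
        (Q * p + derivative Q * q) := by ring
    _ = _ := by rw [h, ← C_mul, ← mul_assoc, h2, one_mul]

/-- a homomorphism that does not kill the discriminant does not kill `Q'` at a root of `Q`. -/
theorem u1_deriv_ne {R T F : Type*} [CommRing R] [CommRing T] [Algebra R T] [CommRing F]
    (Λ : T →+* F) {Q : R[X]} (hQ : Q.Monic) (hdisc : Λ (algebraMap R T Q.discr) ≠ 0) {b : T}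
    (hb : aeval b Q = 0) : Λ (aeval b (derivative Q)) ≠ 0 := by
  rcases Nat.eq_zero_or_pos Q.natDegree with h0 | h0
  · have h1 := eq_one_of_monic_natDegree_zero hQ h0
    subst h1
    rw [map_one] at hb
    exact absurd (by rw [← mul_one (algebraMap R T _), hb, mul_zero, map_zero]) hdisc
  · obtain ⟨p, q, h⟩ := u1_disc hQ h0
    intro hc
    apply hdisc
    have h1 := congrArg (aeval b) h
    rw [map_add, map_mul, map_mul, hb, zero_mul, zero_add, aeval_C] at h1
    rw [← h1, map_mul, hc, zero_mul]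

/-- such a homomorphism separates the roots of `Q`. -/
theorem u1_root_ne {R T F : Type*} [CommRing R] [CommRing T] [IsDomain T] [Algebra R T]
    [CommRing F] (Λ : T →+* F) {Q : R[X]} (hQ : Q.Monic)
    (hdisc : Λ (algebraMap R T Q.discr) ≠ 0) {b₁ b₂ : T} (h1 : aeval b₁ Q = 0)
    (h2 : aeval b₂ Q = 0) (hne : b₁ ≠ b₂) : Λ b₁ ≠ Λ b₂ := by
  intro hc
  have hr : IsRoot (Q.map (algebraMap R T)) b₁ := by
    rw [IsRoot, eval_map_algebraMap, h1]
  obtain ⟨Q₁, hQ₁⟩ := dvd_iff_isRoot.2 hr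
  have e2 : Q₁.eval b₂ = 0 := by
    have h3 : (Q.map (algebraMap R T)).eval b₂ = 0 := by rw [eval_map_algebraMap, h2]
    rw [hQ₁, eval_mul, eval_sub, eval_X, eval_C] at h3
    exact (mul_eq_zero.1 h3).resolve_left (sub_ne_zero.2 hne.symm)
  have e1 : aeval b₁ (derivative Q) = Q₁.eval b₁ := by
    rw [← eval_map_algebraMap, ← derivative_map, hQ₁, derivative_mul]
    simp
  apply u1_deriv_ne Λ hQ hdisc h1
  rw [e1]
  have e3 : Λ (Q₁.eval b₁) = Λ (Q₁.eval b₂) := by
    rw [← eval₂_hom, ← eval₂_hom, hc]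
  rw [e3, e2, map_zero]

/-- the trace of an integral element, as a sum over the Galois group. -/
theorem u1_sum_range {R K M : Type*} [CommRing R] [IsDomain R] [IsIntegrallyClosed R]
    [Field K] [Algebra R K] [IsFractionRing R K]
    [Field M] [Algebra R M] [Algebra K M] [IsScalarTower R K M] [FiniteDimensional K M]
    [IsGalois K M] {x : M} (hx : IsIntegral R x) :
    ∃ r : R, algebraMap R M r = ∑ τ : M ≃ₐ[K] M, τ x := by
  have h1 : IsIntegral R (Algebra.trace K M x) := Algebra.isIntegral_trace hx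
  obtain ⟨r, hr⟩ := IsIntegrallyClosed.isIntegral_iff.1 h1
  refine ⟨r, ?_⟩
  rw [← trace_eq_sum_automorphisms, ← hr, ← IsScalarTower.algebraMap_apply]

/-- the main induction. -/
theorem u1_sum_mem {R K M : Type*} [CommRing R] [IsDomain R] [IsIntegrallyClosed R]
    [Field K] [Algebra R K] [IsFractionRing R K]
    [Field M] [Algebra R M] [Algebra K M] [IsScalarTower R K M] [FiniteDimensional K M]
    [IsGalois K M] (C : Subalgebra R M) (hC : ∀ x ∈ C, IsIntegral R x)
    (β γ : (M ≃ₐ[K] M) → M) (hβ : ∀ σ, β σ ∈ C) (hγ : ∀ σ, γ σ ∈ C)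
    (s : Finset (M ≃ₐ[K] M)) : ∀ x : M, IsIntegral R x →
    ∑ τ : M ≃ₐ[K] M, (∏ σ ∈ s, (β σ - τ (γ σ))) * τ x ∈ C := by
  classical
  induction s using Finset.induction_on with
  | empty =>
    intro x hx
    obtain ⟨r, hr⟩ := u1_sum_range (K := K) hx
    simp only [Finset.prod_empty, one_mul]
    rw [← hr]
    exact C.algebraMap_mem r
  | insert σ₀ s hσ ih =>
    intro x hx
    have e : ∑ τ : M ≃ₐ[K] M, (∏ σ ∈ insert σ₀ s, (β σ - τ (γ σ))) * τ x =
        β σ₀ * ∑ τ : M ≃ₐ[K] M, (∏ σ ∈ s, (β σ - τ (γ σ))) * τ x -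
          ∑ τ : M ≃ₐ[K] M, (∏ σ ∈ s, (β σ - τ (γ σ))) * τ (γ σ₀ * x) := by
      rw [Finset.mul_sum, ← Finset.sum_sub_distrib]
      refine Finset.sum_congr rfl fun τ _ => ?_
      rw [Finset.prod_insert hσ, map_mul]
      ring
    rw [e]
    exact C.sub_mem (C.mul_mem (hβ _) (ih x hx)) (ih _ ((hC _ (hγ _)).mul hx))

/-- a multiple of every integral element lies in `C`. -/
theorem u1_conductor {R K M : Type*} [CommRing R] [IsDomain R] [IsIntegrallyClosed R]
    [Field K] [Algebra R K] [IsFractionRing R K]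
    [Field M] [Algebra R M] [Algebra K M] [IsScalarTower R K M] [FiniteDimensional K M]
    [IsGalois K M] (C : Subalgebra R M) (hC : ∀ x ∈ C, IsIntegral R x)
    (hG : ∀ (σ : M ≃ₐ[K] M), ∀ x ∈ C, σ x ∈ C)
    [DecidableEq (M ≃ₐ[K] M)]
    (β : (M ≃ₐ[K] M) → M) (hβ : ∀ σ, β σ ∈ C) (x : M) (hx : IsIntegral R x) :
    (∏ σ ∈ Finset.univ.erase (1 : M ≃ₐ[K] M), (β σ - σ⁻¹ (β σ))) * x ∈ C := by
  have h := u1_sum_mem C hC β (fun σ => σ⁻¹ (β σ)) hβ (fun σ => hG _ _ (hβ σ))
    (Finset.univ.erase (1 : M ≃ₐ[K] M)) x hx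
  rw [Finset.sum_eq_single_of_mem (1 : M ≃ₐ[K] M) (Finset.mem_univ _)] at h
  · exact h
  · intro τ _ hτ
    rw [Finset.prod_eq_zero (Finset.mem_erase.2 ⟨hτ, Finset.mem_univ τ⟩), zero_mul]
    have : τ (τ⁻¹ (β τ)) = (τ * τ⁻¹) (β τ) := rfl
    rw [this, mul_inv_cancel]
    exact sub_self _

/-- a nontrivial automorphism of a splitting field moves a root. -/
theorem u1_exists_root_ne {K M : Type*} [Field K] [Field M] [Algebra K M] (Q : K[X])
    [Q.IsSplittingField K M] {σ : M ≃ₐ[K] M} (hσ : σ ≠ 1) :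
    ∃ β ∈ Q.rootSet M, σ β ≠ β := by
  by_contra! h
  apply hσ
  have h1 : (σ : M →ₐ[K] M) = AlgHom.id K M :=
    AlgHom.ext_of_adjoin_eq_top (IsSplittingField.adjoin_rootSet M Q) (fun x hx => h x hx)
  ext x
  exact DFunLike.congr_fun h1 x

/-- a polynomial with non zero discriminant is separable over the fraction field. -/
theorem u1_separable {R K : Type*} [CommRing R] [IsDomain R] [Field K] [Algebra R K]
    [IsFractionRing R K] {Q : R[X]} (hQ : Q.Monic) (hdisc : Q.discr ≠ 0) :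
    (Q.map (algebraMap R K)).Separable := by
  rcases Nat.eq_zero_or_pos Q.natDegree with h0 | h0
  · have h1 := eq_one_of_monic_natDegree_zero hQ h0
    subst h1
    rw [Polynomial.map_one]
    exact separable_one
  · obtain ⟨p, q, h⟩ := u1_disc hQ h0
    have hd : algebraMap R K Q.discr ≠ 0 := by
      rwa [Ne, IsFractionRing.to_map_eq_zero_iff]
    refine ⟨C (algebraMap R K Q.discr)⁻¹ * p.map (algebraMap R K),
      C (algebraMap R K Q.discr)⁻¹ * q.map (algebraMap R K), ?_⟩
    have h2 := congrArg (Polynomial.map (algebraMap R K)) h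
    rw [Polynomial.map_add, Polynomial.map_mul, Polynomial.map_mul, map_C, ← derivative_map] at h2
    calc _ = C (algebraMap R K Q.discr)⁻¹ * (Q.map (algebraMap R K) * p.map (algebraMap R K) +
          derivative (Q.map (algebraMap R K)) * q.map (algebraMap R K)) := by ring
      _ = _ := by rw [h2, ← C_mul, inv_mul_cancel₀ hd, C_1]

/-- an element of `F` that is integral over `A` and has a non zero multiple by an element of `A`
in `A` lies in `A`. -/
theorem u1_mem_range {A F : Type*} [CommRing A] [IsDomain A] [IsIntegrallyClosed A] [Field F]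
    [Algebra A F] [FaithfulSMul A F] {x : F} (hx : IsIntegral A x) {a b : A} (ha : a ≠ 0)
    (h : algebraMap A F a * x = algebraMap A F b) : ∃ y : A, algebraMap A F y = x := by
  have hinj : Function.Injective (algebraMap A F) := FaithfulSMul.algebraMap_injective A F
  let j : FractionRing A →ₐ[A] F := IsFractionRing.liftAlgHom (g := Algebra.ofId A F) hinj
  have hj : Function.Injective j := j.toRingHom.injective
  have ha' : algebraMap A F a ≠ 0 := fun hc => ha (hinj (by rw [hc, map_zero]))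
  have e : j (algebraMap A (FractionRing A) b / algebraMap A (FractionRing A) a) = x := by
    rw [map_div₀, j.commutes, j.commutes, ← h, mul_div_cancel_left₀ _ ha']
  rw [← e] at hx
  obtain ⟨y, hy⟩ := IsIntegrallyClosed.isIntegral_iff.1 ((isIntegral_algHom_iff j hj).1 hx)
  exact ⟨y, by rw [← e, ← hy, j.commutes]⟩

/-- values on the algebra generated by a set. -/
theorem u1_adjoin_range {R A F M : Type*} [CommRing R] [CommRing A] [Field F] [Algebra A F]
    [Field M] [Algebra R M] (φ : R →+* A) (Λ : integralClosure R M →+* F)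
    (hΛ : ∀ r, Λ (algebraMap R _ r) = algebraMap A F (φ r)) (S : Set M)
    (hSint : ∀ b ∈ S, IsIntegral R b)
    (hS : ∀ b : integralClosure R M, (b : M) ∈ S → ∃ a, algebraMap A F a = Λ b)
    (c : integralClosure R M) (hc : (c : M) ∈ Algebra.adjoin R S) :
    ∃ a, algebraMap A F a = Λ c := by
  let D : Subalgebra R (integralClosure R M) :=
    { (algebraMap A F).range.comap Λ with
      algebraMap_mem' := fun r => ⟨φ r, (hΛ r).symm⟩ }
  have hD : ∀ t, t ∈ D ↔ ∃ a, algebraMap A F a = Λ t := fun t => Iff.rfl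
  have h1 : Algebra.adjoin R S ≤ D.map (integralClosure R M).val := by
    refine Algebra.adjoin_le fun b hb => ?_
    exact ⟨⟨b, hSint b hb⟩, (hD _).2 (hS ⟨b, hSint b hb⟩ hb), rfl⟩
  obtain ⟨d, hd, hdc⟩ := h1 hc
  have h2 : d = c := Subtype.ext hdc
  rw [← h2]
  exact (hD d).1 hd

/-- **extension of `φ` to the integral closure**, with a general fraction field. -/
theorem exists_lam' {R A F : Type*} (K : Type*) {M : Type*} [CommRing R] [IsDomain R]
    [IsIntegrallyClosed R] [CommRing A] [IsDomain A] [IsIntegrallyClosed A] [Field F]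
    [IsAlgClosed F] [Algebra A F] [FaithfulSMul A F] [Field K] [Algebra R K] [IsFractionRing R K]
    [Field M] [Algebra R M] [Algebra K M] [IsScalarTower R K M] (φ : R →+* A) {Q : R[X]}
    (hQ : Q.Monic) [(Q.map (algebraMap R K)).IsSplittingField K M] (hdisc : φ Q.discr ≠ 0)
    (hroots : ∀ x : F, Q.eval₂ ((algebraMap A F).comp φ) x = 0 → ∃ a, algebraMap A F a = x) :
    ∃ lam : integralClosure R M →+* A, ∀ r, lam (algebraMap R _ r) = φ r := by
  classical
  have hinjA : Function.Injective (algebraMap A F) := FaithfulSMul.algebraMap_injective A F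
  have hdisc0 : Q.discr ≠ 0 := fun h => hdisc (by rw [h, map_zero])
  have hsep : (Q.map (algebraMap R K)).Separable := u1_separable hQ hdisc0
  have : FiniteDimensional K M := IsSplittingField.finiteDimensional M (Q.map (algebraMap R K))
  have : IsGalois K M := IsGalois.of_separable_splitting_field hsep
  have hinjRM : Function.Injective (algebraMap R M) := by
    rw [IsScalarTower.algebraMap_eq R K M]
    exact (algebraMap K M).injective.comp (IsFractionRing.injective R K)
  have hinjT : Function.Injective (algebraMap R (integralClosure R M)) := by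
    intro a b hab
    exact hinjRM (congrArg (fun t : integralClosure R M => (t : M)) hab)
  obtain ⟨Λ, hΛ⟩ := u1_extend (T := integralClosure R M) hinjT ((algebraMap A F).comp φ)
  have hΛd : Λ (algebraMap R _ Q.discr) ≠ 0 := by
    rw [hΛ, RingHom.comp_apply]
    exact fun hc => hdisc (hinjA (by rw [hc, map_zero]))
  have hcomp : Λ.comp (algebraMap R (integralClosure R M)) = (algebraMap A F).comp φ :=
    RingHom.ext hΛ
  -- the roots
  have hQT : ∀ b : integralClosure R M, aeval (b : M) Q = 0 → aeval b Q = 0 := by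
    intro b hb
    apply Subtype.ext
    have := aeval_algHom_apply (integralClosure R M).val b Q
    exact this.symm.trans hb
  let S : Set M := {b : M | aeval b Q = 0}
  have hSint : ∀ b ∈ S, IsIntegral R b := fun b hb => ⟨Q, hQ, hb⟩
  have hS : ∀ b : integralClosure R M, (b : M) ∈ S → ∃ a, algebraMap A F a = Λ b := by
    intro b hb
    apply hroots
    rw [← hcomp, ← hom_eval₂, ← aeval_def, hQT b hb, map_zero]
  let C := Algebra.adjoin R S
  have hC : ∀ x ∈ C, IsIntegral R x := by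
    have h1 : C ≤ integralClosure R M := Algebra.adjoin_le fun b hb => hSint b hb
    exact fun x hx => h1 hx
  have hSG : ∀ (σ : M ≃ₐ[K] M), ∀ b ∈ S, σ b ∈ S := by
    intro σ b hb
    have h1 := aeval_algHom_apply ((σ : M →ₐ[K] M).restrictScalars R) b Q
    have hb' : aeval b Q = 0 := hb
    rw [hb', map_zero] at h1
    exact h1
  have hG : ∀ (σ : M ≃ₐ[K] M), ∀ x ∈ C, σ x ∈ C := by
    intro σ x hx
    have h1 : C ≤ C.comap ((σ : M →ₐ[K] M).restrictScalars R) :=
      Algebra.adjoin_le fun b hb => Algebra.subset_adjoin (hSG σ b hb)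
    exact h1 hx
  have hβ : ∀ σ : M ≃ₐ[K] M, ∃ β ∈ C, σ ≠ 1 → β ∈ S ∧ σ⁻¹ β ≠ β := by
    intro σ
    by_cases hσ : σ = 1
    · exact ⟨0, C.zero_mem, fun h => absurd hσ h⟩
    · obtain ⟨β, hβ, hne⟩ := u1_exists_root_ne (Q.map (algebraMap R K)) hσ
      have hβS : β ∈ S := by
        have h1 := (mem_rootSet.1 hβ).2
        rwa [aeval_map_algebraMap] at h1
      refine ⟨β, Algebra.subset_adjoin hβS, fun _ => ⟨hβS, fun hc => hne ?_⟩⟩
      have h2 : σ (σ⁻¹ β) = β := by
        have : σ (σ⁻¹ β) = (σ * σ⁻¹) β := rfl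
        rw [this, mul_inv_cancel]
        rfl
      rw [hc] at h2
      exact h2
  choose β hβC hβ' using hβ
  -- the multiplier
  let bT : (M ≃ₐ[K] M) → integralClosure R M := fun σ => ⟨β σ, hC _ (hβC σ)⟩
  let gT : (M ≃ₐ[K] M) → integralClosure R M := fun σ => ⟨σ⁻¹ (β σ), hC _ (hG _ _ (hβC σ))⟩
  let cT : integralClosure R M := ∏ σ ∈ Finset.univ.erase (1 : M ≃ₐ[K] M), (bT σ - gT σ)
  have hcT : (cT : M) = ∏ σ ∈ Finset.univ.erase (1 : M ≃ₐ[K] M), (β σ - σ⁻¹ (β σ)) := by
    have : (cT : M) = (integralClosure R M).val cT := rfl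
    rw [this, map_prod]
    rfl
  have hΛc : Λ cT ≠ 0 := by
    rw [map_prod]
    refine Finset.prod_ne_zero_iff.2 fun σ hσ => ?_
    have hσ1 := (Finset.mem_erase.1 hσ).1
    rw [map_sub, sub_ne_zero]
    refine u1_root_ne Λ hQ hΛd (hQT _ (hβ' σ hσ1).1) (hQT _ (hSG _ _ (hβ' σ hσ1).1)) fun hc => ?_
    exact (hβ' σ hσ1).2 (congrArg (fun t : integralClosure R M => (t : M)) hc).symm
  have hmul : ∀ x : integralClosure R M, ((cT * x : integralClosure R M) : M) ∈ C := by
    intro x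
    have h1 := u1_conductor (K := K) C hC hG β hβC (x : M) x.2
    rw [← hcT] at h1
    exact h1
  obtain ⟨a, ha⟩ := u1_adjoin_range φ Λ hΛ S hSint hS cT (by
    have := hmul 1
    rwa [mul_one] at this)
  have ha0 : a ≠ 0 := by
    intro h
    rw [h, map_zero] at ha
    exact hΛc ha.symm
  have hrange : ∀ x : integralClosure R M, ∃ y : A, algebraMap A F y = Λ x := by
    intro x
    obtain ⟨b, hb⟩ := u1_adjoin_range φ Λ hΛ S hSint hS (cT * x) (hmul x)
    refine u1_mem_range ?_ ha0 (b := b) (by rw [ha, hb, map_mul])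
    obtain ⟨p, hp, hpx⟩ := integralClosure.isIntegral x
    refine ⟨p.map φ, hp.map φ, ?_⟩
    rw [eval₂_map, ← hcomp, ← hom_eval₂, hpx, map_zero]
  let e : A ≃+* (algebraMap A F).range :=
    RingEquiv.ofBijective (algebraMap A F).rangeRestrict
      ⟨fun x y h => hinjA (congrArg Subtype.val h), (algebraMap A F).rangeRestrict_surjective⟩
  refine ⟨e.symm.toRingHom.comp (Λ.codRestrict (algebraMap A F).range fun x => hrange x),
    fun r => ?_⟩
  have h1 : Λ.codRestrict (algebraMap A F).range (fun x => hrange x) (algebraMap R _ r) =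
      e (φ r) := Subtype.ext (hΛ r)
  rw [RingHom.comp_apply, h1]
  exact e.symm_apply_apply _

/-- **extension of `φ` to the integral closure**. -/
theorem exists_lam {R A F M : Type*} [CommRing R] [IsDomain R]
    [IsIntegrallyClosed R] [CommRing A] [IsDomain A] [IsIntegrallyClosed A] [Field F]
    [IsAlgClosed F] [Algebra A F] [FaithfulSMul A F]
    [Field M] [Algebra R M] [Algebra (FractionRing R) M] [IsScalarTower R (FractionRing R) M]
    (φ : R →+* A) {Q : R[X]} (hQ : Q.Monic)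
    [(Q.map (algebraMap R (FractionRing R))).IsSplittingField (FractionRing R) M]
    (hdisc : φ Q.discr ≠ 0)
    (hroots : ∀ x : F, Q.eval₂ ((algebraMap A F).comp φ) x = 0 → ∃ a, algebraMap A F a = x) :
    ∃ lam : integralClosure R M →+* A, ∀ r, lam (algebraMap R _ r) = φ r :=
  exists_lam' (FractionRing R) φ hQ hdisc hroots

/-- every extension of `φ` separates the roots of `Q`. -/
theorem lam_root_ne {R A T : Type*} [CommRing R] [CommRing A] [CommRing T] [IsDomain T]
    [Algebra R T] (φ : R →+* A) {Q : R[X]} (hQ : Q.Monic) (hdisc : φ Q.discr ≠ 0) (lam : T →+* A)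
    (hlam : ∀ r, lam (algebraMap R T r) = φ r) {b₁ b₂ : T} (h1 : aeval b₁ Q = 0)
    (h2 : aeval b₂ Q = 0) (hne : b₁ ≠ b₂) : lam b₁ ≠ lam b₂ :=
  u1_root_ne lam hQ (by rwa [hlam]) h1 h2 hne

/-- no extension of `φ` kills the derivative of `Q` at a root. -/
theorem lam_deriv_ne {R A T : Type*} [CommRing R] [CommRing A] [CommRing T]
    [Algebra R T] (φ : R →+* A) {Q : R[X]} (hQ : Q.Monic) (hdisc : φ Q.discr ≠ 0) (lam : T →+* A)
    (hlam : ∀ r, lam (algebraMap R T r) = φ r) {b : T} (h1 : aeval b Q = 0) :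
    lam (aeval b (derivative Q)) ≠ 0 :=
  u1_deriv_ne lam hQ (by rwa [hlam]) h1

end Vale.Agent.P292
end

section

/-! Along a line (or a conic, or any curve) an integral function of the right degree with
integral brackets is a linear form. -/

namespace Vale.Agent.P292

open Module Polynomial

universe u v w

variable {R : Type u} [CommRing R] [Algebra ℂ R] {𝒜 : ℕ → Submodule ℂ R} [GradedAlgebra 𝒜]
  {P : R →ₗ[ℂ] R →ₗ[ℂ] R}

/-- There is a chart at every point of a curve. -/
theorem IsCurve.exists_isChart (hX : IsContactFano 𝒜 P) {d : ℕ} {E : Type v} [Field E]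
    [Algebra ℂ E] {ψ : R →ₐ[ℂ] MvPolynomial (Fin 2) E} (hψ : IsCurve 𝒜 d ψ) (x : Fin 2 → E)
    (hx : x ≠ 0) :
    ∃ (N : ℕ) (y : Fin N → R) (δ : R), MvPolynomial.aeval x (ψ δ) ≠ 0 ∧ IsChart P y δ := by
  obtain ⟨k, hk, r, hr, hxr⟩ := hψ.bpf x hx
  have hft : Algebra.FiniteType ℂ R := hX.finiteType
  let z : R →ₐ[ℂ] E :=
    ((MvPolynomial.aeval x : MvPolynomial (Fin 2) E →ₐ[E] E).restrictScalars ℂ).comp ψ
  obtain ⟨p, hp, hpr⟩ := exists_closed_point z r hxr
  obtain ⟨N, y, δ, hδ, hc⟩ := exists_isChart_at hX (p := p) (fun hv => hpr (hv k hk r hr))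
  exact ⟨N, y, δ, fun h => hδ (hp _ h), hc⟩

/-- The charts cover the curve. -/
theorem IsCurve.pow_mem_span (hX : IsContactFano 𝒜 P) {d : ℕ} {E : Type v} [Field E]
    [IsAlgClosed E] [Algebra ℂ E] {ψ : R →ₐ[ℂ] MvPolynomial (Fin 2) E} (hψ : IsCurve 𝒜 d ψ) :
    ∃ N : ℕ, ∀ i, (MvPolynomial.X i : MvPolynomial (Fin 2) E) ^ N ∈
      Ideal.span {g | ∃ (n : ℕ) (y : Fin n → R) (δ : R), IsChart P y δ ∧ g = ψ δ} := by
  have hrad : ∀ i, (MvPolynomial.X i : MvPolynomial (Fin 2) E) ∈
      (Ideal.span {g | ∃ (n : ℕ) (y : Fin n → R) (δ : R), IsChart P y δ ∧ g = ψ δ}).radical := by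
    intro i
    rw [← MvPolynomial.vanishingIdeal_zeroLocus_eq_radical (K := E)]
    rw [MvPolynomial.mem_vanishingIdeal_iff]
    intro u hu
    rw [MvPolynomial.mem_zeroLocus_iff] at hu
    rw [MvPolynomial.aeval_X]
    by_contra hui
    have hu0 : u ≠ 0 := fun h => hui (by rw [h]; rfl)
    obtain ⟨n, y, δ, hδ, hc⟩ := hψ.exists_isChart hX u hu0
    exact hδ (hu _ (Ideal.subset_span ⟨n, y, δ, hc, rfl⟩))
  choose N hN using hrad
  refine ⟨∑ i, N i, fun i => ?_⟩
  have h1 : N i ≤ ∑ i, N i := Finset.single_le_sum (fun _ _ => Nat.zero_le _) (Finset.mem_univ i)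
  exact Ideal.pow_mem_of_pow_mem _ (hN i) h1

section linear

variable {E : Type v} [Field E] [Algebra ℂ E] {Ω : Type v} [Field Ω] [Algebra E Ω]
  [Algebra ℂ Ω] [IsScalarTower ℂ E Ω] {M : Type w} [Field M] [Algebra R M]

omit [IsScalarTower ℂ E Ω] in
/-- The chart formula on an algebraic extension. -/
theorem IsChart.formula_ext [FaithfulSMul R M] [Algebra.IsAlgebraic R M] {N : ℕ} {y : Fin N → R}
    {δ : R} (h : IsChart P y δ) (ψ : R →ₐ[ℂ] MvPolynomial (Fin 2) E)
    (ι : MvPolynomial (Fin 2) E →ₐ[E] Ω) (D : Derivation E Ω Ω) (j : Fin 2)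
    (hD : ∀ p, D (ι p) = ι (MvPolynomial.pderiv j p)) (Λ : M →+* Ω)
    (hΛ : ∀ r, Λ (algebraMap R M r) = ι (ψ r)) (Dr : R → M → M)
    (hadd : ∀ r x y, Dr r (x + y) = Dr r x + Dr r y)
    (hmul : ∀ r x y, Dr r (x * y) = Dr r x * y + x * Dr r y)
    (hext : ∀ r s, Dr r (algebraMap R M s) = algebraMap R M (P r s)) :
    ∃ g : Fin N → MvPolynomial (Fin 2) E,
      (∀ r, ψ δ * MvPolynomial.pderiv j (ψ r) = ∑ k, g k * ψ (P (y k) r)) ∧
      ∀ z : M, ι (ψ δ) * D (Λ z) = ∑ k, ι (g k) * Λ (Dr (y k) z) := by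
  have hchar : CharZero Ω := charZero_of_injective_algebraMap (algebraMap ℂ Ω).injective
  obtain ⟨g, hg⟩ := h.formula ψ (((MvPolynomial.pderiv j : Derivation E _ _) :
      MvPolynomial (Fin 2) E →ₗ[E] MvPolynomial (Fin 2) E).restrictScalars ℂ ∘ₗ ψ.toLinearMap)
    (fun a b => by
      change MvPolynomial.pderiv j (ψ (a * b)) = ψ a * MvPolynomial.pderiv j (ψ b) +
        ψ b * MvPolynomial.pderiv j (ψ a)
      rw [map_mul, Derivation.leibniz, smul_eq_mul, smul_eq_mul])
  have hg' : ∀ r, ψ δ * MvPolynomial.pderiv j (ψ r) = ∑ k, g k * ψ (P (y k) r) := hg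
  refine ⟨g, hg', fun z => ?_⟩
  have hDm : ∀ p q, D (p * q) = p * D q + q * D p := by
    intro p q
    rw [Derivation.leibniz, smul_eq_mul, smul_eq_mul]
  let V : M →+ Ω :=
    { toFun := fun z => ι (ψ δ) * D (Λ z) - ∑ k, ι (g k) * Λ (Dr (y k) z)
      map_zero' := by
        have h0 : ∀ k, Dr (y k) 0 = 0 := fun k => by
          have h1 := hadd (y k) 0 0
          rw [add_zero] at h1
          exact left_eq_add.1 h1
        simp [h0]
      map_add' := fun a b => by
        simp only [map_add, hadd, mul_add, Finset.sum_add_distrib]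
        ring }
  have hV0 : ∀ z, V z = ι (ψ δ) * D (Λ z) - ∑ k, ι (g k) * Λ (Dr (y k) z) := fun _ => rfl
  have hV : ∀ p q, V (p * q) = Λ p * V q + Λ q * V p := by
    intro p q
    rw [hV0, hV0, hV0, map_mul, hDm]
    simp only [hmul, map_add, map_mul, mul_add, Finset.sum_add_distrib, mul_sub, Finset.mul_sum]
    have e1 : ∑ k, ι (g k) * (Λ (Dr (y k) p) * Λ q) = ∑ k, Λ q * (ι (g k) * Λ (Dr (y k) p)) :=
      Finset.sum_congr rfl fun k _ => by ring
    have e2 : ∑ k, ι (g k) * (Λ p * Λ (Dr (y k) q)) = ∑ k, Λ p * (ι (g k) * Λ (Dr (y k) q)) :=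
      Finset.sum_congr rfl fun k _ => by ring
    rw [e1, e2]
    ring
  have hVR : ∀ r : R, V (algebraMap R M r) = 0 := by
    intro r
    rw [hV0, hΛ, hD, ← map_mul, hg', map_sum, sub_eq_zero]
    refine Finset.sum_congr rfl fun k _ => ?_
    rw [hext, hΛ, map_mul]
  have := derivation_eq_zero_of_isAlgebraic (A := R) Λ Λ.injective V hV hVR
    (FaithfulSMul.algebraMap_injective R M) (Algebra.IsAlgebraic.isAlgebraic z)
  rw [hV0, sub_eq_zero] at this
  exact this

omit [Algebra ℂ Ω] [IsScalarTower ℂ E Ω] in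
/-- An element of `Ω` which is integral over the polynomials on every chart is integral. -/
theorem IsCurve.isIntegral_of_isChart (hX : IsContactFano 𝒜 P) [IsAlgClosed E] {d : ℕ}
    {ψ : R →ₐ[ℂ] MvPolynomial (Fin 2) E} (hψ : IsCurve 𝒜 d ψ)
    (ι : MvPolynomial (Fin 2) E →ₐ[E] Ω) (hι : Function.Injective ι) (z : Ω)
    (h1 : ∀ (n : ℕ) (y : Fin n → R) (δ : R), IsChart P y δ →
      IsIntegral (Algebra.adjoin E (Set.range fun i => ι (MvPolynomial.X i))) (ι (ψ δ) * z)) :
    IsIntegral (Algebra.adjoin E (Set.range fun i => ι (MvPolynomial.X i))) z := by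
  let u : Fin 2 → Ω := fun i => ι (MvPolynomial.X i)
  change IsIntegral (Algebra.adjoin E (Set.range u)) z
  set A := Algebra.adjoin E (Set.range u) with hA
  have hιA : ∀ p, ι p ∈ A := li9_range ι
  obtain ⟨N, hN⟩ := hψ.pow_mem_span hX
  have h2 : ∀ g ∈ Ideal.span {g | ∃ (n : ℕ) (y : Fin n → R) (δ : R),
      IsChart P y δ ∧ g = ψ δ}, IsIntegral A (ι g * z) := by
    intro g hg
    refine Submodule.span_induction (p := fun g _ => IsIntegral A (ι g * z)) ?_ ?_ ?_ ?_ hg
    · rintro _ ⟨n, y, δ, hc, rfl⟩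
      exact h1 n y δ hc
    · rw [map_zero, zero_mul]
      exact isIntegral_zero
    · intro g g' _ _ h h'
      rw [map_add, add_mul]
      exact h.add h'
    · intro c g _ h
      rw [smul_eq_mul, map_mul, mul_assoc]
      exact (li9_isIntegral_of_mem A (hιA c)).mul h
  have h3 : ∀ i, IsIntegral A (u i ^ N * z) := by
    intro i
    have := h2 _ (hN i)
    rwa [map_pow] at this
  have hu : AlgebraicIndependent E u := by
    rw [algebraicIndependent_iff_injective_aeval]
    have h1 : ι = MvPolynomial.aeval u :=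
      MvPolynomial.algHom_ext fun i => by rw [MvPolynomial.aeval_X]
    rw [← h1]
    exact hι
  exact isIntegral_of_pow_mul u hu (i := 0) (j := 1) (by decide) N (h3 0) (h3 1)

omit [Algebra ℂ E] [IsScalarTower ℂ E Ω] in
/-- An element of degree one of `Ω` all of whose derivatives are integral over the polynomials is
a linear form. -/
theorem exists_linear_form [IsAlgClosed E]
    (ι : MvPolynomial (Fin 2) E →ₐ[E] Ω) (D : Fin 2 → Derivation E Ω Ω)
    (hD : ∀ j p, D j (ι p) = ι (MvPolynomial.pderiv j p))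
    (huniq : ∀ d : Derivation E Ω Ω, (∀ i, d (ι (MvPolynomial.X i)) = 0) → ∀ f, d f = 0)
    (ρ : Ω) (h4 : ∀ j, IsIntegral
      (Algebra.adjoin E (Set.range fun i => ι (MvPolynomial.X i))) (D j ρ))
    (hEρ : ι (MvPolynomial.X 0) * D 0 ρ + ι (MvPolynomial.X 1) * D 1 ρ = ρ) :
    ∃ q : MvPolynomial (Fin 2) E, q.IsHomogeneous 1 ∧ ι q = ρ := by
  have hchar : CharZero Ω := charZero_of_injective_algebraMap (algebraMap ℂ Ω).injective
  let u : Fin 2 → Ω := fun i => ι (MvPolynomial.X i)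
  -- the Euler derivation
  let EE : Derivation E Ω Ω := u 0 • D 0 + u 1 • D 1
  have hE : ∀ z, EE z = u 0 * D 0 z + u 1 * D 1 z := fun z => rfl
  have hDu : ∀ i j, D j (u i) = if i = j then 1 else 0 := by
    intro i j
    rw [hD, MvPolynomial.pderiv_X, Pi.single_apply]
    by_cases hij : i = j
    · rw [if_pos hij, if_pos hij, map_one]
    · rw [if_neg hij, if_neg hij, map_zero]
  have hEu : ∀ i, EE (u i) = u i := by
    intro i
    rw [hE, hDu, hDu]
    fin_cases i <;> simp
  have hcomm : ∀ j z, EE (D j z) = D j (EE z) - D j z := by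
    intro j z
    have h5 := huniq (⁅EE, D j⁆ + D j) (fun i => by
      change ⁅EE, D j⁆ (u i) + D j (u i) = 0
      rw [Derivation.commutator_apply, hEu, hDu]
      by_cases hij : i = j
      · rw [if_pos hij, Derivation.map_one_eq_zero]
        ring
      · rw [if_neg hij, map_zero]
        ring) z
    have h6 : ⁅EE, D j⁆ z + D j z = 0 := h5
    rw [Derivation.commutator_apply] at h6
    linear_combination h6
  have hEρ' : EE ρ = ρ := hEρ
  have h6 : ∀ j, ∃ c : E, algebraMap E Ω c = D j ρ := by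
    intro j
    have h7 : IsAlgebraic E (D j ρ) :=
      isAlgebraic_of_isIntegral_of_zero u EE hEu (h4 j) (by rw [hcomm, hEρ', sub_self])
    exact minpoly.mem_range_of_degree_eq_one E _
      (IsAlgClosed.degree_eq_one_of_irreducible E (minpoly.irreducible h7.isIntegral))
  choose c hc using h6
  refine ⟨MvPolynomial.C (c 0) * MvPolynomial.X 0 + MvPolynomial.C (c 1) * MvPolynomial.X 1,
    (MvPolynomial.isHomogeneous_C_mul_X _ _).add (MvPolynomial.isHomogeneous_C_mul_X _ _), ?_⟩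
  rw [map_add, map_mul, map_mul, ← hEρ', hE, ← hc, ← hc]
  have h7 : ∀ c : E, ι (MvPolynomial.C c) = algebraMap E Ω c := fun c => ι.commutes c
  rw [h7, h7]
  change algebraMap E Ω (c 0) * u 0 + algebraMap E Ω (c 1) * u 1 = _
  ring

omit [Algebra ℂ E] [Algebra ℂ Ω] [IsScalarTower ℂ E Ω] in
/-- The Euler derivation on homogeneous polynomials. -/
theorem euler_homogeneous (ι : MvPolynomial (Fin 2) E →ₐ[E] Ω) (D : Fin 2 → Derivation E Ω Ω)
    (hD : ∀ j p, D j (ι p) = ι (MvPolynomial.pderiv j p)) {k : ℕ} {p : MvPolynomial (Fin 2) E}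
    (hp : p.IsHomogeneous k) :
    ι (MvPolynomial.X 0) * D 0 (ι p) + ι (MvPolynomial.X 1) * D 1 (ι p) = (k : Ω) * ι p := by
  have h5 := hp.sum_X_mul_pderiv
  rw [Fin.sum_univ_two] at h5
  have h6 := congrArg ι h5
  rw [map_add, map_mul, map_mul, map_nsmul, nsmul_eq_mul] at h6
  rw [hD, hD]
  exact h6

/-- Along a curve of degree `d`, a function of degree `1 / d` with integral brackets is a linear
form. -/
theorem IsCurve.linear_of_integral (hX : IsContactFano 𝒜 P) [IsAlgClosed E]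
    [FaithfulSMul R M] [Algebra.IsAlgebraic R M] {d : ℕ}
    {ψ : R →ₐ[ℂ] MvPolynomial (Fin 2) E} (hψ : IsCurve 𝒜 d ψ)
    (ι : MvPolynomial (Fin 2) E →ₐ[E] Ω)
    (hι : Function.Injective ι) (D : Fin 2 → Derivation E Ω Ω)
    (hD : ∀ j p, D j (ι p) = ι (MvPolynomial.pderiv j p))
    (huniq : ∀ d : Derivation E Ω Ω, (∀ i, d (ι (MvPolynomial.X i)) = 0) → ∀ f, d f = 0)
    (Λ : M →+* Ω) (hΛ : ∀ r, Λ (algebraMap R M r) = ι (ψ r)) (Dr : R → M → M)
    (hadd : ∀ r x y, Dr r (x + y) = Dr r x + Dr r y)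
    (hmul : ∀ r x y, Dr r (x * y) = Dr r x * y + x * Dr r y)
    (hext : ∀ r s, Dr r (algebraMap R M s) = algebraMap R M (P r s))
    (E' : M → M) (hE1 : ∀ x y, E' (x + y) = E' x + E' y)
    (hE2 : ∀ x y, E' (x * y) = E' x * y + x * E' y)
    (hE3 : ∀ r, E' (algebraMap R M r) = algebraMap R M (euler 𝒜 r))
    (x : M) (hx : ∀ r, IsIntegral R (Dr r x)) (hEx : (d : M) * E' x = x) :
    ∃ q : MvPolynomial (Fin 2) E, q.IsHomogeneous 1 ∧ ι q = Λ x := by
  have hchar : CharZero Ω := charZero_of_injective_algebraMap (algebraMap ℂ Ω).injective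
  let u : Fin 2 → Ω := fun i => ι (MvPolynomial.X i)
  have hint : ∀ z : M, IsIntegral R z → IsIntegral (Algebra.adjoin E (Set.range u)) (Λ z) := by
    intro z hz
    let g : R →+* Algebra.adjoin E (Set.range u) :=
      { toFun := fun r => ⟨ι (ψ r), li9_range ι _⟩
        map_one' := by ext; simp
        map_mul' := fun a b => by ext; simp
        map_zero' := by ext; simp
        map_add' := fun a b => by ext; simp }
    exact IsIntegral.map_of_comp_eq g Λ (by
      ext r
      exact (hΛ r).symm) hz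
  let EE : Derivation E Ω Ω := u 0 • D 0 + u 1 • D 1
  have hE : ∀ z, EE z = u 0 * D 0 z + u 1 * D 1 z := fun z => rfl
  have hEm : ∀ p q, EE (p * q) = p * EE q + q * EE p := by
    intro p q
    rw [Derivation.leibniz, smul_eq_mul, smul_eq_mul]
  -- the Euler derivation on `M`
  have hEΛ : ∀ z, EE (Λ z) = (d : Ω) * Λ (E' z) := by
    intro z
    let V : M →+ Ω :=
      { toFun := fun z => EE (Λ z) - (d : Ω) * Λ (E' z)
        map_zero' := by
          have h0 : E' 0 = 0 := by
            have h1 := hE1 0 0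
            rw [add_zero] at h1
            exact left_eq_add.1 h1
          simp [h0]
        map_add' := fun a b => by
          simp only [map_add, hE1, mul_add]
          ring }
    have hV0 : ∀ z, V z = EE (Λ z) - (d : Ω) * Λ (E' z) := fun _ => rfl
    have hV : ∀ p q, V (p * q) = Λ p * V q + Λ q * V p := by
      intro p q
      rw [hV0, hV0, hV0, map_mul, hEm, hE2, map_add, map_mul, map_mul]
      ring
    have hVR : ∀ r : R, V (algebraMap R M r) = 0 := by
      intro r
      have key : ((EE : Ω →ₗ[E] Ω).restrictScalars ℂ ∘ₗ (ι.restrictScalars ℂ).toLinearMap ∘ₗ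
          ψ.toLinearMap) r = ((LinearMap.mulLeft ℂ (d : Ω)) ∘ₗ
            (ι.restrictScalars ℂ).toLinearMap ∘ₗ ψ.toLinearMap ∘ₗ euler 𝒜) r := by
        refine forall_of_homogeneous' (𝒜 := 𝒜) _ _ (fun k s hs => ?_) r
        change ι (MvPolynomial.X 0) * D 0 (ι (ψ s)) + ι (MvPolynomial.X 1) * D 1 (ι (ψ s)) =
          (d : Ω) * ι (ψ (euler 𝒜 s))
        rw [euler_homogeneous ι D hD (hψ.degree k s hs), euler_apply k s hs, map_smul]
        rw [show ι ((k : ℂ) • ψ s) = (k : Ω) * ι (ψ s) by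
          rw [Nat.cast_smul_eq_nsmul, map_nsmul, nsmul_eq_mul]]
        push_cast
        ring
      rw [hV0, hΛ, hE3, hΛ, sub_eq_zero]
      exact key
    have := derivation_eq_zero_of_isAlgebraic (A := R) Λ Λ.injective V hV hVR
      (FaithfulSMul.algebraMap_injective R M) (Algebra.IsAlgebraic.isAlgebraic z)
    rw [hV0, sub_eq_zero] at this
    exact this
  refine exists_linear_form ι D hD huniq (Λ x) (fun j => ?_) ?_
  · refine hψ.isIntegral_of_isChart hX ι hι _ fun n y δ hc => ?_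
    obtain ⟨g, -, hg⟩ := hc.formula_ext ψ ι (D j) j (hD j) Λ hΛ Dr hadd hmul hext
    rw [hg]
    exact IsIntegral.sum _ fun k _ =>
      (li9_isIntegral_of_mem _ (li9_range ι _)).mul (hint _ (hx _))
  · have h1 := hEΛ x
    rw [← map_natCast Λ, ← map_mul, hEx] at h1
    exact h1

omit [Algebra ℂ Ω] [IsScalarTower ℂ E Ω] in
/-- A homomorphism from an extension of `R`, which maps generators of the extension to
polynomials, maps all integral elements to polynomials. -/
theorem exists_eq_of_isIntegral [IsDomain R] [Algebra (FractionRing R) M]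
    [IsScalarTower R (FractionRing R) M] (ψ : R →ₐ[ℂ] MvPolynomial (Fin 2) E)
    (ι : MvPolynomial (Fin 2) E →ₐ[E] Ω) (hι : Function.Injective ι) (Λ : M →+* Ω)
    (hΛ : ∀ r, Λ (algebraMap R M r) = ι (ψ r)) (X : Set M)
    (hX : ∀ x ∈ X, ∃ q, ι q = Λ x) (hgen : Algebra.adjoin (FractionRing R) X = ⊤) (z : M)
    (hz : IsIntegral R z) : ∃ q, ι q = Λ z := by
  classical
  have hinj : Function.Injective (algebraMap R M) := by
    rw [IsScalarTower.algebraMap_eq R (FractionRing R) M]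
    exact (algebraMap (FractionRing R) M).injective.comp
      (IsFractionRing.injective R (FractionRing R))
  have h1 : ∀ z : M, ∃ r : R, r ≠ 0 ∧ ∃ q, ι q = Λ (algebraMap R M r * z) := by
    intro z
    have hz' : z ∈ Algebra.adjoin (FractionRing R) X := by rw [hgen]; trivial
    refine Algebra.adjoin_induction
      (p := fun z _ => ∃ r : R, r ≠ 0 ∧ ∃ q, ι q = Λ (algebraMap R M r * z)) ?_ ?_ ?_ ?_ hz'
    · intro x hx
      obtain ⟨q, hq⟩ := hX x hx
      exact ⟨1, one_ne_zero, q, by rw [hq, map_one, one_mul]⟩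
    · intro c
      obtain ⟨⟨a, b⟩, hab⟩ := IsLocalization.surj (nonZeroDivisors R) c
      simp only at hab
      refine ⟨b, nonZeroDivisors.ne_zero b.2, ψ a, ?_⟩
      rw [← hΛ, IsScalarTower.algebraMap_apply R (FractionRing R) M a, ← hab, map_mul,
        ← IsScalarTower.algebraMap_apply R (FractionRing R) M, mul_comm]
    · rintro x y _ _ ⟨r, hr, q, hq⟩ ⟨r', hr', q', hq'⟩
      refine ⟨r * r', mul_ne_zero hr hr', ψ r' * q + ψ r * q', ?_⟩
      rw [map_add ι, map_mul ι, map_mul ι, hq, hq', ← hΛ, ← hΛ, ← map_mul, ← map_mul, ← map_add,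
        map_mul (algebraMap R M)]
      congr 1
      ring
    · rintro x y _ _ ⟨r, hr, q, hq⟩ ⟨r', hr', q', hq'⟩
      refine ⟨r * r', mul_ne_zero hr hr', q * q', ?_⟩
      rw [map_mul ι, hq, hq', ← map_mul, map_mul (algebraMap R M)]
      congr 1
      ring
  obtain ⟨r, hr, q, hq⟩ := h1 z
  let _ : Algebra (MvPolynomial (Fin 2) E) Ω := ι.toRingHom.toAlgebra
  have hal : ∀ p, algebraMap (MvPolynomial (Fin 2) E) Ω p = ι p := fun _ => rfl
  let K' := FractionRing (MvPolynomial (Fin 2) E)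
  have hinj' : Function.Injective (algebraMap (MvPolynomial (Fin 2) E) Ω) := hι
  let f : K' →ₐ[MvPolynomial (Fin 2) E] Ω := IsFractionRing.liftAlgHom (K := K')
    (g := Algebra.ofId (MvPolynomial (Fin 2) E) Ω) hinj'
  have hf : Function.Injective f := (f : K' →+* Ω).injective
  have hψr : ψ r ≠ 0 := by
    intro h0
    have h2 : Λ (algebraMap R M r) = 0 := by rw [hΛ, h0, map_zero]
    rw [map_eq_zero] at h2
    exact hr (hinj (by rw [h2, map_zero]))
  have hιr : ι (ψ r) ≠ 0 := fun h => hψr (hι (by rw [h, map_zero]))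
  let k : K' := algebraMap _ K' q / algebraMap _ K' (ψ r)
  have hfk : f k = Λ z := by
    have h3 : f k = ι q / ι (ψ r) := by
      rw [map_div₀, f.commutes, f.commutes, hal, hal]
    rw [h3, hq, map_mul, hΛ, mul_div_cancel_left₀ _ hιr]
  have hint : IsIntegral (MvPolynomial (Fin 2) E) (Λ z) :=
    IsIntegral.map_of_comp_eq (ψ : R →+* MvPolynomial (Fin 2) E) Λ (by
      ext r
      exact (hΛ r).symm) hz
  rw [← hfk, isIntegral_algHom_iff f hf, IsIntegrallyClosed.isIntegral_iff] at hint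
  obtain ⟨y, hy⟩ := hint
  refine ⟨y, ?_⟩
  rw [← hfk, ← hy, f.commutes, hal]

end linear

/-- A linear form in two variables. -/
theorem exists_eq_of_isHomogeneous_one {E : Type v} [Field E] {q : MvPolynomial (Fin 2) E}
    (hq : q.IsHomogeneous 1) :
    ∃ c : Fin 2 → E, q = MvPolynomial.C (c 0) * MvPolynomial.X 0 +
      MvPolynomial.C (c 1) * MvPolynomial.X 1 := by
  have h1 : ∀ j, ∃ c, MvPolynomial.pderiv j q = MvPolynomial.C c := by
    intro j
    have h2 : (MvPolynomial.pderiv j q).IsHomogeneous 0 := hq.pderiv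
    exact ⟨_, (MvPolynomial.totalDegree_eq_zero_iff_eq_C.1
      ((MvPolynomial.totalDegree_zero_iff_isHomogeneous _).2 h2))⟩
  choose c hc using h1
  refine ⟨c, ?_⟩
  have h3 := hq.sum_X_mul_pderiv
  rw [Fin.sum_univ_two, hc, hc, one_smul] at h3
  rw [← h3]
  ring

section jet

variable {E : Type v} [Field E] [Algebra ℂ E] [IsAlgClosed E] {M : Type w} [Field M]
  [Algebra R M] [IsDomain R] [Algebra (FractionRing R) M] [IsScalarTower R (FractionRing R) M]
  [Algebra.IsAlgebraic (FractionRing R) M]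

/-- **Lines and conics lift.** Let `M` be an algebraic extension of the field of fractions of
`R`, generated by a set `X` of integral elements of degree `1 / d` whose brackets with the
elements of `R` are integral. An injective curve of degree `d` extends to the integral closure of
`R` in `M`, injectively, and the elements of `X` are linear forms along the curve. -/
theorem IsCurve.exists_lift (hX : IsContactFano 𝒜 P) {d : ℕ}
    {ψ : R →ₐ[ℂ] MvPolynomial (Fin 2) E} (hψ : IsCurve 𝒜 d ψ) (hinj : Function.Injective ψ)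
    (Dr : R → M → M)
    (hadd : ∀ r x y, Dr r (x + y) = Dr r x + Dr r y)
    (hmul : ∀ r x y, Dr r (x * y) = Dr r x * y + x * Dr r y)
    (hext : ∀ r s, Dr r (algebraMap R M s) = algebraMap R M (P r s))
    (E' : M → M) (hE1 : ∀ x y, E' (x + y) = E' x + E' y)
    (hE2 : ∀ x y, E' (x * y) = E' x * y + x * E' y)
    (hE3 : ∀ r, E' (algebraMap R M r) = algebraMap R M (euler 𝒜 r)) (X : Set M)
    (hXD : ∀ x ∈ X, ∀ r, IsIntegral R (Dr r x)) (hXE : ∀ x ∈ X, (d : M) * E' x = x)
    (hgen : Algebra.adjoin (FractionRing R) X = ⊤) :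
    ∃ lam : integralClosure R M →+* MvPolynomial (Fin 2) E, Function.Injective lam ∧
      (∀ r, lam (algebraMap R _ r) = ψ r) ∧
      ∀ x : integralClosure R M, (x : M) ∈ X → (lam x).IsHomogeneous 1 := by
  classical
  have hchar : CharZero E := charZero_of_injective_algebraMap (algebraMap ℂ E).injective
  have hRM : Function.Injective (algebraMap R M) := by
    rw [IsScalarTower.algebraMap_eq R (FractionRing R) M]
    exact (algebraMap (FractionRing R) M).injective.comp
      (IsFractionRing.injective R (FractionRing R))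
  have hfs : FaithfulSMul R M := (faithfulSMul_iff_algebraMap_injective R M).2 hRM
  have halg : Algebra.IsAlgebraic R M :=
    ⟨fun x => (IsFractionRing.isAlgebraic_iff R (FractionRing R) M).2
      (Algebra.IsAlgebraic.isAlgebraic x)⟩
  obtain ⟨Ω, i1, i2, i3, i4, i5, ι, D, hι, hD, huniq⟩ := li9_exists_Omega E
  let _ : Algebra R Ω := ((ι : MvPolynomial (Fin 2) E →+* Ω).comp
    (ψ : R →+* MvPolynomial (Fin 2) E)).toAlgebra
  have hRΩ : Function.Injective (algebraMap R Ω) := hι.comp hinj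
  have hfs2 : FaithfulSMul R Ω := (faithfulSMul_iff_algebraMap_injective R Ω).2 hRΩ
  let Λ : M →ₐ[R] Ω := IsAlgClosed.lift
  have hΛ : ∀ r, (Λ : M →+* Ω) (algebraMap R M r) = ι (ψ r) := fun r => Λ.commutes r
  have hlin : ∀ x ∈ X, ∃ q : MvPolynomial (Fin 2) E, q.IsHomogeneous 1 ∧ ι q = Λ x :=
    fun x hx => hψ.linear_of_integral hX ι hι D hD huniq (Λ : M →+* Ω) hΛ Dr hadd hmul hext
      E' hE1 hE2 hE3 x (hXD x hx) (hXE x hx)
  have hall : ∀ z : integralClosure R M, ∃ q, ι q = Λ (z : M) := fun z =>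
    exists_eq_of_isIntegral ψ ι hι (Λ : M →+* Ω) hΛ X
      (fun x hx => (hlin x hx).imp fun q hq => hq.2) hgen z z.2
  choose l hl using hall
  let lam : integralClosure R M →+* MvPolynomial (Fin 2) E :=
    { toFun := l
      map_one' := hι (by rw [hl, map_one, OneMemClass.coe_one, map_one])
      map_mul' := fun a b => hι (by rw [hl, map_mul, hl, hl, MulMemClass.coe_mul, map_mul])
      map_zero' := hι (by rw [hl, map_zero, ZeroMemClass.coe_zero, map_zero])
      map_add' := fun a b => hι (by rw [hl, map_add, hl, hl, AddMemClass.coe_add, map_add]) }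
  have hlam : ∀ z, ι (lam z) = Λ (z : M) := hl
  refine ⟨lam, ?_, fun r => ?_, fun x hx => ?_⟩
  · intro a b hab
    have h1 : Λ (a : M) = Λ (b : M) := by rw [← hlam, ← hlam, hab]
    exact Subtype.ext ((Λ : M →+* Ω).injective h1)
  · apply hι
    rw [hlam]
    exact hΛ r
  · obtain ⟨q, hq1, hq2⟩ := hlin _ hx
    have h1 : lam x = q := hι (by rw [hlam, hq2])
    rw [h1]
    exact hq1

/-- A curve through a point, in the form used for inertia groups. -/
theorem IsCurve.exists_jetLine (hX : IsContactFano 𝒜 P) {d : ℕ}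
    {ψ : R →ₐ[ℂ] MvPolynomial (Fin 2) E} (hψ : IsCurve 𝒜 d ψ) (hinj : Function.Injective ψ)
    (Dr : R → M → M)
    (hadd : ∀ r x y, Dr r (x + y) = Dr r x + Dr r y)
    (hmul : ∀ r x y, Dr r (x * y) = Dr r x * y + x * Dr r y)
    (hext : ∀ r s, Dr r (algebraMap R M s) = algebraMap R M (P r s))
    (E' : M → M) (hE1 : ∀ x y, E' (x + y) = E' x + E' y)
    (hE2 : ∀ x y, E' (x * y) = E' x * y + x * E' y)
    (hE3 : ∀ r, E' (algebraMap R M r) = algebraMap R M (euler 𝒜 r)) (X : Set M)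
    (hXD : ∀ x ∈ X, ∀ r, IsIntegral R (Dr r x)) (hXE : ∀ x ∈ X, (d : M) * E' x = x)
    (hgen : Algebra.adjoin (FractionRing R) X = ⊤)
    (x : Fin 2 → E) (hx : x ≠ 0) (p : Ideal R) (hp : ∀ r ∈ p, MvPolynomial.aeval x (ψ r) = 0) :
    Nonempty (Inertia.JetLine.{v} (S := integralClosure R M) (fun r s : R => P r s)
        {b | (b : M) ∈ X} p) := by
  classical
  have hic : IsIntegrallyClosed R := hX.normal
  have hchR : CharZero R := charZero_of_injective_algebraMap (algebraMap ℂ R).injective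
  have hRM : Function.Injective (algebraMap R M) := by
    rw [IsScalarTower.algebraMap_eq R (FractionRing R) M]
    exact (algebraMap (FractionRing R) M).injective.comp
      (IsFractionRing.injective R (FractionRing R))
  have hfs : FaithfulSMul R (integralClosure R M) :=
    (faithfulSMul_iff_algebraMap_injective R _).2 (fun a b hab => hRM (congrArg Subtype.val hab))
  obtain ⟨lam, h1, h2, h3⟩ := hψ.exists_lift hX hinj Dr hadd hmul hext E' hE1 hE2 hE3 X hXD hXE
    hgen
  obtain ⟨N, y, δ, hδ, hc⟩ := hψ.exists_isChart hX x hx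
  have hg : ∀ j : Fin 2, ∃ g : Fin N → MvPolynomial (Fin 2) E,
      ∀ r, ψ δ * MvPolynomial.pderiv j (ψ r) = ∑ k, g k * ψ (P (y k) r) := fun j =>
    hc.formula ψ (((MvPolynomial.pderiv j : Derivation E _ _) :
      MvPolynomial (Fin 2) E →ₗ[E] MvPolynomial (Fin 2) E).restrictScalars ℂ ∘ₗ ψ.toLinearMap)
    (fun a b => by
      change MvPolynomial.pderiv j (ψ (a * b)) = ψ a * MvPolynomial.pderiv j (ψ b) +
        ψ b * MvPolynomial.pderiv j (ψ a)
      rw [map_mul, Derivation.leibniz, smul_eq_mul, smul_eq_mul])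
  choose g hg using hg
  let ev : MvPolynomial (Fin 2) E →+* E :=
    ((MvPolynomial.aeval x : MvPolynomial (Fin 2) E →ₐ[E] E) : MvPolynomial (Fin 2) E →+* E)
  have hprime : (RingHom.ker ev).IsPrime := RingHom.ker_isPrime ev
  refine ⟨{
    A := MvPolynomial (Fin 2) E
    lam := lam
    root := fun b _ => by
      obtain ⟨f, hf, hf'⟩ := Inertia.exists_sep (R := R) (c := b)
        (Algebra.IsIntegral.isIntegral b)
      exact ⟨f, hf, fun h => hf' (h1 (by rw [h, map_zero]))⟩
    κ := Fin 2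
    d := fun j => ((MvPolynomial.pderiv j : Derivation E _ _) :
      MvPolynomial (Fin 2) E →ₗ[E] MvPolynomial (Fin 2) E).toAddMonoidHom
    leib := fun j a b => by
      change MvPolynomial.pderiv j (a * b) = a * MvPolynomial.pderiv j b +
        b * MvPolynomial.pderiv j a
      rw [Derivation.leibniz, smul_eq_mul, smul_eq_mul]
    q := RingHom.ker ev
    mem_q := fun r hr => by
      rw [h2]
      exact hp r hr
    δ := ψ δ
    hδ := hδ
    N := N
    y := y
    g := g
    chart := fun j r => by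
      have := hg j r
      simp only [h2]
      exact this
    jet := fun b hb b' hb' hjet => by
      obtain ⟨c, hc⟩ := exists_eq_of_isHomogeneous_one ((h3 b hb).sub (h3 b' hb'))
      have h4 : ∀ j, c j = 0 := by
        intro j
        have h5 : ev (MvPolynomial.pderiv j (lam b - lam b')) = 0 := hjet j
        rw [hc, map_add, Derivation.leibniz, Derivation.leibniz, MvPolynomial.pderiv_C,
          MvPolynomial.pderiv_C, MvPolynomial.pderiv_X, MvPolynomial.pderiv_X] at h5
        fin_cases j <;> simpa [ev] using h5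
      rw [h4, h4] at hc
      apply h1
      rw [← sub_eq_zero, hc]
      simp }⟩

end jet

end Vale.Agent.P292
end

section

/-! # Block U2: along a curve on which its discriminant does not vanish, a good polynomial splits
into linear forms. -/

namespace Vale.Agent.P292

open Module Polynomial

universe u v w

/-- Bézout identity for the discriminant. -/
theorem exists_bezout_discr {R : Type*} [CommRing R] {Q : R[X]} (hQ : Q.Monic)
    (hd : 0 < Q.natDegree) : ∃ a b : R[X], Q * a + derivative Q * b = C Q.discr := by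
  obtain ⟨a, b, -, -, h⟩ := exists_mul_add_mul_eq_C_resultant (m := Q.natDegree)
    (n := Q.natDegree - 1) Q (derivative Q) le_rfl (natDegree_derivative_le _) (Or.inl hd.ne')
  rw [resultant_deriv (natDegree_pos_iff_degree_pos.1 hd), hQ.leadingCoeff, mul_one] at h
  have h1 : ((-1 : R) ^ (Q.natDegree * (Q.natDegree - 1) / 2)) *
      (-1) ^ (Q.natDegree * (Q.natDegree - 1) / 2) = 1 := by
    rw [← mul_pow]
    simp
  refine ⟨a * C ((-1) ^ (Q.natDegree * (Q.natDegree - 1) / 2)),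
    b * C ((-1) ^ (Q.natDegree * (Q.natDegree - 1) / 2)), ?_⟩
  rw [← mul_assoc, ← mul_assoc, ← add_mul, h, ← C_mul]
  congr 1
  rw [mul_right_comm, h1, one_mul]

/-- If the discriminant does not vanish then the roots are simple. -/
theorem eval₂_derivative_ne_zero {R F : Type*} [CommRing R] [Field F] {Q : R[X]} (hQ : Q.Monic)
    (hd : 0 < Q.natDegree) (x : R →+* F) (hx : x Q.discr ≠ 0) {ρ : F} (hρ : Q.eval₂ x ρ = 0) :
    (derivative Q).eval₂ x ρ ≠ 0 := by
  obtain ⟨a, b, h⟩ := exists_bezout_discr hQ hd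
  intro h0
  apply hx
  have h1 := congrArg (fun p => eval₂ x ρ p) h
  simp only [eval₂_add, eval₂_mul, hρ, h0, zero_mul, add_zero, eval₂_C] at h1
  exact h1.symm

/-- A homomorphism into an algebraically closed field extends to an integral extension. -/
theorem exists_ext_of_isIntegral {A : Type u} {S : Type v} {Ω : Type w} [CommRing A]
    [CommRing S] [Algebra A S] [Algebra.IsIntegral A S]
    (hinj : Function.Injective (algebraMap A S)) [Field Ω] [IsAlgClosed Ω] (x : A →+* Ω) :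
    ∃ y : S →+* Ω, ∀ a, y (algebraMap A S a) = x a := by
  classical
  have hp : (RingHom.ker x).IsPrime := RingHom.ker_isPrime x
  obtain ⟨Q, -, hQ, hQp⟩ := Ideal.exists_ideal_over_prime_of_isIntegral (RingHom.ker x)
    (⊥ : Ideal S) (by
      rw [Ideal.comap_bot_of_injective _ hinj]
      exact bot_le)
  have : Q.LiesOver (RingHom.ker x) := ⟨hQp.symm⟩
  let _ : Algebra (A ⧸ RingHom.ker x) Ω := (RingHom.kerLift x).toAlgebra
  have h1 : Function.Injective (algebraMap (A ⧸ RingHom.ker x) Ω) := RingHom.kerLift_injective x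
  have : FaithfulSMul (A ⧸ RingHom.ker x) Ω := (faithfulSMul_iff_algebraMap_injective _ _).2 h1
  have h2 : Algebra.IsIntegral (A ⧸ RingHom.ker x) (S ⧸ Q) := inferInstance
  have h3 : Function.Injective (algebraMap (A ⧸ RingHom.ker x) (S ⧸ Q)) := by
    rw [injective_iff_map_eq_zero]
    intro a ha
    obtain ⟨a, rfl⟩ := Ideal.Quotient.mk_surjective a
    change Ideal.Quotient.mk Q (algebraMap A S a) = 0 at ha
    rw [Ideal.Quotient.eq_zero_iff_mem] at ha ⊢
    rw [← hQp]
    exact ha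
  have : FaithfulSMul (A ⧸ RingHom.ker x) (S ⧸ Q) := (faithfulSMul_iff_algebraMap_injective _ _).2 h3
  have : IsDomain (A ⧸ RingHom.ker x) := Ideal.Quotient.isDomain _
  have : IsDomain (S ⧸ Q) := Ideal.Quotient.isDomain _
  have : Algebra.IsAlgebraic (A ⧸ RingHom.ker x) (S ⧸ Q) := inferInstance
  have : Module.IsTorsionFree (A ⧸ RingHom.ker x) (S ⧸ Q) :=
    Module.isTorsionFree_iff_algebraMap_injective.2 h3
  have : Module.IsTorsionFree (A ⧸ RingHom.ker x) Ω :=
    Module.isTorsionFree_iff_algebraMap_injective.2 h1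
  let f : (S ⧸ Q) →ₐ[A ⧸ RingHom.ker x] Ω := IsAlgClosed.lift
  refine ⟨(f : (S ⧸ Q) →+* Ω).comp (Ideal.Quotient.mk Q), fun a => ?_⟩
  change f (algebraMap (A ⧸ RingHom.ker x) (S ⧸ Q) (Ideal.Quotient.mk _ a)) = _
  rw [f.commutes]
  rfl

/-- Specialisation of a root of an irreducible monic polynomial. -/
theorem exists_specialisation {R : Type u} [CommRing R] [IsDomain R] [IsIntegrallyClosed R]
    {Q : R[X]} (hm : Q.Monic) (hirr : Irreducible Q) {M : Type v} [Field M] [Algebra R M]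
    (hinj : Function.Injective (algebraMap R M)) {β : M} (hβ : aeval β Q = 0) {Ω : Type w}
    [Field Ω] [IsAlgClosed Ω] (x : R →+* Ω) {ρ : Ω} (hρ : Q.eval₂ x ρ = 0) :
    ∃ Λ : integralClosure R M →+* Ω, (∀ r, Λ (algebraMap R _ r) = x r) ∧
      ∀ b : integralClosure R M, (b : M) = β → Λ b = ρ := by
  classical
  have hβi : IsIntegral R β := ⟨Q, hm, by rw [← aeval_def]; exact hβ⟩
  have hfs : FaithfulSMul R M := (faithfulSMul_iff_algebraMap_injective R M).2 hinj
  have htf : Module.IsTorsionFree R M := Module.isTorsionFree_iff_algebraMap_injective.2 hinj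
  have hmin : Q = minpoly R β := by
    have h1 : minpoly R β ∣ Q := minpoly.isIntegrallyClosed_dvd hβi hβ
    have h2 : Associated (minpoly R β) Q :=
      ((hirr.dvd_iff).1 h1).resolve_left (minpoly.not_isUnit R β) |>.symm
    exact (eq_of_monic_of_associated (minpoly.monic hβi) hm h2).symm
  let βS : integralClosure R M := ⟨β, hβi⟩
  have hβS : Q.eval₂ (algebraMap R (integralClosure R M)) βS = 0 := by
    apply Subtype.ext
    have h1 : ((Q.eval₂ (algebraMap R (integralClosure R M)) βS : integralClosure R M) : M) =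
        aeval β Q := by
      change (integralClosure R M).val.toRingHom _ = _
      rw [hom_eval₂]
      rfl
    rw [h1, hβ]
    rfl
  let _ : Algebra (AdjoinRoot Q) (integralClosure R M) :=
    (AdjoinRoot.lift (algebraMap R (integralClosure R M)) βS hβS).toAlgebra
  have hal : ∀ p : R[X], algebraMap (AdjoinRoot Q) (integralClosure R M) (AdjoinRoot.mk Q p) =
      aeval βS p := fun p => AdjoinRoot.lift_mk hβS p
  have htower : IsScalarTower R (AdjoinRoot Q) (integralClosure R M) :=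
    IsScalarTower.of_algebraMap_eq fun r => by
      change _ = AdjoinRoot.lift (algebraMap R (integralClosure R M)) βS hβS (AdjoinRoot.of Q r)
      rw [AdjoinRoot.lift_of]
  have hinjA : Function.Injective (algebraMap (AdjoinRoot Q) (integralClosure R M)) := by
    rw [injective_iff_map_eq_zero]
    intro a ha
    obtain ⟨p, rfl⟩ := AdjoinRoot.mk_surjective a
    rw [hal] at ha
    rw [AdjoinRoot.mk_eq_zero, hmin]
    apply minpoly.isIntegrallyClosed_dvd hβi
    have h1 : (((aeval βS p : integralClosure R M)) : M) = aeval β p := by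
      change (integralClosure R M).val (aeval βS p) = _
      rw [← aeval_algHom_apply]
      rfl
    rw [← h1, ha]
    rfl
  have hint : Algebra.IsIntegral (AdjoinRoot Q) (integralClosure R M) :=
    ⟨fun s => (Algebra.IsIntegral.isIntegral (R := R) s).tower_top⟩
  obtain ⟨Λ, hΛ⟩ := exists_ext_of_isIntegral hinjA (AdjoinRoot.lift x ρ hρ)
  refine ⟨Λ, fun r => ?_, fun b hb => ?_⟩
  · rw [IsScalarTower.algebraMap_apply R (AdjoinRoot Q) (integralClosure R M), hΛ]
    exact AdjoinRoot.lift_of hρ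
  · have h1 : b = algebraMap (AdjoinRoot Q) (integralClosure R M) (AdjoinRoot.root Q) := by
      have h2 := hal X
      rw [AdjoinRoot.mk_X, aeval_X] at h2
      rw [h2]
      exact Subtype.ext hb
    rw [h1, hΛ, AdjoinRoot.lift_root]

variable {R : Type u} [CommRing R] [Algebra ℂ R] {𝒜 : ℕ → Submodule ℂ R} [GradedAlgebra 𝒜]
  {P : R →ₗ[ℂ] R →ₗ[ℂ] R}

/-- Euler's identity for a root. -/
theorem mul_eval₂_derivative {A B : Type*} [CommRing A] [CommRing B] (x : A →+* B) (ρ : B)
    (Q : A[X]) : ρ * (derivative Q).eval₂ x ρ = Q.sum fun k a => (k : B) * (x a * ρ ^ k) := by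
  rw [derivative_apply, Polynomial.sum_def, Polynomial.sum_def, eval₂_finsetSum, Finset.mul_sum]
  refine Finset.sum_congr rfl fun k _ => ?_
  rw [eval₂_mul, eval₂_C, eval₂_pow, eval₂_X, map_mul, map_natCast]
  rcases k with _ | k
  · simp
  · rw [Nat.add_sub_cancel]
    ring

theorem IsGood.root_linear (hX : IsContactFano 𝒜 P) [IsDomain R] {d : ℕ} {Q : R[X]}
    (hQ : IsGood 𝒜 P d Q) {E : Type v} [Field E] [IsAlgClosed E] [Algebra ℂ E] {Ω : Type v}
    [Field Ω] [IsAlgClosed Ω] [Algebra E Ω] [Algebra ℂ Ω] [IsScalarTower ℂ E Ω]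
    {φ : R →ₐ[ℂ] MvPolynomial (Fin 2) E} (hφ : IsCurve 𝒜 d φ) (hdisc : φ Q.discr ≠ 0)
    (ι : MvPolynomial (Fin 2) E →ₐ[E] Ω) (hι : Function.Injective ι)
    (D : Fin 2 → Derivation E Ω Ω) (hD : ∀ j p, D j (ι p) = ι (MvPolynomial.pderiv j p))
    (huniq : ∀ d : Derivation E Ω Ω, (∀ i, d (ι (MvPolynomial.X i)) = 0) → ∀ f, d f = 0)
    (ρ : Ω) (hρ : Q.eval₂ ((ι : MvPolynomial (Fin 2) E →+* Ω).comp
      (φ : R →+* MvPolynomial (Fin 2) E)) ρ = 0) :
    ∃ q : MvPolynomial (Fin 2) E, q.IsHomogeneous 1 ∧ ι q = ρ := by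
  classical
  have hic : IsIntegrallyClosed R := hX.normal
  have hpos : 0 < Q.natDegree := by
    rw [Nat.pos_iff_ne_zero]
    intro h0
    exact hQ.irr.not_isUnit (by rw [hQ.monic.natDegree_eq_zero.1 h0]; exact isUnit_one)
  set x : R →+* Ω := (ι : MvPolynomial (Fin 2) E →+* Ω).comp
    (φ : R →+* MvPolynomial (Fin 2) E) with hx
  have hxr : ∀ r, x r = ι (φ r) := fun _ => rfl
  obtain ⟨M, iM, iRM, hinjM, β, hβ, hbr⟩ := hQ.bracket
  -- nonvanishing of derivatives
  have hdisc0 : Q.discr ≠ 0 := fun h => hdisc (by rw [h, map_zero])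
  have hxdisc : x Q.discr ≠ 0 := fun h => hdisc (hι (by rw [← hxr, h, map_zero]))
  have hQ'β : aeval β (derivative Q) ≠ 0 := by
    have h1 : algebraMap R M Q.discr ≠ 0 := fun h => hdisc0 (hinjM (by rw [h, map_zero]))
    have := eval₂_derivative_ne_zero hQ.monic hpos (algebraMap R M) h1 (ρ := β)
      (by rw [← aeval_def]; exact hβ)
    rwa [aeval_def]
  have hQ'ρ : (derivative Q).eval₂ x ρ ≠ 0 :=
    eval₂_derivative_ne_zero hQ.monic hpos x hxdisc hρ
  obtain ⟨Λ, hΛ, hΛβ⟩ := exists_specialisation hQ.monic hQ.irr hinjM hβ x hρ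
  have hβi : IsIntegral R β := ⟨Q, hQ.monic, by rw [← aeval_def]; exact hβ⟩
  let βS : integralClosure R M := ⟨β, hβi⟩
  have hΛβ' : Λ βS = ρ := hΛβ βS rfl
  have hcomp : Λ.comp (algebraMap R (integralClosure R M)) = x := by
    ext r
    exact hΛ r
  have hΛp : ∀ p : R[X], Λ (aeval βS p) = p.eval₂ x ρ := by
    intro p
    rw [aeval_def, hom_eval₂, hΛβ', hcomp]
  have hβp : ∀ p : R[X], (((aeval βS p : integralClosure R M)) : M) = aeval β p := by
    intro p
    change (integralClosure R M).val (aeval βS p) = _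
    rw [← aeval_algHom_apply]
    rfl
  let e : R → integralClosure R M := fun r => ⟨_, hbr r⟩
  have he : ∀ r, (brP P r Q).eval₂ x ρ = (derivative Q).eval₂ x ρ * Λ (e r) := by
    intro r
    have h1 : aeval βS (brP P r Q) = aeval βS (derivative Q) * e r := by
      apply Subtype.ext
      rw [MulMemClass.coe_mul, hβp, hβp]
      change _ = _ * (aeval β (brP P r Q) / aeval β (derivative Q))
      rw [mul_div_cancel₀ _ hQ'β]
    rw [← hΛp, h1, map_mul, hΛp]
  have hbrP : ∀ r, (brP P r Q).eval₂ x ρ = Q.sum fun k a => x (P r a) * ρ ^ k := by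
    intro r
    rw [brP, Polynomial.sum_def, Polynomial.sum_def, eval₂_finsetSum]
    refine Finset.sum_congr rfl fun k _ => ?_
    rw [eval₂_monomial]
  -- integrality of the values
  have hint : ∀ z : integralClosure R M, IsIntegral
      (Algebra.adjoin E (Set.range fun i => ι (MvPolynomial.X i))) (Λ z) := by
    intro z
    let g : R →+* Algebra.adjoin E (Set.range fun i => ι (MvPolynomial.X i)) :=
      { toFun := fun r => ⟨ι (φ r), li9_range ι _⟩
        map_one' := by ext; simp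
        map_mul' := fun a b => by ext; simp
        map_zero' := by ext; simp
        map_add' := fun a b => by ext; simp }
    exact IsIntegral.map_of_comp_eq g Λ (by
      ext r
      exact (hΛ r).symm) (Algebra.IsIntegral.isIntegral (R := R) z)
  refine exists_linear_form ι D hD huniq ρ (fun j => ?_) ?_
  · refine hφ.isIntegral_of_isChart hX ι hι _ fun n y δ hc => ?_
    obtain ⟨g, hg⟩ := hc.formula φ (((MvPolynomial.pderiv j : Derivation E _ _) :
        MvPolynomial (Fin 2) E →ₗ[E] MvPolynomial (Fin 2) E).restrictScalars ℂ ∘ₗ φ.toLinearMap)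
      (fun a b => by
        change MvPolynomial.pderiv j (φ (a * b)) = φ a * MvPolynomial.pderiv j (φ b) +
          φ b * MvPolynomial.pderiv j (φ a)
        rw [map_mul, Derivation.leibniz, smul_eq_mul, smul_eq_mul])
    have hg' : ∀ r, φ δ * MvPolynomial.pderiv j (φ r) = ∑ k, g k * φ (P (y k) r) := hg
    have hg2 : ∀ r, ι (φ δ) * D j (x r) = ∑ k, ι (g k) * x (P (y k) r) := by
      intro r
      rw [hxr, hD, ← map_mul, hg', map_sum]
      exact Finset.sum_congr rfl fun k _ => by rw [map_mul, hxr]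
    have h1 := Inertia.d_eval₂ x ρ ((D j : Ω →ₗ[E] Ω).toAddMonoidHom) (fun a b => by
      change D j (a * b) = a * D j b + b * D j a
      rw [Derivation.leibniz, smul_eq_mul, smul_eq_mul]) Q
    rw [hρ, map_zero] at h1
    have h2 : (0 : Ω) = Q.sum (fun k a => ρ ^ k * D j (x a)) +
      (derivative Q).eval₂ x ρ * D j ρ := h1
    have h3 : ι (φ δ) * Q.sum (fun k a => ρ ^ k * D j (x a)) =
        ∑ k, ι (g k) * ((derivative Q).eval₂ x ρ * Λ (e (y k))) := by
      rw [Polynomial.sum_def, Finset.mul_sum]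
      have h4 : ∀ k, ι (g k) * ((derivative Q).eval₂ x ρ * Λ (e (y k))) =
          ∑ m ∈ Q.support, ι (g k) * (x (P (y k) (Q.coeff m)) * ρ ^ m) := by
        intro k
        rw [← he, hbrP, Polynomial.sum_def, Finset.mul_sum]
      rw [Finset.sum_congr rfl fun k _ => h4 k, Finset.sum_comm]
      refine Finset.sum_congr rfl fun m _ => ?_
      calc ι (φ δ) * (ρ ^ m * D j (x (Q.coeff m)))
          = (ι (φ δ) * D j (x (Q.coeff m))) * ρ ^ m := by ring
        _ = _ := by
          rw [hg2, Finset.sum_mul]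
          exact Finset.sum_congr rfl fun k _ => by ring
    have h5 : ι (φ δ) * D j ρ = - ∑ k, ι (g k) * Λ (e (y k)) := by
      apply mul_left_cancel₀ hQ'ρ
      have h6 : ∑ k, ι (g k) * ((derivative Q).eval₂ x ρ * Λ (e (y k))) =
          (derivative Q).eval₂ x ρ * ∑ k, ι (g k) * Λ (e (y k)) := by
        rw [Finset.mul_sum]
        exact Finset.sum_congr rfl fun k _ => by ring
      rw [h6] at h3
      have h7 := congrArg (fun z => ι (φ δ) * z) h2
      simp only [mul_zero, mul_add] at h7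
      rw [h3] at h7
      linear_combination -h7
    rw [h5]
    refine (IsIntegral.sum _ fun k _ => ?_).neg
    exact (li9_isIntegral_of_mem _ (li9_range ι _)).mul (hint _)
  · let EE : Derivation E Ω Ω := ι (MvPolynomial.X 0) • D 0 + ι (MvPolynomial.X 1) • D 1
    change EE ρ = ρ
    have h1 := Inertia.d_eval₂ x ρ ((EE : Ω →ₗ[E] Ω).toAddMonoidHom) (fun a b => by
      change EE (a * b) = a * EE b + b * EE a
      rw [Derivation.leibniz, smul_eq_mul, smul_eq_mul]) Q
    rw [hρ, map_zero] at h1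
    have h2 : (0 : Ω) = Q.sum (fun k a => ρ ^ k * EE (x a)) +
      (derivative Q).eval₂ x ρ * EE ρ := h1
    have h3 : ∀ k ∈ Q.support, EE (x (Q.coeff k)) =
        ((Q.natDegree : Ω) - (k : Ω)) * x (Q.coeff k) := by
      intro k hk
      have hkn : k ≤ Q.natDegree := le_natDegree_of_mem_supp k hk
      by_cases hdvd : d ∣ Q.natDegree - k
      · obtain ⟨j, hj⟩ := hdvd
        have h4 := euler_homogeneous ι D hD (hφ.degree j _ (hQ.homog k hkn j hj))
        change ι (MvPolynomial.X 0) * D 0 (x (Q.coeff k)) +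
          ι (MvPolynomial.X 1) * D 1 (x (Q.coeff k)) = _
        rw [hxr, h4, ← hj, Nat.cast_sub hkn]
      · rw [hQ.homog0 k hkn hdvd, map_zero, map_zero, mul_zero]
    have h4 : Q.sum (fun k a => ρ ^ k * EE (x a)) = - (ρ * (derivative Q).eval₂ x ρ) := by
      have h5 : Q.sum (fun k a => ρ ^ k * EE (x a)) =
          (Q.natDegree : Ω) * Q.eval₂ x ρ - ρ * (derivative Q).eval₂ x ρ := by
        rw [mul_eval₂_derivative, eval₂_eq_sum, Polynomial.sum_def, Polynomial.sum_def,
          Polynomial.sum_def, Finset.mul_sum, ← Finset.sum_sub_distrib]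
        refine Finset.sum_congr rfl fun k hk => ?_
        rw [h3 k hk]
        ring
      rw [h5, hρ, mul_zero, zero_sub]
    rw [h4] at h2
    apply mul_left_cancel₀ hQ'ρ
    linear_combination -h2

/-- **Good polynomials split into linear forms along curves.** -/
theorem IsGood.curve_split (hX : IsContactFano 𝒜 P) [IsDomain R] {d : ℕ} {Q : R[X]}
    (hQ : IsGood 𝒜 P d Q) {E : Type v} [Field E] [IsAlgClosed E] [Algebra ℂ E]
    {φ : R →ₐ[ℂ] MvPolynomial (Fin 2) E} (hφ : IsCurve 𝒜 d φ) (hdisc : φ Q.discr ≠ 0) :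
    ∃ s : Multiset (MvPolynomial (Fin 2) E), (∀ q ∈ s, q.IsHomogeneous 1) ∧
      Q.map (φ : R →+* MvPolynomial (Fin 2) E) = (s.map fun q => X - C q).prod := by
  classical
  have hchar : CharZero E := charZero_of_injective_algebraMap (algebraMap ℂ E).injective
  obtain ⟨Ω, i1, i2, i3, i4, i5, ι, D, hι, hD, huniq⟩ := li9_exists_Omega E
  set Q' := (Q.map (φ : R →+* MvPolynomial (Fin 2) E)).map
    (ι : MvPolynomial (Fin 2) E →+* Ω) with hQ'
  have hmon : Q'.Monic := (hQ.monic.map _).map _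
  have hsplit := (IsAlgClosed.splits Q').eq_prod_roots_of_monic hmon
  have hroot' : ∀ ρ : Ω, ∃ q : MvPolynomial (Fin 2) E,
      ρ ∈ Q'.roots → q.IsHomogeneous 1 ∧ ι q = ρ := by
    intro ρ
    by_cases h : ρ ∈ Q'.roots
    · obtain ⟨q, hq⟩ := hQ.root_linear hX hφ hdisc ι hι D hD huniq ρ (by
        have h1 := (Polynomial.mem_roots hmon.ne_zero).1 h
        rw [IsRoot.def, hQ', Polynomial.map_map, eval_map] at h1
        exact h1)
      exact ⟨q, fun _ => hq⟩
    · exact ⟨0, fun h' => absurd h' h⟩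
  choose g hg using hroot'
  refine ⟨Q'.roots.map g, ?_, ?_⟩
  · intro q hq
    obtain ⟨ρ, hρ, rfl⟩ := Multiset.mem_map.1 hq
    exact (hg ρ hρ).1
  · refine Polynomial.map_injective (ι : MvPolynomial (Fin 2) E →+* Ω) hι ?_
    rw [← hQ', Polynomial.map_multiset_prod, Multiset.map_map, Multiset.map_map]
    conv_lhs => rw [hsplit]
    congr 1
    refine Multiset.map_congr rfl fun ρ hρ => ?_
    have h1 : ι (g ρ) = ρ := (hg ρ hρ).2
    simp [h1]

/-- All roots are linear forms, in any field. -/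
theorem IsGood.curve_root (hX : IsContactFano 𝒜 P) [IsDomain R] {d : ℕ} {Q : R[X]}
    (hQ : IsGood 𝒜 P d Q) {E : Type v} [Field E] [IsAlgClosed E] [Algebra ℂ E]
    {φ : R →ₐ[ℂ] MvPolynomial (Fin 2) E} (hφ : IsCurve 𝒜 d φ) (hdisc : φ Q.discr ≠ 0)
    {F : Type w} [CommRing F] [IsDomain F] [Algebra (MvPolynomial (Fin 2) E) F] (x : F)
    (hx : Q.eval₂ ((algebraMap (MvPolynomial (Fin 2) E) F).comp
      (φ : R →+* MvPolynomial (Fin 2) E)) x = 0) :
    ∃ l : MvPolynomial (Fin 2) E, l.IsHomogeneous 1 ∧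
      algebraMap (MvPolynomial (Fin 2) E) F l = x := by
  classical
  obtain ⟨s, hs, hprod⟩ := hQ.curve_split hX hφ hdisc
  have h1 : (s.map fun q => x - algebraMap (MvPolynomial (Fin 2) E) F q).prod = 0 := by
    have h2 : (Q.map (φ : R →+* MvPolynomial (Fin 2) E)).eval₂
        (algebraMap (MvPolynomial (Fin 2) E) F) x = 0 := by
      rw [eval₂_map]
      exact hx
    rw [hprod] at h2
    have h3 := map_multiset_prod (eval₂RingHom (algebraMap (MvPolynomial (Fin 2) E) F) x)
      (s.map fun q => X - C q)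
    rw [Multiset.map_map] at h3
    rw [← h2]
    change _ = (eval₂RingHom (algebraMap (MvPolynomial (Fin 2) E) F) x) _
    rw [h3]
    congr 1
    refine Multiset.map_congr rfl fun q _ => ?_
    simp
  rw [Multiset.prod_eq_zero_iff, Multiset.mem_map] at h1
  obtain ⟨q, hq, h2⟩ := h1
  exact ⟨q, hs q hq, (sub_eq_zero.1 h2).symm⟩

/-- U2. -/
theorem closed_split (hX : IsContactFano 𝒜 P) [IsDomain R] {d : ℕ} (_hd : 0 < d)
    {Q : Polynomial R} (hQ : IsGood 𝒜 P d Q) {φ : R →ₐ[ℂ] MvPolynomial (Fin 2) ℂ}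
    (hφ : IsCurve 𝒜 d φ) (hdisc : φ Q.discr ≠ 0) {F : Type v} [Field F] [IsAlgClosed F]
    [Algebra (MvPolynomial (Fin 2) ℂ) F] [FaithfulSMul (MvPolynomial (Fin 2) ℂ) F] (x : F)
    (hx : Q.eval₂ ((algebraMap (MvPolynomial (Fin 2) ℂ) F).comp
      (φ : R →+* MvPolynomial (Fin 2) ℂ)) x = 0) :
    ∃ l : MvPolynomial (Fin 2) ℂ, l.IsHomogeneous 1 ∧
      algebraMap (MvPolynomial (Fin 2) ℂ) F l = x :=
  hQ.curve_root hX hφ hdisc x hx

end Vale.Agent.P292
end

section

/-! # Block F, first half: the flow of `B = b²` along a generic conic. -/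

namespace Vale.Agent.P292

open MvPolynomial

universe u v

section

variable {Ω : Type v} [Field Ω] [Algebra ℂ Ω]

/-- The recursion for the coefficients under the flow. -/
theorem f1_flow_cf {b : Ω} (D : Derivation ℂ Ω Ω) {p : MvPolynomial (Fin 2) Ω}
    (h : mapD D p = C (2 * b) * X 1 * pderiv 0 p) (i j : ℕ) :
    D (cf p i (j + 1)) = 2 * b * (i + 1) * cf p (i + 1) j := by
  have h1 := congrArg (coeff (Finsupp.single 0 i + Finsupp.single 1 (j + 1))) h
  rw [coeff_mapD] at h1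
  have h2 : (Finsupp.single 0 i + Finsupp.single 1 (j + 1) : Fin 2 →₀ ℕ) =
      (Finsupp.single 0 i + Finsupp.single 1 j) + Finsupp.single 1 1 := by
    rw [Finsupp.single_add, add_assoc]
  rw [cf, h1, mul_assoc, coeff_C_mul, mul_comm (X 1), h2, coeff_mul_X, coeff_pderiv]
  have h3 : (Finsupp.single 0 i + Finsupp.single 1 j + Finsupp.single 0 1 : Fin 2 →₀ ℕ) =
      Finsupp.single 0 (i + 1) + Finsupp.single 1 j := by
    rw [Finsupp.single_add]
    abel
  rw [h3, cf]
  simp
  ring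

theorem f1_flow_iterate {b : Ω} (D : Derivation ℂ Ω Ω) (hb : D b = 0) {p : MvPolynomial (Fin 2) Ω}
    (h : mapD D p = C (2 * b) * X 1 * pderiv 0 p) (i j : ℕ) :
    (⇑D)^[i] (cf p 0 (i + j)) = (i.factorial : Ω) * (2 * b) ^ i * cf p i j := by
  induction i generalizing j with
  | zero => simp
  | succ i ih =>
    have h1 : i + 1 + j = i + (j + 1) := by ring
    rw [Function.iterate_succ_apply', h1, ih, Derivation.leibniz, f1_flow_cf D h]
    have h2 : D ((i.factorial : Ω) * (2 * b) ^ i) = 0 := by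
      rw [Derivation.leibniz, Derivation.leibniz_pow, Derivation.leibniz, hb,
        Derivation.map_natCast]
      have : D (2 : Ω) = 0 := by
        have := D.map_natCast 2
        simpa using this
      rw [this]
      simp
    rw [h2, Nat.factorial_succ]
    push_cast
    simp only [smul_eq_mul]
    ring

omit [Algebra ℂ Ω] in
/-- The value at `(0, 1)` of a homogeneous polynomial. -/
theorem f1_eval_zero_one {p : MvPolynomial (Fin 2) Ω} {n : ℕ} (hp : p.IsHomogeneous n) :
    eval ![0, 1] p = cf p 0 n := by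
  classical
  rw [eval_eq', cf]
  have h1 : ∀ m ∈ p.support, m ≠ Finsupp.single 0 0 + Finsupp.single 1 n →
      coeff m p * ∏ i, (![0, 1] : Fin 2 → Ω) i ^ m i = 0 := by
    intro m hm hne
    have h2 := hp (mem_support_iff.1 hm)
    rw [Finsupp.weight_apply, Finsupp.sum_fintype _ _ (by simp)] at h2
    simp only [Fin.sum_univ_two, Pi.one_apply, smul_eq_mul, mul_one] at h2
    have h3 : m 0 ≠ 0 := by
      intro h3
      apply hne
      ext i
      fin_cases i
      · simpa using h3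
      · simp
        omega
    simp [Fin.prod_univ_two, h3]
  by_cases hc : coeff (Finsupp.single 0 0 + Finsupp.single 1 n) p = 0
  · rw [hc]
    refine Finset.sum_eq_zero fun m hm => h1 m hm ?_
    rintro rfl
    exact mem_support_iff.1 hm hc
  · rw [Finset.sum_eq_single_of_mem _ (mem_support_iff.2 hc) h1]
    simp [Fin.prod_univ_two]

omit [Algebra ℂ Ω] in
/-- The value at `(1, 0)` of a homogeneous polynomial. -/
theorem f1_eval_one_zero {p : MvPolynomial (Fin 2) Ω} {n : ℕ} (hp : p.IsHomogeneous n) :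
    eval ![1, 0] p = cf p n 0 := by
  classical
  rw [eval_eq', cf]
  have h1 : ∀ m ∈ p.support, m ≠ Finsupp.single 0 n + Finsupp.single 1 0 →
      coeff m p * ∏ i, (![1, 0] : Fin 2 → Ω) i ^ m i = 0 := by
    intro m hm hne
    have h2 := hp (mem_support_iff.1 hm)
    rw [Finsupp.weight_apply, Finsupp.sum_fintype _ _ (by simp)] at h2
    simp only [Fin.sum_univ_two, Pi.one_apply, smul_eq_mul, mul_one] at h2
    have h3 : m 1 ≠ 0 := by
      intro h3
      apply hne
      ext i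
      fin_cases i
      · simp
        omega
      · simpa using h3
    simp [Fin.prod_univ_two, h3]
  by_cases hc : coeff (Finsupp.single 0 n + Finsupp.single 1 0) p = 0
  · rw [hc]
    refine Finset.sum_eq_zero fun m hm => h1 m hm ?_
    rintro rfl
    exact mem_support_iff.1 hm hc
  · rw [Finset.sum_eq_single_of_mem _ (mem_support_iff.2 hc) h1]
    simp [Fin.prod_univ_two]

end

section

variable {R : Type u} [CommRing R] [Algebra ℂ R] {𝒜 : ℕ → Submodule ℂ R}
  {P : R →ₗ[ℂ] R →ₗ[ℂ] R} {Ω : Type v} [Field Ω] [Algebra ℂ Ω] {w : R →ₐ[ℂ] ℂ}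
  {φ : R →ₐ[ℂ] MvPolynomial (Fin 2) Ω}

/-- The closed point `w` is not the vertex. -/
theorem f1_exists_ne (hφ : GenConicAt 𝒜 w φ) : ∃ k, 0 < k ∧ ∃ r ∈ 𝒜 k, w r ≠ 0 := by
  obtain ⟨k, hk, r, hr, h⟩ := hφ.curve.bpf ![1, 0] (by
    intro h
    have := congrFun h 0
    simp at this)
  refine ⟨k, hk, r, hr, fun h0 => h ?_⟩
  have h1 := hφ.left r
  rw [pt_apply, h0, map_zero] at h1
  rw [aeval_eq_eval]
  exact h1

/-- **Block F, first half.** The flow of `B = b²`. The hypotheses `V2` and `V6` are the first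
variation formula and the flow theorem. -/
theorem f1_hflow (hφ : GenConicAt 𝒜 w φ) [IsDomain R]
    (hleib : ∀ a b c, P a (b * c) = P a b * c + b * P a c) {b : Ω}
    (V2 : ∀ (D : Derivation ℂ Ω Ω) (r : R),
      (∀ s, D (pt φ ![0, 1] s) = pt φ ![0, 1] (P r s)) →
      D b = - eval ![0, 1] (pderiv 0 (φ r)))
    (V6 : ∀ D : Derivation ℂ Ω Ω,
      (∀ s, D (pt φ ![0, 1] s) = 2 * b * eval ![0, 1] (pderiv 0 (φ s))) →
      D b = 0 ∧ ∀ r, mapD D (φ r) = C (2 * b) * X 1 * pderiv 0 (φ r))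
    {k : ℕ} (hk : 0 < k) {r : R} (hr : r ∈ 𝒜 k) (D : Derivation ℂ Ω Ω)
    (hD : ∀ (s : R) (D' : Derivation ℂ Ω Ω),
      (∀ t, D' (pt φ ![0, 1] t) = pt φ ![0, 1] (P s t)) →
      D' (b ^ 2) = - D (pt φ ![0, 1] s)) :
    (⇑D)^[2 * k - 1] (pt φ ![0, 1] r) =
      (((2 * k - 1).factorial : ℂ) * 2 ^ (2 * k - 1)) •
        ((b ^ 2) ^ (k - 1) * (b * cf (φ r) (2 * k - 1) 1)) ∧
    D (b * cf (φ r) (2 * k - 1) 1) = (4 * (k : ℂ) * w r) • (b ^ 2) := by
  have hD1 : ∀ s, D (pt φ ![0, 1] s) = 2 * b * eval ![0, 1] (pderiv 0 (φ s)) := by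
    intro s
    obtain ⟨D', hD'⟩ := exists_der_ext (pt φ ![0, 1]) hφ.inj
      (hamAt P (pt φ ![0, 1]) s) (fun x y => by
        simp only [hamAt_apply, hleib, map_add, map_mul]
        ring)
    have h1 := hD s D' hD'
    rw [Derivation.leibniz_pow, V2 D' s hD'] at h1
    simp only [Nat.add_one_sub_one, pow_one, smul_eq_mul, nsmul_eq_mul, Nat.cast_ofNat] at h1
    linear_combination h1
  obtain ⟨hDb, hD2⟩ := V6 D hD1
  have hhom : (φ r).IsHomogeneous (2 * k) := hφ.curve.degree k r hr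
  obtain ⟨n, rfl⟩ : ∃ n, k = n + 1 := ⟨k - 1, by omega⟩
  have e1 : 2 * (n + 1) - 1 = 2 * n + 1 := by omega
  have e2 : 2 * (n + 1) = 2 * n + 1 + 1 := by omega
  have e3 : n + 1 - 1 = n := rfl
  rw [e1, e3]
  constructor
  · rw [pt_apply, f1_eval_zero_one hhom, e2, f1_flow_iterate D hDb (hD2 r)]
    rw [Algebra.smul_def, map_mul, map_pow, map_natCast]
    have : algebraMap ℂ Ω 2 = 2 := map_ofNat _ 2
    rw [this]
    ring
  · rw [Derivation.leibniz, hDb, smul_zero, add_zero, smul_eq_mul, f1_flow_cf D (hD2 r)]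
    have h1 := hφ.left r
    rw [pt_apply, f1_eval_one_zero hhom, e2] at h1
    rw [h1, Algebra.smul_def, map_mul, map_mul]
    have h4 : algebraMap ℂ Ω 4 = 4 := map_ofNat _ 4
    have h5 : algebraMap ℂ Ω ((n + 1 : ℕ) : ℂ) = (n : Ω) + 1 := by simp
    rw [h4, h5]
    push_cast
    ring

end

end Vale.Agent.P292
end

section

/-! # Closed specialisation of a curve which meets a subvariety. -/

namespace Vale.Agent.P292

open MvPolynomial

universe u v w

variable {R : Type u} [CommRing R] [Algebra ℂ R] {𝒜 : ℕ → Submodule ℂ R} [GradedAlgebra 𝒜]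
  {P : R →ₗ[ℂ] R →ₗ[ℂ] R}

/-- specialisation of values. -/
theorem mm_eval_spec {κ : Type v} [Field κ] [Algebra ℂ κ] (A₀ : Subalgebra ℂ κ) (σ : A₀ →ₐ[ℂ] ℂ)
    (p : MvPolynomial (Fin 2) κ) (q : MvPolynomial (Fin 2) ℂ)
    (h : ∀ m, ∃ h : coeff m p ∈ A₀, coeff m q = σ ⟨coeff m p, h⟩)
    (a : Fin 2 → κ) (ha : ∀ i, a i ∈ A₀) (h0 : eval a p = 0) :
    eval (fun i => σ ⟨a i, ha i⟩) q = 0 := by
  classical
  choose h1 h2 using h
  let p₀ : MvPolynomial (Fin 2) A₀ := ∑ m ∈ p.support, monomial m ⟨coeff m p, h1 m⟩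
  have hp₀ : ∀ m, coeff m p₀ = ⟨coeff m p, h1 m⟩ := by
    intro m
    rw [show coeff m p₀ = ∑ n ∈ p.support, coeff m (monomial n (⟨coeff n p, h1 n⟩ : A₀)) from
      coeff_sum _ _ _]
    simp only [coeff_monomial]
    rw [Finset.sum_ite_eq' p.support m]
    split_ifs with hm
    · rfl
    · rw [notMem_support_iff] at hm
      exact Subtype.ext hm.symm
  have hp : map (algebraMap A₀ κ) p₀ = p := by
    ext m
    rw [coeff_map, hp₀]
    rfl
  have hq : map (σ : A₀ →+* ℂ) p₀ = q := by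
    ext m
    rw [coeff_map, hp₀, h2]
    rfl
  have h3 : ((eval (fun i => (⟨a i, ha i⟩ : A₀)) p₀ : A₀) : κ) = 0 := by
    rw [← h0, ← hp, eval_map]
    have := eval₂_comp_left (algebraMap A₀ κ) (RingHom.id A₀) (fun i => (⟨a i, ha i⟩ : A₀)) p₀
    rw [RingHom.comp_id] at this
    exact this
  have h4 : eval (fun i => (⟨a i, ha i⟩ : A₀)) p₀ = 0 := Subtype.ext h3
  rw [← hq, eval_map]
  have h5 := eval₂_comp_left (σ : A₀ →+* ℂ) (RingHom.id A₀) (fun i => (⟨a i, ha i⟩ : A₀)) p₀
  rw [RingHom.comp_id] at h5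
  have h6 : eval₂ (RingHom.id A₀) (fun i => (⟨a i, ha i⟩ : A₀)) p₀ = 0 := h4
  rw [h6, map_zero] at h5
  exact h5.symm

/-- **Closed specialisation.** A curve over an algebraically closed field, which meets `V(𝔭)` and
on which `D` does not vanish, specialises to such a curve over `ℂ`. -/
theorem exists_closed_meets [Algebra.FiniteType ℂ R] {κ : Type v} [Field κ] [IsAlgClosed κ]
    [Algebra ℂ κ] {d : ℕ} {φ : R →ₐ[ℂ] MvPolynomial (Fin 2) κ} (hφ : IsCurve 𝒜 d φ) {D : R}
    (hD : φ D ≠ 0) {𝔭 : Ideal R} (h : Meets φ 𝔭) :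
    ∃ ψ : R →ₐ[ℂ] MvPolynomial (Fin 2) ℂ, IsCurve 𝒜 d ψ ∧ ψ D ≠ 0 ∧ Meets ψ 𝔭 := by
  classical
  obtain ⟨a, ha, h⟩ := h
  obtain ⟨m₀, hm₀⟩ := MvPolynomial.ne_zero_iff.1 hD
  set F : Finset κ := Finset.filter (fun e => e ≠ 0)
    ({a 0, a 1, coeff m₀ (φ D)} : Finset κ) with hFdef
  have hF0 : ∀ e ∈ F, e ≠ 0 := fun e he => by
    rw [hFdef, Finset.mem_filter] at he
    exact he.2
  obtain ⟨A₀, σ, ψ, hψ, hc, -, hF⟩ := hφ.exists_closed' F hF0
  have hmem : ∀ i, a i ≠ 0 → a i ∈ F := by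
    intro i hi
    rw [hFdef, Finset.mem_filter]
    refine ⟨?_, hi⟩
    fin_cases i <;> simp
  have ha' : ∀ i, a i ∈ A₀ := by
    intro i
    by_cases hi : a i = 0
    · rw [hi]; exact zero_mem _
    · exact (hF _ (hmem i hi)).choose
  refine ⟨ψ, hψ, ?_, fun i => σ ⟨a i, ha' i⟩, ?_, fun r hr => ?_⟩
  · intro h0
    obtain ⟨h1, h2⟩ := hF (coeff m₀ (φ D)) (by
      rw [hFdef, Finset.mem_filter]
      exact ⟨by simp, hm₀⟩)
    obtain ⟨h3, h4⟩ := hc D m₀
    rw [h0, coeff_zero] at h4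
    exact h2 h4.symm
  · intro h0
    apply ha
    funext i
    by_contra hi
    obtain ⟨h1, h2⟩ := hF _ (hmem i hi)
    exact h2 (congrFun h0 i)
  · rw [pt_apply]
    exact mm_eval_spec A₀ σ (φ r) (ψ r) (hc r) a ha' (by rw [← pt_apply]; exact h r hr)

end Vale.Agent.P292
end

section

/-! # One very free conic: the universal conic. -/

namespace Vale.Agent.P292.VF

open MvPolynomial

universe u v w

section graded

variable {R : Type u} [CommRing R] [Algebra ℂ R] (𝒜 : ℕ → Submodule ℂ R) [GradedAlgebra 𝒜]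

/-- A homomorphism to a polynomial ring which is graded on generators is graded. -/
theorem isHomogeneous_of_generators {σ : Type*} {A : Type v} [CommRing A] [Algebra ℂ A]
    (Φ : R →ₐ[ℂ] MvPolynomial σ A) {s : Set R} (hs : Algebra.adjoin ℂ s = ⊤)
    (h : ∀ r ∈ s, ∃ k, r ∈ 𝒜 k ∧ (Φ r).IsHomogeneous (2 * k)) :
    ∀ k, ∀ r ∈ 𝒜 k, (Φ r).IsHomogeneous (2 * k) := by
  classical
  have key : ∀ r : R, ∀ k, (Φ (DirectSum.decompose 𝒜 r k : R)).IsHomogeneous (2 * k) := by
    intro r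
    have hr : r ∈ Algebra.adjoin ℂ s := by rw [hs]; trivial
    induction hr using Algebra.adjoin_induction with
    | mem r hr =>
      intro k
      obtain ⟨l, hl, hh⟩ := h r hr
      by_cases hkl : l = k
      · subst hkl
        rw [DirectSum.decompose_of_mem_same 𝒜 hl]
        exact hh
      · rw [DirectSum.decompose_of_mem_ne 𝒜 hl hkl, map_zero]
        exact isHomogeneous_zero _ _ _
    | algebraMap c =>
      intro k
      have h0 : algebraMap ℂ R c ∈ 𝒜 0 := SetLike.algebraMap_mem_graded 𝒜 c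
      by_cases hk : 0 = k
      · subst hk
        rw [DirectSum.decompose_of_mem_same 𝒜 h0, AlgHom.commutes, mul_zero,
          IsScalarTower.algebraMap_apply ℂ A (MvPolynomial σ A), algebraMap_eq]
        exact isHomogeneous_C _ _
      · rw [DirectSum.decompose_of_mem_ne 𝒜 h0 hk, map_zero]
        exact isHomogeneous_zero _ _ _
    | add x y _ _ hx hy =>
      intro k
      rw [DirectSum.decompose_add, DirectSum.add_apply, Submodule.coe_add, map_add]
      exact (hx k).add (hy k)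
    | mul x y _ _ hx hy =>
      intro k
      rw [DirectSum.decompose_mul, DirectSum.coe_mul_apply, map_sum]
      refine IsHomogeneous.sum _ _ _ fun ij hij => ?_
      rw [map_mul]
      have h1 := (hx ij.1).mul (hy ij.2)
      have h2 : 2 * ij.1 + 2 * ij.2 = 2 * k := by
        rw [← (Finset.mem_filter.1 hij).2]; ring
      rwa [h2] at h1
  intro k r hr
  have := key r k
  rwa [DirectSum.decompose_of_mem_same 𝒜 hr] at this

end graded

/-- The exponent `s ^ i t ^ j`. -/
noncomputable def ex (i j : ℕ) : Fin 2 →₀ ℕ := Finsupp.single 0 i + Finsupp.single 1 j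

theorem ex_eq (m : Fin 2 →₀ ℕ) : ex (m 0) (m 1) = m := by
  ext i
  fin_cases i <;> simp [ex]

theorem ex_inj {i j i' j' : ℕ} (h : ex i j = ex i' j') : i = i' ∧ j = j' := by
  constructor
  · simpa [ex] using DFunLike.congr_fun h 0
  · simpa [ex] using DFunLike.congr_fun h 1

theorem degree_ex (i j : ℕ) : (ex i j).degree = i + j := by
  simp [ex, Finsupp.degree_eq_sum, Fin.sum_univ_two]

/-- A form in two variables is the sum of its terms. -/
theorem form_eq_sum {A : Type v} [CommRing A] {p : MvPolynomial (Fin 2) A} {d : ℕ}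
    (hp : p.IsHomogeneous d) :
    p = ∑ j : Fin (d + 1), monomial (ex j (d - j)) (coeff (ex j (d - j)) p) := by
  classical
  ext m
  rw [coeff_sum]
  simp only [coeff_monomial]
  by_cases hm : m.degree = d
  · have h1 : m 0 + m 1 = d := by
      rw [← hm, Finsupp.degree_eq_sum, Fin.sum_univ_two]
    rw [Finset.sum_eq_single (⟨m 0, by omega⟩ : Fin (d + 1))]
    · have h2 : ex (m 0) (d - m 0) = m := by
        have : d - m 0 = m 1 := by omega
        rw [this, ex_eq]
      rw [if_pos h2, h2]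
    · intro j _ hj
      rw [if_neg]
      intro h
      rw [← ex_eq m] at h
      exact hj (Fin.ext (ex_inj h).1)
    · intro h
      exact absurd (Finset.mem_univ _) h
  · rw [Finset.sum_eq_zero]
    · by_contra hne
      apply hm
      have := hp hne
      rwa [Finsupp.degree_eq_weight_one]
    · intro j _
      rw [if_neg]
      rintro rfl
      apply hm
      rw [degree_ex]
      have := j.2
      omega

section univ

variable {R : Type u} [CommRing R] [Algebra ℂ R] {n : ℕ} (x : Fin n → R) (k : Fin n → ℕ)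

/-- The coefficients of the universal conic. -/
abbrev Coef (k : Fin n → ℕ) : Type := MvPolynomial (Σ i : Fin n, Fin (2 * k i + 1)) ℂ

/-- The general form of degree `2 k i`. -/
noncomputable def genForm (i : Fin n) : MvPolynomial (Fin 2) (Coef k) :=
  ∑ j : Fin (2 * k i + 1), monomial (ex j (2 * k i - j)) (X ⟨i, j⟩)

/-- The relations between the coefficients of the universal conic. -/
noncomputable def relIdeal : Ideal (Coef k) :=
  Ideal.span {c | ∃ f : MvPolynomial (Fin n) ℂ, aeval x f = 0 ∧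
    ∃ m, c = coeff m (aeval (genForm k) f)}

/-- The coordinate ring of the space of conics. -/
abbrev UC : Type := Coef k ⧸ relIdeal x k

/-- The universal conic on the polynomial ring. -/
noncomputable def preUniv : MvPolynomial (Fin n) ℂ →ₐ[ℂ] MvPolynomial (Fin 2) (UC x k) :=
  (mapAlgHom (Ideal.Quotient.mkₐ ℂ (relIdeal x k))).comp (aeval (genForm k))

theorem preUniv_eq_zero (f : MvPolynomial (Fin n) ℂ) (hf : aeval x f = 0) :
    preUniv x k f = 0 := by
  ext m
  rw [preUniv, AlgHom.comp_apply, mapAlgHom_apply, coeff_map, coeff_zero]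
  change Ideal.Quotient.mk (relIdeal x k) _ = 0
  rw [Ideal.Quotient.eq_zero_iff_mem]
  exact Ideal.subset_span ⟨f, hf, m, rfl⟩

variable (hs : Function.Surjective (aeval x : MvPolynomial (Fin n) ℂ →ₐ[ℂ] R))

/-- The universal conic. -/
noncomputable def univ : R →ₐ[ℂ] MvPolynomial (Fin 2) (UC x k) :=
  (Ideal.Quotient.liftₐ (RingHom.ker (aeval x : MvPolynomial (Fin n) ℂ →ₐ[ℂ] R)) (preUniv x k)
    (fun f hf => preUniv_eq_zero x k f hf)).comp
    (Ideal.quotientKerAlgEquivOfSurjective hs).symm.toAlgHom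

theorem univ_aeval (f : MvPolynomial (Fin n) ℂ) : univ x k hs (aeval x f) = preUniv x k f := by
  have h1 : (Ideal.quotientKerAlgEquivOfSurjective hs).symm (aeval x f) =
      Ideal.Quotient.mk _ f := by
    rw [AlgEquiv.symm_apply_eq]
    rfl
  rw [univ, AlgHom.comp_apply]
  change Ideal.Quotient.liftₐ _ _ _ ((Ideal.quotientKerAlgEquivOfSurjective hs).symm (aeval x f)) = _
  rw [h1]
  rfl

theorem univ_gen (i : Fin n) : univ x k hs (x i) = ∑ j : Fin (2 * k i + 1),
    monomial (ex j (2 * k i - j)) (Ideal.Quotient.mk (relIdeal x k) (X ⟨i, j⟩)) := by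
  have h1 := univ_aeval x k hs (X i)
  rw [aeval_X] at h1
  rw [h1, preUniv, AlgHom.comp_apply, aeval_X, genForm, map_sum]
  refine Finset.sum_congr rfl fun j _ => ?_
  rw [mapAlgHom_apply, map_monomial]
  rfl

theorem univ_gen_homogeneous (i : Fin n) : (univ x k hs (x i)).IsHomogeneous (2 * k i) := by
  rw [univ_gen]
  refine IsHomogeneous.sum _ _ _ fun j _ => isHomogeneous_monomial _ ?_
  rw [degree_ex]
  have := j.2
  omega

variable {A : Type v} [CommRing A] [Algebra ℂ A]

/-- The homomorphism given by a conic. -/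
noncomputable def preLift (Φ : R →ₐ[ℂ] MvPolynomial (Fin 2) A) : Coef k →ₐ[ℂ] A :=
  aeval fun ij : Σ i : Fin n, Fin (2 * k i + 1) => coeff (ex ij.2 (2 * k ij.1 - ij.2)) (Φ (x ij.1))

theorem map_preLift (Φ : R →ₐ[ℂ] MvPolynomial (Fin 2) A)
    (h : ∀ i, (Φ (x i)).IsHomogeneous (2 * k i)) (f : MvPolynomial (Fin n) ℂ) :
    mapAlgHom (preLift x k Φ) (aeval (genForm k) f) = Φ (aeval x f) := by
  have h1 : (mapAlgHom (preLift x k Φ)).comp (aeval (genForm k)) = Φ.comp (aeval x) := by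
    refine algHom_ext fun i => ?_
    rw [AlgHom.comp_apply, AlgHom.comp_apply, aeval_X, aeval_X, genForm, map_sum]
    conv_rhs => rw [form_eq_sum (h i)]
    refine Finset.sum_congr rfl fun j _ => ?_
    rw [mapAlgHom_apply, map_monomial]
    congr 1
    change preLift x k Φ (X ⟨i, j⟩) = _
    rw [preLift, aeval_X]
  exact DFunLike.congr_fun h1 f

/-- The homomorphism given by a conic. -/
noncomputable def uLift (Φ : R →ₐ[ℂ] MvPolynomial (Fin 2) A)
    (h : ∀ i, (Φ (x i)).IsHomogeneous (2 * k i)) : UC x k →ₐ[ℂ] A :=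
  Ideal.Quotient.liftₐ (relIdeal x k) (preLift x k Φ) (by
    intro a ha
    have h1 : relIdeal x k ≤ RingHom.ker (preLift x k Φ) := by
      rw [relIdeal, Ideal.span_le]
      rintro _ ⟨f, hf, m, rfl⟩
      have h2 := congrArg (coeff m) (map_preLift x k Φ h f)
      rw [hf, map_zero, coeff_zero, mapAlgHom_apply, coeff_map] at h2
      exact h2
    exact h1 ha)

theorem uLift_mk (Φ : R →ₐ[ℂ] MvPolynomial (Fin 2) A)
    (h : ∀ i, (Φ (x i)).IsHomogeneous (2 * k i)) (c : Coef k) :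
    uLift x k Φ h (Ideal.Quotient.mk _ c) = preLift x k Φ c := rfl

theorem map_uLift_univ (Φ : R →ₐ[ℂ] MvPolynomial (Fin 2) A)
    (h : ∀ i, (Φ (x i)).IsHomogeneous (2 * k i)) :
    (mapAlgHom (uLift x k Φ h)).comp (univ x k hs) = Φ := by
  ext1 r
  obtain ⟨f, rfl⟩ := hs r
  rw [AlgHom.comp_apply, univ_aeval, preUniv, AlgHom.comp_apply, ← map_preLift x k Φ h f]
  simp only [mapAlgHom_apply]
  rw [map_map]
  rfl

theorem comp_uLift {B : Type w} [CommRing B] [Algebra ℂ B] (ρ : A →ₐ[ℂ] B)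
    (Φ : R →ₐ[ℂ] MvPolynomial (Fin 2) A) (h : ∀ i, (Φ (x i)).IsHomogeneous (2 * k i))
    (Φ' : R →ₐ[ℂ] MvPolynomial (Fin 2) B) (h' : ∀ i, (Φ' (x i)).IsHomogeneous (2 * k i))
    (hρ : ∀ r, MvPolynomial.map (ρ : A →+* B) (Φ r) = Φ' r) :
    ρ.comp (uLift x k Φ h) = uLift x k Φ' h' := by
  refine Ideal.Quotient.algHom_ext _ (algHom_ext fun ij => ?_)
  simp only [AlgHom.comp_apply, Ideal.Quotient.mkₐ_eq_mk, uLift_mk, preLift, aeval_X]
  rw [← hρ, coeff_map]
  rfl

end univ

end Vale.Agent.P292.VF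
end

section

/-! # One very free conic: base point freeness is an open condition. -/

namespace Vale.Agent.P292.VF

open MvPolynomial Vale.Agent.P292

universe u v

variable {R : Type u} [CommRing R] [Algebra ℂ R] (𝒜 : ℕ → Submodule ℂ R)

/-- The part of degree `D` of the ideal generated by a curve. -/
noncomputable def degPart {A : Type v} [CommRing A] [Algebra ℂ A]
    (Φ : R →ₐ[ℂ] MvPolynomial (Fin 2) A) (D : ℕ) : Submodule A (MvPolynomial (Fin 2) A) :=
  Submodule.span A {y | ∃ k : ℕ, 0 < k ∧ ∃ r ∈ 𝒜 k, ∃ m : Fin 2 →₀ ℕ, m.degree + 2 * k = D ∧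
    y = monomial m 1 * Φ r}

/-- The ideal generated by a curve, as the span of products with monomials. -/
noncomputable def allPart {A : Type v} [CommRing A] [Algebra ℂ A]
    (Φ : R →ₐ[ℂ] MvPolynomial (Fin 2) A) : Submodule A (MvPolynomial (Fin 2) A) :=
  Submodule.span A {y | ∃ k : ℕ, 0 < k ∧ ∃ r ∈ 𝒜 k, ∃ m : Fin 2 →₀ ℕ, y = monomial m 1 * Φ r}

theorem mul_mem_allPart {A : Type v} [CommRing A] [Algebra ℂ A]
    (Φ : R →ₐ[ℂ] MvPolynomial (Fin 2) A) (a : MvPolynomial (Fin 2) A)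
    {y : MvPolynomial (Fin 2) A} (hy : y ∈ allPart 𝒜 Φ) : a * y ∈ allPart 𝒜 Φ := by
  classical
  induction hy using Submodule.span_induction with
  | mem y hy =>
    obtain ⟨k, hk, r, hr, m, rfl⟩ := hy
    rw [← support_sum_monomial_coeff a, Finset.sum_mul]
    refine sum_mem fun m' _ => ?_
    have h1 : monomial m' (coeff m' a) * (monomial m 1 * Φ r) =
        coeff m' a • (monomial (m' + m) (1 : A) * Φ r) := by
      rw [← mul_assoc, monomial_mul, mul_one, ← smul_mul_assoc, smul_monomial, smul_eq_mul,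
        mul_one]
    rw [h1]
    exact Submodule.smul_mem _ _ (Submodule.subset_span ⟨k, hk, r, hr, m' + m, rfl⟩)
  | zero => rw [mul_zero]; exact zero_mem _
  | add x y _ _ hx hy => rw [mul_add]; exact add_mem hx hy
  | smul c y _ hy => rw [mul_smul_comm]; exact Submodule.smul_mem _ _ hy

theorem mem_degPart {A : Type v} [CommRing A] [Algebra ℂ A]
    (Φ : R →ₐ[ℂ] MvPolynomial (Fin 2) A) (hΦ : ∀ k, ∀ r ∈ 𝒜 k, (Φ r).IsHomogeneous (2 * k))
    {D : ℕ} {y : MvPolynomial (Fin 2) A} (hy : y ∈ allPart 𝒜 Φ) (hyD : y.IsHomogeneous D) :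
    y ∈ degPart 𝒜 Φ D := by
  classical
  have h1 : Submodule.map (homogeneousComponent D) (allPart 𝒜 Φ) ≤ degPart 𝒜 Φ D := by
    rw [allPart, Submodule.map_span_le]
    rintro _ ⟨k, hk, r, hr, m, rfl⟩
    have h2 : (monomial m (1 : A) * Φ r).IsHomogeneous (m.degree + 2 * k) :=
      (isHomogeneous_monomial _ rfl).mul (hΦ k r hr)
    by_cases h : m.degree + 2 * k = D
    · rw [h] at h2
      rw [homogeneousComponent_of_mem h2, if_pos rfl]
      exact Submodule.subset_span ⟨k, hk, r, hr, m, h, rfl⟩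
    · rw [homogeneousComponent_of_mem h2, if_neg (Ne.symm h)]
      exact zero_mem _
  have h3 := h1 ⟨y, hy, rfl⟩
  rwa [homogeneousComponent_of_mem hyD, if_pos rfl] at h3

/-- The parts of large degree of the ideal of a base point free curve are everything. -/
theorem exists_degree (φ : R →ₐ[ℂ] MvPolynomial (Fin 2) ℂ)
    (hφ : ∀ k, ∀ r ∈ 𝒜 k, (φ r).IsHomogeneous (2 * k))
    (hb : ∀ a : Fin 2 → ℂ, a ≠ 0 → ∃ k, 0 < k ∧ ∃ r ∈ 𝒜 k, aeval a (φ r) ≠ 0) :
    ∃ D : ℕ, ∀ m : Fin 2 →₀ ℕ, m.degree = D → monomial m (1 : ℂ) ∈ degPart 𝒜 φ D := by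
  classical
  let I : Ideal (MvPolynomial (Fin 2) ℂ) :=
    Ideal.span {y | ∃ k : ℕ, 0 < k ∧ ∃ r ∈ 𝒜 k, y = φ r}
  have hI : ∀ y ∈ I, y ∈ allPart 𝒜 φ := by
    intro y hy
    induction hy using Submodule.span_induction with
    | mem y hy =>
      obtain ⟨k, hk, r, hr, rfl⟩ := hy
      refine Submodule.subset_span ⟨k, hk, r, hr, 0, ?_⟩
      rw [← C_apply, C_1, one_mul]
    | zero => exact zero_mem _
    | add x y _ _ hx hy => exact add_mem hx hy
    | smul c y _ hy => rw [smul_eq_mul]; exact mul_mem_allPart 𝒜 φ c hy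
  have hrad : ∀ i : Fin 2, (X i : MvPolynomial (Fin 2) ℂ) ∈ I.radical := by
    intro i
    refine mem_radical_of_forall I (X i) fun p hp => ?_
    by_contra hne
    obtain ⟨k, hk, r, hr, h1⟩ := hb (fun i => p (X i)) (fun h0 => hne (congrFun h0 i))
    have h2 : (aeval (fun i => p (X i)) : MvPolynomial (Fin 2) ℂ →ₐ[ℂ] ℂ) = p :=
      (aeval_unique p).symm
    rw [h2] at h1
    exact h1 (hp _ (Ideal.subset_span ⟨k, hk, r, hr, rfl⟩))
  obtain ⟨a, ha⟩ := hrad 0
  obtain ⟨b, hb'⟩ := hrad 1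
  refine ⟨a + b, fun m hm => mem_degPart 𝒜 φ hφ (hI _ ?_) (isHomogeneous_monomial _ hm)⟩
  have h1 : m 0 + m 1 = a + b := by
    rw [← hm, Finsupp.degree_eq_sum, Fin.sum_univ_two]
  have h2 : monomial m (1 : ℂ) = X 0 ^ (m 0) * X 1 ^ (m 1) := by
    rw [monomial_eq, C_1, one_mul, Finsupp.prod_fintype _ _ (fun i => pow_zero _),
      Fin.prod_univ_two]
  rw [h2]
  rcases le_or_gt a (m 0) with h | h
  · rw [← Nat.sub_add_cancel h, pow_add, mul_comm (X 0 ^ (m 0 - a)), mul_assoc]
    exact Ideal.mul_mem_right _ _ ha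
  · have h3 : b ≤ m 1 := by omega
    rw [← Nat.sub_add_cancel h3, pow_add, ← mul_assoc]
    exact Ideal.mul_mem_left _ _ hb'

/-- Base point freeness is an open condition. -/
theorem exists_bpf_open {A : Type v} [CommRing A] [Algebra ℂ A]
    (Φ : R →ₐ[ℂ] MvPolynomial (Fin 2) A) (hΦ : ∀ k, ∀ r ∈ 𝒜 k, (Φ r).IsHomogeneous (2 * k))
    (c₀ : A →ₐ[ℂ] ℂ)
    (hb : ∀ a : Fin 2 → ℂ, a ≠ 0 → ∃ k, 0 < k ∧ ∃ r ∈ 𝒜 k,
      aeval a (mapAlgHom c₀ (Φ r)) ≠ 0) :
    ∃ f : A, c₀ f ≠ 0 ∧ ∀ c : A →ₐ[ℂ] ℂ, c f ≠ 0 → ∀ a : Fin 2 → ℂ, a ≠ 0 →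
      ∃ k, 0 < k ∧ ∃ r ∈ 𝒜 k, aeval a (mapAlgHom c (Φ r)) ≠ 0 := by
  classical
  have hφ : ∀ k, ∀ r ∈ 𝒜 k, (((mapAlgHom c₀).comp Φ) r).IsHomogeneous (2 * k) := by
    intro k r hr
    rw [AlgHom.comp_apply, mapAlgHom_apply]
    exact (hΦ k r hr).map _
  obtain ⟨D, hD⟩ := exists_degree 𝒜 ((mapAlgHom c₀).comp Φ) hφ hb
  -- lifting from `ℂ` to `A`
  have hlift : ∀ y ∈ degPart 𝒜 ((mapAlgHom c₀).comp Φ) D, ∃ Y ∈ degPart 𝒜 Φ D,
      Y.IsHomogeneous D ∧ mapAlgHom c₀ Y = y := by
    intro y hy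
    induction hy using Submodule.span_induction with
    | mem y hy =>
      obtain ⟨k, hk, r, hr, m, hm, rfl⟩ := hy
      refine ⟨monomial m 1 * Φ r, Submodule.subset_span ⟨k, hk, r, hr, m, hm, rfl⟩, ?_, ?_⟩
      · rw [← hm]
        exact (isHomogeneous_monomial _ rfl).mul (hΦ k r hr)
      · rw [map_mul, AlgHom.comp_apply, mapAlgHom_apply, map_monomial, map_one]
    | zero => exact ⟨0, zero_mem _, isHomogeneous_zero _ _ _, map_zero _⟩
    | add x y _ _ hx hy =>
      obtain ⟨X', h1, h2, rfl⟩ := hx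
      obtain ⟨Y', h3, h4, rfl⟩ := hy
      exact ⟨X' + Y', add_mem h1 h3, h2.add h4, map_add _ _ _⟩
    | smul c y _ hy =>
      obtain ⟨Y', h3, h4, rfl⟩ := hy
      refine ⟨algebraMap ℂ A c • Y', Submodule.smul_mem _ _ h3, ?_, ?_⟩
      · rw [smul_eq_C_mul]
        have := (isHomogeneous_C (Fin 2) (algebraMap ℂ A c)).mul h4
        rwa [zero_add] at this
      · rw [algebraMap_smul, map_smul]
  let Q := MvPolynomial (Fin 2) A ⧸ degPart 𝒜 Φ D
  let e : Fin (D + 1) → MvPolynomial (Fin 2) A := fun j => monomial (ex j (D - j)) 1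
  let N : Submodule A Q := Submodule.span A (Set.range fun j => (degPart 𝒜 Φ D).mkQ (e j))
  have hN : N.FG := Submodule.fg_span (Set.finite_range _)
  have hNm : N ≤ RingHom.ker c₀ • N := by
    rw [Submodule.span_le]
    rintro _ ⟨j, rfl⟩
    have hj : (ex j (D - j)).degree = D := by
      rw [degree_ex]
      have := j.2
      omega
    obtain ⟨Y, hY, hYD, hYm⟩ := hlift _ (hD _ hj)
    have h1 : (degPart 𝒜 Φ D).mkQ (e j) = (degPart 𝒜 Φ D).mkQ (e j - Y) := by
      have hY0 : (degPart 𝒜 Φ D).mkQ Y = 0 := (Submodule.Quotient.mk_eq_zero _).2 hY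
      rw [map_sub, hY0, sub_zero]
    have h2 : (e j - Y).IsHomogeneous D :=
      (isHomogeneous_monomial _ hj).sub hYD
    have h3 : mapAlgHom c₀ (e j - Y) = 0 := by
      rw [map_sub, hYm, sub_eq_zero, mapAlgHom_apply, map_monomial, map_one]
    change (degPart 𝒜 Φ D).mkQ (e j) ∈ RingHom.ker c₀ • N
    rw [h1, form_eq_sum h2, map_sum]
    refine sum_mem fun i _ => ?_
    have h4 : monomial (ex i (D - i)) (coeff (ex i (D - i)) (e j - Y)) =
        coeff (ex i (D - i)) (e j - Y) • e i := by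
      rw [smul_monomial, smul_eq_mul, mul_one]
    rw [h4, map_smul]
    refine Submodule.smul_mem_smul ?_ (Submodule.subset_span ⟨i, rfl⟩)
    rw [RingHom.mem_ker]
    have h5 := congrArg (coeff (ex i (D - i))) h3
    rw [mapAlgHom_apply, coeff_map, coeff_zero] at h5
    exact h5
  obtain ⟨f, hf1, hf2⟩ := Submodule.exists_sub_one_mem_and_smul_eq_zero_of_fg_of_le_smul _ N hN hNm
  refine ⟨f, ?_, fun c hc a ha => ?_⟩
  · rw [RingHom.mem_ker, map_sub, map_one, sub_eq_zero] at hf1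
    rw [hf1]
    exact one_ne_zero
  · by_contra hcon
    push Not at hcon
    have h1 : ∀ y ∈ degPart 𝒜 Φ D, aeval a (mapAlgHom c y) = 0 := by
      intro y hy
      induction hy using Submodule.span_induction with
      | mem y hy =>
        obtain ⟨k, hk, r, hr, m, hm, rfl⟩ := hy
        rw [map_mul, map_mul, hcon k hk r hr, mul_zero]
      | zero => rw [map_zero, map_zero]
      | add x y _ _ hx hy => rw [map_add, map_add, hx, hy, add_zero]
      | smul b y _ hy =>
        rw [smul_eq_C_mul, map_mul, map_mul, hy, mul_zero]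
    have h2 : ∀ j : Fin (D + 1), f • e j ∈ degPart 𝒜 Φ D := by
      intro j
      rw [← Submodule.Quotient.mk_eq_zero, Submodule.Quotient.mk_smul]
      exact hf2 _ (Submodule.subset_span ⟨j, rfl⟩)
    have h3 : ∀ j : Fin (D + 1), a 0 ^ (j : ℕ) * a 1 ^ (D - j) = 0 := by
      intro j
      have h4 := h1 _ (h2 j)
      rw [smul_eq_C_mul, map_mul, map_mul, mapAlgHom_apply, map_C, aeval_C,
        mapAlgHom_apply, map_monomial, aeval_monomial] at h4
      rw [mul_eq_zero] at h4
      rcases h4 with h4 | h4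
      · exact absurd h4 hc
      · rw [Finsupp.prod_fintype _ _ (fun i => pow_zero _), Fin.prod_univ_two] at h4
        simpa [ex] using h4
    have h5 := h3 ⟨0, by omega⟩
    have h6 := h3 ⟨D, by omega⟩
    simp only [pow_zero, Nat.sub_zero, one_mul, Nat.sub_self, mul_one] at h5 h6
    apply ha
    ext i
    fin_cases i
    · exact eq_zero_of_pow_eq_zero h6
    · exact eq_zero_of_pow_eq_zero h5

end Vale.Agent.P292.VF
end

section

/-! # One very free conic: from infinitesimal to actual conics. -/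

namespace Vale.Agent.P292.VF

open MvPolynomial TensorProduct Vale.Agent.P292

universe u v

variable {R : Type u} [CommRing R] [Algebra ℂ R] {𝒜 : ℕ → Submodule ℂ R} [GradedAlgebra 𝒜]
  {P : R →ₗ[ℂ] R →ₗ[ℂ] R}

/-- The end point of a curve with values in an arbitrary algebra. -/
noncomputable def endPt {A : Type v} [CommRing A] [Algebra ℂ A]
    (Φ : R →ₐ[ℂ] MvPolynomial (Fin 2) A) (a : Fin 2 → A) : R →ₐ[ℂ] A :=
  ((aeval a : MvPolynomial (Fin 2) A →ₐ[A] A).restrictScalars ℂ).comp Φ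

theorem endPt_apply {A : Type v} [CommRing A] [Algebra ℂ A]
    (Φ : R →ₐ[ℂ] MvPolynomial (Fin 2) A) (a : Fin 2 → A) (r : R) :
    endPt Φ a r = aeval a (Φ r) := rfl

/-- If every nonzero element of `R ⊗ R` is nonzero at the end points of some infinitesimal
deformation of `φ₀`, then two general points are joined by a conic. -/
theorem isConicConnected_of_artin (hX : IsContactFano 𝒜 P)
    {φ₀ : R →ₐ[ℂ] MvPolynomial (Fin 2) ℂ} (h0 : IsCurve 𝒜 2 φ₀)
    (H : ∀ F : R ⊗[ℂ] R, F ≠ 0 → ∃ (A : Type u) (_ : CommRing A) (_ : Algebra ℂ A)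
      (ρ : A →ₐ[ℂ] ℂ) (Φ : R →ₐ[ℂ] MvPolynomial (Fin 2) A),
      (∃ n : ℕ, RingHom.ker ρ ^ n = ⊥) ∧ (∀ k, ∀ r ∈ 𝒜 k, (Φ r).IsHomogeneous (2 * k)) ∧
      (∀ r, MvPolynomial.map (ρ : A →+* ℂ) (Φ r) = φ₀ r) ∧
      Algebra.TensorProduct.lift (endPt Φ ![1, 0]) (endPt Φ ![0, 1])
        (fun _ _ => Commute.all _ _) F ≠ 0) : IsConicConnected 𝒜 := by
  classical
  have := hX.domain
  have := hX.finiteType
  have : IsDomain (R ⊗[ℂ] R) := isDomain_tensor
  have hftt : Algebra.FiniteType ℂ (R ⊗[ℂ] R) :=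
    Algebra.FiniteType.trans (S := R) inferInstance inferInstance
  -- generators
  obtain ⟨s, hs, hsd⟩ := exists_generators 𝒜 hX.connected
  let n := s.card
  let x : Fin n → R := fun i => (s.equivFin.symm i : R)
  have hxd : ∀ i, ∃ k, x i ∈ 𝒜 k := fun i => by
    obtain ⟨k, -, hk⟩ := hsd _ (s.equivFin.symm i).2
    exact ⟨k, hk⟩
  choose k hk using hxd
  have hrange : Set.range x = (s : Set R) := by
    ext r
    constructor
    · rintro ⟨i, rfl⟩
      exact (s.equivFin.symm i).2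
    · intro hr
      exact ⟨s.equivFin ⟨r, hr⟩, by simp [x]⟩
  have hsur : Function.Surjective (aeval x : MvPolynomial (Fin n) ℂ →ₐ[ℂ] R) := by
    rw [← AlgHom.range_eq_top, ← Algebra.adjoin_range_eq_range_aeval, hrange, hs]
  let Φu := univ x k hsur
  have hΦu : ∀ l, ∀ r ∈ 𝒜 l, (Φu r).IsHomogeneous (2 * l) := by
    refine isHomogeneous_of_generators 𝒜 Φu (s := Set.range x) (by rw [hrange, hs]) ?_
    rintro _ ⟨i, rfl⟩
    exact ⟨k i, hk i, univ_gen_homogeneous x k hsur i⟩
  let c₀ : UC x k →ₐ[ℂ] ℂ := uLift x k φ₀ (fun i => h0.degree _ _ (hk i))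
  have hc₀ : ∀ r, mapAlgHom c₀ (Φu r) = φ₀ r := fun r =>
    DFunLike.congr_fun (map_uLift_univ x k hsur φ₀ _) r
  obtain ⟨f, hf0, hf⟩ := exists_bpf_open 𝒜 Φu hΦu c₀ (fun a ha => by
    obtain ⟨l, hl, r, hr, h1⟩ := h0.bpf a ha
    exact ⟨l, hl, r, hr, by rwa [hc₀]⟩)
  -- the end points
  let g : R ⊗[ℂ] R →ₐ[ℂ] UC x k := Algebra.TensorProduct.lift (endPt Φu ![1, 0])
    (endPt Φu ![0, 1]) (fun _ _ => Commute.all _ _)
  let L := Localization.Away f
  let ι : UC x k →ₐ[ℂ] L := IsScalarTower.toAlgHom ℂ (UC x k) L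
  have hftU : Algebra.FiniteType ℂ (UC x k) :=
    Algebra.FiniteType.of_surjective (Ideal.Quotient.mkₐ ℂ (relIdeal x k))
      (Ideal.Quotient.mkₐ_surjective ℂ _)
  have hftL : Algebra.FiniteType ℂ L :=
    Algebra.FiniteType.trans (S := UC x k) hftU
      (IsLocalization.finiteType_of_monoid_fg (Submonoid.powers f) L)
  have hinj : Function.Injective (ι.comp g) := by
    rw [injective_iff_map_eq_zero]
    intro F hF
    by_contra hne
    obtain ⟨A, _, _, ρ, Φ, ⟨m, hm⟩, hΦ, hρ, hFne⟩ := H F hne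
    apply hFne
    let cA : UC x k →ₐ[ℂ] A := uLift x k Φ (fun i => hΦ _ _ (hk i))
    have hcA : ∀ r, mapAlgHom cA (Φu r) = Φ r := fun r =>
      DFunLike.congr_fun (map_uLift_univ x k hsur Φ _) r
    have hρc : ρ.comp cA = c₀ := comp_uLift x k ρ Φ _ φ₀ _ hρ
    have hunit : IsUnit (cA f) := by
      have h1 : ρ (cA f) ≠ 0 := by
        have := DFunLike.congr_fun hρc f
        rw [AlgHom.comp_apply] at this
        rwa [this]
      have h2 : IsNilpotent (cA f - algebraMap ℂ A (ρ (cA f))) := by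
        refine ⟨m, ?_⟩
        have h3 : cA f - algebraMap ℂ A (ρ (cA f)) ∈ RingHom.ker ρ := by
          rw [RingHom.mem_ker, map_sub, AlgHom.commutes, Algebra.algebraMap_self,
            RingHom.id_apply, sub_self]
        have h4 := Ideal.pow_mem_pow h3 m
        rwa [hm, Ideal.mem_bot] at h4
      have h5 : IsUnit (algebraMap ℂ A (ρ (cA f))) := (IsUnit.mk0 _ h1).map _
      have h6 := h2.isUnit_add_left_of_commute h5 (Commute.all _ _)
      rwa [add_sub_cancel] at h6
    let cL : L →+* A := IsLocalization.Away.lift f hunit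
    have hcL : ∀ a, cL (ι a) = cA a := fun a => IsLocalization.Away.lift_eq f hunit a
    have hend : ∀ F : R ⊗[ℂ] R, cA (g F) = Algebra.TensorProduct.lift (endPt Φ ![1, 0])
        (endPt Φ ![0, 1]) (fun _ _ => Commute.all _ _) F := by
      intro F
      have hpt : ∀ (a : Fin 2 → UC x k) (b : Fin 2 → A) (_ : ∀ i, cA (a i) = b i) (r : R),
          cA (endPt Φu a r) = endPt Φ b r := by
        intro a b hab r
        rw [endPt_apply, endPt_apply, ← hcA, mapAlgHom_apply, aeval_def, aeval_def, eval₂_map]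
        rw [show (cA (eval₂ (algebraMap (UC x k) (UC x k)) a (Φu r)) : A) =
          (cA : UC x k →+* A) (eval₂ (algebraMap (UC x k) (UC x k)) a (Φu r)) from rfl,
          hom_eval₂]
        congr 1
        exact funext hab
      have hab1 : ∀ i, cA ((![1, 0] : Fin 2 → UC x k) i) = (![1, 0] : Fin 2 → A) i := by
        intro i; fin_cases i <;> simp
      have hab2 : ∀ i, cA ((![0, 1] : Fin 2 → UC x k) i) = (![0, 1] : Fin 2 → A) i := by
        intro i; fin_cases i <;> simp
      induction F using TensorProduct.induction_on with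
      | zero => simp
      | tmul a b =>
        simp only [g, Algebra.TensorProduct.lift_tmul, map_mul]
        rw [hpt _ _ hab1, hpt _ _ hab2]
      | add x y hx hy => rw [map_add, map_add, hx, hy, map_add]
    rw [← hend, ← hcL]
    have : (ι (g F)) = 0 := hF
    rw [this, map_zero]
  obtain ⟨G, hG, hGl⟩ := exists_generic_lift (ι.comp g) hinj
  refine ⟨G, hG, fun p q hpq => ?_⟩
  obtain ⟨c', hc'⟩ := hGl _ hpq
  let c : UC x k →ₐ[ℂ] ℂ := c'.comp ι
  have hcf : c f ≠ 0 := by
    have h1 : IsUnit (ι f) := IsLocalization.map_units L (⟨f, 1, pow_one f⟩ : Submonoid.powers f)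
    exact (h1.map c').ne_zero
  have hpt : ∀ (a : Fin 2 → UC x k) (b : Fin 2 → ℂ) (_ : ∀ i, c (a i) = b i) (r : R),
      aeval b (mapAlgHom c (Φu r)) = c (endPt Φu a r) := by
    intro a b hab r
    rw [endPt_apply, mapAlgHom_apply, aeval_def, aeval_def, eval₂_map]
    rw [show (c (eval₂ (algebraMap (UC x k) (UC x k)) a (Φu r)) : ℂ) =
      (c : UC x k →+* ℂ) (eval₂ (algebraMap (UC x k) (UC x k)) a (Φu r)) from rfl, hom_eval₂]
    congr 1
    exact (funext hab).symm
  have hab1 : ∀ i, c ((![1, 0] : Fin 2 → UC x k) i) = (![1, 0] : Fin 2 → ℂ) i := by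
    intro i; fin_cases i <;> simp
  have hab2 : ∀ i, c ((![0, 1] : Fin 2 → UC x k) i) = (![0, 1] : Fin 2 → ℂ) i := by
    intro i; fin_cases i <;> simp
  refine ⟨(mapAlgHom c).comp Φu, ⟨fun l r hr => ?_, fun a ha => hf c hcf a ha⟩, ?_, ?_⟩
  · rw [AlgHom.comp_apply, mapAlgHom_apply]
    exact (hΦu l r hr).map _
  · ext1 r
    change aeval ![1, 0] (mapAlgHom c (Φu r)) = p r
    rw [hpt _ _ hab1]
    change c' (ι (endPt Φu ![1, 0] r)) = p r
    have h1 := DFunLike.congr_fun hc' (r ⊗ₜ[ℂ] (1 : R))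
    simpa [g] using h1
  · ext1 r
    change aeval ![0, 1] (mapAlgHom c (Φu r)) = q r
    rw [hpt _ _ hab2]
    change c' (ι (endPt Φu ![0, 1] r)) = q r
    have h1 := DFunLike.congr_fun hc' ((1 : R) ⊗ₜ[ℂ] r)
    simpa [g] using h1

end Vale.Agent.P292.VF
end

section

/-! # Very free conics: two general points are joined by a conic. -/

namespace Vale.Agent.P292.VF

open MvPolynomial
open scoped TensorProduct

universe u v w

variable {R : Type u} [CommRing R] [Algebra ℂ R] {𝒜 : ℕ → Submodule ℂ R}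
  {P : R →ₗ[ℂ] R →ₗ[ℂ] R}

theorem endPt_eq_endA {A : Type v} [CommRing A] [Algebra ℂ A]
    (Φ : R →ₐ[ℂ] MvPolynomial (Fin 2) A) (a : Fin 2 → ℂ) (a' : Fin 2 → A)
    (h : ∀ i, a' i = algebraMap ℂ A (a i)) : endPt Φ a' = endA Φ a := by
  have h1 : a' = fun i => algebraMap ℂ A (a i) := funext h
  subst h1
  rfl

theorem isConicConnected_of_split [GradedAlgebra 𝒜] (hX : IsContactFano 𝒜 P)
    {φ₀ : R →ₐ[ℂ] MvPolynomial (Fin 2) ℂ} (h0 : IsCurve 𝒜 2 φ₀) (hv : IsVeryFree 𝒜 φ₀)
    (hsplit : Split 𝒜 φ₀) : IsConicConnected 𝒜 := by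
  refine isConicConnected_of_artin hX h0 fun F hF => ?_
  obtain ⟨A, i1, i2, ρ, Φ, h1, h2, h3, h4⟩ := exists_artin hX h0 hv hsplit F hF
  refine ⟨A, i1, i2, ρ, Φ, h1, h2, h3, ?_⟩
  rw [endPt_eq_endA Φ ![1, 0] ![1, 0] (fun i => by fin_cases i <;> simp),
    endPt_eq_endA Φ ![0, 1] ![0, 1] (fun i => by fin_cases i <;> simp)]
  exact h4

end Vale.Agent.P292.VF
end

section

/-! # Very free conics: the derivations along the conic are free. -/

namespace Vale.Agent.P292.VF

open MvPolynomial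

open scoped Matrix

universe u

variable {R : Type u} [CommRing R] [Algebra ℂ R] {𝒜 : ℕ → Submodule ℂ R}
  {P : R →ₗ[ℂ] R →ₗ[ℂ] R} {φ₀ : R →ₐ[ℂ] MvPolynomial (Fin 2) ℂ}

/-- Comparison of the two notions of homogeneous derivations. -/
theorem HD.isHDer (hconn : ∀ r ∈ 𝒜 0, ∃ c : ℂ, r = algebraMap ℂ R c) {K : ℕ}
    {D : R →ₗ[ℂ] MvPolynomial (Fin 2) ℂ} (h : HD 𝒜 φ₀ K D) :
    IsHDer 𝒜 2 φ₀ ((K : ℤ) - 1) D where
  der := h.der
  homog k r hr m hm := by
    cases k with
    | zero =>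
      obtain ⟨c, rfl⟩ := hconn r hr
      rw [isDer_algebraMap h.der]
      exact isHomogeneous_zero _ _ _
    | succ k =>
      have h1 := h.deg k r hr
      have h2 : m = 2 * k + 1 + K := by push_cast at hm; omega
      rwa [h2]
  neg k hk r hr := by
    cases k with
    | zero =>
      obtain ⟨c, rfl⟩ := hconn r hr
      exact isDer_algebraMap h.der c
    | succ k => exfalso; push_cast at hk; omega

/-- A form of degree `2 M` is a combination of the `M`-th powers of the variables. -/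
theorem exists_split_form {M : ℕ} {f : MvPolynomial (Fin 2) ℂ} (hf : f.IsHomogeneous (M + M)) :
    ∃ g h : MvPolynomial (Fin 2) ℂ, g.IsHomogeneous M ∧ h.IsHomogeneous M ∧
      f = X 1 ^ M * g - X 0 ^ M * h := by
  classical
  refine ⟨∑ m ∈ f.support with M ≤ m 1, monomial (m - Finsupp.single 1 M) (coeff m f),
    ∑ m ∈ f.support with ¬ M ≤ m 1, monomial (m - Finsupp.single 0 M) (-coeff m f), ?_, ?_, ?_⟩
  · refine IsHomogeneous.sum _ _ _ fun m hm => isHomogeneous_monomial _ ?_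
    rw [Finset.mem_filter] at hm
    have h1 : m.degree = M + M := by
      have := hf (mem_support_iff.1 hm.1)
      rwa [Finsupp.degree_eq_weight_one]
    have h2 : m 0 + m 1 = M + M := by
      rw [← h1, Finsupp.degree_eq_sum, Fin.sum_univ_two]
    rw [Finsupp.degree_eq_sum, Fin.sum_univ_two]
    simp
    omega
  · refine IsHomogeneous.sum _ _ _ fun m hm => isHomogeneous_monomial _ ?_
    rw [Finset.mem_filter] at hm
    have h1 : m.degree = M + M := by
      have := hf (mem_support_iff.1 hm.1)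
      rwa [Finsupp.degree_eq_weight_one]
    have h2 : m 0 + m 1 = M + M := by
      rw [← h1, Finsupp.degree_eq_sum, Fin.sum_univ_two]
    rw [Finsupp.degree_eq_sum, Fin.sum_univ_two]
    simp
    omega
  · conv_lhs => rw [← support_sum_monomial_coeff f,
      ← Finset.sum_filter_add_sum_filter_not f.support (fun m => M ≤ m 1)]
    rw [Finset.mul_sum, Finset.mul_sum, sub_eq_add_neg, ← Finset.sum_neg_distrib]
    congr 1
    · refine Finset.sum_congr rfl fun m hm => ?_
      rw [Finset.mem_filter] at hm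
      rw [X_pow_eq_monomial, monomial_mul, one_mul]
      congr 1
      rw [add_tsub_cancel_of_le]
      intro i
      by_cases hi : i = 1
      · subst hi; simpa using hm.2
      · simp [Ne.symm hi]
    · refine Finset.sum_congr rfl fun m hm => ?_
      rw [Finset.mem_filter] at hm
      have h1 : m.degree = M + M := by
        have := hf (mem_support_iff.1 hm.1)
        rwa [Finsupp.degree_eq_weight_one]
      have h2 : m 0 + m 1 = M + M := by
        rw [← h1, Finsupp.degree_eq_sum, Fin.sum_univ_two]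
      rw [X_pow_eq_monomial, monomial_mul, one_mul, ← map_neg, neg_neg]
      congr 1
      rw [add_tsub_cancel_of_le]
      intro i
      by_cases hi : i = 0
      · subst hi; simp; omega
      · simp [Ne.symm hi]

/-- The value of a derivation along the curve at a point. -/
theorem isDer_evL {D : R →ₗ[ℂ] MvPolynomial (Fin 2) ℂ} (h : IsDer φ₀ D) (a : Fin 2 → ℂ) :
    IsDer (pt φ₀ a) (evL a D) := by
  intro r s
  rw [evL_apply, evL_apply, evL_apply, h, map_add, map_mul, map_mul, pt_apply, pt_apply]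

/-- A polynomial which vanishes outside the origin is zero. -/
theorem eq_zero_of_eval {p : MvPolynomial (Fin 2) ℂ} (h : ∀ a : Fin 2 → ℂ, a ≠ 0 → eval a p = 0) :
    p = 0 := by
  have h1 : X 0 * p = 0 := by
    refine MvPolynomial.funext fun a => ?_
    rw [map_zero, map_mul, eval_X]
    by_cases ha : a = 0
    · rw [ha, Pi.zero_apply, zero_mul]
    · rw [h a ha, mul_zero]
  exact (mul_eq_zero.1 h1).resolve_left (X_ne_zero 0)

variable [GradedAlgebra 𝒜]

/-- The derivations along a very free conic are free over the derivations of degree `-1`. -/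
theorem exists_basis_of_isVeryFree (hX : IsContactFano 𝒜 P) (h0 : IsCurve 𝒜 2 φ₀)
    (hv : IsVeryFree 𝒜 φ₀) : ∃ (n : ℕ) (e : Fin n → R →ₗ[ℂ] MvPolynomial (Fin 2) ℂ),
      (∀ i, HD 𝒜 φ₀ 0 (e i)) ∧ ∀ (K : ℕ) (D : R →ₗ[ℂ] MvPolynomial (Fin 2) ℂ), HD 𝒜 φ₀ K D →
        ∃ f : Fin n → MvPolynomial (Fin 2) ℂ, (∀ i, (f i).IsHomogeneous K) ∧
          D = ∑ i, f i • e i := by
  classical
  let u₀ : Fin 2 → ℂ := ![1, 0]
  have hu₀ : u₀ ≠ 0 := by
    intro h
    have := congrFun h 0
    simp [u₀] at this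
  have hNV : ∀ a : Fin 2 → ℂ, a ≠ 0 → IsNV 𝒜 (pt φ₀ a) := fun a ha => c1_isNV_pt h0 a ha
  -- a basis of the tangent space
  have hfin : Module.Finite ℂ (DerAt (pt φ₀ u₀)) := by
    obtain ⟨N, r, hr⟩ := exists_ham_rep hX (hNV u₀ hu₀)
    have hle : (DerAt (pt φ₀ u₀)) ≤ Submodule.span ℂ (Set.range fun i => hamAt P (pt φ₀ u₀) (r i)) := by
      intro δ hδ
      obtain ⟨a, ha⟩ := hr δ hδ
      have : δ = ∑ i, a i • hamAt P (pt φ₀ u₀) (r i) := by
        ext s
        rw [ha s, LinearMap.sum_apply]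
        rfl
      rw [this]
      exact sum_mem fun i _ => Submodule.smul_mem _ _ (Submodule.subset_span ⟨i, rfl⟩)
    have hf2 : Module.Finite ℂ (Submodule.span ℂ
        (Set.range fun i => hamAt P (pt φ₀ u₀) (r i))) :=
      Module.Finite.span_of_finite ℂ (Set.finite_range _)
    exact Submodule.finiteDimensional_of_le hle
  let n := Module.finrank ℂ (DerAt (pt φ₀ u₀))
  let b : Module.Basis (Fin n) ℂ (DerAt (pt φ₀ u₀)) := Module.finBasis ℂ _
  have hrep : ∀ (d : R →ₗ[ℂ] ℂ) (hd : d ∈ DerAt (pt φ₀ u₀)),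
      d = ∑ j, b.repr ⟨d, hd⟩ j • (b j : R →ₗ[ℂ] ℂ) := by
    intro d hd
    have h1 := congrArg (DerAt (pt φ₀ u₀)).subtype (b.sum_repr ⟨d, hd⟩)
    rw [map_sum] at h1
    exact h1.symm
  have hsec : ∀ (a : Fin 2 → ℂ) (_ : a ≠ 0) (d : R →ₗ[ℂ] ℂ) (_ : IsDer (pt φ₀ a) d),
      ∃ D : R →ₗ[ℂ] MvPolynomial (Fin 2) ℂ, HD 𝒜 φ₀ 0 D ∧ evL a D = d := by
    intro a ha d hd
    obtain ⟨D, h1, h2, h3⟩ := hv a ha d hd
    refine ⟨D, ⟨h1, fun k r hr => h2 k r hr⟩, ?_⟩
    ext r
    rw [evL_apply, h3]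
  choose e he heb using fun i => hsec u₀ hu₀ (b i : R →ₗ[ℂ] ℂ) (b i).2
  have heH : ∀ i, IsHDer 𝒜 2 φ₀ (-1) (e i) := fun i => by
    have := (he i).isHDer hX.connected
    simpa using this
  -- the Gram matrix
  let c : Matrix (Fin n) (Fin n) ℂ := Matrix.of fun i j => om P (pt φ₀ u₀) (b i) (b j)
  have hconst : ∀ {η ζ : R →ₗ[ℂ] MvPolynomial (Fin 2) ℂ}, HD 𝒜 φ₀ 0 η → HD 𝒜 φ₀ 0 ζ →
      ∀ a : Fin 2 → ℂ, a ≠ 0 → om P (pt φ₀ a) (evL a η) (evL a ζ) =
        om P (pt φ₀ u₀) (evL u₀ η) (evL u₀ ζ) := by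
    intro η ζ hη hζ a ha
    have h1 : IsHDer 𝒜 2 φ₀ (-1) η := by simpa using hη.isHDer hX.connected
    have h2 : IsHDer 𝒜 2 φ₀ (-1) ζ := by simpa using hζ.isHDer hX.connected
    have h3 : (omC P φ₀ η ζ).IsHomogeneous 0 := omC_homog hX h0 h1 h2 (by norm_num)
    rw [omC_eval hX h0 h1 h2 a ha, omC_eval hX h0 h1 h2 u₀ hu₀]
    have h4 : omC P φ₀ η ζ = C (coeff 0 (omC P φ₀ η ζ)) :=
      totalDegree_eq_zero_iff_eq_C.1 ((totalDegree_zero_iff_isHomogeneous _).2 h3)
    rw [h4, eval_C, eval_C]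
  have hgram : ∀ i j (a : Fin 2 → ℂ), a ≠ 0 →
      om P (pt φ₀ a) (evL a (e i)) (evL a (e j)) = c i j := by
    intro i j a ha
    rw [hconst (he i) (he j) a ha, heb, heb]
    rfl
  have hbder : ∀ i, IsDer (pt φ₀ u₀) (b i : R →ₗ[ℂ] ℂ) := fun i => (b i).2
  have hsumL : ∀ (a : Fin 2 → ℂ) (_ : a ≠ 0) (s : Finset (Fin n)) (x : Fin n → ℂ)
      (δ : Fin n → R →ₗ[ℂ] ℂ) (_ : ∀ i, IsDer (pt φ₀ a) (δ i)) (δ' : R →ₗ[ℂ] ℂ)
      (_ : IsDer (pt φ₀ a) δ'), om P (pt φ₀ a) (∑ i ∈ s, x i • δ i) δ' =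
        ∑ i ∈ s, x i * om P (pt φ₀ a) (δ i) δ' := by
    intro a ha s x δ hδ δ' hδ'
    induction s using Finset.induction_on with
    | empty => rw [Finset.sum_empty, Finset.sum_empty, om_zero_left hX (hNV a ha) hδ']
    | insert i s hi ih =>
      rw [Finset.sum_insert hi, Finset.sum_insert hi, om_add_left hX (hNV a ha)
        ((DerAt (pt φ₀ a)).smul_mem _ (hδ i))
        ((DerAt (pt φ₀ a)).sum_mem fun j _ => (DerAt (pt φ₀ a)).smul_mem _ (hδ j)) hδ', ih,
        om_smul_left hX (hNV a ha) (hδ i) hδ']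
  have hcdet : IsUnit c.det := by
    rw [isUnit_iff_ne_zero]
    intro hdet
    obtain ⟨x, hx, hxc⟩ := Matrix.exists_vecMul_eq_zero_iff.mpr hdet
    apply hx
    have hzero : ∑ i, x i • (b i : R →ₗ[ℂ] ℂ) = 0 := by
      refine eq_zero_of_om hX (hNV u₀ hu₀)
        ((DerAt (pt φ₀ u₀)).sum_mem fun j _ => (DerAt (pt φ₀ u₀)).smul_mem _ (hbder j)) ?_
      intro δ' hδ'
      have h1 : δ' = ∑ j, b.repr ⟨δ', hδ'⟩ j • (b j : R →ₗ[ℂ] ℂ) := hrep δ' hδ'
      rw [om_antisymm hX (hNV u₀ hu₀)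
        ((DerAt (pt φ₀ u₀)).sum_mem fun j _ => (DerAt (pt φ₀ u₀)).smul_mem _ (hbder j)) hδ', h1,
        hsumL u₀ hu₀ _ _ _ hbder _
          ((DerAt (pt φ₀ u₀)).sum_mem fun j _ => (DerAt (pt φ₀ u₀)).smul_mem _ (hbder j)),
        neg_eq_zero]
      refine Finset.sum_eq_zero fun j _ => ?_
      have h2 : om P (pt φ₀ u₀) (b j) (∑ i, x i • (b i : R →ₗ[ℂ] ℂ)) = 0 := by
        rw [om_antisymm hX (hNV u₀ hu₀) (hbder j)
          ((DerAt (pt φ₀ u₀)).sum_mem fun j _ => (DerAt (pt φ₀ u₀)).smul_mem _ (hbder j)),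
          hsumL u₀ hu₀ _ _ _ hbder _ (hbder j), neg_eq_zero]
        exact congrFun hxc j
      rw [h2, mul_zero]
    have h3 : ∑ i, x i • b i = 0 := by
      apply Submodule.subtype_injective
      rw [map_sum, map_zero]
      exact hzero
    have h4 := Fintype.linearIndependent_iff.1 b.linearIndependent x h3
    exact funext h4
  -- the sections span everywhere
  have hspan : ∀ (a : Fin 2 → ℂ) (_ : a ≠ 0) (τ : R →ₗ[ℂ] ℂ) (_ : IsDer (pt φ₀ a) τ),
      ∃ x : Fin n → ℂ, τ = ∑ i, x i • evL a (e i) := by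
    intro a ha τ hτ
    obtain ⟨η, hη, hητ⟩ := hsec a ha τ hτ
    let x : Fin n → ℂ := fun i => b.repr ⟨evL u₀ η, isDer_evL hη.der u₀⟩ i
    have hx : evL u₀ η = ∑ i, x i • (b i : R →ₗ[ℂ] ℂ) := hrep _ _
    let xC : Fin n → MvPolynomial (Fin 2) ℂ := fun i => C (x i)
    let η' : R →ₗ[ℂ] MvPolynomial (Fin 2) ℂ := η - ∑ i, xC i • e i
    have hηs : HD 𝒜 φ₀ 0 (∑ i, xC i • e i) := by
      have : ∀ s : Finset (Fin n), HD 𝒜 φ₀ 0 (∑ i ∈ s, xC i • e i) := by
        intro s
        induction s using Finset.induction_on with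
        | empty => rw [Finset.sum_empty]; exact HD.zero
        | insert i s hi ih =>
          rw [Finset.sum_insert hi]
          exact ((he i).smul (isHomogeneous_C _ (x i))).add ih
      exact this _
    have hη' : HD 𝒜 φ₀ 0 η' := hη.sub hηs
    have hev : ∀ a : Fin 2 → ℂ, evL a η' = evL a η - ∑ i, x i • evL a (e i) := by
      intro a
      ext r
      simp only [η', xC, evL_apply, LinearMap.sub_apply, LinearMap.sum_apply,
        LinearMap.smul_apply, smul_eq_mul, map_sub, map_sum, map_mul, eval_C]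
    have hη'0 : evL u₀ η' = 0 := by
      rw [hev, hx, sub_eq_zero]
      exact Finset.sum_congr rfl fun i _ => by rw [heb]
    have hη'a : evL a η' = 0 := by
      refine eq_zero_of_om hX (hNV a ha) (isDer_evL hη'.der a) fun δ' hδ' => ?_
      obtain ⟨ζ, hζ, hζδ⟩ := hsec a ha δ' hδ'
      rw [← hζδ, hconst hη' hζ a ha, hη'0]
      exact om_zero_left hX (hNV u₀ hu₀) (isDer_evL hζ.der u₀)
    refine ⟨x, ?_⟩
    rw [← hητ]
    rw [hev, sub_eq_zero] at hη'a
    exact hη'a
  -- expansion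
  refine ⟨n, e, he, fun K D hD => ?_⟩
  have hDH := hD.isHDer hX.connected
  let h : Fin n → MvPolynomial (Fin 2) ℂ := fun j => omC P φ₀ D (e j)
  have hh : ∀ j, (h j).IsHomogeneous K := fun j =>
    omC_homog hX h0 hDH (heH j) (by push_cast; ring)
  let f : Fin n → MvPolynomial (Fin 2) ℂ := fun i => ∑ j, C (c⁻¹ j i) * h j
  have hf : ∀ i, (f i).IsHomogeneous K := fun i => by
    refine IsHomogeneous.sum _ _ _ fun j _ => ?_
    have := (isHomogeneous_C (Fin 2) (c⁻¹ j i)).mul (hh j)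
    rwa [zero_add] at this
  refine ⟨f, hf, ?_⟩
  rw [← sub_eq_zero]
  ext1 r
  rw [LinearMap.zero_apply]
  refine eq_zero_of_eval fun a ha => ?_
  have hev : evL a (D - ∑ i, f i • e i) = evL a D - ∑ i, eval a (f i) • evL a (e i) := by
    ext r
    simp only [evL_apply, LinearMap.sub_apply, LinearMap.sum_apply, LinearMap.smul_apply,
      smul_eq_mul, map_sub, map_sum, map_mul]
  have hder : IsDer (pt φ₀ a) (evL a D - ∑ i, eval a (f i) • evL a (e i)) :=
    (DerAt (pt φ₀ a)).sub_mem (isDer_evL hD.der a)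
      ((DerAt (pt φ₀ a)).sum_mem fun j _ => (DerAt (pt φ₀ a)).smul_mem _ (isDer_evL (he j).der a))
  have horth : ∀ j, om P (pt φ₀ a) (evL a D - ∑ i, eval a (f i) • evL a (e i))
      (evL a (e j)) = 0 := by
    intro j
    rw [om_sub_left hX (hNV a ha) (isDer_evL hD.der a)
      ((DerAt (pt φ₀ a)).sum_mem fun j _ => (DerAt (pt φ₀ a)).smul_mem _ (isDer_evL (he j).der a))
      (isDer_evL (he j).der a),
      hsumL a ha _ _ _ (fun i => isDer_evL (he i).der a) _ (isDer_evL (he j).der a),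
      omC_eval hX h0 hDH (heH j) a ha, sub_eq_zero]
    have h1 : ∀ i, eval a (f i) = ((fun l => eval a (h l)) ᵥ* c⁻¹) i := by
      intro i
      simp only [f, map_sum, map_mul, eval_C, Matrix.vecMul, dotProduct]
      exact Finset.sum_congr rfl fun l _ => mul_comm _ _
    calc eval a (omC P φ₀ D (e j)) = ((fun l => eval a (h l)) ᵥ* (c⁻¹ * c)) j := by
          rw [Matrix.nonsing_inv_mul _ hcdet, Matrix.vecMul_one]
      _ = (((fun l => eval a (h l)) ᵥ* c⁻¹) ᵥ* c) j := by rw [Matrix.vecMul_vecMul]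
      _ = _ := by
          simp only [Matrix.vecMul, dotProduct]
          refine Finset.sum_congr rfl fun i _ => ?_
          rw [hgram i j a ha]
          congr 1
          simp only [f, map_sum, map_mul, eval_C]
          exact Finset.sum_congr rfl fun l _ => mul_comm _ _
  have hzero : evL a D - ∑ i, eval a (f i) • evL a (e i) = 0 := by
    refine eq_zero_of_om hX (hNV a ha) hder fun δ' hδ' => ?_
    obtain ⟨x, hx⟩ := hspan a ha δ' hδ'
    rw [om_antisymm hX (hNV a ha) hder hδ', hx,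
      hsumL a ha _ _ _ (fun i => isDer_evL (he i).der a) _ hder, neg_eq_zero]
    refine Finset.sum_eq_zero fun i _ => ?_
    rw [om_antisymm hX (hNV a ha) (isDer_evL (he i).der a) hder, horth, neg_zero, mul_zero]
  rw [← hev] at hzero
  have := LinearMap.congr_fun hzero r
  rwa [evL_apply] at this

/-- In all degrees the derivations along a very free conic split. -/
theorem split_of_isVeryFree (hX : IsContactFano 𝒜 P) (h0 : IsCurve 𝒜 2 φ₀)
    (hv : IsVeryFree 𝒜 φ₀) : Split 𝒜 φ₀ := by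
  classical
  obtain ⟨n, e, he, hexp⟩ := exists_basis_of_isVeryFree hX h0 hv
  refine ⟨0, fun M _ D hD => ?_⟩
  obtain ⟨f, hf, hDf⟩ := hexp _ D hD
  choose g h hg hh hfgh using fun i => exists_split_form (hf i)
  have hsum : ∀ (k : Fin n → MvPolynomial (Fin 2) ℂ) (_ : ∀ i, (k i).IsHomogeneous M),
      HD 𝒜 φ₀ M (∑ i, k i • e i) := by
    intro k hk
    have : ∀ s : Finset (Fin n), HD 𝒜 φ₀ M (∑ i ∈ s, k i • e i) := by
      intro s
      induction s using Finset.induction_on with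
      | empty => rw [Finset.sum_empty]; exact HD.zero
      | insert i s hi ih =>
        rw [Finset.sum_insert hi]
        exact ((he i).smul (hk i)).add ih
    exact this _
  refine ⟨∑ i, g i • e i, ∑ i, h i • e i, hsum g hg, hsum h hh, ?_⟩
  rw [hDf, Finset.smul_sum, Finset.smul_sum, ← Finset.sum_sub_distrib]
  refine Finset.sum_congr rfl fun i _ => ?_
  rw [smul_smul, smul_smul, ← sub_smul, ← hfgh i]

end Vale.Agent.P292.VF
end

section

/-! # One very free conic suffices: a contact Fano manifold with a very free conic is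
conic-connected. -/

namespace Vale.Agent.P292.VF

universe u

variable {R : Type u} [CommRing R] [Algebra ℂ R] {𝒜 : ℕ → Submodule ℂ R}
  {P : R →ₗ[ℂ] R →ₗ[ℂ] R}

/-- **Block VF.** If a contact Fano manifold has one very free conic then two general points are
joined by a conic. -/
theorem isConicConnected_of_isVeryFree [GradedAlgebra 𝒜] (hX : IsContactFano 𝒜 P)
    {φ₀ : R →ₐ[ℂ] MvPolynomial (Fin 2) ℂ} (h0 : IsCurve 𝒜 2 φ₀) (hv : IsVeryFree 𝒜 φ₀) :
    IsConicConnected 𝒜 :=
  isConicConnected_of_split hX h0 hv (split_of_isVeryFree hX h0 hv)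

end Vale.Agent.P292.VF
end
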