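import Vale.Agent.P292.Bn.N15
import Vale.Agent.P292.Bn.N7
import Vale.Agent.P292.Bn.N6
import Vale.Agent.P292.Bdl.B7
import Vale.Agent.P292.Bn.N12
import Vale.Agent.P292.Bn.N14
import Vale.Agent.P292.Bn.N11
import Vale.Agent.P292.Bn.N10
import Vale.Agent.P292.Bn.N13
import Vale.Agent.P292.Bdl.B5
import Vale.Agent.P292.Bdl.B4
import Vale.Agent.P292.Bdl.B3
import Vale.Agent.P292.Bn.N9
import Vale.Agent.P292.Bn.N8
import Vale.Agent.P292.Bn.N3

set_option linter.all false

section

/-! # Q2 part I, block N2.1f: the conic over `K⟦q⟧`. -/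

namespace Vale.Agent.P292

open MvPolynomial Finset.HasAntidiagonal

universe u v w

variable {K : Type v} [Field K]

theorem ndf_one : ndForm 0 (1 : MvPowerSeries (Fin 2) K) = 1 := by
  classical
  have h2 : (PowerSeries.mk fun N => ∑ p ∈ antidiagonal N, if 0 + p.1 = 0 + p.2 then
      MvPowerSeries.coeff (Finsupp.single 0 p.1 + Finsupp.single 1 p.2)
        (1 : MvPowerSeries (Fin 2) K) else 0) = (1 : PowerSeries K) := by
    ext n
    rw [PowerSeries.coeff_mk, PowerSeries.coeff_one]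
    simp only [MvPowerSeries.coeff_one]
    split_ifs with hn
    · subst hn
      simp
    · refine Finset.sum_eq_zero fun p hp => ?_
      rw [Finset.HasAntidiagonal.mem_antidiagonal] at hp
      split_ifs with h3 h4
      · exfalso
        have h5 := DFunLike.congr_fun h4 0
        have h6 := DFunLike.congr_fun h4 1
        simp at h5 h6
        omega
      · rfl
      · rfl
  rw [ndForm, mul_zero, zero_add, Finset.sum_range_one, h2, Nat.sub_zero, Finsupp.single_zero,
    Finsupp.single_zero, add_zero]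
  rfl

variable {R : Type u} [CommRing R] [Algebra ℂ R] {𝒜 : ℕ → Submodule ℂ R} [Algebra ℂ K]

/-- N2.1f the conic over `K⟦q⟧` -/
theorem exists_ndHom [GradedAlgebra 𝒜] (Φ : R →ₐ[ℂ] MvPowerSeries (Fin 2) K)
    (h : ∀ k, ∀ r ∈ 𝒜 k, NdSupp k (Φ r)) :
    ∃ φ : R →ₐ[ℂ] MvPolynomial (Fin 2) (PowerSeries K), ∀ k, ∀ r ∈ 𝒜 k, φ r = ndForm k (Φ r) := by
  classical
  let F : ∀ k, 𝒜 k →ₗ[ℂ] MvPolynomial (Fin 2) (PowerSeries K) := fun k =>
    { toFun := fun r => ndForm k (Φ r)
      map_add' := fun r s => by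
        rw [ndForm, ndForm, ndForm, ← Finset.sum_add_distrib]
        refine Finset.sum_congr rfl fun i _ => ?_
        rw [← map_add]
        congr 1
        ext n
        rw [map_add, PowerSeries.coeff_mk, PowerSeries.coeff_mk, PowerSeries.coeff_mk,
          ← Finset.sum_add_distrib]
        refine Finset.sum_congr rfl fun p _ => ?_
        split_ifs
        · rw [Submodule.coe_add, map_add, map_add]
        · rw [add_zero]
      map_smul' := fun c r => by
        rw [ndForm, ndForm, RingHom.id_apply, Finset.smul_sum]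
        refine Finset.sum_congr rfl fun i _ => ?_
        rw [smul_monomial]
        congr 1
        ext n
        have h1 : ∀ g : PowerSeries K, PowerSeries.coeff n (c • g) = c • PowerSeries.coeff n g :=
          fun g => rfl
        rw [h1, PowerSeries.coeff_mk, PowerSeries.coeff_mk, Finset.smul_sum]
        refine Finset.sum_congr rfl fun p _ => ?_
        split_ifs
        · rw [Submodule.coe_smul, map_smul]
          rfl
        · rw [smul_zero] }
  have hF : ∀ k (r : 𝒜 k), F k r = ndForm k (Φ r) := fun _ _ => rfl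
  have hone : F 0 (GradedMonoid.GOne.one (A := fun i => 𝒜 i)) = 1 := by
    rw [hF]
    have h1 : (((GradedMonoid.GOne.one (A := fun i => 𝒜 i)) : 𝒜 0) : R) = 1 := rfl
    rw [h1, map_one, ndf_one]
  have hmul : ∀ {i j : ℕ} (ai : 𝒜 i) (aj : 𝒜 j),
      F (i + j) (GradedMonoid.GMul.mul (A := fun i => 𝒜 i) ai aj) = F i ai * F j aj := by
    intro i j ai aj
    rw [hF, hF, hF, ← ndForm_mul (h i _ ai.2) (h j _ aj.2), ← map_mul]
    rfl
  refine ⟨(DirectSum.toAlgebra ℂ (fun i => 𝒜 i) F hone hmul).comp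
      (DirectSum.decomposeAlgEquiv 𝒜).toAlgHom, fun k r hr => ?_⟩
  change DirectSum.toAlgebra ℂ (fun i => 𝒜 i) F hone hmul (DirectSum.decompose 𝒜 r) = _
  rw [DirectSum.decompose_of_mem 𝒜 hr]
  change DirectSum.toModule ℂ ℕ _ F (DirectSum.lof ℂ ℕ (fun i => 𝒜 i) k ⟨r, hr⟩) = _
  rw [DirectSum.toModule_lof, hF]

end Vale.Agent.P292
end

section

/-! # Block N, part 3: the Liouville form at a point, in terms of homogeneous elements. -/

namespace Vale.Agent.P292

open MvPolynomial TensorProduct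

universe u v w

variable {R : Type u} [CommRing R] [Algebra ℂ R] {𝒜 : ℕ → Submodule ℂ R} [GradedAlgebra 𝒜]
  {P : R →ₗ[ℂ] R →ₗ[ℂ] R}

/-- The Euler derivation is a combination of Hamiltonian ones. -/
theorem n3_exists0 (hX : IsContactFano 𝒜 P) {E : Type v} [Field E] [Algebra ℂ E]
    {ν : R →ₐ[ℂ] E} (hν : IsNV 𝒜 ν) :
    ∃ (N : ℕ) (x : Fin N → R) (d : Fin N → ℕ) (h : Fin N → R) (g : R), (∀ l, x l ∈ 𝒜 (d l)) ∧
      ν g ≠ 0 ∧ ∀ s, g * euler 𝒜 s = ∑ l, h l * P (x l) s := by
  obtain ⟨k, hk, r, hr, hrν⟩ := hν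
  obtain ⟨N, y, g, h, hF, hg⟩ := exists_frame_of_point hX ν hk hr hrν
  choose d hd using hF.homogeneous
  let D : Derivation ℂ R R := Derivation.mk' (euler 𝒜) (fun a b => by
    rw [euler_mul, smul_eq_mul, smul_eq_mul]; ring)
  have hD : ∀ s, D s = euler 𝒜 s := fun _ => rfl
  refine ⟨N, y, d, fun j => ∑ i, g * (brMat P y).adjugate i j * euler 𝒜 (y i),
    g * (brMat P y).det, hd, hg, fun s => ?_⟩
  have h1 := hF.det_smul_derivation hX D s
  rw [smul_eq_mul, hD] at h1
  rw [h1, Finset.sum_comm]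
  refine Finset.sum_congr rfl fun j _ => ?_
  rw [Finset.sum_mul]
  refine Finset.sum_congr rfl fun i _ => ?_
  rw [hD, smul_eq_mul]
  ring

/-- The Euler derivation is a combination of Hamiltonian ones, homogeneous version. -/
theorem n3_exists (hX : IsContactFano 𝒜 P) {E : Type v} [Field E] [Algebra ℂ E]
    {ν : R →ₐ[ℂ] E} (hν : IsNV 𝒜 ν) :
    ∃ (N G : ℕ) (x : Fin N → R) (d : Fin N → ℕ) (h : Fin N → R) (e : Fin N → ℕ) (g : R),
      (∀ l, x l ∈ 𝒜 (d l)) ∧ (∀ l, h l ∈ 𝒜 (e l)) ∧ (∀ l, e l + d l = G + 1) ∧ g ∈ 𝒜 G ∧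
      ν g ≠ 0 ∧ ∀ s, g * euler 𝒜 s = ∑ l, h l * P (x l) s := by
  classical
  obtain ⟨N, x, d, h, g, hx, hg, hid⟩ := n3_exists0 hX hν
  obtain ⟨G, hG⟩ : ∃ G, ν (DirectSum.decompose 𝒜 g G : R) ≠ 0 := by
    by_contra hcon
    push Not at hcon
    apply hg
    rw [← DirectSum.sum_support_decompose 𝒜 g, map_sum]
    exact Finset.sum_eq_zero fun k _ => hcon k
  refine ⟨N, G, fun l => if d l ≤ G + 1 then x l else 0, fun l => if d l ≤ G + 1 then d l else 0,
    fun l => if d l ≤ G + 1 then (DirectSum.decompose 𝒜 (h l) (G + 1 - d l) : R) else 0,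
    fun l => if d l ≤ G + 1 then G + 1 - d l else G + 1, (DirectSum.decompose 𝒜 g G : R),
    fun l => ?_, fun l => ?_, fun l => ?_, SetLike.coe_mem _, hG, fun s => ?_⟩
  · dsimp only
    split_ifs
    · exact hx l
    · exact Submodule.zero_mem _
  · dsimp only
    split_ifs
    · exact SetLike.coe_mem _
    · exact Submodule.zero_mem _
  · dsimp only
    split_ifs <;> omega
  · refine forall_of_homogeneous' (𝒜 := 𝒜)
      (LinearMap.mulLeft ℂ (DirectSum.decompose 𝒜 g G : R) ∘ₗ euler 𝒜)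
      (∑ l, LinearMap.mulLeft ℂ
        (if d l ≤ G + 1 then (DirectSum.decompose 𝒜 (h l) (G + 1 - d l) : R) else 0) ∘ₗ
        P (if d l ≤ G + 1 then x l else 0)) (fun k s hs => ?_) s |>.trans (by
          simp [LinearMap.sum_apply])
    simp only [LinearMap.comp_apply, LinearMap.mulLeft_apply, LinearMap.sum_apply]
    have h1 := congrArg (fun z : R => (DirectSum.decompose 𝒜 z (G + k) : R)) (hid s)
    dsimp only at h1
    rw [DirectSum.coe_decompose_mul_add_of_right_mem 𝒜 (by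
      rw [euler_apply k s hs]; exact Submodule.smul_mem _ _ hs), DirectSum.decompose_sum,
      DirectSum.sum_apply, AddSubmonoidClass.coe_finsetSum] at h1
    rw [h1]
    refine Finset.sum_congr rfl fun l _ => ?_
    rcases Nat.eq_zero_or_pos (d l + k) with h0 | h0
    · have hl : d l = 0 := by omega
      have hk : k = 0 := by omega
      obtain ⟨c, hc⟩ := hX.connected s (by rw [← hk]; exact hs)
      rw [hc, hX.P_algebraMap_right, hX.P_algebraMap_right, mul_zero, mul_zero,
        DirectSum.decompose_zero]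
      simp
    · have h2 : P (x l) s ∈ 𝒜 (d l + k - 1) := hX.degree (d l) k _ (by omega) _ (hx l) _ hs
      by_cases h3 : d l ≤ G + 1
      · rw [if_pos h3, if_pos h3]
        have h4 : G + k = (G + 1 - d l) + (d l + k - 1) := by omega
        rw [h4, DirectSum.coe_decompose_mul_add_of_right_mem 𝒜 h2]
      · rw [if_neg h3, if_neg h3, zero_mul]
        exact DirectSum.coe_decompose_mul_of_right_mem_of_not_le 𝒜 h2 (by omega)

/-- The differential of the Liouville form, in `R`. -/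
theorem n3_star (hX : IsContactFano 𝒜 P) {N : ℕ} {x h : Fin N → R} {g : R}
    (hid : ∀ s, g * euler 𝒜 s = ∑ l, h l * P (x l) s) (a b : R) :
    g * P a b = - euler 𝒜 a * P g b - euler 𝒜 b * P a g +
      ∑ l, (P (x l) a * P (h l) b + P (x l) b * P a (h l)) := by
  have h1 := hid (P a b)
  rw [zb5_euler_P hX] at h1
  have hl : ∀ u v t, P (u * v) t = u * P v t + v * P u t := by
    intro u v t
    rw [hX.skew (u * v) t, hX.leibniz, hX.skew t u, hX.skew t v]
    ring
  have h2 : P (g * euler 𝒜 a) b = ∑ l, (h l * P (P (x l) a) b + P (x l) a * P (h l) b) := by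
    rw [hid a, map_sum, LinearMap.sum_apply]
    exact Finset.sum_congr rfl fun l _ => hl _ _ _
  have h3 : P a (g * euler 𝒜 b) = ∑ l, (P a (h l) * P (x l) b + h l * P a (P (x l) b)) := by
    rw [hid b, map_sum]
    exact Finset.sum_congr rfl fun l _ => hX.leibniz _ _ _
  rw [hl] at h2
  rw [hX.leibniz] at h3
  have h4 : ∑ l, h l * P (x l) (P a b) =
      ∑ l, (h l * P (P (x l) a) b + h l * P a (P (x l) b)) :=
    Finset.sum_congr rfl fun l _ => by rw [hX.jacobi]; ring
  rw [h4] at h1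
  simp only [Finset.sum_add_distrib] at h1 h2 h3 ⊢
  have h5 : ∑ l, P (x l) b * P a (h l) = ∑ l, P a (h l) * P (x l) b :=
    Finset.sum_congr rfl fun l _ => mul_comm _ _
  rw [h5]
  linear_combination (-1 : R) * h1 + h2 + h3

/-- The differential of the Liouville form, at a point. -/
theorem n3_pair (hX : IsContactFano 𝒜 P) {E : Type v} [Field E] [Algebra ℂ E]
    {ν : R →ₐ[ℂ] E} (hν : IsNV 𝒜 ν) {N : ℕ} {x h : Fin N → R} {g : R}
    (hid : ∀ s, g * euler 𝒜 s = ∑ l, h l * P (x l) s) {δ₁ δ₂ : R →ₗ[ℂ] E}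
    (h1 : IsDer ν δ₁) (h2 : IsDer ν δ₂)
    (hE1 : om P ν δ₁ (ν.toLinearMap ∘ₗ euler 𝒜) = 0)
    (hE2 : om P ν δ₂ (ν.toLinearMap ∘ₗ euler 𝒜) = 0) :
    ν g * om P ν δ₁ δ₂ = ∑ l, (δ₁ (h l) * δ₂ (x l) - δ₂ (h l) * δ₁ (x l)) := by
  have hE : IsDer ν (ν.toLinearMap ∘ₗ euler 𝒜) := fun r s => by
    simp only [LinearMap.comp_apply, AlgHom.toLinearMap_apply, euler_mul, map_add, map_mul]
    ring
  obtain ⟨M, u, hu⟩ := exists_ham_rep hX hν
  obtain ⟨a, ha⟩ := hu δ₁ h1
  obtain ⟨b, hb⟩ := hu δ₂ h2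
  rw [om_eq hX hν hE ha] at hE1
  rw [om_eq hX hν hE hb] at hE2
  rw [om_eq hX hν h2 ha]
  simp only [LinearMap.comp_apply, AlgHom.toLinearMap_apply] at hE1 hE2
  have hs : ∀ (c : Fin M → E) (δ : R →ₗ[ℂ] E) (_ : ∀ s, δ s = ∑ i, c i * ν (P (u i) s)) (s : R),
      ∑ i, c i * ν (P s (u i)) = - δ s := by
    intro c δ hc s
    rw [hc, ← Finset.sum_neg_distrib]
    refine Finset.sum_congr rfl fun i _ => ?_
    rw [hX.skew s (u i), map_neg]
    ring
  have step1 : ∀ t, ν g * δ₂ t = - ν (euler 𝒜 t) * δ₂ g +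
      ∑ l, (ν (P (x l) t) * δ₂ (h l) - ν (P (h l) t) * δ₂ (x l)) := by
    intro t
    have e1 : ν g * δ₂ t = ∑ j, b j * (ν g * ν (P (u j) t)) := by
      rw [hb, Finset.mul_sum]
      exact Finset.sum_congr rfl fun j _ => by ring
    have e2 : ∀ j, ν g * ν (P (u j) t) = - ν (euler 𝒜 (u j)) * ν (P g t) -
        ν (euler 𝒜 t) * ν (P (u j) g) + ∑ l, (ν (P (x l) (u j)) * ν (P (h l) t) +
          ν (P (x l) t) * ν (P (u j) (h l))) := by
      intro j
      have := congrArg ν (n3_star hX hid (u j) t)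
      simpa only [map_add, map_sub, map_mul, map_neg, map_sum] using this
    rw [e1]
    simp only [e2, mul_add, mul_sub, Finset.sum_add_distrib, Finset.sum_sub_distrib,
      Finset.mul_sum]
    have e3 : ∑ j, b j * (- ν (euler 𝒜 (u j)) * ν (P g t)) = 0 := by
      rw [show (∑ j, b j * (- ν (euler 𝒜 (u j)) * ν (P g t))) =
        - (∑ j, b j * ν (euler 𝒜 (u j))) * ν (P g t) by
          rw [← Finset.sum_neg_distrib, Finset.sum_mul]
          exact Finset.sum_congr rfl fun j _ => by ring, hE2, neg_zero, zero_mul]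
    have e4 : ∑ j, b j * (ν (euler 𝒜 t) * ν (P (u j) g)) = ν (euler 𝒜 t) * δ₂ g := by
      rw [hb g, Finset.mul_sum]
      exact Finset.sum_congr rfl fun j _ => by ring
    have e5 : ∑ j, ∑ l, b j * (ν (P (x l) (u j)) * ν (P (h l) t)) =
        - ∑ l, ν (P (h l) t) * δ₂ (x l) := by
      rw [Finset.sum_comm, ← Finset.sum_neg_distrib]
      refine Finset.sum_congr rfl fun l _ => ?_
      have := hs b δ₂ hb (x l)
      rw [show (∑ j, b j * (ν (P (x l) (u j)) * ν (P (h l) t))) =
        (∑ j, b j * ν (P (x l) (u j))) * ν (P (h l) t) by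
          rw [Finset.sum_mul]; exact Finset.sum_congr rfl fun j _ => by ring, this]
      ring
    have e6 : ∑ j, ∑ l, b j * (ν (P (x l) t) * ν (P (u j) (h l))) =
        ∑ l, ν (P (x l) t) * δ₂ (h l) := by
      rw [Finset.sum_comm]
      refine Finset.sum_congr rfl fun l _ => ?_
      rw [hb (h l), Finset.mul_sum]
      exact Finset.sum_congr rfl fun j _ => by ring
    rw [e3, e4, e5, e6]
    ring
  have e1 : ν g * ∑ i, a i * δ₂ (u i) = ∑ i, a i * (ν g * δ₂ (u i)) := by
    rw [Finset.mul_sum]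
    exact Finset.sum_congr rfl fun j _ => by ring
  rw [e1]
  simp only [step1, mul_add, mul_sub, Finset.sum_add_distrib, Finset.sum_sub_distrib,
      Finset.mul_sum]
  have e3 : ∑ i, a i * (- ν (euler 𝒜 (u i)) * δ₂ g) = 0 := by
    rw [show (∑ j, a j * (- ν (euler 𝒜 (u j)) * δ₂ g)) =
      - (∑ j, a j * ν (euler 𝒜 (u j))) * δ₂ g by
        rw [← Finset.sum_neg_distrib, Finset.sum_mul]
        exact Finset.sum_congr rfl fun j _ => by ring, hE1, neg_zero, zero_mul]
  have e5 : ∑ i, ∑ l, a i * (ν (P (x l) (u i)) * δ₂ (h l)) = - ∑ l, δ₂ (h l) * δ₁ (x l) := by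
    rw [Finset.sum_comm, ← Finset.sum_neg_distrib]
    refine Finset.sum_congr rfl fun l _ => ?_
    rw [show (∑ j, a j * (ν (P (x l) (u j)) * δ₂ (h l))) =
      (∑ j, a j * ν (P (x l) (u j))) * δ₂ (h l) by
        rw [Finset.sum_mul]; exact Finset.sum_congr rfl fun j _ => by ring, hs a δ₁ ha (x l)]
    ring
  have e6 : ∑ i, ∑ l, a i * (ν (P (h l) (u i)) * δ₂ (x l)) = - ∑ l, δ₁ (h l) * δ₂ (x l) := by
    rw [Finset.sum_comm, ← Finset.sum_neg_distrib]
    refine Finset.sum_congr rfl fun l _ => ?_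
    rw [show (∑ j, a j * (ν (P (h l) (u j)) * δ₂ (x l))) =
      (∑ j, a j * ν (P (h l) (u j))) * δ₂ (x l) by
        rw [Finset.sum_mul]; exact Finset.sum_congr rfl fun j _ => by ring, hs a δ₁ ha (h l)]
    ring
  rw [e3, e5, e6]
  ring

end Vale.Agent.P292
end

section

/-! # Block N, part 3: the contact form of the smoothing does not vanish. -/

namespace Vale.Agent.P292

open MvPolynomial TensorProduct

universe u v w

section poly
variable {K : Type v} [Field K] [Algebra ℂ K]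

/-- The linear coefficient of the dehomogenisation. -/
theorem n3_nwDehom_one (p : MvPolynomial (Fin 2) K) :
    (nwDehom K 0 p).coeff 1 = eval ![1, 0] (pderiv 1 p) := by
  induction p using MvPolynomial.induction_on' with
  | monomial m c =>
    have h1 : nwDehom K 0 (monomial m c) = Polynomial.C c * Polynomial.X ^ (m 1) := by
      change MvPolynomial.aeval _ (monomial m c) = _
      rw [aeval_monomial, Finsupp.prod_fintype _ _ (fun i => by simp), Fin.prod_univ_two]
      simp [Polynomial.algebraMap_eq]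
    rw [h1, Polynomial.coeff_C_mul, Polynomial.coeff_X_pow, pderiv_monomial, eval_monomial,
      Finsupp.prod_fintype _ _ (fun i => by simp), Fin.prod_univ_two]
    rcases Nat.lt_trichotomy (m 1) 1 with h | h | h
    · have h0 : m 1 = 0 := by omega
      simp [h0]
    · simp [h]
    · have h2 : m 1 - 1 ≠ 0 := by omega
      have h3 : ¬ (1 = m 1) := by omega
      simp [h3, h2]
  | add p q hp hq => rw [map_add, Polynomial.coeff_add, hp, hq, map_add, map_add]

theorem n3_nwDehom_zero (p : MvPolynomial (Fin 2) K) :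
    (nwDehom K 0 p).coeff 0 = eval ![1, 0] p := by
  induction p using MvPolynomial.induction_on' with
  | monomial m c =>
    have h1 : nwDehom K 0 (monomial m c) = Polynomial.C c * Polynomial.X ^ (m 1) := by
      change MvPolynomial.aeval _ (monomial m c) = _
      rw [aeval_monomial, Finsupp.prod_fintype _ _ (fun i => by simp), Fin.prod_univ_two]
      simp [Polynomial.algebraMap_eq]
    rw [h1, Polynomial.coeff_C_mul, Polynomial.coeff_X_pow, eval_monomial,
      Finsupp.prod_fintype _ _ (fun i => by simp), Fin.prod_univ_two]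
    rcases Nat.eq_zero_or_pos (m 1) with h | h
    · simp [h]
    · have h3 : ¬ (0 = m 1) := by omega
      have h2 : m 1 ≠ 0 := by omega
      simp [h3, h2]
  | add p q hp hq => rw [map_add, Polynomial.coeff_add, hp, hq, map_add]

end poly

section series
variable {K : Type v} [Field K]

/-- `x ∂_x - z ∂_z` on power series. -/
noncomputable def n3Th (F : MvPowerSeries (Fin 2) K) : MvPowerSeries (Fin 2) K :=
  fun m => ((m 0 : K) - (m 1 : K)) * MvPowerSeries.coeff m F

theorem coeff_n3Th (F : MvPowerSeries (Fin 2) K) (m : Fin 2 →₀ ℕ) :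
    MvPowerSeries.coeff m (n3Th F) = ((m 0 : K) - (m 1 : K)) * MvPowerSeries.coeff m F := rfl

theorem ndSupp_n3Th {k : ℕ} {F : MvPowerSeries (Fin 2) K} (h : NdSupp k F) :
    NdSupp k (n3Th F) :=
  ⟨fun m hm => by rw [coeff_n3Th, h.1 m hm, mul_zero],
    fun m hm => by rw [coeff_n3Th, h.2 m hm, mul_zero]⟩

theorem n3_coeff_monomial_op {A : Type w} [CommRing A] (p : MvPolynomial (Fin 2) A)
    (m : Fin 2 →₀ ℕ) : coeff m (X 0 * pderiv 0 p - X 1 * pderiv 1 p) =
      ((m 0 : A) - (m 1 : A)) * coeff m p := by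
  have key : ∀ (i : Fin 2), coeff m (X i * pderiv i p) = (m i : A) * coeff m p := by
    intro i
    induction p using MvPolynomial.induction_on' with
    | monomial n c =>
      rw [pderiv_monomial, X, monomial_mul, one_mul]
      rcases Nat.eq_zero_or_pos (n i) with h | h
      · rw [h, Nat.cast_zero, mul_zero, monomial_zero, coeff_zero, coeff_monomial]
        split_ifs with h1
        · rw [← h1, h, Nat.cast_zero, zero_mul]
        · rw [mul_zero]
      · have h2 : Finsupp.single i 1 + (n - Finsupp.single i 1) = n := by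
          ext j
          rw [Finsupp.add_apply, Finsupp.tsub_apply, Finsupp.single_apply]
          split_ifs with h3
          · subst h3; omega
          · omega
        rw [h2, coeff_monomial, coeff_monomial]
        split_ifs with h1
        · rw [← h1, mul_comm]
        · rw [mul_zero]
    | add p q hp hq => rw [map_add, mul_add, coeff_add, hp, hq, coeff_add]; ring
  rw [coeff_sub, key, key]
  ring

theorem n3_ndForm_th (k : ℕ) (F : MvPowerSeries (Fin 2) K) :
    X 0 * pderiv 0 (ndForm k F) - X 1 * pderiv 1 (ndForm k F) = 2 * ndForm k (n3Th F) := by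
  have h2 : (2 : MvPolynomial (Fin 2) (PowerSeries K)) = C 2 := by
    rw [show (2 : PowerSeries K) = ((2 : ℕ) : PowerSeries K) by norm_num]
    rw [map_natCast]; norm_num
  ext m : 1
  rw [n3_coeff_monomial_op, h2, coeff_C_mul, ndForm, ndForm, coeff_sum, coeff_sum,
    Finset.mul_sum, Finset.mul_sum]
  refine Finset.sum_congr rfl fun i hi => ?_
  rw [Finset.mem_range] at hi
  rw [coeff_monomial, coeff_monomial]
  split_ifs with h
  · have hm0 : m 0 = i := by rw [← h]; simp
    have hm1 : m 1 = 2 * k - i := by rw [← h]; simp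
    ext N
    have e1 : ((m 0 : PowerSeries K) - (m 1 : PowerSeries K)) = PowerSeries.C ((m 0 : K) - (m 1 : K)) := by
      simp
    have e2 : (2 : PowerSeries K) = PowerSeries.C 2 := (map_ofNat PowerSeries.C 2).symm
    rw [e1, e2, PowerSeries.coeff_C_mul, PowerSeries.coeff_C_mul, PowerSeries.coeff_mk,
      PowerSeries.coeff_mk, Finset.mul_sum, Finset.mul_sum]
    refine Finset.sum_congr rfl fun p hp => ?_
    split_ifs with h3
    · rw [coeff_n3Th, hm0, hm1]
      have h4 : (i : K) - ((2 * k - i : ℕ) : K) = 2 * ((p.1 : K) - (p.2 : K)) := by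
        rw [Nat.cast_sub (by omega)]
        have h5 : (k : K) + (p.1 : K) = (i : K) + (p.2 : K) := by
          have := congrArg (Nat.cast : ℕ → K) h3
          push_cast at this
          exact this
        push_cast
        linear_combination 2 * (-h5)
      rw [h4]
      have h5 : ((Finsupp.single 0 p.1 + Finsupp.single 1 p.2 : Fin 2 →₀ ℕ) 0) = p.1 := by simp
      have h6 : ((Finsupp.single 0 p.1 + Finsupp.single 1 p.2 : Fin 2 →₀ ℕ) 1) = p.2 := by simp
      rw [h5, h6]
      ring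
    · rw [mul_zero, mul_zero]
  · rw [mul_zero, mul_zero]

theorem n3_ndForm_add (k : ℕ) (F G : MvPowerSeries (Fin 2) K) :
    ndForm k (F + G) = ndForm k F + ndForm k G := by
  rw [ndForm, ndForm, ndForm, ← Finset.sum_add_distrib]
  refine Finset.sum_congr rfl fun i _ => ?_
  rw [← map_add]
  congr 1
  ext N
  rw [map_add, PowerSeries.coeff_mk, PowerSeries.coeff_mk, PowerSeries.coeff_mk,
    ← Finset.sum_add_distrib]
  refine Finset.sum_congr rfl fun p _ => ?_
  split_ifs
  · rw [map_add]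
  · rw [add_zero]

theorem n3_ndForm_zero (k : ℕ) : ndForm k (0 : MvPowerSeries (Fin 2) K) = 0 := by
  have := n3_ndForm_add k (0 : MvPowerSeries (Fin 2) K) 0
  rw [add_zero] at this
  exact left_eq_add.mp this

theorem n3_ndForm_sum {ι : Type*} (s : Finset ι) (k : ℕ) (F : ι → MvPowerSeries (Fin 2) K) :
    ndForm k (∑ i ∈ s, F i) = ∑ i ∈ s, ndForm k (F i) := by
  classical
  induction s using Finset.induction_on with
  | empty => rw [Finset.sum_empty, Finset.sum_empty, n3_ndForm_zero]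
  | insert a s ha ih => rw [Finset.sum_insert ha, Finset.sum_insert ha, n3_ndForm_add, ih]

/-- The coefficient of `x z` in `F θ G`. -/
theorem n3_coeff_mul_th (F G : MvPowerSeries (Fin 2) K) :
    MvPowerSeries.coeff (Finsupp.single 0 1 + Finsupp.single 1 1) (F * n3Th G) =
      MvPowerSeries.coeff (Finsupp.single 1 1) F * MvPowerSeries.coeff (Finsupp.single 0 1) G -
      MvPowerSeries.coeff (Finsupp.single 0 1) F * MvPowerSeries.coeff (Finsupp.single 1 1) G := by
  classical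
  rw [MvPowerSeries.coeff_mul]
  have h : Finset.HasAntidiagonal.antidiagonal (Finsupp.single 0 1 + Finsupp.single 1 1 : Fin 2 →₀ ℕ) =
      {((0 : Fin 2 →₀ ℕ), (Finsupp.single 0 1 + Finsupp.single 1 1 : Fin 2 →₀ ℕ)),
        (Finsupp.single 0 1, Finsupp.single 1 1), (Finsupp.single 1 1, Finsupp.single 0 1),
        (Finsupp.single 0 1 + Finsupp.single 1 1, 0)} := by
    ext ⟨a, b⟩
    rw [Finset.HasAntidiagonal.mem_antidiagonal]
    simp only [Finset.mem_insert, Finset.mem_singleton, Prod.mk.injEq]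
    constructor
    · intro hab
      have h0 : a 0 + b 0 = 1 := by
        have := DFunLike.congr_fun hab 0
        simpa using this
      have h1 : a 1 + b 1 = 1 := by
        have := DFunLike.congr_fun hab 1
        simpa using this
      have hc : ∀ (f : Fin 2 →₀ ℕ), f = Finsupp.single 0 (f 0) + Finsupp.single 1 (f 1) := by
        intro f
        ext i
        fin_cases i <;> simp
      rcases Nat.eq_zero_or_pos (a 0) with ha0 | ha0 <;>
      rcases Nat.eq_zero_or_pos (a 1) with ha1 | ha1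
      · left
        have hb0 : b 0 = 1 := by omega
        have hb1 : b 1 = 1 := by omega
        exact ⟨by rw [hc a, ha0, ha1]; simp, by rw [hc b, hb0, hb1]⟩
      · right; right; left
        have ha1' : a 1 = 1 := by omega
        have hb0 : b 0 = 1 := by omega
        have hb1 : b 1 = 0 := by omega
        exact ⟨by rw [hc a, ha0, ha1']; simp, by rw [hc b, hb0, hb1]; simp⟩
      · right; left
        have ha0' : a 0 = 1 := by omega
        have hb0 : b 0 = 0 := by omega
        have hb1 : b 1 = 1 := by omega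
        exact ⟨by rw [hc a, ha0', ha1]; simp, by rw [hc b, hb0, hb1]; simp⟩
      · right; right; right
        have ha0' : a 0 = 1 := by omega
        have ha1' : a 1 = 1 := by omega
        have hb0 : b 0 = 0 := by omega
        have hb1 : b 1 = 0 := by omega
        exact ⟨by rw [hc a, ha0', ha1'], by rw [hc b, hb0, hb1]; simp⟩
    · rintro (⟨rfl, rfl⟩ | ⟨rfl, rfl⟩ | ⟨rfl, rfl⟩ | ⟨rfl, rfl⟩)
      · rw [zero_add]
      · rfl
      · rw [add_comm]
      · rw [add_zero]
  have d1 : (Finsupp.single 0 1 : Fin 2 →₀ ℕ) ≠ Finsupp.single 1 1 := fun h => by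
    have := DFunLike.congr_fun h 0
    simp at this
  have d2 : (Finsupp.single 0 1 + Finsupp.single 1 1 : Fin 2 →₀ ℕ) ≠ 0 := fun h => by
    have := DFunLike.congr_fun h 0
    simp at this
  have d3 : (Finsupp.single 0 1 : Fin 2 →₀ ℕ) ≠ 0 := fun h => by
    have := DFunLike.congr_fun h 0
    simp at this
  have d4 : (Finsupp.single 1 1 : Fin 2 →₀ ℕ) ≠ 0 := fun h => by
    have := DFunLike.congr_fun h 1
    simp at this
  have d5 : (Finsupp.single 0 1 + Finsupp.single 1 1 : Fin 2 →₀ ℕ) ≠ Finsupp.single 0 1 := fun h => by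
    have := DFunLike.congr_fun h 1
    simp at this
  have d6 : (Finsupp.single 0 1 + Finsupp.single 1 1 : Fin 2 →₀ ℕ) ≠ Finsupp.single 1 1 := fun h => by
    have := DFunLike.congr_fun h 0
    simp at this
  rw [h, Finset.sum_insert (by simp [d2.symm, d3.symm, d4.symm]),
    Finset.sum_insert (by simp [d1, d5.symm]), Finset.sum_insert (by simp [d6.symm]),
    Finset.sum_singleton]
  simp only [coeff_n3Th]
  simp
  ring

end series

section final
variable {R : Type u} [CommRing R] [Algebra ℂ R] {𝒜 : ℕ → Submodule ℂ R} [GradedAlgebra 𝒜]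
  {P : R →ₗ[ℂ] R →ₗ[ℂ] R}

/-- Lines are isotropic. -/
theorem n3_line (hX : IsContactFano 𝒜 P) {K : Type v} [Field K] [IsAlgClosed K] [Algebra ℂ K]
    {ψ : R →ₐ[ℂ] MvPolynomial (Fin 2) K} (h : IsCurve 𝒜 1 ψ) :
    om P (pt ψ ![1, 0]) (evL ![1, 0] (pd ψ 1)) ((pt ψ ![1, 0]).toLinearMap ∘ₗ euler 𝒜) = 0 := by
  have h0 : omC P ψ (pd ψ 1) (pd ψ 0) = 0 :=
    omC_eq_zero hX h (isHDer_pd h 1) (isHDer_pd h 0) (by norm_num)
  have h1 := omC_eval hX h (isHDer_pd h 1) (isHDer_pd h 0) ![1, 0] vec10_ne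
  rw [h0, map_zero] at h1
  have h2 : (evL ![1, 0] (pd ψ 0) : R →ₗ[ℂ] K) = (pt ψ ![1, 0]).toLinearMap ∘ₗ euler 𝒜 := by
    ext r
    rw [mm_evL_pd_zero h]
    simp
  rwa [h2] at h1

/-- A conic on which the contact form vanishes. -/
theorem n3_conic (hX : IsContactFano 𝒜 P) {Ω : Type w} [Field Ω] [IsAlgClosed Ω] [Algebra ℂ Ω]
    {φ : R →ₐ[ℂ] MvPolynomial (Fin 2) Ω} (hc : IsCurve 𝒜 2 φ)
    (hb : omC P φ (pd φ 0) (pd φ 1) = 0) {N : ℕ} {x h : Fin N → R} {g : R}
    (hid : ∀ s, g * euler 𝒜 s = ∑ l, h l * P (x l) s) :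
    ∑ l, φ (h l) * (X 0 * pderiv 0 (φ (x l)) - X 1 * pderiv 1 (φ (x l))) = 0 := by
  set j : MvPolynomial (Fin 2) Ω →ₐ[ℂ] FractionRing (MvPolynomial (Fin 2) Ω) :=
    IsScalarTower.toAlgHom ℂ (MvPolynomial (Fin 2) Ω) (FractionRing (MvPolynomial (Fin 2) Ω))
    with hj
  have hjinj : Function.Injective j :=
    IsFractionRing.injective (MvPolynomial (Fin 2) Ω) (FractionRing (MvPolynomial (Fin 2) Ω))
  have hnv : IsNV 𝒜 (j.comp φ) := c1_isNV_gen hc j hjinj
  have h0 := omC_frac hX hc (isHDer_pd hc 0).der (isHDer_pd hc 1).der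
  rw [hb, map_zero] at h0
  set δ₀ : R →ₗ[ℂ] FractionRing (MvPolynomial (Fin 2) Ω) := j.toLinearMap ∘ₗ pd φ 0 with hδ₀
  set δ₁ : R →ₗ[ℂ] FractionRing (MvPolynomial (Fin 2) Ω) := j.toLinearMap ∘ₗ pd φ 1 with hδ₁
  have hd0 : IsDer (j.comp φ) δ₀ := c1_isDer_comp (isHDer_pd hc 0).der j
  have hd1 : IsDer (j.comp φ) δ₁ := c1_isDer_comp (isHDer_pd hc 1).der j
  have hT : IsDer (j.comp φ) (j (X 0) • δ₀ - j (X 1) • δ₁) :=
    (DerAt (j.comp φ)).sub_mem ((DerAt (j.comp φ)).smul_mem _ hd0)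
      ((DerAt (j.comp φ)).smul_mem _ hd1)
  have hE : IsDer (j.comp φ) ((j.comp φ).toLinearMap ∘ₗ euler 𝒜) := fun r s => by
    simp only [LinearMap.comp_apply, AlgHom.toLinearMap_apply, euler_mul, map_add, map_mul]
    ring
  have hS : IsDer (j.comp φ) (j (X 0) • δ₀ + j (X 1) • δ₁) :=
    (DerAt (j.comp φ)).add_mem ((DerAt (j.comp φ)).smul_mem _ hd0)
      ((DerAt (j.comp φ)).smul_mem _ hd1)
  have hsum : (2 : FractionRing (MvPolynomial (Fin 2) Ω)) •
      ((j.comp φ).toLinearMap ∘ₗ euler 𝒜) = j (X 0) • δ₀ + j (X 1) • δ₁ := by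
    refine mm_ext (𝒜 := 𝒜) fun k r hr => ?_
    have h1 := congrArg j (hc.degree k r hr).sum_X_mul_pderiv
    rw [Fin.sum_univ_two, map_add, map_mul, map_mul] at h1
    simp only [LinearMap.smul_apply, LinearMap.add_apply, LinearMap.comp_apply,
      AlgHom.toLinearMap_apply, smul_eq_mul, hδ₀, hδ₁, pd_apply]
    rw [h1, euler_apply k r hr, map_smul, AlgHom.comp_apply, map_nsmul, nsmul_eq_mul,
      Algebra.smul_def]
    simp only [map_natCast]
    push_cast
    ring
  have h01 : om P (j.comp φ) δ₀ δ₁ = 0 := h0.symm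
  have h10 : om P (j.comp φ) δ₁ δ₀ = 0 := by rw [om_antisymm hX hnv hd1 hd0, h01, neg_zero]
  have hz : om P (j.comp φ) (j (X 0) • δ₀ + j (X 1) • δ₁) (j (X 0) • δ₀ - j (X 1) • δ₁) = 0 := by
    have s0 := (DerAt (j.comp φ)).smul_mem (j (X 0)) hd0
    have s1 := (DerAt (j.comp φ)).smul_mem (j (X 1)) hd1
    rw [om_add_left hX hnv s0 s1 hT, om_smul_left hX hnv hd0 hT, om_smul_left hX hnv hd1 hT,
      om_sub_right hX hnv hd0 s0 s1, om_sub_right hX hnv hd1 s0 s1,
      om_smul_right hX hnv hd0 hd0, om_smul_right hX hnv hd0 hd1, om_smul_right hX hnv hd1 hd0,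
      om_smul_right hX hnv hd1 hd1, om_self hX hnv hd0, om_self hX hnv hd1, h01, h10]
    ring
  rw [← hsum, om_smul_left hX hnv hE hT] at hz
  have hchar : CharZero (FractionRing (MvPolynomial (Fin 2) Ω)) :=
    charZero_of_injective_algebraMap
      (algebraMap ℂ (FractionRing (MvPolynomial (Fin 2) Ω))).injective
  have hz' := (mul_eq_zero.mp hz).resolve_left two_ne_zero
  have hrep : ∀ s, ((j.comp φ) g • ((j.comp φ).toLinearMap ∘ₗ euler 𝒜)) s =
      ∑ l, (j.comp φ) (h l) * (j.comp φ) (P (x l) s) := by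
    intro s
    have := congrArg (j.comp φ) (hid s)
    rw [map_mul, map_sum] at this
    simp only [LinearMap.smul_apply, LinearMap.comp_apply, AlgHom.toLinearMap_apply, smul_eq_mul]
    rw [this]
    exact Finset.sum_congr rfl fun l _ => map_mul _ _ _
  have h3 := om_eq hX hnv hT hrep
  rw [om_smul_left hX hnv hE hT, hz', mul_zero] at h3
  apply hjinj
  rw [map_zero, h3, map_sum]
  refine Finset.sum_congr rfl fun l _ => ?_
  rw [map_mul, map_sub, map_mul, map_mul]
  rfl

/-- N2.3: the contact form of the smoothing does not vanish. -/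
theorem nd_omC_ne' (hX : IsContactFano 𝒜 P) {K : Type v} [Field K] [IsAlgClosed K] [Algebra ℂ K]
    (hmul : ∀ (k l : ℕ) (F G : MvPowerSeries (Fin 2) K), NdSupp k F → NdSupp l G →
      ndForm (k + l) (F * G) = ndForm k F * ndForm l G)
    (hcoeff : ∀ (k : ℕ) (F : MvPowerSeries (Fin 2) K) (m : Fin 2 →₀ ℕ), m 0 ≤ m 1 + k →
      m 1 ≤ m 0 + k → PowerSeries.coeff (m 0 + m 1) (coeff (ndExp k m) (ndForm k F)) =
        MvPowerSeries.coeff m F)
    {ψ₁ ψ₂ : R →ₐ[ℂ] MvPolynomial (Fin 2) K}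
    (h₁ : IsCurve 𝒜 1 ψ₁) (h₂ : IsCurve 𝒜 1 ψ₂) (heq : pt ψ₁ ![1, 0] = pt ψ₂ ![1, 0])
    (hom : om P (pt ψ₁ ![1, 0]) (evL ![1, 0] (pd ψ₁ 1)) (evL ![1, 0] (pd ψ₂ 1)) ≠ 0)
    {Φ : R →ₐ[ℂ] MvPowerSeries (Fin 2) K} (h : ∀ k, ∀ r ∈ 𝒜 k, NdSupp k (Φ r))
    (hax1 : ∀ r i, MvPowerSeries.coeff (Finsupp.single 0 i) (Φ r) = (nwDehom K 0 (ψ₁ r)).coeff i)
    (hax2 : ∀ r i, MvPowerSeries.coeff (Finsupp.single 1 i) (Φ r) = (nwDehom K 0 (ψ₂ r)).coeff i)
    {φ : R →ₐ[ℂ] MvPolynomial (Fin 2) (PowerSeries K)} (hφ : ∀ k, ∀ r ∈ 𝒜 k, φ r = ndForm k (Φ r))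
    {Ω : Type w} [Field Ω] [IsAlgClosed Ω] [Algebra ℂ Ω] (ι : PowerSeries K →ₐ[ℂ] Ω)
    (hι : Function.Injective ι) (hc : IsCurve 𝒜 2 ((mapAlgHom ι).comp φ)) {b : Ω}
    (hb : omC P ((mapAlgHom ι).comp φ) (pd ((mapAlgHom ι).comp φ) 0)
      (pd ((mapAlgHom ι).comp φ) 1) = C b) : b ≠ 0 := by
  rintro rfl
  rw [map_zero] at hb
  have hν : IsNV 𝒜 (pt ψ₁ ![1, 0]) := c1_isNV_pt h₁ _ vec10_ne
  obtain ⟨N, G, x, d, a, e, g, hx, ha, hed, hgG, hg, hid⟩ := n3_exists hX hν
  have hd1 : IsDer (pt ψ₁ ![1, 0]) (evL ![1, 0] (pd ψ₁ 1)) := IsDer.evL (isHDer_pd h₁ 1).der ![1, 0]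
  have hd2 : IsDer (pt ψ₁ ![1, 0]) (evL ![1, 0] (pd ψ₂ 1)) := by
    rw [heq]; exact IsDer.evL (isHDer_pd h₂ 1).der ![1, 0]
  have hl2 := n3_line hX h₂
  rw [← heq] at hl2
  have hp := n3_pair hX hν hid hd1 hd2 (n3_line hX h₁) hl2
  have hz := n3_conic hX hc hb hid
  -- the relation over `K⟦q⟧`
  have hz1 : ∑ l, φ (a l) * (X 0 * pderiv 0 (φ (x l)) - X 1 * pderiv 1 (φ (x l))) = 0 := by
    apply _root_.MvPolynomial.map_injective (ι : PowerSeries K →+* Ω) hι
    rw [map_zero, ← hz, map_sum]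
    refine Finset.sum_congr rfl fun l _ => ?_
    rw [map_mul, map_sub, map_mul, map_mul, map_X, map_X, ← pderiv_map, ← pderiv_map]
    rfl
  have hz2 : ndForm (G + 1) (∑ l, Φ (a l) * n3Th (Φ (x l))) = 0 := by
    have h2 : (2 : MvPolynomial (Fin 2) (PowerSeries K)) * ndForm (G + 1)
        (∑ l, Φ (a l) * n3Th (Φ (x l))) = 0 := by
      rw [← hz1, n3_ndForm_sum, Finset.mul_sum]
      refine Finset.sum_congr rfl fun l _ => ?_
      rw [hφ _ _ (hx l), n3_ndForm_th, hφ _ _ (ha l), ← hed l,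
        hmul _ _ _ _ (h _ _ (ha l)) (ndSupp_n3Th (h _ _ (hx l)))]
      ring
    have hchar : CharZero K := charZero_of_injective_algebraMap (algebraMap ℂ K).injective
    have h3 : (2 : MvPolynomial (Fin 2) (PowerSeries K)) ≠ 0 := by
      have h4 : (2 : MvPolynomial (Fin 2) (PowerSeries K)) = C (PowerSeries.C 2) := by
        rw [map_ofNat, map_ofNat]
      rw [h4]
      intro h5
      rw [map_eq_zero_iff _ (C_injective _ _)] at h5
      have h6 := congrArg (PowerSeries.coeff 0) h5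
      rw [PowerSeries.coeff_zero_C, map_zero] at h6
      exact two_ne_zero h6
    exact (mul_eq_zero.mp h2).resolve_left h3
  have hz3 : MvPowerSeries.coeff (Finsupp.single 0 1 + Finsupp.single 1 1)
      (∑ l, Φ (a l) * n3Th (Φ (x l))) = 0 := by
    rw [← hcoeff (G + 1) _ _ (by simp) (by simp), hz2]
    simp
  rw [map_sum] at hz3
  apply hom
  have hv1 : ∀ r, MvPowerSeries.coeff (Finsupp.single 0 1) (Φ r) = evL ![1, 0] (pd ψ₁ 1) r :=
    fun r => by rw [hax1, n3_nwDehom_one, evL_apply, pd_apply]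
  have hv2 : ∀ r, MvPowerSeries.coeff (Finsupp.single 1 1) (Φ r) = evL ![1, 0] (pd ψ₂ 1) r :=
    fun r => by rw [hax2, n3_nwDehom_one, evL_apply, pd_apply]
  have hp' : (pt ψ₁ ![1, 0]) g * om P (pt ψ₁ ![1, 0]) (evL ![1, 0] (pd ψ₁ 1))
      (evL ![1, 0] (pd ψ₂ 1)) = 0 := by
    rw [hp, ← neg_eq_zero, ← Finset.sum_neg_distrib]
    refine Eq.trans (Finset.sum_congr rfl fun l _ => ?_) hz3
    rw [n3_coeff_mul_th, hv1, hv2, hv1, hv2]
    ring
  exact (mul_eq_zero.mp hp').resolve_left hg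

/-- N2.3 (note 9822): the contact form of the smoothing does not vanish. -/
theorem nd_omC_ne (hX : IsContactFano 𝒜 P) {K : Type v} [Field K] [IsAlgClosed K] [Algebra ℂ K]
    {ψ₁ ψ₂ : R →ₐ[ℂ] MvPolynomial (Fin 2) K}
    (h₁ : IsCurve 𝒜 1 ψ₁) (h₂ : IsCurve 𝒜 1 ψ₂) (heq : pt ψ₁ ![1, 0] = pt ψ₂ ![1, 0])
    (hom : om P (pt ψ₁ ![1, 0]) (evL ![1, 0] (pd ψ₁ 1)) (evL ![1, 0] (pd ψ₂ 1)) ≠ 0)
    {Φ : R →ₐ[ℂ] MvPowerSeries (Fin 2) K} (h : ∀ k, ∀ r ∈ 𝒜 k, NdSupp k (Φ r))
    (hax1 : ∀ r i, MvPowerSeries.coeff (Finsupp.single 0 i) (Φ r) = (nwDehom K 0 (ψ₁ r)).coeff i)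
    (hax2 : ∀ r i, MvPowerSeries.coeff (Finsupp.single 1 i) (Φ r) = (nwDehom K 0 (ψ₂ r)).coeff i)
    {φ : R →ₐ[ℂ] MvPolynomial (Fin 2) (PowerSeries K)} (hφ : ∀ k, ∀ r ∈ 𝒜 k, φ r = ndForm k (Φ r))
    {Ω : Type w} [Field Ω] [IsAlgClosed Ω] [Algebra ℂ Ω] (ι : PowerSeries K →ₐ[ℂ] Ω)
    (hι : Function.Injective ι) (hc : IsCurve 𝒜 2 ((mapAlgHom ι).comp φ)) {b : Ω}
    (hb : omC P ((mapAlgHom ι).comp φ) (pd ((mapAlgHom ι).comp φ) 0)
      (pd ((mapAlgHom ι).comp φ) 1) = C b) : b ≠ 0 :=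
  nd_omC_ne' hX (fun _ _ _ _ hF hG => ndForm_mul hF hG) (fun _ F m h0 h1 => coeff_ndForm F m h0 h1)
    h₁ h₂ heq hom h hax1 hax2 hφ ι hι hc hb

end final

end Vale.Agent.P292
end

section

/-! # Q2 part I, block N2.4: smoothing of two lines, final step. -/

namespace Vale.Agent.P292

open MvPolynomial

universe u v w

section
variable {R : Type u} [CommRing R] [Algebra ℂ R] {𝒜 : ℕ → Submodule ℂ R} [GradedAlgebra 𝒜]
  {P : R →ₗ[ℂ] R →ₗ[ℂ] R}

/-- N2.4a: the contact form of a reparametrised conic. -/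
theorem nd_reparam (hX : IsContactFano 𝒜 P) {K : Type v} [Field K] [IsAlgClosed K] [Algebra ℂ K]
    {φ ψ : R →ₐ[ℂ] MvPolynomial (Fin 2) K} (hφ : IsCurve 𝒜 2 φ) (hψ : IsCurve 𝒜 2 ψ)
    {a c : Fin 2 → K} (hac : a 0 * c 1 - a 1 * c 0 ≠ 0)
    (h : ∀ (r : R) (x : Fin 2 → K), eval x (ψ r) = eval (x 0 • a + x 1 • c) (φ r))
    {b : K} (hb : omC P φ (pd φ 0) (pd φ 1) = C b) (hb0 : b ≠ 0) :
    ∃ b', omC P ψ (pd ψ 0) (pd ψ 1) = C b' ∧ b' ≠ 0 := by
  refine ⟨_, n24_b_reparam hX hφ hψ a c ?_ h hb, mul_ne_zero hac hb0⟩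
  rintro rfl
  simp at hac

/-- The value of the smoothing at the node. -/
theorem n24_constantCoeff_ndForm {K : Type v} [Field K] (k : ℕ) (F : MvPowerSeries (Fin 2) K) :
    PowerSeries.constantCoeff (eval ![1, 1] (ndForm k F)) = MvPowerSeries.coeff 0 F := by
  rw [ndForm, map_sum, map_sum, Finset.sum_eq_single k]
  · rw [eval_monomial]
    simp [Fin.prod_univ_two, Finsupp.prod_fintype, ← PowerSeries.coeff_zero_eq_constantCoeff_apply]
  · intro i _ hik
    rw [eval_monomial]
    simp [Fin.prod_univ_two, Finsupp.prod_fintype, ← PowerSeries.coeff_zero_eq_constantCoeff_apply,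
      Ne.symm hik]
  · intro h
    exact absurd (Finset.mem_range.2 (by omega)) h

/-- N2.4: two lines through a generic point whose directions are not orthogonal can be smoothed
to a conic with nonzero contact form. -/
theorem exists_conic_of_lines (hX : IsContactFano 𝒜 P) {K : Type u} [Field K] [IsAlgClosed K]
    [Algebra ℂ K] {ψ₁ ψ₂ : R →ₐ[ℂ] MvPolynomial (Fin 2) K} (h₁ : IsAnch 𝒜 1 ψ₁)
    (h₂ : IsAnch 𝒜 1 ψ₂) (heq : pt ψ₁ ![1, 0] = pt ψ₂ ![1, 0])
    (hom : om P (pt ψ₁ ![1, 0]) (evL ![1, 0] (pd ψ₁ 1)) (evL ![1, 0] (pd ψ₂ 1)) ≠ 0) :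
    ∃ (Ω : Type u) (_ : Field Ω) (_ : IsAlgClosed Ω) (_ : Algebra ℂ Ω)
      (φ : R →ₐ[ℂ] MvPolynomial (Fin 2) Ω) (b : Ω), IsAnch 𝒜 2 φ ∧
      omC P φ (pd φ 0) (pd φ 1) = C b ∧ b ≠ 0 := by
  classical
  obtain ⟨Φ, hs1, hs2, hax1, hax2⟩ := exists_smoothing h₁.curve.degree h₂.curve.degree h₁.inj heq
  have h : ∀ k, ∀ r ∈ 𝒜 k, NdSupp k (Φ r) := fun k r hr => ⟨hs1 k r hr, hs2 k r hr⟩
  obtain ⟨φ, hφ⟩ := exists_ndHom Φ h
  let Ω := AlgebraicClosure (FractionRing (PowerSeries K))
  let ι₀ : PowerSeries K →ₐ[ℂ] FractionRing (PowerSeries K) := IsScalarTower.toAlgHom ℂ _ _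
  let ι₁ : FractionRing (PowerSeries K) →ₐ[ℂ] Ω := IsScalarTower.toAlgHom ℂ _ _
  let ι : PowerSeries K →ₐ[ℂ] Ω := ι₁.comp ι₀
  have hι : Function.Injective ι :=
    (algebraMap (FractionRing (PowerSeries K)) Ω).injective.comp
      (IsFractionRing.injective (PowerSeries K) (FractionRing (PowerSeries K)))
  have : (Ideal.span {(PowerSeries.X : PowerSeries K)}).IsPrime := PowerSeries.span_X_isPrime
  obtain ⟨O, hO⟩ := exists_valuationSubring_prime (ι : PowerSeries K →+* Ω) hι
    (Ideal.span {(PowerSeries.X : PowerSeries K)})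
  have hc : IsCurve 𝒜 2 ((mapAlgHom ι).comp φ) :=
    nd_isCurve h₁.curve h₂.curve hax1 hax2 hφ ι hι O (fun a => (hO a).1)
      ((hO _).2.1 (Ideal.mem_span_singleton_self _))
  obtain ⟨b, hb⟩ := exists_b hX hc
  have hb0 := nd_omC_ne hX h₁.curve h₂.curve heq hom h hax1 hax2 hφ ι hι hc hb
  obtain ⟨ψ, hψ, hev, h10, h01⟩ := exists_reparam hc ![1, 1] ![0, 1] (by simp)
  obtain ⟨b', hb', hb0'⟩ := nd_reparam hX hc hψ (by simp) hev hb hb0
  refine ⟨Ω, inferInstance, inferInstance, inferInstance, ψ, b', ⟨hψ, ?_⟩, hb', hb0'⟩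
  rw [h10]
  -- the point reduces to the node
  let Z : R →ₐ[ℂ] PowerSeries K :=
    ((aeval (![1, 1] : Fin 2 → PowerSeries K) : MvPolynomial (Fin 2) (PowerSeries K) →ₐ[PowerSeries K]
      PowerSeries K).restrictScalars ℂ).comp φ
  have hZ : ∀ r, pt ((mapAlgHom ι).comp φ) ![1, 1] r = ι (Z r) := by
    intro r
    have e1 : (![1, 1] : Fin 2 → Ω) = fun i => ι ((![1, 1] : Fin 2 → PowerSeries K) i) := by
      ext i
      fin_cases i <;> simp
    rw [pt_apply, e1]
    change eval _ (MvPolynomial.map (ι : PowerSeries K →+* Ω) (φ r)) = _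
    change eval ((ι : PowerSeries K →+* Ω) ∘ _) _ = _
    rw [← MvPolynomial.map_eval]
    change ι _ = ι (aeval _ (φ r))
    rw [aeval_eq_eval]
  have hZ0 : ∀ r, PowerSeries.constantCoeff (Z r) = pt ψ₁ ![1, 0] r := by
    intro r
    induction r using DirectSum.Decomposition.inductionOn 𝒜 with
    | zero => simp
    | homogeneous r =>
      rename_i k
      have e2 : Z (r : R) = eval ![1, 1] (ndForm k (Φ r)) := by
        change aeval _ (φ (r : R)) = _
        rw [hφ k _ r.2, aeval_eq_eval]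
      rw [e2, n24_constantCoeff_ndForm]
      have e3 := hax1 (r : R) 0
      rw [Finsupp.single_zero] at e3
      rw [e3, pt_apply, nw_eval_one_zero]
    | add x y hx hy => rw [map_add, map_add, hx, hy, map_add]
  intro x y hxy
  rw [hZ, hZ] at hxy
  apply h₁.inj
  rw [← hZ0, ← hZ0, hι hxy]

end

end Vale.Agent.P292
end

section

/-! # Part I: an anchored curve of degree at most two gives conic connectedness. -/

namespace Vale.Agent.P292

open MvPolynomial TensorProduct

universe u v w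

variable {R : Type u} [CommRing R] [Algebra ℂ R] {𝒜 : ℕ → Submodule ℂ R} [GradedAlgebra 𝒜]
  {P : R →ₗ[ℂ] R →ₗ[ℂ] R}

/-- Part I for Picard number one. -/
theorem isConicConnected_of_anch_pic (hX : IsContactFano 𝒜 P) [IsDomain R]
    (hpic : IsPicardOne 𝒜) {d : ℕ} (hd0 : 0 < d) (hd : d ≤ 2)
    {K : Type u} [Field K] [IsAlgClosed K] [Algebra ℂ K]
    {φ : R →ₐ[ℂ] MvPolynomial (Fin 2) K} (hφ : IsAnch 𝒜 d φ) : IsConicConnected 𝒜 := by
  classical
  by_cases hl : ∃ (κ : Type u) (_ : Field κ) (_ : IsAlgClosed κ) (_ : Algebra ℂ κ)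
      (ψ : R →ₐ[ℂ] MvPolynomial (Fin 2) κ), IsAnch 𝒜 1 ψ
  · obtain ⟨κ, _, _, _, ψ, hψ⟩ := hl
    obtain ⟨κ, _, _, _, ψ, hψ, hψf⟩ := exists_full_line hX hψ
    obtain ⟨κ, _, _, _, ψ₁, ψ₂, h1, h2, h3, h4⟩ := exists_lines_ne_zero_pic hX hpic hψ hψf
    obtain ⟨κ, _, _, _, φ, b, h5, h6, h7⟩ := exists_conic_of_lines hX h1 h2 h3 h4
    obtain ⟨κ, _, _, _, φ, h8, h9, b', h10, h11⟩ := exists_full_conic hX h5 h6 h7
    refine isConicConnected_of_generic hX h8.curve (g_injective hX h8 h9 ?_)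
    intro D h12 h13 r m
    exact fc1_apply_coeff hX h8.curve h10 h11 D h12 h13 r m
  · obtain rfl : d = 2 := by
      by_contra h2
      obtain rfl : d = 1 := by omega
      exact hl ⟨K, inferInstance, inferInstance, inferInstance, φ, hφ⟩
    obtain ⟨ψ, h1, h2⟩ := exists_nonProp hX hd0 hφ
    obtain ⟨κ, _, _, _, ψ, h3, h4, h5⟩ := exists_full_conic' hX h1 h2
    refine isConicConnected_of_generic hX h3.curve (g_injective hX h3 h4 ?_)
    intro D h6 h7 r m
    exact e2_apply_coeff hX (fun κ _ _ _ ψ hψ => hl ⟨κ, inferInstance, inferInstance,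
      inferInstance, ψ, hψ⟩) h3 h5 D h6 h7 r m

end Vale.Agent.P292
end

section

/-! # Block G: unramified Galois covers of contact Fano manifolds, without a torus. -/

namespace Vale.Agent.P292

open Module Polynomial

universe u v

variable {R : Type u} [CommRing R] [Algebra ℂ R] {𝒜 : ℕ → Submodule ℂ R} [GradedAlgebra 𝒜]
  {P : R →ₗ[ℂ] R →ₗ[ℂ] R}

/-- The extension `S` of `R` carries a grading and a bracket extending those of `R`. -/
structure IsCov (𝒜 : ℕ → Submodule ℂ R) (P : R →ₗ[ℂ] R →ₗ[ℂ] R)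
    {S : Type v} [CommRing S] [Algebra ℂ S] [Algebra R S] (ℬ : ℕ → Submodule ℂ S)
    (PS : S →ₗ[ℂ] S →ₗ[ℂ] S) : Prop where
  mem : ∀ k, ∀ r ∈ 𝒜 k, algebraMap R S r ∈ ℬ k
  ext : ∀ r s, PS (algebraMap R S r) (algebraMap R S s) = algebraMap R S (P r s)
  alternating : ∀ a, PS a a = 0
  leibniz : ∀ a b c, PS a (b * c) = PS a b * c + b * PS a c
  jacobi : ∀ a b c, PS a (PS b c) = PS (PS a b) c + PS b (PS a c)
  degree : ∀ i j k, i + j = k + 1 → ∀ a ∈ ℬ i, ∀ b ∈ ℬ j, PS a b ∈ ℬ k

/-- `x` is a simple root of the monic polynomial `q` over `R`, whose coefficients are homogeneous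
so that the roots have degree one. -/
def IsHomRootOne (𝒜 : ℕ → Submodule ℂ R) {S : Type v} [CommRing S]
    [Algebra R S] (x : S) (q : R[X]) : Prop :=
  q.Monic ∧ (∀ i ≤ q.natDegree, q.coeff i ∈ 𝒜 (q.natDegree - i)) ∧
  aeval x q = 0 ∧ aeval x (derivative q) ≠ 0

theorem cov_diag : ⊤ ≤ ⨆ m : ℤ, Module.End.eigenspace (euler 𝒜) (m : ℂ) := by
  rintro r -
  induction r using DirectSum.Decomposition.inductionOn 𝒜 with
  | zero => exact zero_mem _
  | homogeneous m =>
    rename_i k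
    refine Submodule.mem_iSup_of_mem (k : ℤ) ?_
    rw [Module.End.mem_eigenspace_iff, euler_apply k _ m.2]
    push_cast
    rfl
  | add r s hr hs => exact add_mem hr hs

theorem cov_nonneg (m : ℤ) (r : R) (hm : m < 0) (hr : euler 𝒜 r = (m : ℂ) • r) : r = 0 := by
  have h1 : ∀ r : R, r ∈ ⨆ (j : ℂ) (_ : j ≠ (m : ℂ)), Module.End.eigenspace (euler 𝒜) j := by
    intro r
    induction r using DirectSum.Decomposition.inductionOn 𝒜 with
    | zero => exact zero_mem _
    | homogeneous x =>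
      rename_i k
      refine Submodule.mem_iSup_of_mem (k : ℂ) (Submodule.mem_iSup_of_mem ?_ ?_)
      · intro h3
        have h4 : (k : ℤ) = m := by exact_mod_cast h3
        omega
      · rw [Module.End.mem_eigenspace_iff, euler_apply k _ x.2]
    | add r s hr hs => exact add_mem hr hs
  have h2 : r ∈ Module.End.eigenspace (euler 𝒜) (m : ℂ) := Module.End.mem_eigenspace_iff.2 hr
  exact (Submodule.disjoint_def.1 ((Module.End.eigenspaces_iSupIndep (euler 𝒜)) (m : ℂ))) r h2 (h1 r)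

theorem isCov_of_data [IsDomain R] {S : Type u} [CommRing S] [IsDomain S]
    [Algebra ℂ S] [Algebra R S] [IsScalarTower ℂ R S] [FaithfulSMul R S] [Module.Finite R S]
    (E : S →ₗ[ℂ] S) (PS : S →ₗ[ℂ] S →ₗ[ℂ] S)
    (hE : ∀ r, E (algebraMap R S r) = algebraMap R S (euler 𝒜 r))
    (hEm : ∀ s t, E (s * t) = E s * t + s * E t)
    (hEP : ∀ s t, E (PS s t) = PS (E s) t + PS s (E t) - PS s t)
    (hext : ∀ r s, PS (algebraMap R S r) (algebraMap R S s) = algebraMap R S (P r s))
    (halt : ∀ a, PS a a = 0) (hleib : ∀ a b c, PS a (b * c) = PS a b * c + b * PS a c)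
    (hjac : ∀ a b c, PS a (PS b c) = PS (PS a b) c + PS b (PS a c))
    (X : Set S) (hX : ∀ x ∈ X, ∃ q : R[X], IsHomRootOne 𝒜 x q)
    (hgen : ∀ s : S, ∃ r : R, r ≠ 0 ∧ algebraMap R S r * s ∈ Algebra.adjoin R X) :
    ∃ (ℬ : ℕ → Submodule ℂ S) (_ : GradedAlgebra ℬ), IsCov 𝒜 P ℬ PS ∧
      ∀ (k : ℕ) (x : S), x ∈ ℬ k ↔ E x = (k : ℂ) • x := by
  classical
  have hsm : ∀ (c : ℂ) (r : R), algebraMap R S (c • r) = c • algebraMap R S r := fun c r =>
    map_smul (IsScalarTower.toAlgHom ℂ R S) c r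
  have hroot : ∀ (x : S) (q : R[X]), IsHomRootOne 𝒜 x q → E x = ((1 : ℤ) : ℂ) • x := by
    intro x q hq
    refine apply_root (euler 𝒜) E hEm hE _ q (fun i hi => ?_) x hq.2.2.1 hq.2.2.2
    rw [euler_apply _ _ (hq.2.1 i hi)]
    congr 1
    push_cast
    ring
  have hEdiag : ⊤ ≤ ⨆ m : ℤ, Module.End.eigenspace E (m : ℂ) := by
    refine diag_of_adjoin (euler 𝒜) cov_diag E hEm hE X (fun x hx => ?_) hgen
    obtain ⟨q, hq⟩ := hX x hx
    exact ⟨_, hroot x q hq⟩
  have hEneg : ∀ (m : ℤ) (s : S), m < 0 → E s = (m : ℂ) • s → s = 0 := fun m s hm hs =>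
    eq_zero_of_neg (euler 𝒜) cov_diag E hEm hE cov_nonneg m s hm hs
  let ℬ : ℕ → Submodule ℂ S := fun k => Module.End.eigenspace E (k : ℂ)
  have hℬ : ∀ k s, s ∈ ℬ k ↔ E s = (k : ℂ) • s := fun k s => Module.End.mem_eigenspace_iff
  have hE1 : E 1 = 0 := by
    have h := hEm 1 1
    rw [mul_one, mul_one, one_mul] at h
    simpa using h
  have hgm : SetLike.GradedMonoid ℬ :=
    { one_mem := by rw [hℬ, hE1]; simp
      mul_mem := by
        intro i j s t hs ht
        rw [hℬ] at hs ht ⊢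
        rw [hEm, hs, ht, smul_mul_assoc, mul_smul_comm, ← add_smul]
        push_cast
        rfl }
  have hint : DirectSum.IsInternal ℬ := by
    rw [DirectSum.isInternal_submodule_iff_iSupIndep_and_iSup_eq_top]
    refine ⟨?_, ?_⟩
    · exact (Module.End.eigenspaces_iSupIndep E).comp (fun i j h => by exact_mod_cast h)
    · rw [eq_top_iff]
      refine hEdiag.trans (iSup_le fun m => ?_)
      rcases lt_or_ge m 0 with hm | hm
      · intro s hs
        rw [hEneg m s hm (Module.End.mem_eigenspace_iff.1 hs)]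
        exact zero_mem _
      · obtain ⟨k, rfl⟩ := Int.eq_ofNat_of_zero_le hm
        exact le_iSup ℬ k
  let dec : DirectSum.Decomposition ℬ := hint.chooseDecomposition
  let gr : GradedAlgebra ℬ := { hgm, dec with }
  refine ⟨ℬ, gr, ⟨?_, hext, halt, hleib, hjac, ?_⟩, hℬ⟩
  · intro k r hr
    rw [hℬ, hE, euler_apply k r hr, hsm]
  · intro i j k hijk s hs t ht
    rw [hℬ] at hs ht ⊢
    rw [hEP, hs, ht, map_smul, map_smul, LinearMap.smul_apply, ← add_smul]
    have h1 : ((i : ℂ) + j) = k + 1 := by exact_mod_cast hijk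
    rw [h1, add_smul, one_smul, add_sub_cancel_right]

/-- The integral closure of `R` in an unramified extension `M` generated by roots of homogeneous
polynomials is a cover. `P'` is the extension of the bracket to `M` and `E'` the extension of the
Euler operator. -/
theorem exists_isCov (hXF : IsContactFano 𝒜 P) [IsDomain R] {M : Type u} [Field M] [Algebra ℂ M]
    [Algebra R M] [IsScalarTower ℂ R M] [Algebra (FractionRing R) M]
    [IsScalarTower R (FractionRing R) M]
    [FiniteDimensional (FractionRing R) M] (hU : IsUnram R M) (X : Set M)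
    (hX : ∀ x ∈ X, ∃ q : R[X], IsHomRootOne 𝒜 x q)
    (hgen : Algebra.adjoin (FractionRing R) X = ⊤) (P' : M →ₗ[ℂ] M →ₗ[ℂ] M)
    (hP1 : ∀ r s, P' (algebraMap R M r) (algebraMap R M s) = algebraMap R M (P r s))
    (hP2 : ∀ x, P' x x = 0) (hP3 : ∀ x y z, P' x (y * z) = P' x y * z + y * P' x z) :
    ∃ (ℬ : ℕ → Submodule ℂ (integralClosure R M)) (_ : GradedAlgebra ℬ)
      (PS : integralClosure R M →ₗ[ℂ] integralClosure R M →ₗ[ℂ] integralClosure R M),
      IsCov 𝒜 P ℬ PS ∧ (∀ s t, ((PS s t : integralClosure R M) : M) = P' s t) ∧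
      ∀ (k : ℕ) (x : integralClosure R M), (∀ E' : Derivation ℂ M M,
        (∀ r, E' (algebraMap R M r) = algebraMap R M (euler 𝒜 r)) → E' x = (k : ℂ) • (x : M)) →
        x ∈ ℬ k := by
  have : Algebra.FiniteType ℂ R := hXF.finiteType
  have : IsNoetherianRing R := Algebra.FiniteType.isNoetherianRing ℂ R
  have : IsIntegrallyClosed R := hXF.normal
  have : CharZero R := charZero_of_injective_algebraMap (algebraMap ℂ R).injective
  have : CharZero (FractionRing R) := charZero_of_injective_algebraMap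
    (IsFractionRing.injective R (FractionRing R))
  have hinj : Function.Injective (algebraMap R M) := by
    rw [IsScalarTower.algebraMap_eq R (FractionRing R) M]
    exact (algebraMap (FractionRing R) M).injective.comp
      (IsFractionRing.injective R (FractionRing R))
  have : FaithfulSMul R M := (faithfulSMul_iff_algebraMap_injective R M).2 hinj
  have : Algebra.IsAlgebraic R M := ⟨fun x => (IsFractionRing.isAlgebraic_iff R (FractionRing R) M).2
    (Algebra.IsAlgebraic.isAlgebraic x)⟩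
  have : Module.Finite R (integralClosure R M) :=
    IsIntegralClosure.finite R (FractionRing R) M (integralClosure R M)
  have hP4 : ∀ x y z, P' x (P' y z) = P' (P' x y) z + P' y (P' x z) := by
    obtain ⟨P₁, hP11, hP12, hP13, hP14⟩ := exists_bracket_ext (M := M) P hXF.alternating
      hXF.leibniz hXF.jacobi
    have hskew : ∀ (Q : M →ₗ[ℂ] M →ₗ[ℂ] M) (_ : ∀ x, Q x x = 0) x y, Q x y = - Q y x := by
      intro Q hQ x y
      have h := hQ (x + y)
      rw [map_add, map_add, LinearMap.add_apply, LinearMap.add_apply, hQ x, hQ y, zero_add,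
        add_zero] at h
      exact eq_neg_of_add_eq_zero_right h
    have h1 : ∀ (r : R) (y : M), P' (algebraMap R M r) y - P₁ (algebraMap R M r) y = 0 := by
      intro r y
      refine eq_zero_of_restrict (R := R)
        (fun y => P' (algebraMap R M r) y - P₁ (algebraMap R M r) y) ?_ ?_ ?_ y
      · intro x y
        simp only [map_add]
        ring
      · intro x y
        simp only [hP3, hP13]
        ring
      · intro s
        simp only [hP1, hP11, sub_self]
    have h2 : ∀ x y : M, P' x y - P₁ x y = 0 := by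
      intro x y
      refine eq_zero_of_restrict (R := R) (fun y => P' x y - P₁ x y) ?_ ?_ ?_ y
      · intro x y
        simp only [map_add]
        ring
      · intro x y
        simp only [hP3, hP13]
        ring
      · intro s
        have h3 := h1 s x
        rw [hskew P' hP2, hskew P₁ hP12]
        linear_combination -h3
    have h3 : ∀ x y : M, P' x y = P₁ x y := fun x y => sub_eq_zero.1 (h2 x y)
    intro x y z
    simp only [h3]
    exact hP14 x y z
  let d0 : Derivation ℂ R M := Derivation.mk'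
    ((IsScalarTower.toAlgHom ℂ R M).toLinearMap ∘ₗ euler 𝒜) (fun r s => by
      change algebraMap R M (euler 𝒜 (r * s)) = r • algebraMap R M (euler 𝒜 s) +
        s • algebraMap R M (euler 𝒜 r)
      rw [euler_mul, map_add, map_mul, map_mul, Algebra.smul_def, Algebra.smul_def]
      ring)
  obtain ⟨E', hE'⟩ := exists_derivation_ext (M := M) (N := M) d0
  have hE1 : ∀ r, E' (algebraMap R M r) = algebraMap R M (euler 𝒜 r) := hE'
  have hEm : ∀ x y, E' (x * y) = E' x * y + x * E' y := by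
    intro x y
    rw [Derivation.leibniz, smul_eq_mul, smul_eq_mul]
    ring
  have hEint : ∀ s, IsIntegral R s → IsIntegral R (E' s) := fun s hs =>
    hU.derivation_isIntegral E' (fun _ _ => map_add _ _ _) hEm
      (fun r => by rw [hE1]; exact isIntegral_algebraMap) s hs
  have hskew : ∀ x y, P' x y = - P' y x := by
    intro x y
    have h := hP2 (x + y)
    rw [map_add, map_add, LinearMap.add_apply, LinearMap.add_apply, hP2 x, hP2 y, zero_add,
      add_zero] at h
    exact eq_neg_of_add_eq_zero_right h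
  have hPint1 : ∀ (r : R) (s : M), IsIntegral R s → IsIntegral R (P' (algebraMap R M r) s) :=
    fun r s hs => hU.derivation_isIntegral (P' (algebraMap R M r)) (fun _ _ => map_add _ _ _)
      (hP3 _) (fun t => by rw [hP1]; exact isIntegral_algebraMap) s hs
  have hPint2 : ∀ s t : M, IsIntegral R s → IsIntegral R t → IsIntegral R (P' s t) :=
    fun s t hs ht => hU.derivation_isIntegral (P' s) (fun _ _ => map_add _ _ _)
      (hP3 _) (fun r => by rw [hskew]; exact (hPint1 r s hs).neg) t ht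
  let F : M → M → M := fun x y => E' (P' x y) - P' (E' x) y - P' x (E' y) + P' x y
  have hF : ∀ x y, F x y = E' (P' x y) - P' (E' x) y - P' x (E' y) + P' x y := fun _ _ => rfl
  have hF1 : ∀ x y z, F x (y + z) = F x y + F x z := by
    intro x y z
    simp only [hF, map_add]
    ring
  have hF2 : ∀ x y z, F x (y * z) = F x y * z + y * F x z := by
    intro x y z
    simp only [hF, hP3, hEm, map_add]
    ring
  have hF3 : ∀ x y, F x y = - F y x := by
    intro x y
    rw [hF, hF, hskew x y, hskew (E' x) y, hskew x (E' y), map_neg]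
    ring
  have hF4 : ∀ r s : R, F (algebraMap R M r) (algebraMap R M s) = 0 := by
    intro r s
    rw [hF, hE1, hE1, hP1, hP1, hP1, hE1, zb5_euler_P hXF, map_sub, map_add]
    ring
  have hF5 : ∀ (r : R) (y : M), F (algebraMap R M r) y = 0 := fun r y =>
    eq_zero_of_restrict (R := R) (F (algebraMap R M r)) (hF1 _) (hF2 _) (hF4 r) y
  have hF6 : ∀ x y : M, F x y = 0 := fun x y =>
    eq_zero_of_restrict (R := R) (F x) (hF1 _) (hF2 _)
      (fun r => by rw [hF3, hF5, neg_zero]) y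
  have hEP : ∀ x y, E' (P' x y) = P' (E' x) y + P' x (E' y) - P' x y := by
    intro x y
    have := hF6 x y
    rw [hF] at this
    linear_combination this
  let ES : integralClosure R M →ₗ[ℂ] integralClosure R M :=
    { toFun := fun s => ⟨E' s, hEint s s.2⟩
      map_add' := fun s t => Subtype.ext (map_add E' _ _)
      map_smul' := fun c s => Subtype.ext (E'.map_smul c (s : M)) }
  have hES : ∀ s, ((ES s : integralClosure R M) : M) = E' s := fun s => rfl
  let PS : integralClosure R M →ₗ[ℂ] integralClosure R M →ₗ[ℂ] integralClosure R M :=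
    LinearMap.mk₂ ℂ (fun s t => ⟨P' s t, hPint2 s t s.2 t.2⟩)
      (fun s s' t => Subtype.ext (by
        change P' ((s : M) + s') t = P' s t + P' s' t
        rw [map_add, LinearMap.add_apply]))
      (fun c s t => Subtype.ext (by
        change P' (c • (s : M)) t = c • P' s t
        rw [map_smul, LinearMap.smul_apply]))
      (fun s t t' => Subtype.ext (by
        change P' s ((t : M) + t') = P' s t + P' s t'
        rw [map_add]))
      (fun c s t => Subtype.ext (by
        change P' s (c • (t : M)) = c • P' s t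
        rw [map_smul]))
  have hPS : ∀ s t, ((PS s t : integralClosure R M) : M) = P' s t := fun s t => rfl
  let XS : Set (integralClosure R M) := {x | (x : M) ∈ X}
  have hXS : ∀ x ∈ XS, ∃ q : R[X], IsHomRootOne 𝒜 x q := by
    intro x hx
    obtain ⟨q, h1, h2, h3, h4⟩ := hX x hx
    refine ⟨q, h1, h2, Subtype.ext ?_, fun h => h4 ?_⟩
    · rw [zb5_coe_aeval, h3]
      rfl
    · rw [← zb5_coe_aeval, h]
      rfl
  have hXint : ∀ x ∈ X, IsIntegral R x := by
    intro x hx
    obtain ⟨q, h1, h2, h3, h4⟩ := hX x hx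
    exact ⟨q, h1, by rw [← aeval_def]; exact h3⟩
  have himg : (integralClosure R M).val '' XS = X := by
    ext x
    constructor
    · rintro ⟨y, hy, rfl⟩
      exact hy
    · intro hx
      exact ⟨⟨x, hXint x hx⟩, hx, rfl⟩
  have hgenS : ∀ s : integralClosure R M, ∃ r : R, r ≠ 0 ∧
      algebraMap R (integralClosure R M) r * s ∈ Algebra.adjoin R XS := by
    intro s
    obtain ⟨r, hr, h1⟩ := zb5_exists_mul_mem X hgen (s : M)
    refine ⟨r, hr, ?_⟩
    rw [← himg, ← AlgHom.map_adjoin] at h1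
    obtain ⟨t, ht, h2⟩ := h1
    have h3 : t = algebraMap R (integralClosure R M) r * s := Subtype.ext h2
    rw [← h3]
    exact ht
  obtain ⟨ℬ, gr, h1, h2⟩ := isCov_of_data ES PS
    (fun r => Subtype.ext (hE1 r)) (fun s t => Subtype.ext (hEm s t))
    (fun s t => Subtype.ext (hEP s t)) (fun r s => Subtype.ext (hP1 r s))
    (fun s => Subtype.ext (hP2 s)) (fun s t u => Subtype.ext (hP3 s t u))
    (fun s t u => Subtype.ext (hP4 s t u)) XS hXS hgenS
  refine ⟨ℬ, gr, PS, h1, hPS, fun k x hx => (h2 k x).2 (Subtype.ext ?_)⟩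
  rw [hES, hx E' hE1]
  rfl

end Vale.Agent.P292
end

section

/-! Automorphisms of prime order of adjoint varieties have fixed points (no torus is assumed). -/

namespace Vale.Agent.P292

open Module LieAlgebra

universe u

section Lie

variable {g : Type u} [LieRing g] [LieAlgebra ℂ g] [FiniteDimensional ℂ g]

/-- A non-nilpotent endomorphism of a finite-dimensional complex space has a nonzero
eigenvalue. -/
theorem exists_eigenvector_of_not_isNilpotent {V : Type u} [AddCommGroup V] [Module ℂ V]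
    [FiniteDimensional ℂ V] (f : Module.End ℂ V) (hf : ¬ IsNilpotent f) :
    ∃ (l : ℂ) (v : V), l ≠ 0 ∧ v ≠ 0 ∧ f v = l • v := by
  by_contra hcon
  push Not at hcon
  apply hf
  have hbot : ∀ l : ℂ, l ≠ 0 → Module.End.maxGenEigenspace f l = ⊥ := by
    intro l hl
    by_contra hne
    have h1 : f.HasEigenvalue l := by
      by_contra hev
      apply hne
      have h2 : Module.End.eigenspace f l = ⊥ := by
        rwa [Module.End.hasEigenvalue_iff, not_not] at hev
      rw [eq_bot_iff]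
      intro v hv
      rw [Module.End.mem_maxGenEigenspace] at hv
      obtain ⟨k, hk⟩ := hv
      rw [Submodule.mem_bot]
      have hinj : ∀ w : V, (f - l • 1) w = 0 → w = 0 := by
        intro w hw
        have h3 : w ∈ Module.End.eigenspace f l := by
          rw [Module.End.mem_eigenspace_iff]
          have h4 : f w - l • w = 0 := by simpa using hw
          exact sub_eq_zero.1 h4
        rw [h2] at h3
        exact (Submodule.mem_bot _).1 h3
      induction k generalizing v with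
      | zero => simpa using hk
      | succ k ih =>
        apply hinj
        apply ih
        rw [← Module.End.mul_apply, ← pow_succ]
        exact hk
    obtain ⟨v, hv⟩ := h1.exists_hasEigenvector
    exact hcon l v hl hv.2 (Module.End.mem_eigenspace_iff.1 hv.1)
  have htop : Module.End.maxGenEigenspace f 0 = ⊤ := by
    rw [eq_top_iff, ← Module.End.iSup_maxGenEigenspace_eq_top f]
    refine iSup_le fun l => ?_
    by_cases hl : l = 0
    · rw [hl]
    · rw [hbot l hl]
      exact bot_le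
  have hfin := Module.End.maxGenEigenspace_eq_genEigenspace_finrank f (0 : ℂ)
  refine ⟨finrank ℂ V, ?_⟩
  ext v
  have hv : v ∈ Module.End.maxGenEigenspace f 0 := by rw [htop]; trivial
  rw [hfin, Module.End.mem_genEigenspace_nat] at hv
  simpa using hv

/-- An automorphism of prime order of a simple Lie algebra fixes a nonzero integral element. -/
theorem exists_isInt_of_prime [IsSimple ℂ g] (σ : g ≃ₗ⁅ℂ⁆ g) {p : ℕ} (hp : p.Prime)
    (hσp : ∀ x, (⇑σ)^[p] x = x) : ∃ h₀ : g, h₀ ≠ 0 ∧ σ h₀ = h₀ ∧ IsInt h₀ := by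
  have hx : ∃ x : g, σ x = x ∧ ¬ IsNilpotent (ad ℂ g x) := by
    by_contra hcon
    push Not at hcon
    have h1 : Subsingleton g := subsingleton_of_fixed_nilpotent σ hp hσp hcon
    exact LieAlgebra.IsSimple.non_abelian ℂ (L := g) ⟨fun x y => Subsingleton.elim _ _⟩
  obtain ⟨x, hσx, hx⟩ := hx
  obtain ⟨l, v, hl, hv, hxv⟩ := exists_eigenvector_of_not_isNilpotent (ad ℂ g x) hx
  have hx0 : x ≠ 0 := by
    rintro rfl
    exact hx (by rw [map_zero]; exact IsNilpotent.zero)
  obtain ⟨u, hu, hσu, -, i, j, hij, huv, hux⟩ := exists_isInt σ (h := 0) hσx (zero_lie x) hl hv hx0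
    (by rwa [ad_apply] at hxv) (w := x) (by rw [lie_self, zero_smul])
  refine ⟨u, ?_, hσu, hu⟩
  rintro rfl
  rw [zero_lie, eq_comm, smul_eq_zero] at huv hux
  have h1 := huv.resolve_right hv
  have h2 := hux.resolve_right hx0
  exact hij (by exact_mod_cast h1.trans h2.symm)

end Lie

variable {R : Type u} [CommRing R] [Algebra ℂ R] {𝒜 : ℕ → Submodule ℂ R} [GradedAlgebra 𝒜]
  {P : R →ₗ[ℂ] R →ₗ[ℂ] R}

/-- An automorphism of prime order of an adjoint variety has a fixed point. -/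
theorem exists_fixed_point_noTorus (hX : IsContactFano 𝒜 P) (hadj : IsAdjointVariety 𝒜 P)
    (σ : R ≃ₐ[ℂ] R) (hσ𝒜 : ∀ k, ∀ r ∈ 𝒜 k, σ r ∈ 𝒜 k)
    (hσP : ∀ r s, σ (P r s) = P (σ r) (σ s)) {p : ℕ} (hp : p.Prime)
    (hσp : ∀ r, (⇑σ)^[p] r = r) :
    ∃ x : R →ₐ[ℂ] ℂ, ¬ IsVertex 𝒜 x ∧ ∃ c : ℂ, ∀ k, ∀ r ∈ 𝒜 k, x (σ r) = c ^ k * x r := by
  obtain ⟨g, _, _, _, _, φ, _, hφ, hrange, hbr, hgen, -, -⟩ := hadj
  have hmem : ∀ x : g, φ x ∈ 𝒜 1 := fun x => hrange ▸ LinearMap.mem_range_self φ x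
  -- the automorphism of `g`
  have hex : ∀ x : g, ∃ y : g, φ y = σ (φ x) := by
    intro x
    have h1 : σ (φ x) ∈ LinearMap.range φ := hrange ▸ hσ𝒜 1 _ (hmem x)
    exact h1
  choose f hf using hex
  let F : g →ₗ[ℂ] g :=
    { toFun := f
      map_add' := fun x y => hφ (by rw [hf, map_add, map_add, map_add, hf, hf])
      map_smul' := fun c x => hφ (by
        rw [hf, map_smul, map_smul, RingHom.id_apply, map_smul, hf]) }
  have hF : ∀ x, φ (F x) = σ (φ x) := hf
  have hFinj : Function.Injective F := by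
    intro x y hxy
    have h1 : σ (φ x) = σ (φ y) := by rw [← hF, ← hF, hxy]
    exact hφ (σ.injective h1)
  let e : g ≃ₗ[ℂ] g := LinearEquiv.ofInjectiveEndo F hFinj
  let σg : g ≃ₗ⁅ℂ⁆ g :=
    { e with
      map_lie' := fun {x y} => by
        apply hφ
        show φ (F ⁅x, y⁆) = φ ⁅F x, F y⁆
        rw [hF, hbr, hσP, hbr, hF, hF] }
  have hσg : ∀ x, φ (σg x) = σ (φ x) := fun x => hF x
  have hiter : ∀ (n : ℕ) (x : g), φ ((⇑σg)^[n] x) = (⇑σ)^[n] (φ x) := by
    intro n
    induction n with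
    | zero => intro x; rfl
    | succ n ih => intro x; rw [Function.iterate_succ_apply, Function.iterate_succ_apply, ih, hσg]
  have hσgp : ∀ x, (⇑σg)^[p] x = x := fun x => hφ (by rw [hiter, hσp])
  obtain ⟨h₀, h₀0, hσh₀, hint⟩ := exists_isInt_of_prime σg hp hσgp
  obtain ⟨h, h0, hh, hσh, a, v₁, ha, hv₁⟩ := exists_isolated σg hp hσgp hσh₀ h₀0 hint
  exact exists_fixed_of_isolated hX hφ hrange hbr hgen σ hσ𝒜 hσP h0 hh
    (by rw [← hσg, hσh]) ha hv₁

end Vale.Agent.P292
end

section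

/-! # Block G: unramified Galois covers with a non-nilpotent contact field. -/

namespace Vale.Agent.P292

open Module Polynomial

universe u v

variable {R : Type u} [CommRing R] [Algebra ℂ R] {𝒜 : ℕ → Submodule ℂ R} [GradedAlgebra 𝒜]
  {P : R →ₗ[ℂ] R →ₗ[ℂ] R}

section
variable {S : Type u} [CommRing S] [IsDomain S] [Algebra ℂ S] [Algebra R S] [IsScalarTower ℂ R S]
  [FaithfulSMul R S] [Module.Finite R S] {ℬ : ℕ → Submodule ℂ S} [GradedAlgebra ℬ]
  {PS : S →ₗ[ℂ] S →ₗ[ℂ] S}

/-- Automorphisms over `R` preserve the grading. -/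
theorem IsCov.map_mem (h : IsCov 𝒜 P ℬ PS) (σ : S ≃ₐ[R] S) {k : ℕ} {s : S}
    (hs : s ∈ ℬ k) : σ s ∈ ℬ k := by
  have hσ : ∀ (c : ℂ) (t : S), σ (c • t) = c • σ t := fun c t =>
    map_smul (σ.restrictScalars ℂ) c t
  let V : S →+ S :=
    ((σ.symm : S →+* S).toAddMonoidHom.comp ((euler ℬ).toAddMonoidHom.comp
      (σ : S →+* S).toAddMonoidHom)) - (euler ℬ).toAddMonoidHom
  have hVa : ∀ t, V t = σ.symm (euler ℬ (σ t)) - euler ℬ t := fun t => rfl
  have h1 := zb6_der_zero (R := R) V (fun p q => by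
    rw [hVa, hVa, hVa, map_mul, euler_mul, euler_mul, map_add, map_mul, map_mul,
      AlgEquiv.symm_apply_apply, AlgEquiv.symm_apply_apply]
    ring) (fun r => by
    rw [hVa, AlgEquiv.commutes, zb6_euler h.mem, AlgEquiv.commutes, sub_self]) s
  rw [hVa, sub_eq_zero, euler_apply k s hs] at h1
  apply zb6_mem_of_euler
  rw [← hσ, ← h1, AlgEquiv.apply_symm_apply]

set_option linter.unusedSectionVars false in
theorem IsCov.skew (h : IsCov 𝒜 P ℬ PS) (s t : S) : PS s t = - PS t s := by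
  have h1 := h.alternating (s + t)
  rw [map_add, map_add, LinearMap.add_apply, LinearMap.add_apply, h.alternating, h.alternating,
    zero_add, add_zero] at h1
  rw [eq_neg_iff_add_eq_zero, add_comm]
  exact h1

set_option linter.unusedSectionVars false in
/-- Automorphisms over `R` preserve the bracket. -/
theorem IsCov.map_P (h : IsCov 𝒜 P ℬ PS) (σ : S ≃ₐ[R] S) (s t : S) :
    σ (PS s t) = PS (σ s) (σ t) := by
  have key : ∀ (r : R) (t : S), PS (algebraMap R S r) (σ t) = σ (PS (algebraMap R S r) t) := by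
    intro r t
    let V : S →+ S :=
      ((σ.symm : S →+* S).toAddMonoidHom.comp ((PS (algebraMap R S r)).toAddMonoidHom.comp
        (σ : S →+* S).toAddMonoidHom)) - (PS (algebraMap R S r)).toAddMonoidHom
    have hVa : ∀ t, V t = σ.symm (PS (algebraMap R S r) (σ t)) - PS (algebraMap R S r) t :=
      fun t => rfl
    have h1 := zb6_der_zero (R := R) V (fun p q => by
      rw [hVa, hVa, hVa, map_mul, h.leibniz, h.leibniz, map_add, map_mul, map_mul,
        AlgEquiv.symm_apply_apply, AlgEquiv.symm_apply_apply]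
      ring) (fun r' => by
      rw [hVa, AlgEquiv.commutes, h.ext, AlgEquiv.commutes, sub_self]) t
    rw [hVa, sub_eq_zero] at h1
    rw [← h1, AlgEquiv.apply_symm_apply]
  let V : S →+ S :=
    ((σ.symm : S →+* S).toAddMonoidHom.comp ((PS.flip (σ t)).toAddMonoidHom.comp
      (σ : S →+* S).toAddMonoidHom)) - (PS.flip t).toAddMonoidHom
  have hVa : ∀ s, V s = σ.symm (PS (σ s) (σ t)) - PS s t := fun s => rfl
  have hl : ∀ p q t, PS (p * q) t = PS p t * q + p * PS q t := by
    intro p q t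
    rw [h.skew (p * q) t, h.leibniz, h.skew p t, h.skew q t]
    ring
  have h1 := zb6_der_zero (R := R) V (fun p q => by
    rw [hVa, hVa, hVa, map_mul, hl, hl, map_add, map_mul, map_mul,
      AlgEquiv.symm_apply_apply, AlgEquiv.symm_apply_apply]
    ring) (fun r => by
    rw [hVa, AlgEquiv.commutes, key, AlgEquiv.symm_apply_apply, sub_self]) s
  rw [hVa, sub_eq_zero] at h1
  rw [← h1, AlgEquiv.apply_symm_apply]

/-- The automorphism group of an adjoint cover is trivial. -/
theorem IsCov.eq_refl (hX : IsContactFano 𝒜 P) (h : IsCov 𝒜 P ℬ PS)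
    (hB : IsContactFano ℬ PS) (hadj : IsAdjointVariety ℬ PS) [Finite (S ≃ₐ[R] S)]
    (σ : S ≃ₐ[R] S) : σ = AlgEquiv.refl := by
  classical
  -- automorphisms of prime order do not exist
  have key : ∀ (p : ℕ) (_ : p.Prime) (σ : S ≃ₐ[R] S), orderOf σ = p → False := by
    intro p hp σ hσ
    have h1 : ∀ k (s : S), (σ ^ k) s = (⇑σ)^[k] s := by
      intro k s
      induction k generalizing s with
      | zero => rfl
      | succ k ih => rw [pow_succ, AlgEquiv.mul_apply, ih, Function.iterate_succ_apply]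
    obtain ⟨x, hx, c, hc⟩ := exists_fixed_point_noTorus hB hadj (σ.restrictScalars ℂ)
      (fun k s hs => h.map_mem σ hs)
      (fun s t => h.map_P σ s t) hp (fun s => by
        have h2 := h1 p s
        rw [← hσ, pow_orderOf_eq_one] at h2
        rw [hσ] at h2
        exact h2.symm)
    have h3 : σ = AlgEquiv.refl := by
      refine eq_refl_of_fixed_scale hX h.mem (fun b s => PS (algebraMap R S b) s)
        (fun b s t => map_add _ _ _) (fun b s t => h.leibniz _ _ _) (fun b r => h.ext b r) σ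
        (fun b s => ?_) x (not_isVertex_restrict h.mem hx) c hc
      rw [h.map_P, AlgEquiv.commutes]
    have h4 : orderOf σ = 1 := by
      rw [h3]
      exact orderOf_one
    rw [hσ] at h4
    exact hp.ne_one h4
  by_contra hne
  have h1 : orderOf σ ≠ 1 := fun h => hne (orderOf_eq_one_iff.1 h)
  obtain ⟨p, hp, hpd⟩ := Nat.exists_prime_and_dvd h1
  obtain ⟨k, hk⟩ := hpd
  have h2 : 0 < orderOf σ := orderOf_pos σ
  have hk0 : k ≠ 0 := by
    rintro rfl
    omega
  exact key p hp (σ ^ k) (by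
    rw [orderOf_pow_of_dvd hk0 ⟨p, by rw [hk]; ring⟩, hk]
    exact Nat.mul_div_cancel _ (Nat.pos_of_ne_zero hk0))

end

/-- A contact Fano manifold with a non-nilpotent contact field is an adjoint variety. -/
theorem isAdjointVariety_of_not_nilpotent (hX : IsContactFano 𝒜 P) {f : R} (hf : f ∈ 𝒜 1) {r : R}
    (hr : ∀ n : ℕ, (⇑(P f))^[n] r ≠ 0) : IsAdjointVariety 𝒜 P := by
  obtain ⟨k, s, hs, hn⟩ := exists_homogeneous_of_not_nilpotent (𝒜 := 𝒜) (P f) hr
  obtain ⟨H, hH⟩ := exists_isContactTorus_of_not_nilpotent hX hf hs hn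
  exact isAdjointVariety_of_torus' hX hH

/-- **Block G.** Let `M` be a finite Galois extension of the fraction field of the section ring
`R` of a contact Fano manifold, generated by roots of homogeneous polynomials and unramified over
all the discrete valuation rings `R_𝔭`. Let `P'` be the extension of the bracket to `M`. If there
is `h` in `M`, integral over `R` and of degree one (`E' h = h` for the extension `E'` of the Euler
operator), with `P' h` not nilpotent on some element integral over `R`, then `R` is the section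
ring of an adjoint variety. -/
theorem isAdjointVariety_of_isUnram (hX : IsContactFano 𝒜 P) [IsDomain R] {M : Type u} [Field M]
    [Algebra ℂ M] [Algebra R M] [IsScalarTower ℂ R M] [Algebra (FractionRing R) M]
    [IsScalarTower R (FractionRing R) M] [FiniteDimensional (FractionRing R) M]
    [IsGalois (FractionRing R) M] (hU : IsUnram R M) (X : Set M)
    (hX1 : ∀ x ∈ X, ∃ q : R[X], IsHomRootOne 𝒜 x q)
    (hgen : Algebra.adjoin (FractionRing R) X = ⊤) (P' : M →ₗ[ℂ] M →ₗ[ℂ] M)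
    (hP1 : ∀ r s, P' (algebraMap R M r) (algebraMap R M s) = algebraMap R M (P r s))
    (hP2 : ∀ x, P' x x = 0) (hP3 : ∀ x y z, P' x (y * z) = P' x y * z + y * P' x z)
    (h : M) (hh : IsIntegral R h)
    (hh1 : ∀ E' : Derivation ℂ M M,
      (∀ r, E' (algebraMap R M r) = algebraMap R M (euler 𝒜 r)) → E' h = h)
    (s : M) (hs : IsIntegral R s) (hn : ∀ n : ℕ, (⇑(P' h))^[n] s ≠ 0) :
    IsAdjointVariety 𝒜 P := by
  classical
  have hXF := hX
  have : Algebra.FiniteType ℂ R := hXF.finiteType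
  have : IsNoetherianRing R := Algebra.FiniteType.isNoetherianRing ℂ R
  have : IsIntegrallyClosed R := hXF.normal
  have : CharZero R := charZero_of_injective_algebraMap (algebraMap ℂ R).injective
  have : CharZero (FractionRing R) := charZero_of_injective_algebraMap
    (IsFractionRing.injective R (FractionRing R))
  have hinj : Function.Injective (algebraMap R M) := by
    rw [IsScalarTower.algebraMap_eq R (FractionRing R) M]
    exact (algebraMap (FractionRing R) M).injective.comp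
      (IsFractionRing.injective R (FractionRing R))
  have : FaithfulSMul R M := (faithfulSMul_iff_algebraMap_injective R M).2 hinj
  have : Module.Finite R (integralClosure R M) :=
    IsIntegralClosure.finite R (FractionRing R) M (integralClosure R M)
  have : IsIntegrallyClosed (integralClosure R M) :=
    integralClosure.isIntegrallyClosedOfFiniteExtension (FractionRing R)
  have hfin : Finite (integralClosure R M ≃ₐ[R] integralClosure R M) := finite_aut_integralClosure
  obtain ⟨ℬ, gr, PS, hcov, hPS, hdeg⟩ := exists_isCov hX hU X hX1 hgen P' hP1 hP2 hP3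
  have hBF : IsContactFano ℬ PS := isContactFano_of_galois hXF
    (FaithfulSMul.algebraMap_injective R _) hcov.mem PS hcov.ext hcov.alternating hcov.leibniz
    hcov.jacobi hcov.degree (fun σ b s => by rw [hcov.map_P, AlgEquiv.commutes])
    exists_of_invariant
  have hhB : (⟨h, hh⟩ : integralClosure R M) ∈ ℬ 1 := hdeg 1 _ (fun E' hE' => by
    rw [Nat.cast_one, one_smul]
    exact hh1 E' hE')
  have hiter : ∀ (n : ℕ) (x : integralClosure R M),
      (((⇑(PS ⟨h, hh⟩))^[n] x : integralClosure R M) : M) = (⇑(P' h))^[n] x := by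
    intro n
    induction n with
    | zero => intro x; rfl
    | succ n ih =>
      intro x
      rw [Function.iterate_succ_apply, Function.iterate_succ_apply, ih, hPS]
  have hadj : IsAdjointVariety ℬ PS := isAdjointVariety_of_not_nilpotent hBF hhB
    (r := ⟨s, hs⟩) (fun n h0 => hn n (by
      have h1 := hiter n ⟨s, hs⟩
      rw [h0] at h1
      exact h1.symm))
  have hsurj : ∀ s : integralClosure R M, ∃ r : R, algebraMap R (integralClosure R M) r = s :=
    fun s => exists_of_invariant s fun σ => by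
      rw [hcov.eq_refl hX hBF hadj σ]
      rfl
  obtain ⟨h₀, hh₀⟩ := hsurj ⟨h, hh⟩
  obtain ⟨s₀, hs₀⟩ := hsurj ⟨s, hs⟩
  have hinj' : Function.Injective (algebraMap R (integralClosure R M)) :=
    FaithfulSMul.algebraMap_injective R _
  have h1 : (DirectSum.decompose 𝒜 h₀ 1 : R) = h₀ := by
    apply hinj'
    rw [← coe_decompose_algebraMap hcov.mem, hh₀, DirectSum.decompose_of_mem_same ℬ hhB]
  have h2 : h₀ ∈ 𝒜 1 := by
    rw [← h1]
    exact SetLike.coe_mem _
  have h3 : ∀ (n : ℕ) (x : R), algebraMap R (integralClosure R M) ((⇑(P h₀))^[n] x) =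
      (⇑(PS ⟨h, hh⟩))^[n] (algebraMap R _ x) := by
    intro n
    induction n with
    | zero => intro x; rfl
    | succ n ih =>
      intro x
      rw [Function.iterate_succ_apply, Function.iterate_succ_apply, ih, ← hcov.ext, hh₀]
  refine isAdjointVariety_of_not_nilpotent hX h2 (r := s₀) (fun n h0 => hn n ?_)
  have h4 := h3 n s₀
  rw [h0, map_zero, hs₀] at h4
  have h5 := hiter n ⟨s, hs⟩
  rw [← h4] at h5
  exact h5.symm

end Vale.Agent.P292
end

section

/-! # Assembly: auxiliary lemmas. -/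

namespace Vale.Agent.P292

open MvPolynomial TensorProduct

universe u v w

section
variable {R : Type u} [CommRing R] [Algebra ℂ R] {𝒜 : ℕ → Submodule ℂ R} [GradedAlgebra 𝒜]
  {P : R →ₗ[ℂ] R →ₗ[ℂ] R}

/-- closed points avoid proper closed subsets -/
theorem exists_closed_ne (hX : IsContactFano 𝒜 P) (g : R) (hg : g ≠ 0) :
    ∃ w : R →ₐ[ℂ] ℂ, w g ≠ 0 := by
  have := hX.domain
  obtain ⟨w, -, h⟩ := exists_closed_of_prime hX (⊥ : Ideal R) (fun r n h => by
    rw [Ideal.mem_bot] at h ⊢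
    exact eq_zero_of_pow_eq_zero h) g (by simpa using hg)
  exact ⟨w, h⟩

/-- partial evaluation in the first factor -/
noncomputable def evLeft (F : R ⊗[ℂ] R) (w : R →ₐ[ℂ] ℂ) : R :=
  TensorProduct.lid ℂ R (LinearMap.rTensor R w.toLinearMap F)

theorem apply_evLeft (F : R ⊗[ℂ] R) (w q : R →ₐ[ℂ] ℂ) :
    q (evLeft F w) = Algebra.TensorProduct.lift w q (fun _ _ => Commute.all _ _) F := by
  have h : (q.toLinearMap ∘ₗ (TensorProduct.lid ℂ R).toLinearMap ∘ₗ
      LinearMap.rTensor R w.toLinearMap) =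
      (Algebra.TensorProduct.lift w q (fun _ _ => Commute.all _ _)).toLinearMap := by
    apply TensorProduct.ext'
    intro a b
    simp
  exact LinearMap.congr_fun h F

theorem exists_evLeft_ne_zero (F : R ⊗[ℂ] R) (hF : F ≠ 0) :
    ∃ g₁ : R, g₁ ≠ 0 ∧ ∀ w : R →ₐ[ℂ] ℂ, w g₁ ≠ 0 → evLeft F w ≠ 0 := by
  classical
  let ℬ := Module.Free.chooseBasis ℂ R
  let e := TensorProduct.equivFinsuppOfBasisRight (M := R) ℬ
  have he : e F ≠ 0 := by simpa using hF
  obtain ⟨i, hi⟩ := Finsupp.ne_iff.mp he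
  rw [Finsupp.zero_apply] at hi
  refine ⟨e F i, hi, fun w hw h0 => hw ?_⟩
  have h1 : F = (e F).sum fun i m => m ⊗ₜ ℬ i := by
    rw [← TensorProduct.equivFinsuppOfBasisRight_symm_apply]
    exact (LinearEquiv.symm_apply_apply _ _).symm
  have h2 : evLeft F w = (e F).sum fun i m => w m • ℬ i := by
    conv_lhs => rw [evLeft, h1]
    rw [Finsupp.sum, Finsupp.sum, map_sum, map_sum]
    refine Finset.sum_congr rfl fun j _ => ?_
    simp
  have h3 := ℬ.linearIndependent
  rw [linearIndependent_iff'] at h3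
  have h4 := h3 (e F).support (fun j => w (e F j)) (by rw [← h0, h2]; rfl) i
  by_cases his : i ∈ (e F).support
  · exact h4 his
  · rw [Finsupp.notMem_support_iff] at his
    rw [his, map_zero]

/-- the discriminant of a monic irreducible polynomial is nonzero -/
theorem discr_ne_zero_of_irreducible [IsDomain R] [IsIntegrallyClosed R] {Q : Polynomial R}
    (hm : Q.Monic) (hi : Irreducible Q) : Q.discr ≠ 0 := by
  have : CharZero R := charZero_of_injective_algebraMap (algebraMap ℂ R).injective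
  have : CharZero (FractionRing R) := charZero_of_injective_algebraMap
    (IsFractionRing.injective R (FractionRing R))
  set K := FractionRing R
  set f := Q.map (algebraMap R K) with hf
  have hfi : Irreducible f := (hm.irreducible_iff_irreducible_map_fraction_map (K := K)).1 hi
  have hfm : f.Monic := hm.map _
  have hdeg : f.natDegree = Q.natDegree := hm.natDegree_map _
  have hpos : 0 < f.natDegree := hfi.natDegree_pos
  have hQpos : 0 < Q.natDegree := hdeg ▸ hpos
  intro h0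
  have h1 := Polynomial.resultant_deriv (f := Q) (Polynomial.natDegree_pos_iff_degree_pos.1 hQpos)
  rw [h0, mul_zero] at h1
  have h2 : Polynomial.resultant f f.derivative Q.natDegree (Q.natDegree - 1) = 0 := by
    rw [hf, Polynomial.derivative_map, Polynomial.resultant_map_map, h1, map_zero]
  have h3 : f.derivative.natDegree = Q.natDegree - 1 := by
    rw [← hdeg]; exact Polynomial.natDegree_eq_of_degree_eq_some
      (Polynomial.degree_derivative_eq f hpos)
  rw [← hdeg, show f.natDegree - 1 = f.derivative.natDegree by rw [h3, hdeg]] at h2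
  rw [Polynomial.resultant_eq_zero_iff] at h2
  exact h2.2 hfi.separable

omit [Algebra ℂ R] in
/-- `IsUnram` passes to subextensions. -/
theorem IsUnram.of_algHom {M₁ M₂ : Type u} [Field M₁]
    [Field M₂] [Algebra R M₁] [Algebra R M₂] (f : M₁ →ₐ[R] M₂) (h : IsUnram R M₂) :
    IsUnram R M₁ := by
  intro 𝔭 _ V _ _ _ _ _ _ _ _ ϖ hϖ s hs
  let f' : M₁ →+* M₂ := f.toRingHom
  let _ : Algebra V M₂ := (f'.comp (algebraMap V M₁)).toAlgebra
  have hVM : ∀ x : V, algebraMap V M₂ x = f (algebraMap V M₁ x) := fun _ => rfl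
  have : IsScalarTower R V M₂ := IsScalarTower.of_algebraMap_eq fun r => by
    rw [hVM, ← IsScalarTower.algebraMap_apply R V M₁, f.commutes]
  have : FaithfulSMul V M₂ := (faithfulSMul_iff_algebraMap_injective V M₂).2 fun a b hab => by
    rw [hVM, hVM] at hab
    exact FaithfulSMul.algebraMap_injective V M₁ (f'.injective hab)
  let g : M₁ →ₐ[V] M₂ := { f' with commutes' := fun x => rfl }
  have hg : ∀ x, g x = f x := fun _ => rfl
  have hgi : Function.Injective g := f'.injective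
  have h1 := h 𝔭 V ϖ hϖ (f s) (by
    have := (isIntegral_algHom_iff g hgi).2 hs
    rwa [map_div₀, map_pow, g.commutes] at this)
  rw [← isIntegral_algHom_iff g hgi, map_div₀, g.commutes]
  exact h1

end

end Vale.Agent.P292
end

section

/-! # Block I: integrality over `R` from valuation rings, and good polynomials. -/

namespace Vale.Agent.P292

open Module Polynomial

universe u v

set_option linter.style.haveILetI false
set_option linter.unusedSectionVars false

/-- Units of a valuation ring have valuation one. -/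
theorem i0_valuation_eq_one {Ω : Type*} [Field Ω] (v : ValuationSubring Ω) {y z : Ω}
    (hy : y ∈ v) (hz : z ∈ v) (hyz : y * z = 1) : v.valuation y = 1 := by
  have h1 := (v.valuation_le_one_iff y).2 hy
  have h2 := (v.valuation_le_one_iff z).2 hz
  refine le_antisymm h1 ?_
  calc (1 : v.ValueGroup) = v.valuation y * v.valuation z := by rw [← map_mul, hyz, map_one]
    _ ≤ v.valuation y * 1 := mul_le_mul_right h2 _
    _ = v.valuation y := mul_one _

variable {R : Type u} [CommRing R] [Algebra ℂ R] {𝒜 : ℕ → Submodule ℂ R} [GradedAlgebra 𝒜]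
  {P : R →ₗ[ℂ] R →ₗ[ℂ] R}

/-- (I0a) An element of an extension field of `R` which lies in every valuation ring containing
`R` and having a nonvertex centre is integral over `R`. -/
theorem isIntegral_of_valuationSubring (hX : IsContactFano 𝒜 P) {Ω : Type v} [Field Ω]
    [Algebra ℂ Ω] (ι : R →ₐ[ℂ] Ω) (hι : Function.Injective ι) (x : Ω)
    (h : ∀ v : ValuationSubring Ω, (∀ c : ℂ, algebraMap ℂ Ω c ∈ v) → (∀ r, ι r ∈ v) →
      (∃ k : ℕ, 0 < k ∧ ∃ r ∈ 𝒜 k, v.valuation (ι r) = 1) → x ∈ v) :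
    ∃ q : R[X], q.Monic ∧ q.eval₂ (ι : R →+* Ω) x = 0 := by
  haveI := hX.domain
  haveI := hX.normal
  haveI := hX.finiteType
  haveI : IsNoetherianRing R := Algebra.FiniteType.isNoetherianRing ℂ R
  letI : Algebra R Ω := (ι : R →+* Ω).toAlgebra
  have hι' : ∀ r, algebraMap R Ω r = ι r := fun r => rfl
  haveI : FaithfulSMul R Ω := (faithfulSMul_iff_algebraMap_injective R Ω).2 hι
  suffices IsIntegral R x from this
  letI : Algebra (FractionRing R) Ω := FractionRing.liftAlgebra R Ω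
  haveI : IsScalarTower R (FractionRing R) Ω := FractionRing.isScalarTower_liftAlgebra R Ω
  have halg : IsIntegral (FractionRing R) x := by
    refine isIntegral_of_forall_valuationSubring x fun v hv => ?_
    have hvR : ∀ r, ι r ∈ v := fun r => by
      have h1 := hv (algebraMap R _ r)
      rwa [← IsScalarTower.algebraMap_apply] at h1
    refine h v (fun c => ?_) hvR ?_
    · rw [← ι.commutes c]
      exact hvR _
    · obtain ⟨p, hp⟩ := hX.nonempty
      unfold IsVertex at hp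
      push Not at hp
      obtain ⟨k, hk, r, hr, hpr⟩ := hp
      refine ⟨k, hk, r, hr, ?_⟩
      have hr0 : r ≠ 0 := by
        rintro rfl
        exact hpr (map_zero p)
      have hr1 : algebraMap R (FractionRing R) r ≠ 0 := by
        rw [Ne, map_eq_zero_iff _ (IsFractionRing.injective R _)]
        exact hr0
      refine i0_valuation_eq_one v (hvR r) (hv (algebraMap R (FractionRing R) r)⁻¹) ?_
      rw [← hι', IsScalarTower.algebraMap_apply R (FractionRing R) Ω, ← map_mul,
        mul_inv_cancel₀ hr1, map_one]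
  refine isIntegral_of_forall_dvr x
    ((IsFractionRing.isAlgebraic_iff R (FractionRing R) Ω).2 halg.isAlgebraic) ?_
  intro 𝔭 _ V _ _ _ _ _ _ _ _
  refine isIntegral_of_forall_valuationSubring x fun v hv => ?_
  have hvR : ∀ r, ι r ∈ v := fun r => by
    have h1 := hv (algebraMap R _ r)
    rwa [← IsScalarTower.algebraMap_apply] at h1
  refine h v (fun c => ?_) hvR ?_
  · rw [← ι.commutes c]
    exact hvR _
  · by_cases h𝔭 : ∀ k, 0 < k → ∀ r ∈ 𝒜 k, r ∈ 𝔭
    · exact (not_dvr_vertex hX 𝔭 h𝔭 V).elim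
    push Not at h𝔭
    obtain ⟨k, hk, g, hg, hg𝔭⟩ := h𝔭
    refine ⟨k, hk, g, hg, ?_⟩
    obtain ⟨w, hw⟩ := (IsLocalization.map_units V (⟨g, hg𝔭⟩ : 𝔭.primeCompl)).exists_right_inv
    refine i0_valuation_eq_one v (hvR g) (hv w) ?_
    rw [← hι', IsScalarTower.algebraMap_apply R V Ω, ← map_mul, hw, map_one]

/-- The chain rule for a derivation and a polynomial with coefficients in `R`. -/
theorem i0_derivation_aeval {Ω : Type v} [CommRing Ω] [Algebra ℂ Ω] [Algebra R Ω]
    (D : Derivation ℂ Ω Ω) (β : Ω) (q : R[X]) : D (aeval β q) =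
      (q.sum fun i c => D (algebraMap R Ω c) * β ^ i) + aeval β (derivative q) * D β := by
  induction q using Polynomial.induction_on' with
  | add p q hp hq =>
    rw [map_add, map_add, hp, hq, Polynomial.sum_add_index _ _ _ (fun i => by simp)
      (fun i a b => by rw [map_add, map_add, add_mul]), map_add, map_add]
    ring
  | monomial n c =>
    rw [aeval_monomial, Derivation.leibniz, Derivation.leibniz_pow,
      Polynomial.sum_monomial_index _ _ (by simp), derivative_monomial, aeval_monomial]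
    simp only [smul_eq_mul, nsmul_eq_mul, map_mul, map_natCast]
    ring

theorem i0_decompose_euler (r : R) (i : ℕ) : (DirectSum.decompose 𝒜 (euler 𝒜 r) i : R) =
    (i : ℂ) • (DirectSum.decompose 𝒜 r i : R) := by
  classical
  refine forall_of_homogeneous' (𝒜 := 𝒜)
    ((𝒜 i).subtype ∘ₗ DirectSum.component ℂ ℕ (fun j => 𝒜 j) i ∘ₗ
      (DirectSum.decomposeLinearEquiv 𝒜).toLinearMap ∘ₗ euler 𝒜)
    ((i : ℂ) • ((𝒜 i).subtype ∘ₗ DirectSum.component ℂ ℕ (fun j => 𝒜 j) i ∘ₗ
      (DirectSum.decomposeLinearEquiv 𝒜).toLinearMap)) (fun j s hs => ?_) r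
  change (DirectSum.decompose 𝒜 (euler 𝒜 s) i : R) = (i : ℂ) • (DirectSum.decompose 𝒜 s i : R)
  rw [euler_apply j s hs]
  have h1 : (j : ℂ) • s ∈ 𝒜 j := Submodule.smul_mem _ _ hs
  by_cases hij : i = j
  · subst hij
    rw [DirectSum.decompose_of_mem_same 𝒜 h1, DirectSum.decompose_of_mem_same 𝒜 hs]
  · rw [DirectSum.decompose_of_mem_ne 𝒜 h1 (Ne.symm hij),
      DirectSum.decompose_of_mem_ne 𝒜 hs (Ne.symm hij), smul_zero]

/-- (I0b) Integral elements of degree `1 / d` with integral brackets are roots of good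
polynomials. -/
theorem exists_isGood_of (hX : IsContactFano 𝒜 P) {Ω : Type u} [Field Ω] [Algebra ℂ Ω]
    (ι : R →ₐ[ℂ] Ω) (hι : Function.Injective ι) {d : ℕ} (hd : 0 < d) (β : Ω)
    (hβ : ∃ q : R[X], q.Monic ∧ q.eval₂ (ι : R →+* Ω) β = 0)
    (hE : ∃ D : Derivation ℂ Ω Ω, (∀ k, ∀ r ∈ 𝒜 k, D (ι r) = (k : ℂ) • ι r) ∧
      (d : ℂ) • D β = β)
    (hbr : ∀ k, 0 < k → ∀ r ∈ 𝒜 k, ∃ D : Derivation ℂ Ω Ω, (∀ s, D (ι s) = ι (P r s)) ∧
      ∃ q : R[X], q.Monic ∧ q.eval₂ (ι : R →+* Ω) (D β) = 0) :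
    ∃ Q : R[X], IsGood 𝒜 P d Q ∧ Q.eval₂ (ι : R →+* Ω) β = 0 := by
  haveI := hX.domain
  haveI := hX.normal
  letI : Algebra R Ω := (ι : R →+* Ω).toAlgebra
  have hι' : ∀ r, algebraMap R Ω r = ι r := fun r => rfl
  haveI : FaithfulSMul R Ω := (faithfulSMul_iff_algebraMap_injective R Ω).2 hι
  have hint : IsIntegral R β := hβ
  have hdc : (d : ℂ) ≠ 0 := Nat.cast_ne_zero.2 hd.ne'
  haveI : CharZero Ω := charZero_of_injective_algebraMap (algebraMap ℂ Ω).injective
  haveI : CharZero R := charZero_of_injective_algebraMap (algebraMap ℂ R).injective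
  set Q := minpoly R β with hQ
  have hQm : Q.Monic := minpoly.monic hint
  have hQi : Irreducible Q := minpoly.irreducible hint
  have hQ0 : aeval β Q = 0 := minpoly.aeval R β
  -- minimality
  have hmin : ∀ q : R[X], q.degree < Q.degree → aeval β q = 0 → q = 0 := by
    intro q hq hq0
    by_contra hne
    exact absurd (minpoly.IsIntegrallyClosed.degree_le_of_ne_zero hne hq0) (not_le.2 hq)
  have hQ'0 : aeval β (derivative Q) ≠ 0 := by
    intro h0
    have h1 := hmin _ (degree_derivative_lt hQm.ne_zero) h0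
    have h2 := derivative_eq_zero.1 h1
    exact (minpoly.natDegree_pos hint).ne' h2
  -- homogeneity
  have hhom : ∀ i, (d : ℂ) • euler 𝒜 (Q.coeff i) = ((Q.natDegree : ℂ) - i) • Q.coeff i := by
    obtain ⟨D, hD, hDβ⟩ := hE
    have hDι : ∀ r, D (ι r) = ι (euler 𝒜 r) := by
      intro r
      refine forall_of_homogeneous' (𝒜 := 𝒜) ((D : Ω →ₗ[ℂ] Ω) ∘ₗ ι.toLinearMap)
        (ι.toLinearMap ∘ₗ euler 𝒜) (fun k s hs => ?_) r
      change D (ι s) = ι (euler 𝒜 s)
      rw [hD k s hs, euler_apply k s hs, map_smul]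
    have h1 := i0_derivation_aeval D β Q
    rw [hQ0, map_zero] at h1
    let EQ : R[X] := ∑ i ∈ Finset.range (Q.natDegree + 1), monomial i (euler 𝒜 (Q.coeff i))
    have hEQ : ∀ i, EQ.coeff i = euler 𝒜 (Q.coeff i) := by
      intro i
      rw [finsetSum_coeff]
      simp only [coeff_monomial]
      rw [Finset.sum_ite_eq']
      split_ifs with hi
      · rfl
      · rw [Finset.mem_range, not_lt] at hi
        rw [coeff_eq_zero_of_natDegree_lt (by omega), map_zero]
    have hEQβ : aeval β EQ = Q.sum fun i c => D (algebraMap R Ω c) * β ^ i := by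
      rw [Polynomial.sum_over_range _ (fun i => by simp), map_sum]
      refine Finset.sum_congr rfl fun i _ => ?_
      rw [aeval_monomial, hι', hι', hDι]
    let T : R[X] := C (algebraMap ℂ R d) * EQ - C (algebraMap ℂ R Q.natDegree) * Q +
      X * derivative Q
    have hT : ∀ i, T.coeff i = (d : ℂ) • euler 𝒜 (Q.coeff i) -
        ((Q.natDegree : ℂ) - i) • Q.coeff i := by
      intro i
      simp only [T]
      rw [coeff_add, coeff_sub, coeff_C_mul, coeff_C_mul, hEQ, Algebra.smul_def, Algebra.smul_def,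
        map_sub]
      rcases i with _ | i
      · simp
      · rw [coeff_X_mul, coeff_derivative]
        simp only [map_natCast]
        push_cast
        ring
    have hTd : T.degree < Q.degree := by
      rw [degree_eq_natDegree hQm.ne_zero, degree_lt_iff_coeff_zero]
      intro i hi
      rw [hT]
      rcases hi.eq_or_lt with rfl | hi
      · have h3 := euler_apply 0 (1 : R) (SetLike.one_mem_graded 𝒜)
        rw [hQm.coeff_natDegree, h3, Nat.cast_zero, zero_smul, sub_self, zero_smul, smul_zero,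
          sub_zero]
      · rw [coeff_eq_zero_of_natDegree_lt hi, map_zero, smul_zero, smul_zero, sub_zero]
    have hT0 : aeval β T = 0 := by
      simp only [T]
      rw [map_add, map_sub, map_mul, map_mul, map_mul, hQ0, hEQβ, aeval_C, aeval_X, mul_zero,
        sub_zero, hι', ι.commutes]
      have h4 : algebraMap ℂ Ω d * D β = β := by rw [← Algebra.smul_def]; exact hDβ
      linear_combination (-(algebraMap ℂ Ω d)) * h1 - aeval β (derivative Q) * h4
    have hT00 := hmin T hTd hT0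
    intro i
    rw [← sub_eq_zero, ← hT, hT00, coeff_zero]
  refine ⟨Q, ⟨hQm, hQi, ?_, ?_, ?_⟩, hQ0⟩
  · intro i hi j hj
    refine zb6_mem_of_euler ?_
    have h1 := hhom i
    have h2 : (Q.natDegree : ℂ) - i = (d : ℂ) * j := by
      rw [← Nat.cast_sub hi, hj, Nat.cast_mul]
    rw [h2, mul_smul] at h1
    exact smul_right_injective R hdc h1
  · intro i hi hndvd
    classical
    rw [← DirectSum.sum_support_decompose 𝒜 (Q.coeff i)]
    refine Finset.sum_eq_zero fun j _ => ?_
    have h1 := congrArg (fun r => (DirectSum.decompose 𝒜 r j : R)) (hhom i)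
    simp only [DirectSum.decompose_smul, DirectSum.smul_apply, Submodule.coe_smul,
      i0_decompose_euler] at h1
    rw [smul_smul, ← sub_eq_zero, ← sub_smul, smul_eq_zero] at h1
    refine h1.resolve_left fun h2 => hndvd ⟨j, ?_⟩
    have h3 : ((Q.natDegree - i : ℕ) : ℂ) = ((d * j : ℕ) : ℂ) := by
      rw [Nat.cast_sub hi, Nat.cast_mul]
      linear_combination -h2
    exact_mod_cast h3
  · refine ⟨Ω, inferInstance, inferInstance, hι, β, hQ0, ?_⟩
    have hsum : ∀ r, aeval β (brP P r Q) = Q.sum fun i c => algebraMap R Ω (P r c) * β ^ i := by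
      intro r
      rw [brP, Polynomial.sum_over_range _ (fun i => by simp),
        Polynomial.sum_over_range _ (fun i => by simp), map_sum]
      refine Finset.sum_congr rfl fun i _ => ?_
      rw [aeval_monomial]
    have hzero : ∀ r, (∀ s, P r s = 0) → aeval β (brP P r Q) = 0 := by
      intro r hr
      rw [hsum, Polynomial.sum_over_range _ (fun i => by simp)]
      refine Finset.sum_eq_zero fun i _ => ?_
      rw [hr, map_zero, zero_mul]
    intro r
    induction r using DirectSum.Decomposition.inductionOn 𝒜 with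
    | zero =>
      rw [hzero 0 (fun s => by rw [map_zero, LinearMap.zero_apply]), zero_div]
      exact isIntegral_zero
    | @homogeneous k r =>
      rcases Nat.eq_zero_or_pos k with rfl | hk
      · obtain ⟨c, hc⟩ := hX.connected r r.2
        rw [hzero r (fun s => by rw [hc]; exact hX.P_algebraMap_left s c), zero_div]
        exact isIntegral_zero
      · obtain ⟨D, hD, hDβ⟩ := hbr k hk r r.2
        have h1 := i0_derivation_aeval D β Q
        rw [hQ0, map_zero] at h1
        have h2 : aeval β (brP P r Q) = Q.sum fun i c => D (algebraMap R Ω c) * β ^ i := by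
          rw [hsum]
          congr 1
          ext i c
          rw [hι', hι', hD]
        have h3 : aeval β (brP P r Q) / aeval β (derivative Q) = - D β := by
          rw [div_eq_iff hQ'0, h2]
          linear_combination -h1
        rw [h3]
        exact IsIntegral.neg hDβ
    | add r s hr hs =>
      have h1 : aeval β (brP P (r + s) Q) = aeval β (brP P r Q) + aeval β (brP P s Q) := by
        rw [hsum, hsum, hsum, Polynomial.sum_over_range _ (fun i => by simp),
          Polynomial.sum_over_range _ (fun i => by simp),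
          Polynomial.sum_over_range _ (fun i => by simp), ← Finset.sum_add_distrib]
        refine Finset.sum_congr rfl fun i _ => ?_
        rw [map_add, LinearMap.add_apply, map_add, add_mul]
      rw [h1, add_div]
      exact IsIntegral.add hr hs

end Vale.Agent.P292
end

section

/-! # Block I: the square of `b` is a root of a good polynomial (I1), and `b a_{2k-1}(r)` is
integral (I3). -/

namespace Vale.Agent.P292

open MvPolynomial

universe u v

set_option linter.unusedSectionVars false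

variable {R : Type u} [CommRing R] [Algebra ℂ R] {𝒜 : ℕ → Submodule ℂ R} [GradedAlgebra 𝒜]
  {P : R →ₗ[ℂ] R →ₗ[ℂ] R}

/-! ### values of forms at `(0, 1)` -/

/-- The value of a form of degree `n` at `(0, 1)` is its last coefficient. -/
theorem i1_eval_last {κ : Type v} [Field κ] {p : MvPolynomial (Fin 2) κ} {n : ℕ}
    (hp : p.IsHomogeneous n) : eval ![0, 1] p = coeff (Finsupp.single 1 n) p := by
  classical
  rw [eval_eq', Finset.sum_eq_single (Finsupp.single 1 n)]
  · rw [Fin.prod_univ_two]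
    simp
  · intro m hm hne
    rw [Fin.prod_univ_two]
    simp only [Matrix.cons_val_zero, Matrix.cons_val_one]
    have hm0 : m 0 ≠ 0 := by
      intro h0
      apply hne
      have h1 := hp.degree_eq_sum_deg_support hm
      have h2 : m 0 + m 1 = n := by
        rw [h1, Finset.sum_subset (Finset.subset_univ m.support)
          (fun i _ hi => Finsupp.notMem_support_iff.1 hi), Fin.sum_univ_two]
      ext i
      fin_cases i
      · simp [h0]
      · simp only [h0, zero_add] at h2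
        simp [h2]
    rw [zero_pow hm0, zero_mul, mul_zero]
  · intro h0
    rw [notMem_support_iff.1 h0, zero_mul]

/-- The value of `∂₀ p` at `(0, 1)`. -/
theorem i1_eval_pderiv_zero {κ : Type v} [Field κ] {p : MvPolynomial (Fin 2) κ} {n : ℕ}
    (hp : p.IsHomogeneous n) : eval ![0, 1] (pderiv 0 p) = cf p 1 (n - 1) := by
  rw [i1_eval_last hp.pderiv, coeff_pderiv, cf, add_comm]
  simp

/-- The value of `∂₁ p` at `(0, 1)`. -/
theorem i1_eval_pderiv_one {κ : Type v} [Field κ] {p : MvPolynomial (Fin 2) κ} {n : ℕ}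
    (hp : p.IsHomogeneous n) : eval ![0, 1] (pderiv 1 p) = n * eval ![0, 1] p := by
  have h := congrArg (eval ![0, 1]) hp.sum_X_mul_pderiv
  rw [Fin.sum_univ_two] at h
  simpa using h

section
variable {Ω : Type v} [Field Ω] [IsAlgClosed Ω] [Algebra ℂ Ω] {w : R →ₐ[ℂ] ℂ}
  {φ : R →ₐ[ℂ] MvPolynomial (Fin 2) Ω}

/-- The point `w` is not the vertex. -/
theorem GenConicAt.i1_notVertex (hφ : GenConicAt 𝒜 w φ) : ¬ IsVertex 𝒜 w := by
  obtain ⟨k, hk, r, hr, h⟩ := hφ.curve.bpf ![1, 0] (by simp)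
  intro hw
  apply h
  have h1 := hφ.left r
  rw [hw k hk r hr, map_zero, pt_apply] at h1
  rw [aeval_eq_eval]
  exact h1

/-- The end point `(0, 1)` is not the vertex. -/
theorem GenConicAt.i1_isNV (hφ : GenConicAt 𝒜 w φ) : IsNV 𝒜 (pt φ ![0, 1]) := by
  obtain ⟨k, hk, r, hr, h⟩ := hφ.curve.bpf ![0, 1] (by simp)
  refine ⟨k, hk, r, hr, ?_⟩
  rw [pt_apply]
  rwa [aeval_eq_eval] at h

/-- The bound N1 for a generic conic at `w`. -/
theorem GenConicAt.i1_bound (hX : IsContactFano 𝒜 P) (hφ : GenConicAt 𝒜 w φ) {b : Ω}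
    (hb : omC P φ (pd φ 0) (pd φ 1) = C b) (v : ValuationSubring Ω)
    (hv : ∀ c : ℂ, algebraMap ℂ Ω c ∈ v) (h01 : ∀ r, pt φ ![0, 1] r ∈ v)
    (n01 : ∃ k : ℕ, 0 < k ∧ ∃ r ∈ 𝒜 k, v.valuation (pt φ ![0, 1] r) = 1) :
    b ∈ v ∧ ∀ k : ℕ, 0 < k → ∀ r ∈ 𝒜 k, b * cf (φ r) 1 (2 * k - 1) ∈ v ∧
      b * cf (φ r) (2 * k - 1) 1 ∈ v := by
  refine bound hX hφ.curve hb v hv (fun r => ?_) h01 ?_ n01
  · rw [hφ.left]
    exact hv _
  · have h1 := hφ.i1_notVertex
    unfold IsVertex at h1
    push Not at h1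
    obtain ⟨k, hk, r, hr, hw⟩ := h1
    refine ⟨k, hk, r, hr, ?_⟩
    rw [hφ.left]
    refine i0_valuation_eq_one v (hv _) (hv (w r)⁻¹) ?_
    rw [← map_mul, mul_inv_cancel₀ hw, map_one]

/-- The derivation of `Ω` extending the Euler derivation. -/
theorem GenConicAt.exists_euler (hX : IsContactFano 𝒜 P) (hφ : GenConicAt 𝒜 w φ) {b : Ω}
    (hb : omC P φ (pd φ 0) (pd φ 1) = C b) :
    ∃ D : Derivation ℂ Ω Ω, (∀ k, ∀ r ∈ 𝒜 k,
      D (pt φ ![0, 1] r) = (k : ℂ) • pt φ ![0, 1] r) ∧ (2 : ℂ) • D b = b := by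
  obtain ⟨D, hD⟩ := exists_derivation_of_isDer hφ.inj
    (δ := (pt φ ![0, 1]).toLinearMap ∘ₗ euler 𝒜) (fun r s => by
      simp only [LinearMap.comp_apply, AlgHom.toLinearMap_apply, euler_mul, map_add, map_mul]
      ring)
  have hD' : ∀ r, D (pt φ ![0, 1] r) = pt φ ![0, 1] (euler 𝒜 r) := fun r =>
    LinearMap.congr_fun hD r
  have hDk : ∀ k, ∀ r ∈ 𝒜 k, D (pt φ ![0, 1] r) = (k : ℂ) • pt φ ![0, 1] r := by
    intro k r hr
    rw [hD', euler_apply k r hr, map_smul]
  refine ⟨D, hDk, ?_⟩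
  have h0 : IsHDer 𝒜 2 φ (-1) (pd φ 0) := isHDer_pd hφ.curve 0
  have h1 : IsHDer 𝒜 2 φ (-1) (pd φ 1) := isHDer_pd hφ.curve 1
  have hd0 : IsDer (pt φ ![0, 1]) (evL ![0, 1] (pd φ 0)) := fun r s => by
    rw [evL_apply, evL_apply, evL_apply, h0.der r s, map_add, map_mul, map_mul, pt_apply,
      pt_apply]
  have hd1 : IsDer (pt φ ![0, 1]) (evL ![0, 1] (pd φ 1)) := fun r s => by
    rw [evL_apply, evL_apply, evL_apply, h1.der r s, map_add, map_mul, map_mul, pt_apply,
      pt_apply]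
  have hal : evL ![0, 1] (pd φ 1) = (2 : Ω) • alongAt (pt φ ![0, 1]) D := by
    refine LinearMap.ext fun r => ?_
    refine forall_of_homogeneous' (𝒜 := 𝒜) (evL ![0, 1] (pd φ 1))
      ((2 : Ω) • alongAt (pt φ ![0, 1]) D) (fun k s hs => ?_) r
    rw [evL_apply, pd_apply, i1_eval_pderiv_one (hφ.curve.degree k s hs), LinearMap.smul_apply,
      alongAt_apply, hDk k s hs, pt_apply, smul_eq_mul, Algebra.smul_def, map_natCast]
    push_cast
    ring
  have h2 := first_variation hX hφ hb D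
  have h3 := omC_eval hX hφ.curve h0 h1 ![0, 1] (by simp)
  rw [hb, eval_C, hal, om_smul_right hX hφ.i1_isNV hd0 (isDer_alongAt _ _), ← h2] at h3
  rw [Algebra.smul_def, map_ofNat]
  exact h3

end

section integral
variable {Ω : Type u} [Field Ω] [IsAlgClosed Ω] [Algebra ℂ Ω] {w : R →ₐ[ℂ] ℂ}
  {φ : R →ₐ[ℂ] MvPolynomial (Fin 2) Ω}

/-- Hamiltonian derivations of `Ω`. -/
theorem GenConicAt.exists_ham (hX : IsContactFano 𝒜 P) (hφ : GenConicAt 𝒜 w φ) {b : Ω}
    (hb : omC P φ (pd φ 0) (pd φ 1) = C b) {k : ℕ} {r : R} (hr : r ∈ 𝒜 k) :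
    ∃ D : Derivation ℂ Ω Ω, (∀ s, D (pt φ ![0, 1] s) = pt φ ![0, 1] (P r s)) ∧
      D b = - cf (φ r) 1 (2 * k - 1) := by
  obtain ⟨D, hD⟩ := exists_derivation_of_isDer hφ.inj
    (isDer_hamAt hX (pt φ ![0, 1]) r)
  have hD' : ∀ s, D (pt φ ![0, 1] s) = pt φ ![0, 1] (P r s) := fun s =>
    LinearMap.congr_fun hD s
  refine ⟨D, hD', ?_⟩
  rw [first_variation_ham hX hφ hb D r hD', i1_eval_pderiv_zero (hφ.curve.degree k r hr)]

/-- I3: `J(r) = b a_{2k-1}(r)` is integral over `R`. -/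
theorem isIntegral_J (hX : IsContactFano 𝒜 P) (hφ : GenConicAt 𝒜 w φ) {b : Ω}
    (hb : omC P φ (pd φ 0) (pd φ 1) = C b) {k : ℕ} (hk : 0 < k) {r : R} (hr : r ∈ 𝒜 k) :
    ∃ Q : Polynomial R, Q.Monic ∧
      Q.eval₂ (pt φ ![0, 1] : R →+* Ω) (b * cf (φ r) (2 * k - 1) 1) = 0 :=
  isIntegral_of_valuationSubring hX (pt φ ![0, 1]) hφ.inj _ fun v hv h01 n01 =>
    ((hφ.i1_bound hX hb v hv h01 n01).2 k hk r hr).2

/-- I1: `B = b²` is a root of a good polynomial. -/
theorem exists_isGood_one (hX : IsContactFano 𝒜 P) (hφ : GenConicAt 𝒜 w φ) {b : Ω}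
    (hb : omC P φ (pd φ 0) (pd φ 1) = C b) :
    ∃ Q : Polynomial R, IsGood 𝒜 P 1 Q ∧
      Q.eval₂ (pt φ ![0, 1] : R →+* Ω) (b ^ 2) = 0 := by
  refine exists_isGood_of hX (pt φ ![0, 1]) hφ.inj one_pos (b ^ 2) ?_ ?_ ?_
  · refine isIntegral_of_valuationSubring hX (pt φ ![0, 1]) hφ.inj _ fun v hv h01 n01 => ?_
    exact pow_mem (hφ.i1_bound hX hb v hv h01 n01).1 2
  · obtain ⟨D, hD, hDb⟩ := hφ.exists_euler hX hb
    refine ⟨D, hD, ?_⟩
    rw [Algebra.smul_def, map_ofNat] at hDb
    rw [Nat.cast_one, one_smul, Derivation.leibniz_pow]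
    simp only [smul_eq_mul, nsmul_eq_mul, Nat.cast_ofNat]
    linear_combination b * hDb
  · intro k hk r hr
    obtain ⟨D, hD, hDb⟩ := hφ.exists_ham hX hb hr
    refine ⟨D, hD, ?_⟩
    refine isIntegral_of_valuationSubring hX (pt φ ![0, 1]) hφ.inj _ fun v hv h01 n01 => ?_
    have h1 := ((hφ.i1_bound hX hb v hv h01 n01).2 k hk r hr).1
    have h2 : D (b ^ 2) = -(b * cf (φ r) 1 (2 * k - 1) + b * cf (φ r) 1 (2 * k - 1)) := by
      rw [Derivation.leibniz_pow, hDb]
      simp only [smul_eq_mul, nsmul_eq_mul, Nat.cast_ofNat]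
      ring
    rw [h2]
    exact neg_mem (add_mem h1 h1)

end integral

end Vale.Agent.P292
end

section

/-! # Block I2, the reduction: if the coefficients of the generic conic are integral then `b`
itself is a root of a good polynomial. The results of the blocks V, C, N enter as hypotheses. -/

namespace Vale.Agent.P292

set_option linter.style.haveILetI false
set_option linter.unusedSectionVars false

open MvPolynomial TensorProduct

universe u v

/-- The value at `(0, 1)` of a homogeneous polynomial. -/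
theorem i2_eval_eq_coeff {κ : Type*} [Field κ] {q : MvPolynomial (Fin 2) κ} {n : ℕ}
    (hq : q.IsHomogeneous n) : eval ![0, 1] q = coeff (Finsupp.single 1 n) q := by
  classical
  rw [eval_eq', Finset.sum_eq_single (Finsupp.single 1 n : Fin 2 →₀ ℕ)]
  · simp
  · intro m hm hne
    have hdeg := hq (mem_support_iff.1 hm)
    have hd : m 0 + m 1 = n := by
      rw [← hdeg, Finsupp.weight_apply, Finsupp.sum_fintype _ _ (fun i => by simp)]
      simp
    have hm0 : m 0 ≠ 0 := by
      intro h0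
      apply hne
      ext i
      fin_cases i
      · simp [h0]
      · simp
        omega
    simp [hm0]
  · intro hn
    rw [notMem_support_iff.1 hn, zero_mul]

/-- The coefficient of `s t ^ (m - 1)` is the value of `∂ / ∂ s` at `(0, 1)`. -/
theorem i2_eval_pderiv_zero {κ : Type*} [Field κ] [Algebra ℂ κ] {p : MvPolynomial (Fin 2) κ}
    {m : ℕ} (hp : p.IsHomogeneous m) : eval ![0, 1] (pderiv 0 p) = cf p 1 (m - 1) := by
  have h1 : (pderiv 0 p).IsHomogeneous (m - 1) := hp.pderiv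
  rw [i2_eval_eq_coeff h1, coeff_pderiv, cf, add_comm]
  simp

/-- Euler's formula at `(0, 1)`. -/
theorem i2_eval_pderiv_one {κ : Type*} [Field κ] [Algebra ℂ κ] {p : MvPolynomial (Fin 2) κ}
    {m : ℕ} (hp : p.IsHomogeneous m) : eval ![0, 1] (pderiv 1 p) = m * eval ![0, 1] p := by
  have h1 : (pderiv 1 p).IsHomogeneous (m - 1) := hp.pderiv
  rw [i2_eval_eq_coeff h1, i2_eval_eq_coeff hp, coeff_pderiv]
  rcases Nat.eq_zero_or_pos m with h0 | h0
  · subst h0
    have h2 : coeff (Finsupp.single 1 (0 - 1) + Finsupp.single 1 1 : Fin 2 →₀ ℕ) p = 0 := by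
      by_contra h
      have := hp h
      rw [Finsupp.weight_apply, Finsupp.sum_fintype _ _ (fun i => by simp)] at this
      simp at this
    rw [h2, Nat.cast_zero, zero_mul, zero_mul]
  · rw [← Finsupp.single_add, Nat.sub_add_cancel h0]
    have h3 : ((Finsupp.single 1 (m - 1) : Fin 2 →₀ ℕ) 1 : κ) + 1 = m := by
      rw [Finsupp.single_eq_same]
      have : ((m - 1 : ℕ) : κ) + 1 = ((m - 1 + 1 : ℕ) : κ) := by push_cast; ring
      rw [this, Nat.sub_add_cancel h0]
    rw [h3, mul_comm]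

variable {R : Type u} [CommRing R] [Algebra ℂ R] {𝒜 : ℕ → Submodule ℂ R} [GradedAlgebra 𝒜]
  {P : R →ₗ[ℂ] R →ₗ[ℂ] R}

/-- Two linear maps which agree on homogeneous elements are equal. -/
theorem i2_ext {M : Type*} [AddCommGroup M] [Module ℂ M] {f g : R →ₗ[ℂ] M}
    (h : ∀ k, ∀ r ∈ 𝒜 k, f r = g r) : f = g := by
  classical
  ext r
  rw [← DirectSum.sum_support_decompose 𝒜 r, map_sum, map_sum]
  exact Finset.sum_congr rfl fun k _ => h k _ (SetLike.coe_mem _)

variable {Ω : Type v} [Field Ω] [Algebra ℂ Ω] {w : R →ₐ[ℂ] ℂ}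
  {φ : R →ₐ[ℂ] MvPolynomial (Fin 2) Ω}

/-- The Euler derivation is induced by `(1 / 2) ∂ / ∂ t` at `(0, 1)`. -/
theorem i2_euler_apply (hφ : GenConicAt 𝒜 w φ) {k : ℕ} {r : R} (hr : r ∈ 𝒜 k) :
    ((2 : Ω)⁻¹ • evL ![0, 1] (pd φ 1)) r = (k : ℂ) • pt φ ![0, 1] r := by
  have h2 : (2 : Ω) ≠ 0 := by
    have : CharZero Ω := charZero_of_injective_algebraMap (algebraMap ℂ Ω).injective
    exact two_ne_zero
  rw [LinearMap.smul_apply, evL_apply, pd_apply, i2_eval_pderiv_one (hφ.curve.degree k r hr),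
    pt_apply, smul_eq_mul, Algebra.smul_def, map_natCast, Nat.cast_mul, ← mul_assoc, ← mul_assoc]
  rw [Nat.cast_ofNat, inv_mul_cancel₀ h2, one_mul]

theorem i2_isDer_evL (φ : R →ₐ[ℂ] MvPolynomial (Fin 2) Ω) (i : Fin 2) (a : Fin 2 → Ω) :
    IsDer (pt φ a) (evL a (pd φ i)) := by
  intro r s
  rw [evL_apply, evL_apply, evL_apply, pd_apply, pd_apply, pd_apply, map_mul,
    Derivation.leibniz, map_add, smul_eq_mul, smul_eq_mul, map_mul, map_mul, pt_apply, pt_apply]

theorem i2_isNV (hX : IsContactFano 𝒜 P) (hφ : GenConicAt 𝒜 w φ) : IsNV 𝒜 (pt φ ![0, 1]) := by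
  obtain ⟨p, hp⟩ := hX.nonempty
  unfold IsVertex at hp
  push Not at hp
  obtain ⟨k, hk, r, hr, hpr⟩ := hp
  refine ⟨k, hk, r, hr, fun h0 => hpr ?_⟩
  have : r = 0 := hφ.inj (by rw [h0, map_zero])
  rw [this, map_zero]

/-- `E b = b / 2` for the Euler derivation `E`. -/
theorem i2_euler_b (hX : IsContactFano 𝒜 P) (hφ : GenConicAt 𝒜 w φ) {b : Ω}
    (hom : om P (pt φ ![0, 1]) (evL ![0, 1] (pd φ 0)) (evL ![0, 1] (pd φ 1)) = b)
    (hfv : ∀ D : Derivation ℂ Ω Ω,
      D b = om P (pt φ ![0, 1]) (evL ![0, 1] (pd φ 0)) (alongAt (pt φ ![0, 1]) D))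
    (D : Derivation ℂ Ω Ω) (hD : ∀ k, ∀ r ∈ 𝒜 k, D (pt φ ![0, 1] r) = (k : ℂ) • pt φ ![0, 1] r) :
    (2 : ℂ) • D b = b := by
  have h2 : (2 : Ω) ≠ 0 := by
    have : CharZero Ω := charZero_of_injective_algebraMap (algebraMap ℂ Ω).injective
    exact two_ne_zero
  have h1 : alongAt (pt φ ![0, 1]) D = (2 : Ω)⁻¹ • evL ![0, 1] (pd φ 1) := by
    refine i2_ext (𝒜 := 𝒜) fun k r hr => ?_
    rw [alongAt_apply, hD k r hr, i2_euler_apply hφ hr]
  rw [hfv D, h1, om_smul_right hX (i2_isNV hX hφ) (i2_isDer_evL φ 0 _) (i2_isDer_evL φ 1 _), hom,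
    Algebra.smul_def, map_ofNat, ← mul_assoc, mul_inv_cancel₀ h2, one_mul]

/-- There is an Euler derivation of `Ω`. -/
theorem i2_exists_euler (hφ : GenConicAt 𝒜 w φ) : ∃ D : Derivation ℂ Ω Ω,
    ∀ k, ∀ r ∈ 𝒜 k, D (pt φ ![0, 1] r) = (k : ℂ) • pt φ ![0, 1] r := by
  obtain ⟨D, hD⟩ := exists_derivation_of_isDer hφ.inj
    (δ := (2 : Ω)⁻¹ • evL ![0, 1] (pd φ 1)) ((DerAt _).smul_mem _ (i2_isDer_evL φ 1 _))
  refine ⟨D, fun k r hr => ?_⟩
  rw [← alongAt_apply, hD, i2_euler_apply hφ hr]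

/-- Elements killed by all derivations over `R` are algebraic. -/
theorem i2_isAlgebraic (φ : R →ₐ[ℂ] MvPolynomial (Fin 2) Ω) (x : Ω)
    (h : ∀ D : Derivation ℂ Ω Ω, (∀ s, D (pt φ ![0, 1] s) = 0) → D x = 0) :
    letI : Algebra R Ω := (pt φ ![0, 1] : R →+* Ω).toAlgebra
    IsAlgebraic R x := by
  letI : Algebra R Ω := (pt φ ![0, 1] : R →+* Ω).toAlgebra
  haveI : IsScalarTower ℂ R Ω := IsScalarTower.of_algebraMap_eq fun c =>
    ((pt φ ![0, 1]).commutes c).symm
  exact i2_isAlgebraic_of_der x h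

/-- Integrality of algebraic elements from valuation rings with centre of codimension one. -/
theorem i2_exists_monic [IsDomain R] (hX : IsContactFano 𝒜 P) (hφ : GenConicAt 𝒜 w φ) (x : Ω)
    (h : ∀ D : Derivation ℂ Ω Ω, (∀ s, D (pt φ ![0, 1] s) = 0) → D x = 0)
    (hv : ∀ (v : ValuationSubring Ω), (∀ c : ℂ, algebraMap ℂ Ω c ∈ v) →
      (∀ r, pt φ ![0, 1] r ∈ v) →
      ∀ (𝔭 : Ideal R) [𝔭.IsPrime], (∀ r, r ∈ 𝔭 ↔ v.valuation (pt φ ![0, 1] r) < 1) →
      IsDiscreteValuationRing (Localization.AtPrime 𝔭) → x ∈ v) :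
    ∃ q : Polynomial R, q.Monic ∧ q.eval₂ (pt φ ![0, 1] : R →+* Ω) x = 0 := by
  haveI := hX.normal
  haveI := hX.finiteType
  haveI : IsNoetherianRing R := Algebra.FiniteType.isNoetherianRing ℂ R
  have hx := i2_isAlgebraic φ x h
  letI : Algebra R Ω := (pt φ ![0, 1] : R →+* Ω).toAlgebra
  haveI : FaithfulSMul R Ω := (faithfulSMul_iff_algebraMap_injective R Ω).2 hφ.inj
  have hint : IsIntegral R x := by
    refine i2_isIntegral_of_dvr x hx fun v hvR 𝔭 _ hdvr h𝔭 => ?_
    refine hv v (fun c => ?_) hvR 𝔭 h𝔭 hdvr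
    rw [← (pt φ ![0, 1]).commutes c]
    exact hvR _
  exact hint

/-- The first end point is a unit for every valuation ring. -/
theorem i2_left_unit (hφ : GenConicAt 𝒜 w φ) (v : ValuationSubring Ω)
    (hv : ∀ c : ℂ, algebraMap ℂ Ω c ∈ v) :
    (∀ r, pt φ ![1, 0] r ∈ v) ∧ ∃ k : ℕ, 0 < k ∧ ∃ r ∈ 𝒜 k, v.valuation (pt φ ![1, 0] r) = 1 := by
  refine ⟨fun r => by rw [hφ.left]; exact hv _, ?_⟩
  obtain ⟨k, hk, r, hr, hne⟩ := hφ.curve.bpf ![1, 0] (by
    intro h
    have := congrFun h 0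
    simp at this)
  refine ⟨k, hk, r, hr, ?_⟩
  have h1 : pt φ ![1, 0] r ≠ 0 := hne
  rw [hφ.left] at h1 ⊢
  have h2 : w r ≠ 0 := fun h0 => h1 (by rw [h0, map_zero])
  refine i0_valuation_eq_one v (hv _) (hv (w r)⁻¹) ?_
  rw [← map_mul, mul_inv_cancel₀ h2, map_one]

/-- I2, with the results of the blocks V, C and N as hypotheses: if the coefficients of the
generic conic are integral then `b` itself is a root of a good polynomial. -/
theorem i2_exists_isGood {Ω : Type u} [Field Ω] [Algebra ℂ Ω]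
    {φ : R →ₐ[ℂ] MvPolynomial (Fin 2) Ω} (hX : IsContactFano 𝒜 P) (hφ : GenConicAt 𝒜 w φ) {b : Ω}
    (hom : om P (pt φ ![0, 1]) (evL ![0, 1] (pd φ 0)) (evL ![0, 1] (pd φ 1)) = b)
    (hfv : ∀ D : Derivation ℂ Ω Ω,
      D b = om P (pt φ ![0, 1]) (evL ![0, 1] (pd φ 0)) (alongAt (pt φ ![0, 1]) D))
    (hbd : ∀ v : ValuationSubring Ω, (∀ c : ℂ, algebraMap ℂ Ω c ∈ v) →
      (∀ r, pt φ ![0, 1] r ∈ v) →
      (∃ k : ℕ, 0 < k ∧ ∃ r ∈ 𝒜 k, v.valuation (pt φ ![0, 1] r) = 1) → b ∈ v)
    (hcf : ∀ k : ℕ, 0 < k → ∀ r ∈ 𝒜 k, ∃ q : Polynomial R, q.Monic ∧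
      q.eval₂ (pt φ ![0, 1] : R →+* Ω) (cf (φ r) 1 (2 * k - 1)) = 0) :
    ∃ Q : Polynomial R, IsGood 𝒜 P 2 Q ∧ Q.eval₂ (pt φ ![0, 1] : R →+* Ω) b = 0 := by
  obtain ⟨D, hD⟩ := i2_exists_euler hφ
  refine exists_isGood_of hX (pt φ ![0, 1]) hφ.inj two_pos b
    (isIntegral_of_valuationSubring hX _ hφ.inj b hbd)
    ⟨D, hD, by simpa using i2_euler_b hX hφ hom hfv D hD⟩ fun k hk r hr => ?_
  obtain ⟨D', hD'⟩ := exists_derivation_of_isDer hφ.inj (isDer_hamAt hX (pt φ ![0, 1]) r)
  have hD2 : ∀ s, D' (pt φ ![0, 1] s) = pt φ ![0, 1] (P r s) := fun s => by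
    rw [← alongAt_apply, hD', hamAt_apply]
  refine ⟨D', hD2, ?_⟩
  have h1 : D' b = -cf (φ r) 1 (2 * k - 1) := by
    rw [hfv D', hD', om_ham_right hX (i2_isNV hX hφ) (i2_isDer_evL φ 0 _), evL_apply, pd_apply,
      i2_eval_pderiv_zero (hφ.curve.degree k r hr)]
  rw [h1]
  letI : Algebra R Ω := (pt φ ![0, 1] : R →+* Ω).toAlgebra
  have h2 : IsIntegral R (cf (φ r) 1 (2 * k - 1)) := hcf k hk r hr
  exact h2.neg

end Vale.Agent.P292
end

section

/-! # Block I2: if no line passes through `w` then `b` itself is a root of a good polynomial. -/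

namespace Vale.Agent.P292

open MvPolynomial TensorProduct

universe u v

variable {R : Type u} [CommRing R] [Algebra ℂ R] {𝒜 : ℕ → Submodule ℂ R} [GradedAlgebra 𝒜]
  {P : R →ₗ[ℂ] R →ₗ[ℂ] R}

/-- The coefficients of a generic conic are killed by all derivations over `R`. -/
theorem i2_apply_coeff {Ω : Type v} [Field Ω] [IsAlgClosed Ω] [Algebra ℂ Ω]
    {w : R →ₐ[ℂ] ℂ} {φ : R →ₐ[ℂ] MvPolynomial (Fin 2) Ω} (hX : IsContactFano 𝒜 P)
    (hφ : GenConicAt 𝒜 w φ) (D : Derivation ℂ Ω Ω) (hD : ∀ s, D (pt φ ![0, 1] s) = 0)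
    (r : R) (m : Fin 2 →₀ ℕ) : D (coeff m (φ r)) = 0 := by
  have h10 : ∀ i : Fin 2, D ((![1, 0] : Fin 2 → Ω) i) = 0 := by
    intro i
    fin_cases i <;> simp
  have h01 : ∀ i : Fin 2, D ((![0, 1] : Fin 2 → Ω) i) = 0 := by
    intro i
    fin_cases i <;> simp
  have h := free_conic hX hφ (isHDer_mapD hφ.curve D) (fun s => ?_) fun s => ?_
  · have h1 := LinearMap.congr_fun h r
    have h2 : mapD D (φ r) = 0 := h1
    rw [← coeff_mapD, h2, coeff_zero]
  · refine (v3_eval_mapD D h10 (φ s)).trans ?_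
    rw [← pt_apply, hφ.left, D.map_algebraMap]
  · refine (v3_eval_mapD D h01 (φ s)).trans ?_
    rw [← pt_apply, hD]

variable {Ω : Type u} [Field Ω] [IsAlgClosed Ω] [Algebra ℂ Ω]
  {w : R →ₐ[ℂ] ℂ} {φ : R →ₐ[ℂ] MvPolynomial (Fin 2) Ω}

/-- I2, general form: if the coefficients of the generic conic are integral in codimension one
then `b` itself is a root of a good polynomial. -/
theorem exists_isGood_two_of_mem [IsDomain R] (hX : IsContactFano 𝒜 P) (hφ : GenConicAt 𝒜 w φ)
    {b : Ω} (hb : omC P φ (pd φ 0) (pd φ 1) = C b)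
    (hmem : ∀ v : ValuationSubring Ω, (∀ c : ℂ, algebraMap ℂ Ω c ∈ v) →
      (∀ r, pt φ ![0, 1] r ∈ v) →
      ∀ (𝔭 : Ideal R) [𝔭.IsPrime], (∀ r, r ∈ 𝔭 ↔ v.valuation (pt φ ![0, 1] r) < 1) →
      IsDiscreteValuationRing (Localization.AtPrime 𝔭) →
      ∀ k : ℕ, 0 < k → ∀ r ∈ 𝒜 k, cf (φ r) 1 (2 * k - 1) ∈ v) :
    ∃ Q : Polynomial R, IsGood 𝒜 P 2 Q ∧ Q.eval₂ (pt φ ![0, 1] : R →+* Ω) b = 0 := by
  have h01 : (![0, 1] : Fin 2 → Ω) ≠ 0 := fun h => one_ne_zero (congrFun h 1)
  refine i2_exists_isGood hX hφ ?_ (first_variation hX hφ hb) (fun v hv hR hu => ?_)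
    fun k hk r hr => ?_
  · rw [omC_eval hX hφ.curve (isHDer_pd hφ.curve 0) (isHDer_pd hφ.curve 1) _ h01, hb, eval_C]
  · obtain ⟨h1, h2⟩ := i2_left_unit (𝒜 := 𝒜) hφ v hv
    exact (bound hX hφ.curve hb v hv h1 hR h2 hu).1
  · exact i2_exists_monic hX hφ _ (fun D hD => i2_apply_coeff hX hφ D hD r _)
      fun v hv hR 𝔭 _ h𝔭 hdvr => hmem v hv hR 𝔭 h𝔭 hdvr k hk r hr

/-- I2: if no line passes through `w` then `b` itself is a root of a good polynomial. -/
theorem exists_isGood_two (hX : IsContactFano 𝒜 P) (hdim : 4 ≤ cdim R) (hφ : GenConicAt 𝒜 w φ)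
    {b : Ω} (hb : omC P φ (pd φ 0) (pd φ 1) = C b)
    (hno : ¬ ∃ ψ : R →ₐ[ℂ] MvPolynomial (Fin 2) ℂ, IsCurve 𝒜 1 ψ ∧ pt ψ ![1, 0] = w) :
    ∃ Q : Polynomial R, IsGood 𝒜 P 2 Q ∧ Q.eval₂ (pt φ ![0, 1] : R →+* Ω) b = 0 := by
  have := hX.domain
  refine exists_isGood_two_of_mem hX hφ hb fun v hv hR 𝔭 _ h𝔭 hdvr k hk r hr => ?_
  by_contra hn
  obtain ⟨κ, _, _, _, Ψ, hΨ, h10⟩ := exists_line_of_not_mem hX hdim hφ v hv hR 𝔭 h𝔭 hdvr k r hr 1
    (by omega) hn
  exact hno (exists_closed_line hX Ψ hΨ h10)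

end Vale.Agent.P292
end

section

/-! # Block G: stability under the Hamiltonian derivations implies unramifiedness. -/

namespace Vale.Agent.P292

open Module Polynomial

universe u v

variable {R : Type u} [CommRing R] [Algebra ℂ R] {𝒜 : ℕ → Submodule ℂ R} [GradedAlgebra 𝒜]
  {P : R →ₗ[ℂ] R →ₗ[ℂ] R}

/-- If `a * z ^ N` is integral over the discrete valuation ring `V` for all `N`, `z` is
integral. -/
theorem isIntegral_of_almost {V : Type u} {M : Type v} [CommRing V] [IsDomain V]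
    [IsNoetherianRing V] [Field M] [Algebra V M] [FaithfulSMul V M]
    [Module.Finite V (integralClosure V M)] (a : V) (ha : a ≠ 0) (z : M)
    (h : ∀ N : ℕ, IsIntegral V (algebraMap V M a * z ^ N)) : IsIntegral V z := by
  classical
  have ha' : algebraMap V M a ≠ 0 := by
    rw [Ne, FaithfulSMul.algebraMap_eq_zero_iff]
    exact ha
  -- the finite module `a⁻¹ T`
  let g : integralClosure V M →ₗ[V] M :=
    { toFun := fun x => (algebraMap V M a)⁻¹ * (x : M)
      map_add' := fun x y => by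
        change _ * ((x : M) + (y : M)) = _
        rw [mul_add]
      map_smul' := fun c x => by
        change _ * (c • (x : M)) = c • (_ * (x : M))
        rw [mul_smul_comm] }
  have hg : ∀ x, g x = (algebraMap V M a)⁻¹ * (x : M) := fun _ => rfl
  have hfg : (LinearMap.range g).FG := by
    rw [← Submodule.map_top]
    exact (Module.Finite.fg_top).map g
  have hmem : ∀ N : ℕ, z ^ N ∈ LinearMap.range g := by
    intro N
    refine ⟨⟨_, h N⟩, ?_⟩
    rw [hg]
    change (algebraMap V M a)⁻¹ * (algebraMap V M a * z ^ N) = z ^ N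
    rw [← mul_assoc, inv_mul_cancel₀ ha', one_mul]
  have hle : (Algebra.adjoin V {z}).toSubmodule ≤ LinearMap.range g := by
    rw [Algebra.adjoin_singleton_eq_range_aeval]
    rintro _ ⟨q, rfl⟩
    change aeval z q ∈ _
    rw [aeval_eq_sum_range]
    exact sum_mem fun i _ => Submodule.smul_mem _ _ (hmem i)
  have : IsNoetherian V (LinearMap.range g) := isNoetherian_of_fg_of_noetherian _ hfg
  have hfg2 : ((Algebra.adjoin V {z}).toSubmodule).FG := by
    have h1 : (Submodule.comap (LinearMap.range g).subtype (Algebra.adjoin V {z}).toSubmodule).FG :=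
      IsNoetherian.noetherian _
    have h2 := h1.map (LinearMap.range g).subtype
    rwa [Submodule.map_comap_subtype, inf_eq_right.2 hle] at h2
  exact IsIntegral.of_mem_of_fg _ hfg2 z (Algebra.subset_adjoin rfl)

/-- Some Hamiltonian derivation does not vanish on the uniformizer. -/
theorem exists_bracket_notMem (hX : IsContactFano 𝒜 P) (𝔭 : Ideal R) [𝔭.IsPrime]
    (V : Type u) [CommRing V] [IsDomain V] [IsDiscreteValuationRing V] [Algebra R V]
    [IsLocalization.AtPrime V 𝔭] (a : R) (ha : Irreducible (algebraMap R V a)) :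
    ∃ r : R, P r a ∉ 𝔭 := by
  have : IsDomain R := hX.domain
  have hinj : Function.Injective (algebraMap R V) :=
    IsLocalization.injective V (M := 𝔭.primeCompl) (le_nonZeroDivisors_of_noZeroDivisors
      (fun h => h (𝔭.zero_mem)))
  have hmem : ∀ f : R, f ∈ 𝔭 ↔ algebraMap R V f ∈ IsLocalRing.maximalIdeal V := by
    intro f
    have h2 : (IsLocalRing.maximalIdeal V).comap (algebraMap R V) = 𝔭 :=
      IsLocalization.AtPrime.under_maximalIdeal V 𝔭
    conv_lhs => rw [← h2]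
    rw [Ideal.mem_comap]
  have ha𝔭 : a ∈ 𝔭 := by
    rw [hmem, IsLocalRing.mem_maximalIdeal, mem_nonunits_iff]
    exact ha.not_isUnit
  by_contra hcon
  push Not at hcon
  have hpois : ∀ b, ∀ f ∈ 𝔭, P b f ∈ 𝔭 := by
    intro b f hf
    rw [hmem, ha.maximalIdeal_eq, Ideal.mem_span_singleton] at hf
    obtain ⟨g, hg⟩ := hf
    obtain ⟨⟨c, d⟩, hcd⟩ := IsLocalization.surj 𝔭.primeCompl g
    simp only at hcd
    have h1 : f * (d : R) = a * c := by
      apply hinj
      rw [map_mul, map_mul, hg, mul_assoc, hcd]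
    have h2 : P b f * (d : R) ∈ 𝔭 := by
      have h3 := congrArg (P b) h1
      rw [hX.leibniz, hX.leibniz] at h3
      have h4 : P b f * (d : R) = P b a * c + a * P b c - f * P b (d : R) := by
        rw [← h3]; ring
      have hf' : f ∈ 𝔭 := by
        rw [hmem, ha.maximalIdeal_eq, Ideal.mem_span_singleton]
        exact ⟨g, hg⟩
      rw [h4]
      exact sub_mem (add_mem (Ideal.mul_mem_right _ _ (hcon b)) (Ideal.mul_mem_right _ _ ha𝔭))
        (Ideal.mul_mem_right _ _ hf')
    exact (Ideal.IsPrime.mem_or_mem inferInstance h2).resolve_right d.2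
  by_cases h𝔭 : ∀ k, 0 < k → ∀ r ∈ 𝒜 k, r ∈ 𝔭
  · exact not_dvr_vertex hX 𝔭 h𝔭 V
  push Not at h𝔭
  obtain ⟨k, hk, g, hg, hg𝔭⟩ := h𝔭
  obtain ⟨x, hx, hxg⟩ := exists_closed_of_prime hX 𝔭
    (fun r n hrn => Ideal.IsPrime.mem_of_pow_mem inferInstance n hrn) g hg𝔭
  have hbot := poisson_simple hX (p := x) (fun hv => hxg (hv k hk g hg)) 𝔭 hpois hx
  rw [hbot, Ideal.mem_bot] at ha𝔭
  apply ha.ne_zero
  rw [ha𝔭, map_zero]

/-- **Stable implies unramified.** If the integral closure of `R` in `M` is stable under all the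
Hamiltonian derivations `{r, ·}`, `r ∈ R`, then `M` is unramified over `R` in codimension one. -/
theorem isUnram_of_stable (hX : IsContactFano 𝒜 P) [IsDomain R] {M : Type v} [Field M]
    [Algebra R M] [Algebra (FractionRing R) M] [IsScalarTower R (FractionRing R) M]
    [FiniteDimensional (FractionRing R) M] (D : R → M → M)
    (hadd : ∀ r x y, D r (x + y) = D r x + D r y)
    (hmul : ∀ r x y, D r (x * y) = D r x * y + x * D r y)
    (hext : ∀ r s, D r (algebraMap R M s) = algebraMap R M (P r s))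
    (hst : ∀ r x, IsIntegral R x → IsIntegral R (D r x)) : IsUnram R M := by
  classical
  intro 𝔭 _ V _ _ _ _ _ _ _ _ ϖ hϖ s hs
  have hft : Algebra.FiniteType ℂ R := hX.finiteType
  have hno : IsNoetherianRing R := Algebra.FiniteType.isNoetherianRing ℂ R
  have hic : IsIntegrallyClosed R := hX.normal
  haveI : CharZero R := charZero_of_injective_algebraMap (algebraMap ℂ R).injective
  haveI : CharZero (FractionRing R) :=
    charZero_of_injective_algebraMap (IsFractionRing.injective R (FractionRing R))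
  haveI : CharZero M := charZero_of_injective_algebraMap (algebraMap (FractionRing R) M).injective
  obtain ⟨i, hfr, htw⟩ := zb2_fraction (M := M) 𝔭 V
  haveI : Module.Finite V (integralClosure V M) :=
    IsIntegralClosure.finite V (FractionRing R) M (integralClosure V M)
  -- a uniformizer in `R`
  obtain ⟨⟨a, b⟩, hab⟩ := IsLocalization.surj 𝔭.primeCompl ϖ
  simp only at hab
  have hbu : IsUnit (algebraMap R V (b : R)) := IsLocalization.map_units V b
  have hairr : Irreducible (algebraMap R V a) := by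
    rw [← hab]
    exact (irreducible_mul_isUnit hbu).2 hϖ
  obtain ⟨r, hr⟩ := exists_bracket_notMem hX 𝔭 V a hairr
  have hau : IsUnit (algebraMap R V (P r a)) :=
    IsLocalization.map_units V (⟨P r a, hr⟩ : 𝔭.primeCompl)
  -- stability over `V`
  have hstV : ∀ x : M, IsIntegral V x → IsIntegral V (D r x) := by
    intro x hx
    obtain ⟨m, hm⟩ := IsIntegral.exists_multiple_integral_of_isLocalization 𝔭.primeCompl x hx
    have h1 := (hst r _ hm).tower_top (A := V)
    have h2 : (m • x : M) = algebraMap R M (m : R) * x := by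
      rw [Submonoid.smul_def, Algebra.smul_def]
    rw [h2, hmul, hext] at h1
    obtain ⟨w, hw⟩ := IsLocalization.map_units V m
    have h3 : algebraMap V M (↑w⁻¹ : V) * algebraMap R M (m : R) = 1 := by
      rw [IsScalarTower.algebraMap_apply R V M, ← map_mul, ← hw, Units.inv_mul, map_one]
    have h4 : D r x = algebraMap V M (↑w⁻¹ : V) *
        ((algebraMap R M (P r (m : R)) * x + algebraMap R M (m : R) * D r x) -
          algebraMap V M (algebraMap R V (P r (m : R))) * x) := by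
      rw [← IsScalarTower.algebraMap_apply R V M]
      linear_combination (-(D r x)) * h3
    rw [h4]
    exact isIntegral_algebraMap.mul (h1.sub (isIntegral_algebraMap.mul hx))
  -- reduce to the uniformizer `a`
  set α : M := algebraMap V M (algebraMap R V a) with hα
  have hα' : α = algebraMap R M a := (IsScalarTower.algebraMap_apply R V M a).symm
  set β : M := algebraMap V M (algebraMap R V (b : R)) with hβ
  have hαβ : algebraMap V M ϖ * β = α := by rw [hβ, hα, ← map_mul, hab]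
  have hα0 : α ≠ 0 := by
    rw [hα, Ne, FaithfulSMul.algebraMap_eq_zero_iff]
    exact hairr.ne_zero
  have hβ0 : β ≠ 0 := fun h => hα0 (by rw [← hαβ, h, mul_zero])
  have hϖ0 : algebraMap V M ϖ ≠ 0 := fun h => hα0 (by rw [← hαβ, h, zero_mul])
  obtain ⟨wb, hwb⟩ := hbu.exists_left_inv
  have hβinv : β⁻¹ = algebraMap V M wb := by
    rw [inv_eq_iff_eq_inv, ← one_div, eq_div_iff (by
      intro h
      have h1 := congrArg (algebraMap V M) hwb
      rw [map_mul, h, zero_mul, map_one] at h1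
      exact zero_ne_one h1), hβ, ← map_mul, mul_comm, hwb, map_one]
  have hs2 : IsIntegral V (s ^ 2 / α) := by
    have h1 : s ^ 2 / α = β⁻¹ * (s ^ 2 / algebraMap V M ϖ) := by
      rw [← hαβ]
      field_simp
    rw [h1, hβinv]
    exact isIntegral_algebraMap.mul hs
  have hsi : IsIntegral V s := by
    have h1 : IsIntegral V (s ^ 2) := by
      have h2 : s ^ 2 = α * (s ^ 2 / α) := by field_simp
      rw [h2]
      exact isIntegral_algebraMap.mul hs2
    exact h1.of_pow two_pos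
  -- the derivative of `a` is a unit
  obtain ⟨wa, hwa⟩ := hau.exists_left_inv
  set δ : M := algebraMap R M (P r a) with hδ
  have hδα : D r α = δ := by rw [hα', hext]
  have hwδ : algebraMap V M wa * δ = 1 := by
    rw [hδ, IsScalarTower.algebraMap_apply R V M, ← map_mul, hwa, map_one]
  have hδ0 : δ ≠ 0 := fun h => by
    rw [h, mul_zero] at hwδ
    exact zero_ne_one hwδ
  have hunit : ∀ n : ℕ, n ≠ 0 → IsIntegral V ((n : M)⁻¹) := by
    intro n hn
    have h1 : ((n : M)⁻¹) = algebraMap R M (algebraMap ℂ R ((n : ℂ)⁻¹)) := by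
      have h2 : (n : M) = algebraMap R M (algebraMap ℂ R (n : ℂ)) := by
        rw [map_natCast, map_natCast]
      have h3 : algebraMap R M (algebraMap ℂ R ((n : ℂ)⁻¹)) * (n : M) = 1 := by
        rw [h2, ← map_mul, ← map_mul, inv_mul_cancel₀ (Nat.cast_ne_zero.2 hn), map_one, map_one]
      exact (eq_inv_of_mul_eq_one_left h3).symm
    rw [h1, IsScalarTower.algebraMap_apply R V M]
    exact isIntegral_algebraMap
  have hpow : ∀ (x : M) (n : ℕ), D r (x ^ (n + 1)) = ((n : M) + 1) * x ^ n * D r x := by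
    intro x n
    induction n with
    | zero => simp
    | succ n ih =>
      rw [pow_succ, hmul, ih]
      push_cast
      ring
  -- the induction
  have key : ∀ k : ℕ, IsIntegral V (s ^ (k + 2) / α ^ (k + 1)) := by
    intro k
    induction k with
    | zero => simpa using hs2
    | succ k ih =>
      set t : M := s ^ (k + 2) / α ^ (k + 1) with ht
      have h1 : s ^ (k + 2) = α ^ (k + 1) * t := by
        rw [ht]
        field_simp
      have h2 := congrArg (D r) h1
      rw [hpow, hmul, hpow, hδα] at h2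
      -- `(k+2) s^(k+1) Ds = (k+1) α^k δ t + α^(k+1) Dt`
      have h3 : s ^ (k + 1 + 2) / α ^ (k + 1 + 1) = ((k + 1 : ℕ) : M)⁻¹ * (algebraMap V M wa *
          (((k + 1 + 1 : ℕ) : M) * t * D r s - s * D r t)) := by
        have hk : ((k + 1 : ℕ) : M) ≠ 0 := by exact_mod_cast Nat.succ_ne_zero k
        have hw' : algebraMap V M wa = δ⁻¹ := by
          rw [← one_div, eq_div_iff hδ0, hwδ]
        rw [hw', eq_comm, inv_mul_eq_iff_eq_mul₀ hk, inv_mul_eq_iff_eq_mul₀ hδ0]
        have h4 : s ^ (k + 1 + 2) / α ^ (k + 1 + 1) = t * s / α := by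
          rw [ht]
          field_simp
          try ring
        rw [h4]
        have h5 : (((k : M) + 1 + 1) * t * D r s - s * D r t) * α ^ (k + 1) =
            ((k : M) + 1) * δ * (t * s / α) * α ^ (k + 1) := by
          have h6 : ((k : M) + 1 + 1) * t * D r s * α ^ (k + 1) =
              s * (((k : M) + 1 + 1) * s ^ (k + 1) * D r s) := by
            have h7 : t * α ^ (k + 1) = s * s ^ (k + 1) := by
              rw [ht]
              field_simp
              try ring
            linear_combination (((k : M) + 1 + 1) * D r s) * h7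
          have h8 : (((k + 1 : ℕ) : M) + 1) * s ^ (k + 1) * D r s =
              ((k : M) + 1) * α ^ k * δ * t + α ^ (k + 1) * D r t := h2
          push_cast at h8
          rw [sub_mul, h6, h8]
          field_simp
          ring
        have h9 := mul_right_cancel₀ (pow_ne_zero (k + 1) hα0) h5
        push_cast
        rw [h9]
        ring
      rw [h3]
      refine (hunit _ (Nat.succ_ne_zero k)).mul (isIntegral_algebraMap.mul (IsIntegral.sub ?_ ?_))
      · refine IsIntegral.mul (IsIntegral.mul ?_ ih) (hstV s hsi)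
        rw [← map_natCast (algebraMap V M)]
        exact isIntegral_algebraMap
      · exact hsi.mul (hstV t ih)
  have hfin : IsIntegral V (s / α) := by
    refine isIntegral_of_almost (algebraMap R V a) hairr.ne_zero _ (fun N => ?_)
    rw [← hα]
    rcases N with _ | N
    · rw [pow_zero, mul_one, hα]
      exact isIntegral_algebraMap
    rcases N with _ | N
    · have h1 : α * (s / α) ^ (0 + 1) = s := by
        rw [zero_add, pow_one, mul_div_cancel₀ _ hα0]
      rw [h1]
      exact hsi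
    · have h1 : α * (s / α) ^ (N + 1 + 1) = s ^ (N + 2) / α ^ (N + 1) := by
        rw [div_pow, pow_succ α (N + 1), eq_div_iff (pow_ne_zero _ hα0)]
        field_simp
      rw [h1]
      exact key N
  have h1 : s / algebraMap V M ϖ = β * (s / α) := by
    rw [← hαβ]
    field_simp
  rw [h1]
  exact isIntegral_algebraMap.mul hfin

end Vale.Agent.P292
end

section

/-! # Block G: Galois extensions with stable integral closure. -/

namespace Vale.Agent.P292

open Module Polynomial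

universe u v

variable {R : Type u} [CommRing R] [Algebra ℂ R] {𝒜 : ℕ → Submodule ℂ R} [GradedAlgebra 𝒜]
  {P : R →ₗ[ℂ] R →ₗ[ℂ] R}

/-- The extended Euler operator and the extended bracket. -/
theorem euler_ext_bracket (hX : IsContactFano 𝒜 P) [IsDomain R] {M : Type v} [Field M]
    [Algebra ℂ M] [Algebra R M] [IsScalarTower ℂ R M] [Algebra (FractionRing R) M]
    [IsScalarTower R (FractionRing R) M] [FiniteDimensional (FractionRing R) M]
    (P' : M →ₗ[ℂ] M →ₗ[ℂ] M)
    (hP1 : ∀ r s, P' (algebraMap R M r) (algebraMap R M s) = algebraMap R M (P r s))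
    (hP2 : ∀ x, P' x x = 0) (hP3 : ∀ x y z, P' x (y * z) = P' x y * z + y * P' x z)
    (E' : Derivation ℂ M M)
    (hE1 : ∀ r, E' (algebraMap R M r) = algebraMap R M (euler 𝒜 r)) (x y : M) :
    E' (P' x y) = P' (E' x) y + P' x (E' y) - P' x y := by
  have : CharZero R := charZero_of_injective_algebraMap (algebraMap ℂ R).injective
  have : CharZero (FractionRing R) := charZero_of_injective_algebraMap
    (IsFractionRing.injective R (FractionRing R))
  have hinj : Function.Injective (algebraMap R M) := by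
    rw [IsScalarTower.algebraMap_eq R (FractionRing R) M]
    exact (algebraMap (FractionRing R) M).injective.comp
      (IsFractionRing.injective R (FractionRing R))
  have : FaithfulSMul R M := (faithfulSMul_iff_algebraMap_injective R M).2 hinj
  have : Algebra.IsAlgebraic R M := ⟨fun x => (IsFractionRing.isAlgebraic_iff R (FractionRing R) M).2
    (Algebra.IsAlgebraic.isAlgebraic x)⟩
  have hEm : ∀ x y, E' (x * y) = E' x * y + x * E' y := by
    intro x y
    rw [Derivation.leibniz, smul_eq_mul, smul_eq_mul]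
    ring
  have hskew : ∀ x y, P' x y = - P' y x := by
    intro x y
    have h := hP2 (x + y)
    rw [map_add, map_add, LinearMap.add_apply, LinearMap.add_apply, hP2 x, hP2 y, zero_add,
      add_zero] at h
    exact eq_neg_of_add_eq_zero_right h
  let F : M → M → M := fun x y => E' (P' x y) - P' (E' x) y - P' x (E' y) + P' x y
  have hF : ∀ x y, F x y = E' (P' x y) - P' (E' x) y - P' x (E' y) + P' x y := fun _ _ => rfl
  have hF1 : ∀ x y z, F x (y + z) = F x y + F x z := by
    intro x y z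
    simp only [hF, map_add]
    ring
  have hF2 : ∀ x y z, F x (y * z) = F x y * z + y * F x z := by
    intro x y z
    simp only [hF, hP3, hEm, map_add]
    ring
  have hF3 : ∀ x y, F x y = - F y x := by
    intro x y
    rw [hF, hF, hskew x y, hskew (E' x) y, hskew x (E' y), map_neg]
    ring
  have hF4 : ∀ r s : R, F (algebraMap R M r) (algebraMap R M s) = 0 := by
    intro r s
    rw [hF, hE1, hE1, hP1, hP1, hP1, hE1, zb5_euler_P hX, map_sub, map_add]
    ring
  have hF5 : ∀ (r : R) (y : M), F (algebraMap R M r) y = 0 := fun r y =>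
    eq_zero_of_restrict (R := R) (F (algebraMap R M r)) (hF1 _) (hF2 _) (hF4 r) y
  have hF6 : ∀ x y : M, F x y = 0 := fun x y =>
    eq_zero_of_restrict (R := R) (F x) (hF1 _) (hF2 _)
      (fun r => by rw [hF3, hF5, neg_zero]) y
  have := hF6 x y
  rw [hF] at this
  linear_combination this

/-- Roots of homogeneous polynomials have degree one. -/
theorem IsHomRootOne.euler_ext {M : Type v} [Field M]
    [Algebra ℂ M] [Algebra R M] [IsScalarTower ℂ R M] {x : M} {q : R[X]}
    (hq : IsHomRootOne 𝒜 x q) (E' : Derivation ℂ M M)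
    (hE1 : ∀ r, E' (algebraMap R M r) = algebraMap R M (euler 𝒜 r)) : E' x = x := by
  have hEm : ∀ x y, E' (x * y) = E' x * y + x * E' y := by
    intro x y
    rw [Derivation.leibniz, smul_eq_mul, smul_eq_mul]
    ring
  have h1 := apply_root (euler 𝒜) (E' : M →ₗ[ℂ] M) hEm hE1 1 q (fun i hi => by
    rw [euler_apply _ _ (hq.2.1 i hi), mul_one]) x hq.2.2.1 hq.2.2.2
  rw [one_smul] at h1
  exact h1

/-- **Block G, stable form.** As `isAdjointVariety_of_isUnram`, but instead of unramifiedness it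
is assumed that the integral closure of `R` in `M` is stable under the Hamiltonian derivations
`{r, ·}`, `r ∈ R`. -/
theorem isAdjointVariety_of_stable (hX : IsContactFano 𝒜 P) [IsDomain R] {M : Type u} [Field M]
    [Algebra ℂ M] [Algebra R M] [IsScalarTower ℂ R M] [Algebra (FractionRing R) M]
    [IsScalarTower R (FractionRing R) M] [FiniteDimensional (FractionRing R) M]
    [IsGalois (FractionRing R) M] (X : Set M)
    (hX1 : ∀ x ∈ X, ∃ q : R[X], IsHomRootOne 𝒜 x q)
    (hgen : Algebra.adjoin (FractionRing R) X = ⊤) (P' : M →ₗ[ℂ] M →ₗ[ℂ] M)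
    (hP1 : ∀ r s, P' (algebraMap R M r) (algebraMap R M s) = algebraMap R M (P r s))
    (hP2 : ∀ x, P' x x = 0) (hP3 : ∀ x y z, P' x (y * z) = P' x y * z + y * P' x z)
    (hst : ∀ (r : R) (x : M), IsIntegral R x → IsIntegral R (P' (algebraMap R M r) x))
    (h : M) (hh : IsIntegral R h)
    (hh1 : ∀ E' : Derivation ℂ M M,
      (∀ r, E' (algebraMap R M r) = algebraMap R M (euler 𝒜 r)) → E' h = h)
    (s : M) (hs : IsIntegral R s) (hn : ∀ n : ℕ, (⇑(P' h))^[n] s ≠ 0) :
    IsAdjointVariety 𝒜 P :=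
  isAdjointVariety_of_isUnram hX
    (isUnram_of_stable hX (fun r x => P' (algebraMap R M r) x) (fun _ _ _ => map_add _ _ _)
      (fun _ _ _ => hP3 _ _ _) (fun _ _ => hP1 _ _) hst)
    X hX1 hgen P' hP1 hP2 hP3 h hh hh1 s hs hn

/-- **Block G, two roots.** The non-nilpotent element is the bracket `P' f g` of two roots. -/
theorem isAdjointVariety_of_stable_bracket (hX : IsContactFano 𝒜 P) [IsDomain R] {M : Type u}
    [Field M] [Algebra ℂ M] [Algebra R M] [IsScalarTower ℂ R M] [Algebra (FractionRing R) M]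
    [IsScalarTower R (FractionRing R) M] [FiniteDimensional (FractionRing R) M]
    [IsGalois (FractionRing R) M] (X : Set M)
    (hX1 : ∀ x ∈ X, ∃ q : R[X], IsHomRootOne 𝒜 x q)
    (hgen : Algebra.adjoin (FractionRing R) X = ⊤) (P' : M →ₗ[ℂ] M →ₗ[ℂ] M)
    (hP1 : ∀ r s, P' (algebraMap R M r) (algebraMap R M s) = algebraMap R M (P r s))
    (hP2 : ∀ x, P' x x = 0) (hP3 : ∀ x y z, P' x (y * z) = P' x y * z + y * P' x z)
    (hst : ∀ (r : R) (x : M), IsIntegral R x → IsIntegral R (P' (algebraMap R M r) x))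
    (f g : M) (qf qg : R[X]) (hf : IsHomRootOne 𝒜 f qf) (hg : IsHomRootOne 𝒜 g qg)
    (s : M) (hs : IsIntegral R s) (hn : ∀ n : ℕ, (⇑(P' (P' f g)))^[n] s ≠ 0) :
    IsAdjointVariety 𝒜 P := by
  have hft : Algebra.FiniteType ℂ R := hX.finiteType
  have hno : IsNoetherianRing R := Algebra.FiniteType.isNoetherianRing ℂ R
  have hic : IsIntegrallyClosed R := hX.normal
  have hU : IsUnram R M := isUnram_of_stable hX (fun r x => P' (algebraMap R M r) x)
    (fun _ _ _ => map_add _ _ _) (fun _ _ _ => hP3 _ _ _) (fun _ _ => hP1 _ _) hst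
  have hskew : ∀ x y, P' x y = - P' y x := by
    intro x y
    have h := hP2 (x + y)
    rw [map_add, map_add, LinearMap.add_apply, LinearMap.add_apply, hP2 x, hP2 y, zero_add,
      add_zero] at h
    exact eq_neg_of_add_eq_zero_right h
  have hint : ∀ (x : M) (q : R[X]), IsHomRootOne 𝒜 x q → IsIntegral R x := fun x q hq =>
    ⟨q, hq.1, by rw [← aeval_def]; exact hq.2.2.1⟩
  have hPint : IsIntegral R (P' f g) :=
    hU.derivation_isIntegral (P' f) (fun _ _ => map_add _ _ _)
      (hP3 _) (fun r => by rw [hskew]; exact (hst r f (hint f qf hf)).neg) g (hint g qg hg)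
  refine isAdjointVariety_of_isUnram hX hU X hX1 hgen P' hP1 hP2 hP3 (P' f g) hPint
    (fun E' hE' => ?_) s hs hn
  rw [euler_ext_bracket hX P' hP1 hP2 hP3 E' hE', hf.euler_ext E' hE', hg.euler_ext E' hE',
    add_sub_cancel_right]

end Vale.Agent.P292
end

section

/-! # Block U: extensions generated by good polynomials are unramified. -/

namespace Vale.Agent.P292

open Polynomial

universe u v

variable {R : Type u} [CommRing R] [Algebra ℂ R] {𝒜 : ℕ → Submodule ℂ R} [GradedAlgebra 𝒜]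
  {P : R →ₗ[ℂ] R →ₗ[ℂ] R}

/-- The 1-jets along a curve of degree `d`. -/
theorem exists_jetLine (hX : IsContactFano 𝒜 P) [IsDomain R] {d : ℕ} (hd : 0 < d)
    {Q : Polynomial R} (hQ : IsGood 𝒜 P d Q)
    {φ : R →ₐ[ℂ] MvPolynomial (Fin 2) ℂ} (hφ : IsCurve 𝒜 d φ) (hdisc : φ Q.discr ≠ 0)
    {a : Fin 2 → ℂ} (ha : a ≠ 0) {𝔭 : Ideal R} (h𝔭 : ∀ r ∈ 𝔭, pt φ a r = 0)
    {M : Type u} [Field M] [Algebra R M] [Algebra (FractionRing R) M]
    [IsScalarTower R (FractionRing R) M]
    [(Q.map (algebraMap R (FractionRing R))).IsSplittingField (FractionRing R) M] :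
    Nonempty (Inertia.JetLine.{0} (fun r s => P r s)
      {b : integralClosure R M | aeval b Q = 0} 𝔭) := by
  have hic : IsIntegrallyClosed R := hX.normal
  let A := MvPolynomial (Fin 2) ℂ
  let F := AlgebraicClosure (FractionRing A)
  have hAF : Function.Injective (algebraMap A F) := by
    rw [IsScalarTower.algebraMap_eq A (FractionRing A) F]
    exact (algebraMap (FractionRing A) F).injective.comp (IsFractionRing.injective A _)
  have hfs : FaithfulSMul A F := (faithfulSMul_iff_algebraMap_injective _ _).2 hAF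
  have hsplit : ∀ x : F, Q.eval₂ ((algebraMap A F).comp (φ : R →+* A)) x = 0 →
      ∃ l : A, l.IsHomogeneous 1 ∧ algebraMap A F l = x := fun x hx =>
    closed_split hX hd hQ hφ hdisc x hx
  obtain ⟨lam, hlam⟩ := exists_lam (M := M) (F := F) (φ : R →+* A) hQ.monic hdisc
    (fun x hx => (hsplit x hx).imp fun l h => h.2)
  have hlin : ∀ b : integralClosure R M, aeval b Q = 0 → (lam b).IsHomogeneous 1 := by
    intro b hb
    have hcomp : lam.comp (algebraMap R (integralClosure R M)) = (φ : R →+* A) :=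
      RingHom.ext hlam
    obtain ⟨l, hl, hl'⟩ := hsplit (algebraMap A F (lam b)) (by
      rw [← hcomp, ← hom_eval₂, ← hom_eval₂, ← aeval_def, hb, map_zero, map_zero])
    rwa [← hAF hl']
  have hnv : ¬ IsVertex 𝒜 (pt φ a) := by
    obtain ⟨k, hk, r, hr, hne⟩ := hφ.bpf a ha
    intro hv
    exact hne (hv k hk r hr)
  obtain ⟨N, y, δ, hδ, hch⟩ := exists_isChart_at hX hnv
  have hform := fun k : Fin 2 => hch.formula φ (pd φ k) (fun r s => by
    rw [pd_apply, pd_apply, pd_apply, map_mul, Derivation.leibniz, smul_eq_mul, smul_eq_mul])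
  choose g hg using hform
  refine ⟨{
    A := A
    lam := lam
    root := fun b hb => ⟨Q, hb, lam_deriv_ne (φ : R →+* A) hQ.monic hdisc lam hlam hb⟩
    κ := Fin 2
    d := fun k => ((MvPolynomial.pderiv k : Derivation ℂ A A) : A →ₗ[ℂ] A).toAddMonoidHom
    leib := fun k x y => by
      change MvPolynomial.pderiv k (x * y) = _
      rw [Derivation.leibniz, smul_eq_mul, smul_eq_mul]
      rfl
    q := RingHom.ker (MvPolynomial.eval a)
    prime := RingHom.ker_isPrime _
    mem_q := fun r hr => by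
      rw [RingHom.mem_ker, hlam]
      have := h𝔭 r hr
      rwa [pt_apply] at this
    δ := φ δ
    hδ := by
      rw [RingHom.mem_ker, ← pt_apply]
      exact hδ
    N := N
    y := y
    g := g
    chart := fun k r => by
      have := hg k r
      simp only [hlam]
      exact this
    jet := fun b hb b' hb' h => by
      by_contra hne
      refine lam_root_ne (φ : R →+* A) hQ.monic hdisc lam hlam hb hb' hne ?_
      rw [← sub_eq_zero]
      refine u3_linear_eq_zero ((hlin b hb).sub (hlin b' hb')) a fun k => ?_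
      exact h k }⟩

/-- **Block U.** The splitting field of a good polynomial is unramified if all homogeneous height
one primes are met by a curve of degree `d` on which the discriminant does not vanish. -/
theorem isUnram_of_curves (hX : IsContactFano 𝒜 P) [IsDomain R] {d : ℕ} (hd : 0 < d)
    {Q : Polynomial R} (hQ : IsGood 𝒜 P d Q)
    (hcur : ∀ (𝔭 : Ideal R) [𝔭.IsPrime], IsDiscreteValuationRing (Localization.AtPrime 𝔭) →
      𝔭.IsHomogeneous 𝒜 → ∃ φ : R →ₐ[ℂ] MvPolynomial (Fin 2) ℂ, IsCurve 𝒜 d φ ∧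
        φ Q.discr ≠ 0 ∧ ∃ a : Fin 2 → ℂ, a ≠ 0 ∧ ∀ r ∈ 𝔭, pt φ a r = 0)
    {M : Type u} [Field M] [Algebra R M] [Algebra (FractionRing R) M]
    [IsScalarTower R (FractionRing R) M]
    [(Q.map (algebraMap R (FractionRing R))).IsSplittingField (FractionRing R) M] :
    IsUnram R M := by
  classical
  have hic : IsIntegrallyClosed R := hX.normal
  have hft : Algebra.FiniteType ℂ R := hX.finiteType
  have hno : IsNoetherianRing R := Algebra.FiniteType.isNoetherianRing ℂ R
  have : CharZero R := charZero_of_injective_algebraMap (algebraMap ℂ R).injective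
  have : CharZero (FractionRing R) :=
    charZero_of_injective_algebraMap (IsFractionRing.injective R (FractionRing R))
  have hfd : FiniteDimensional (FractionRing R) M :=
    IsSplittingField.finiteDimensional M (Q.map (algebraMap R (FractionRing R)))
  have hdisc : Q.discr ≠ 0 := discr_ne_zero_of_irreducible hQ.monic hQ.irr
  have hsep : (Q.map (algebraMap R (FractionRing R))).Separable := u1_separable hQ.monic hdisc
  have hgal : IsGalois (FractionRing R) M := IsGalois.of_separable_splitting_field hsep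
  have hinj : Function.Injective (algebraMap R M) := by
    rw [IsScalarTower.algebraMap_eq R (FractionRing R) M]
    exact (algebraMap (FractionRing R) M).injective.comp
      (IsFractionRing.injective R (FractionRing R))
  have hfs : FaithfulSMul R M := (faithfulSMul_iff_algebraMap_injective _ _).2 hinj
  have halg : Algebra.IsAlgebraic R M := by
    exact (IsFractionRing.comap_isAlgebraic_iff (A := R) (K := FractionRing R) (C := M)).2
      inferInstance
  let : Algebra ℂ M := ((algebraMap R M).comp (algebraMap ℂ R)).toAlgebra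
  have htow : IsScalarTower ℂ R M := IsScalarTower.of_algebraMap_eq fun _ => rfl
  obtain ⟨P', hP1, hP2, hP3, hP4⟩ := exists_bracket_ext (R := R) (M := M) P hX.alternating
    hX.leibniz hX.jacobi
  let S := integralClosure R M
  have hfr : IsFractionRing S M :=
    IsIntegralClosure.isFractionRing_of_finite_extension R (FractionRing R) M S
  have hSno : IsNoetherianRing S := IsIntegralClosure.isNoetherianRing R (FractionRing R) M S
  have hSic : IsIntegrallyClosed S :=
    integralClosure.isIntegrallyClosedOfFiniteExtension (FractionRing R)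
  let : MulSemiringAction Gal(M/FractionRing R) S :=
    IsIntegralClosure.MulSemiringAction R (FractionRing R) M S
  have hinv : Algebra.IsInvariant R S Gal(M/FractionRing R) :=
    Algebra.isInvariant_of_isGalois R (FractionRing R) M S
  have hG : ∀ (g : Gal(M/FractionRing R)) (x : S),
      algebraMap S M (g • x) = g • algebraMap S M x :=
    fun g x => algebraMap_galRestrict_apply R g x
  have hcR : SMulCommClass Gal(M/FractionRing R) R S := ⟨fun g r x =>
    map_smul (galRestrict R (FractionRing R) M S g) r x⟩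
  have hcC : SMulCommClass Gal(M/FractionRing R) ℂ S := ⟨fun g c x => by
    rw [← algebraMap_smul R c x, ← algebraMap_smul R c (g • x)]
    exact map_smul (galRestrict R (FractionRing R) M S g) (algebraMap ℂ R c) x⟩
  have hSM : Function.Injective (algebraMap S M) := Subtype.val_injective
  have hRS : FaithfulSMul R S := inferInstance
  have hint : Algebra.IsIntegral R S := inferInstance
  -- roots in `S`
  have hroot : ∀ b : S, aeval b Q = 0 ↔ aeval (algebraMap S M b) Q = 0 := fun b =>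
    (aeval_algebraMap_eq_zero_iff_of_injective hSM).symm
  let E : R → M →+ M := fun r => (P' (algebraMap R M r)).toAddMonoidHom
  have hEdef : ∀ r x, E r x = P' (algebraMap R M r) x := fun _ _ => rfl
  have hE : ∀ j x y, E j (x * y) = x * E j y + y * E j x := fun j x y => by
    rw [hEdef, hEdef, hEdef, hP3]
    ring
  have hER : ∀ j r, E j (algebraMap R M r) = algebraMap R M (P j r) := fun j r => hP1 j r
  have hEG : ∀ j (g : Gal(M/FractionRing R)) x, E j (g • x) = g • E j x := by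
    intro j g x
    have h := eq_zero_of_restrict (R := R) (fun x => g.symm (E j (g x)) - E j x)
      (fun a b => by simp only [map_add]; ring)
      (fun a b => by
        simp only [map_mul, hE, map_add, AlgEquiv.symm_apply_apply]
        ring)
      (fun r => by
        have h1 : ∀ r : R, g (algebraMap R M r) = algebraMap R M r := fun r => by
          rw [IsScalarTower.algebraMap_apply R (FractionRing R) M, AlgEquiv.commutes]
        have h2 : ∀ r : R, g.symm (algebraMap R M r) = algebraMap R M r := fun r => by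
          rw [IsScalarTower.algebraMap_apply R (FractionRing R) M, AlgEquiv.commutes]
        rw [h1, hER, h2, sub_self]) x
    rw [sub_eq_zero, AlgEquiv.symm_apply_eq] at h
    exact h
  have hB : ∀ (g : Gal(M/FractionRing R)), ∀ b ∈ {b : S | aeval b Q = 0},
      g • b ∈ {b : S | aeval b Q = 0} := by
    intro g b hb
    have h1 := aeval_algHom_apply (galRestrict R (FractionRing R) M S g).toAlgHom b Q
    have hb' : aeval b Q = 0 := hb
    rw [hb', map_zero] at h1
    exact h1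
  have hirr : Irreducible (Q.map (algebraMap R (FractionRing R))) :=
    (hQ.monic.irreducible_iff_irreducible_map_fraction_map (K := FractionRing R)).1 hQ.irr
  have hBE : ∀ b ∈ {b : S | aeval b Q = 0}, ∀ j, ∃ e : S,
      E j (algebraMap S M b) = algebraMap S M e := by
    intro b hb j
    obtain ⟨M', _, _, hinj', β, hβ, hβint⟩ := hQ.bracket
    have hbM := (hroot b).1 hb
    have h1 := u3_isIntegral_of_root hirr hinj' hbM hβ _ _ (hβint j)
    have hne : aeval (algebraMap S M b) (derivative Q) ≠ 0 := by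
      intro h0
      have h2 := hsep.aeval_derivative_ne_zero (x := algebraMap S M b)
        (by rwa [aeval_map_algebraMap])
      rw [derivative_map, aeval_map_algebraMap] at h2
      exact h2 h0
    have h2 := u3_der_root (E j) (hE j) (P j) (hER j) hbM hne
    have h3 : aeval (algebraMap S M b) (brP P j Q) =
        Q.sum fun k a => algebraMap S M b ^ k * algebraMap R M (P j a) := by
      rw [brP, Polynomial.sum_def, Polynomial.sum_def, map_sum]
      exact Finset.sum_congr rfl fun k _ => by rw [aeval_monomial, mul_comm]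
    rw [← h3, neg_div] at h2
    refine ⟨⟨E j (algebraMap S M b), ?_⟩, rfl⟩
    rw [h2]
    exact h1.neg
  have hgen : ∀ g : Gal(M/FractionRing R), (∀ b ∈ {b : S | aeval b Q = 0}, g • b = b) →
      g = 1 := by
    intro g hg
    by_contra hne
    obtain ⟨β, hβ, hβne⟩ := u1_exists_root_ne (Q.map (algebraMap R (FractionRing R))) hne
    have h1 := (mem_rootSet.1 hβ).2
    rw [aeval_map_algebraMap] at h1
    have h2 := hg ⟨β, Q, hQ.monic, h1⟩ ((hroot _).2 h1)
    apply hβne
    have h3 := congrArg (algebraMap S M) h2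
    rw [hG] at h3
    exact h3
  have hline : ∀ I : Ideal S, I.IsPrime → I ≠ ⊥ → Inertia.HtOne I →
      (∀ g : Gal(M/FractionRing R), g ≠ 1 → ∃ x : S, g • x - x ∉ I) ∨
        Nonempty (Inertia.JetLine.{0} (fun r s => P r s) {b : S | aeval b Q = 0}
          (I.comap (algebraMap R S))) := by
    intro I hI hI0 hht
    by_cases hmem : Q.discr ∈ I.comap (algebraMap R S)
    · right
      have hht' : Inertia.HtOne (I.comap (algebraMap R S)) :=
        Inertia.htOne_comap (G := Gal(M/FractionRing R)) I hht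
      have hp0 : I.comap (algebraMap R S) ≠ ⊥ := by
        intro h0
        rw [h0, Ideal.mem_bot] at hmem
        exact hdisc hmem
      have hpr : (I.comap (algebraMap R S)).IsPrime := hI.comap _
      obtain ⟨m, hm⟩ := hQ.discr_mem hd
      obtain ⟨φ, hφ, hφd, a, ha, hap⟩ := hcur (I.comap (algebraMap R S))
        (dvr_of_htOne hht' hp0) (isHomogeneous_of_htOne hht' hm hdisc hmem)
      exact exists_jetLine hX hd hQ hφ hφd ha hap
    · left
      intro g hg
      obtain ⟨b, hb, hbg⟩ : ∃ b ∈ {b : S | aeval b Q = 0}, g • b ≠ b := by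
        by_contra hcon
        push Not at hcon
        exact hg (hgen g hcon)
      exact ⟨b, fun h => hmem (u3_discr_mem hQ.monic hb (hB g b hb) hbg h)⟩
  refine isUnram_of_stable hX (fun r x => P' (algebraMap R M r) x)
    (fun r x y => map_add _ _ _) (fun r x y => hP3 _ _ _) (fun r s => hP1 r s) ?_
  intro r x hx
  obtain ⟨y, hy⟩ := Inertia.stable_of_jetLine (k := ℂ) hG E hE hEG (fun r s => P r s) hER hB hBE
    hgen hline (E r) (hE r) (P r) (hER r) ⟨x, hx⟩
  have hy' : P' (algebraMap R M r) x = algebraMap S M y := hy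
  change IsIntegral R (P' (algebraMap R M r) x)
  rw [hy']
  exact y.2

end Vale.Agent.P292
end

section

/-! # Block F, Galois half: from the flow of `B` to the adjoint variety. -/

namespace Vale.Agent.P292

open Polynomial

universe u v

variable {R : Type u} [CommRing R] [Algebra ℂ R] {𝒜 : ℕ → Submodule ℂ R} [GradedAlgebra 𝒜]
  {P : R →ₗ[ℂ] R →ₗ[ℂ] R}

/-- Roots of homogeneous polynomials are homogeneous of degree one. -/
theorem euler_root {M : Type v} [Field M] [Algebra ℂ M] [Algebra R M] [IsScalarTower ℂ R M]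
    {x : M} {q : R[X]} (hq : IsHomRootOne 𝒜 x q) (E' : Derivation ℂ M M)
    (hE' : ∀ r, E' (algebraMap R M r) = algebraMap R M (euler 𝒜 r)) : E' x = x := by
  obtain ⟨hmon, hhom, hx, hx'⟩ := hq
  set n := q.natDegree with hn
  have hq' : q = ∑ i ∈ Finset.range (n + 1), C (q.coeff i) * X ^ i := by
    rw [hn]; exact q.as_sum_range_C_mul_X_pow
  have h0 : ∑ i ∈ Finset.range (n + 1), algebraMap R M (q.coeff i) * x ^ i = 0 := by
    rw [← hx]
    conv_rhs => rw [hq']
    rw [map_sum]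
    exact Finset.sum_congr rfl fun i _ => by
      rw [map_mul, aeval_C, map_pow, aeval_X]
  have h1 : aeval x (derivative q) =
      ∑ i ∈ Finset.range (n + 1), algebraMap R M (q.coeff i) * ((i : M) * x ^ (i - 1)) := by
    conv_lhs => rw [hq']
    rw [map_sum, map_sum]
    exact Finset.sum_congr rfl fun i _ => by
      rw [derivative_C_mul, derivative_X_pow, map_mul, aeval_C, map_mul, map_pow, aeval_X,
        map_natCast, map_natCast]
  have h2 : ∑ i ∈ Finset.range (n + 1), (((n - i : ℕ) : M) * algebraMap R M (q.coeff i) * x ^ i +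
      algebraMap R M (q.coeff i) * ((i : M) * x ^ (i - 1)) * E' x) = 0 := by
    have h3 := congrArg E' h0
    rw [map_sum, map_zero] at h3
    rw [← h3]
    refine Finset.sum_congr rfl fun i hi => ?_
    have h4 : E' (algebraMap R M (q.coeff i)) = ((n - i : ℕ) : M) * algebraMap R M (q.coeff i) := by
      rw [hE', euler_apply _ _ (hhom i (Nat.lt_succ_iff.mp (Finset.mem_range.mp hi)))]
      rw [Algebra.smul_def, map_mul, ← IsScalarTower.algebraMap_apply, map_natCast]
    rw [Derivation.leibniz, h4, Derivation.leibniz_pow, smul_eq_mul, smul_eq_mul, smul_eq_mul,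
      nsmul_eq_mul]
    ring
  rw [Finset.sum_add_distrib, ← Finset.sum_mul, ← h1] at h2
  have h3 : ∑ i ∈ Finset.range (n + 1), ((n - i : ℕ) : M) * algebraMap R M (q.coeff i) * x ^ i =
      - (x * aeval x (derivative q)) := by
    rw [h1, Finset.mul_sum, ← Finset.sum_neg_distrib, ← sub_eq_zero, ← Finset.sum_sub_distrib]
    have h5 : (n : M) * ∑ i ∈ Finset.range (n + 1), algebraMap R M (q.coeff i) * x ^ i = 0 := by
      rw [h0, mul_zero]
    rw [← h5, Finset.mul_sum]
    refine Finset.sum_congr rfl fun i hi => ?_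
    have hi' : i ≤ n := Nat.lt_succ_iff.mp (Finset.mem_range.mp hi)
    rw [Nat.cast_sub hi']
    rcases Nat.eq_zero_or_pos i with h | h
    · subst h
      simp
    · obtain ⟨j, rfl⟩ := Nat.exists_eq_add_of_lt h
      simp only [Nat.zero_add, Nat.add_sub_cancel, pow_succ]
      ring
  rw [h3] at h2
  have h6 : aeval x (derivative q) * (E' x - x) = 0 := by linear_combination h2
  rcases mul_eq_zero.mp h6 with h | h
  · exact absurd h hx'
  · exact sub_eq_zero.mp h

/-- Uniqueness and degree of the extended bracket. -/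
theorem euler_bracket_ext (hX : IsContactFano 𝒜 P) {M : Type v} [Field M] [Algebra ℂ M]
    [Algebra R M] [IsScalarTower ℂ R M] [FaithfulSMul R M] [Algebra.IsAlgebraic R M]
    (P' : M →ₗ[ℂ] M →ₗ[ℂ] M)
    (hP1 : ∀ r s, P' (algebraMap R M r) (algebraMap R M s) = algebraMap R M (P r s))
    (hP2 : ∀ x, P' x x = 0) (hP3 : ∀ x y z, P' x (y * z) = P' x y * z + y * P' x z)
    (E' : Derivation ℂ M M) (hE1 : ∀ r, E' (algebraMap R M r) = algebraMap R M (euler 𝒜 r))
    (x y : M) : E' (P' x y) = P' (E' x) y + P' x (E' y) - P' x y := by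
  have hEm : ∀ x y, E' (x * y) = E' x * y + x * E' y := by
    intro x y
    rw [Derivation.leibniz, smul_eq_mul, smul_eq_mul]
    ring
  have hskew : ∀ x y, P' x y = - P' y x := by
    intro x y
    have h := hP2 (x + y)
    rw [map_add, map_add, LinearMap.add_apply, LinearMap.add_apply, hP2 x, hP2 y, zero_add,
      add_zero] at h
    exact eq_neg_of_add_eq_zero_right h
  let F : M → M → M := fun x y => E' (P' x y) - P' (E' x) y - P' x (E' y) + P' x y
  have hF : ∀ x y, F x y = E' (P' x y) - P' (E' x) y - P' x (E' y) + P' x y := fun _ _ => rfl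
  have hF1 : ∀ x y z, F x (y + z) = F x y + F x z := by
    intro x y z
    simp only [hF, map_add]
    ring
  have hF2 : ∀ x y z, F x (y * z) = F x y * z + y * F x z := by
    intro x y z
    simp only [hF, hP3, hEm, map_add]
    ring
  have hF3 : ∀ x y, F x y = - F y x := by
    intro x y
    rw [hF, hF, hskew x y, hskew (E' x) y, hskew x (E' y), map_neg]
    ring
  have hF4 : ∀ r s : R, F (algebraMap R M r) (algebraMap R M s) = 0 := by
    intro r s
    rw [hF, hE1, hE1, hP1, hP1, hP1, hE1, zb5_euler_P hX, map_sub, map_add]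
    ring
  have hF5 : ∀ (r : R) (y : M), F (algebraMap R M r) y = 0 := fun r y =>
    eq_zero_of_restrict (R := R) (F (algebraMap R M r)) (hF1 _) (hF2 _) (hF4 r) y
  have hF6 : ∀ x y : M, F x y = 0 := fun x y =>
    eq_zero_of_restrict (R := R) (F x) (hF1 _) (hF2 _)
      (fun r => by rw [hF3, hF5, neg_zero]) y
  have := hF6 x y
  rw [hF] at this
  linear_combination this

/-- The final step inside the splitting field `M`. -/
theorem isAdjointVariety_of_splitting (hX : IsContactFano 𝒜 P) [IsDomain R] {M : Type u}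
    [Field M] [Algebra ℂ M] [Algebra R M] [IsScalarTower ℂ R M] [Algebra (FractionRing R) M]
    [IsScalarTower R (FractionRing R) M] {Q : R[X]} (hmon : Q.Monic) (hirr : Irreducible Q)
    (hhom : ∀ i ≤ Q.natDegree, Q.coeff i ∈ 𝒜 (Q.natDegree - i))
    [hspl : (Q.map (algebraMap R (FractionRing R))).IsSplittingField (FractionRing R) M]
    (hU : IsUnram R M) (P' : M →ₗ[ℂ] M →ₗ[ℂ] M)
    (hP1 : ∀ r s, P' (algebraMap R M r) (algebraMap R M s) = algebraMap R M (P r s))
    (hP2 : ∀ x, P' x x = 0) (hP3 : ∀ x y z, P' x (y * z) = P' x y * z + y * P' x z)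
    {B J : M} (hB : aeval B Q = 0) (hB0 : B ≠ 0) (hJ : IsIntegral R J) {k : ℕ} (hk : 0 < k)
    {r : R} (hr : r ∈ 𝒜 k) {c₁ c₂ : ℂ} (h1 : c₁ ≠ 0) (h2 : c₂ ≠ 0)
    (e1 : (⇑(P' B))^[2 * k - 1] (algebraMap R M r) = c₁ • (B ^ (k - 1) * J))
    (e2 : P' B J = c₂ • B) : IsAdjointVariety 𝒜 P := by
  classical
  have : IsIntegrallyClosed R := hX.normal
  have : CharZero R := charZero_of_injective_algebraMap (algebraMap ℂ R).injective
  have : CharZero (FractionRing R) := charZero_of_injective_algebraMap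
    (IsFractionRing.injective R (FractionRing R))
  have hinj : Function.Injective (algebraMap R M) := by
    rw [IsScalarTower.algebraMap_eq R (FractionRing R) M]
    exact (algebraMap (FractionRing R) M).injective.comp
      (IsFractionRing.injective R (FractionRing R))
  have : FaithfulSMul R M := (faithfulSMul_iff_algebraMap_injective R M).2 hinj
  have : FiniteDimensional (FractionRing R) M :=
    IsSplittingField.finiteDimensional M (Q.map (algebraMap R (FractionRing R)))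
  have : Algebra.IsAlgebraic R M := ⟨fun x => (IsFractionRing.isAlgebraic_iff R (FractionRing R) M).2
    (Algebra.IsAlgebraic.isAlgebraic x)⟩
  have hirr' : Irreducible (Q.map (algebraMap R (FractionRing R))) :=
    (hmon.irreducible_iff_irreducible_map_fraction_map (K := FractionRing R)).mp hirr
  have hsep : (Q.map (algebraMap R (FractionRing R))).Separable := hirr'.separable
  have : IsGalois (FractionRing R) M := IsGalois.of_separable_splitting_field hsep
  have hroot : ∀ x : M, aeval x Q = 0 → IsHomRootOne 𝒜 x Q := by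
    intro x hx
    refine ⟨hmon, hhom, hx, ?_⟩
    have h3 : aeval x (Q.map (algebraMap R (FractionRing R))) = 0 := by
      rw [aeval_map_algebraMap]; exact hx
    have h4 := hsep.aeval_derivative_ne_zero h3
    rw [derivative_map, aeval_map_algebraMap] at h4
    exact h4
  have hskew : ∀ x y, P' x y = - P' y x := by
    intro x y
    have h := hP2 (x + y)
    rw [map_add, map_add, LinearMap.add_apply, LinearMap.add_apply, hP2 x, hP2 y, zero_add,
      add_zero] at h
    exact eq_neg_of_add_eq_zero_right h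
  refine isAdjointVariety_of_isUnram hX hU ((Q.map (algebraMap R (FractionRing R))).rootSet M)
    (fun x hx => ⟨Q, hroot x ?_⟩) (IsSplittingField.adjoin_rootSet M _) P' hP1 hP2 hP3 J hJ ?_ B
    ⟨Q, hmon, by rw [← aeval_def]; exact hB⟩ ?_
  · have h3 := (mem_rootSet.mp hx).2
    rw [aeval_map_algebraMap] at h3
    exact h3
  · intro E' hE'
    have hEB : E' B = B := euler_root (hroot B hB) E' hE'
    have hEP := euler_bracket_ext hX P' hP1 hP2 hP3 E' hE'
    have h3 : ∀ n : ℕ, E' ((⇑(P' B))^[n] (algebraMap R M r)) =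
        (k : M) * (⇑(P' B))^[n] (algebraMap R M r) := by
      intro n
      induction n with
      | zero =>
        rw [Function.iterate_zero, id, hE', euler_apply k r hr, Algebra.smul_def, map_mul,
          ← IsScalarTower.algebraMap_apply, map_natCast]
      | succ n ih =>
        rw [Function.iterate_succ_apply', hEP, hEB, ih]
        have h4 : (k : M) * (⇑(P' B))^[n] (algebraMap R M r) =
            (k : ℂ) • (⇑(P' B))^[n] (algebraMap R M r) := by
          rw [Algebra.smul_def, map_natCast]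
        rw [h4, map_smul, Algebra.smul_def, map_natCast]
        ring
    have h5 := h3 (2 * k - 1)
    rw [e1, Derivation.map_smul, Algebra.smul_def, Algebra.smul_def] at h5
    have hc : algebraMap ℂ M c₁ ≠ 0 := by
      rw [Ne, map_eq_zero]; exact h1
    have h6 : E' (B ^ (k - 1) * J) = (k : M) * (B ^ (k - 1) * J) := by
      apply mul_left_cancel₀ hc
      rw [h5]
      ring
    obtain ⟨j, rfl⟩ := Nat.exists_eq_add_of_lt hk
    rw [Nat.zero_add] at h6
    simp only [Nat.add_sub_cancel] at h6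
    rw [Derivation.leibniz, Derivation.leibniz_pow, hEB] at h6
    simp only [smul_eq_mul, nsmul_eq_mul] at h6
    have h7 : B ^ j * (E' J - J) = 0 := by
      rcases Nat.eq_zero_or_pos j with h | h
      · subst h
        simp at h6 ⊢
        rw [h6]; ring
      · obtain ⟨i, rfl⟩ := Nat.exists_eq_add_of_lt h
        simp only [Nat.zero_add, Nat.add_sub_cancel] at h6 ⊢
        push_cast at h6
        rw [pow_succ] at h6 ⊢
        linear_combination h6
    rcases mul_eq_zero.mp h7 with h | h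
    · exact absurd h (pow_ne_zero _ hB0)
    · exact sub_eq_zero.mp h
  · intro n
    have h3 : ∀ n : ℕ, (⇑(P' J))^[n] B = (-c₂) ^ n • B := by
      intro n
      induction n with
      | zero => simp
      | succ n ih =>
        rw [Function.iterate_succ_apply', ih, map_smul, hskew J B, e2, pow_succ, ← neg_smul,
          smul_smul]
    rw [h3]
    exact smul_ne_zero (pow_ne_zero _ (neg_ne_zero.mpr h2)) hB0

/-- **Block F, Galois half.** `ι : R → Ω` is an injective point with values in an algebraically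
closed field, `B ∈ Ω` is a root of a good polynomial with unramified splitting field, and the
derivation `D = {B, ·}` of `Ω` satisfies the flow identities for some integral element `J`. -/
theorem isAdjointVariety_of_flow (hX : IsContactFano 𝒜 P) [IsDomain R]
    {Ω : Type u} [Field Ω] [IsAlgClosed Ω] [Algebra ℂ Ω] (ι : R →ₐ[ℂ] Ω)
    (hι : Function.Injective ι) {Q : Polynomial R} (hQ : IsGood 𝒜 P 1 Q) {B : Ω} (hB : B ≠ 0)
    (hroot : Q.eval₂ (ι : R →+* Ω) B = 0)
    (hU : ∀ (M : Type u) [Field M] [Algebra R M] [Algebra (FractionRing R) M]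
      [IsScalarTower R (FractionRing R) M]
      [(Q.map (algebraMap R (FractionRing R))).IsSplittingField (FractionRing R) M],
      IsUnram R M)
    {k : ℕ} (hk : 0 < k) {r : R} (hr : r ∈ 𝒜 k) {J : Ω}
    (hJ : ∃ q : Polynomial R, q.Monic ∧ q.eval₂ (ι : R →+* Ω) J = 0) {c₁ c₂ : ℂ}
    (h1 : c₁ ≠ 0) (h2 : c₂ ≠ 0)
    (hflow : ∀ D : Derivation ℂ Ω Ω,
      (∀ (s : R) (D' : Derivation ℂ Ω Ω), (∀ t, D' (ι t) = ι (P s t)) → D' B = - D (ι s)) →
      (⇑D)^[2 * k - 1] (ι r) = c₁ • (B ^ (k - 1) * J) ∧ D J = c₂ • B) :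
    IsAdjointVariety 𝒜 P := by
  classical
  have : IsIntegrallyClosed R := hX.normal
  have : CharZero R := charZero_of_injective_algebraMap (algebraMap ℂ R).injective
  have : CharZero (FractionRing R) := charZero_of_injective_algebraMap
    (IsFractionRing.injective R (FractionRing R))
  have hchΩ : CharZero Ω := charZero_of_injective_algebraMap (algebraMap ℂ Ω).injective
  let : Algebra R Ω := (ι : R →+* Ω).toAlgebra
  have hmap : ∀ r, algebraMap R Ω r = ι r := fun _ => rfl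
  have : IsScalarTower ℂ R Ω := IsScalarTower.of_algebraMap_eq fun c => by
    rw [hmap, AlgHom.commutes]
  have : FaithfulSMul R Ω := (faithfulSMul_iff_algebraMap_injective R Ω).mpr hι
  let : Algebra (FractionRing R) Ω := FractionRing.liftAlgebra R Ω
  have : IsScalarTower R (FractionRing R) Ω := inferInstance
  have : IsScalarTower ℂ (FractionRing R) Ω := IsScalarTower.of_algebraMap_eq fun c => by
    rw [IsScalarTower.algebraMap_apply ℂ R Ω, IsScalarTower.algebraMap_apply ℂ R (FractionRing R),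
      ← IsScalarTower.algebraMap_apply R (FractionRing R) Ω]
  set q : (FractionRing R)[X] := Q.map (algebraMap R (FractionRing R)) with hq
  have hqs : (q.map (algebraMap (FractionRing R) Ω)).Splits := IsAlgClosed.splits _
  let M : IntermediateField (FractionRing R) Ω :=
    IntermediateField.adjoin (FractionRing R) (q.rootSet Ω)
  have hspl : q.IsSplittingField (FractionRing R) M :=
    IntermediateField.adjoin_rootSet_isSplittingField hqs
  have hU' : IsUnram R M := hU M
  have hinj : Function.Injective (algebraMap R M) := by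
    rw [IsScalarTower.algebraMap_eq R (FractionRing R) M]
    exact (algebraMap (FractionRing R) M).injective.comp
      (IsFractionRing.injective R (FractionRing R))
  have : FaithfulSMul R M := (faithfulSMul_iff_algebraMap_injective R M).2 hinj
  have : FiniteDimensional (FractionRing R) M := IsSplittingField.finiteDimensional M q
  have : Algebra.IsAlgebraic R M := ⟨fun x => (IsFractionRing.isAlgebraic_iff R (FractionRing R) M).2
    (Algebra.IsAlgebraic.isAlgebraic x)⟩
  have : IsScalarTower ℂ R M := IsScalarTower.of_algebraMap_eq fun c => by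
    apply Subtype.val_injective
    change algebraMap ℂ Ω c = algebraMap R Ω (algebraMap ℂ R c)
    rw [← IsScalarTower.algebraMap_apply]
  have : IsScalarTower ℂ M Ω := IsScalarTower.of_algebraMap_eq fun c => rfl
  have hval : ∀ r : R, ((algebraMap R M r : M) : Ω) = ι r := fun r => rfl
  obtain ⟨P', hP1, hP2, hP3, hP4⟩ := exists_bracket_ext (M := M) P hX.alternating hX.leibniz
    hX.jacobi
  have hskew : ∀ x y, P' x y = - P' y x := by
    intro x y
    have h := hP2 (x + y)
    rw [map_add, map_add, LinearMap.add_apply, LinearMap.add_apply, hP2 x, hP2 y, zero_add,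
      add_zero] at h
    exact eq_neg_of_add_eq_zero_right h
  have hBm : B ∈ M := by
    apply IntermediateField.subset_adjoin
    rw [mem_rootSet]
    refine ⟨(hQ.monic.map _).ne_zero, ?_⟩
    rw [hq, aeval_map_algebraMap, aeval_def]
    exact hroot
  let BM : M := ⟨B, hBm⟩
  have hBMv : ((BM : M) : Ω) = B := rfl
  -- the derivation `{B, ·}` of `M`, extended to `Ω`
  let d : Derivation ℂ M Ω := Derivation.mk'
    ((IsScalarTower.toAlgHom ℂ M Ω).toLinearMap ∘ₗ P' BM) (fun x y => by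
      change ((P' BM (x * y) : M) : Ω) = (x : Ω) * ((P' BM y : M) : Ω) + (y : Ω) * ((P' BM x : M) : Ω)
      rw [hP3]
      push_cast
      ring)
  have hd : ∀ x : M, d x = ((P' BM x : M) : Ω) := fun x => rfl
  obtain ⟨D, hD⟩ := exists_derivation_extension_field (k := ℂ) (K := M) (Ω := Ω) d
  have hD' : ∀ x : M, D (x : Ω) = ((P' BM x : M) : Ω) := fun x => (hD x).trans (hd x)
  obtain ⟨e1, e2⟩ := hflow D (fun s D' hDs => by
    -- `D'` agrees with `P' s` on `M`
    have key : ∀ x : M, D' (x : Ω) - ((P' (algebraMap R M s) x : M) : Ω) = 0 := by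
      intro x
      refine derivation_eq_zero_of_isAlgebraic (A := R) (S := M) (Ω := Ω) (algebraMap M Ω)
        (algebraMap M Ω).injective
        { toFun := fun x => D' (x : Ω) - ((P' (algebraMap R M s) x : M) : Ω)
          map_zero' := by simp
          map_add' := fun x y => by
            push_cast
            rw [map_add, map_add]
            push_cast
            ring } ?_ ?_ hinj (Algebra.IsAlgebraic.isAlgebraic x)
      · intro p q
        change D' ((p * q : M) : Ω) - ((P' (algebraMap R M s) (p * q) : M) : Ω) =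
          (p : Ω) * (D' (q : Ω) - ((P' (algebraMap R M s) q : M) : Ω)) +
          (q : Ω) * (D' (p : Ω) - ((P' (algebraMap R M s) p : M) : Ω))
        rw [hP3]
        push_cast
        rw [Derivation.leibniz, smul_eq_mul, smul_eq_mul]
        ring
      · intro t
        change D' ((algebraMap R M t : M) : Ω) -
          ((P' (algebraMap R M s) (algebraMap R M t) : M) : Ω) = 0
        rw [hP1, hval, hval, hDs, sub_self]
    have h3 := key BM
    rw [hBMv, sub_eq_zero] at h3
    rw [h3, hskew, ← hval s, hD']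
    push_cast
    rfl)
  have hiter : ∀ (n : ℕ) (x : M), (⇑D)^[n] (x : Ω) = (((⇑(P' BM))^[n] x : M) : Ω) := by
    intro n
    induction n with
    | zero => intro x; rfl
    | succ n ih =>
      intro x
      rw [Function.iterate_succ_apply, Function.iterate_succ_apply, hD', ih]
  have hBM0 : BM ≠ 0 := fun h => hB (by rw [← hBMv, h]; rfl)
  let JM : M := c₁⁻¹ • ((BM ^ (k - 1))⁻¹ * (⇑(P' BM))^[2 * k - 1] (algebraMap R M r))
  have hJM : ((JM : M) : Ω) = J := by
    change c₁⁻¹ • ((B ^ (k - 1))⁻¹ * (((⇑(P' BM))^[2 * k - 1] (algebraMap R M r) : M) : Ω)) = J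
    rw [← hiter, hval, e1, mul_smul_comm, smul_smul, inv_mul_cancel₀ h1, one_smul, ← mul_assoc,
      inv_mul_cancel₀ (pow_ne_zero _ hB), one_mul]
  have hJint : IsIntegral R JM := by
    obtain ⟨p, hp, hp'⟩ := hJ
    refine ⟨p, hp, ?_⟩
    apply (algebraMap M Ω).injective
    rw [map_zero, hom_eval₂]
    change p.eval₂ (ι : R →+* Ω) ((JM : M) : Ω) = 0
    rw [hJM]
    exact hp'
  refine isAdjointVariety_of_splitting hX hQ.monic hQ.irr
    (fun i hi => hQ.homog i hi _ (by rw [one_mul])) hU' P' hP1 hP2 hP3 (B := BM) (J := JM)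
    ?_ hBM0 hJint hk hr h1 h2 ?_ ?_
  · apply (algebraMap M Ω).injective
    rw [map_zero, aeval_def, hom_eval₂]
    exact hroot
  · apply Subtype.val_injective
    rw [← hiter, hval, e1, ← hJM]
    rfl
  · apply Subtype.val_injective
    rw [← hD', hJM, e2]
    rfl

end Vale.Agent.P292
end

section

/-! # Block F: a generic conic and a good polynomial with unramified splitting field give an
adjoint variety. -/

namespace Vale.Agent.P292

open MvPolynomial

universe u

variable {R : Type u} [CommRing R] [Algebra ℂ R] {𝒜 : ℕ → Submodule ℂ R} [GradedAlgebra 𝒜]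
  {P : R →ₗ[ℂ] R →ₗ[ℂ] R}

/-- `J(r) = b a_{2k-1}(r)` is integral over `R`. -/
theorem f_isIntegral_J (hX : IsContactFano 𝒜 P) {Ω : Type u} [Field Ω] [IsAlgClosed Ω]
    [Algebra ℂ Ω] {w : R →ₐ[ℂ] ℂ} {φ : R →ₐ[ℂ] MvPolynomial (Fin 2) Ω} (hφ : GenConicAt 𝒜 w φ)
    {b : Ω} (hb : omC P φ (pd φ 0) (pd φ 1) = C b) {k : ℕ} (hk : 0 < k) {r : R} (hr : r ∈ 𝒜 k) :
    ∃ Q : Polynomial R, Q.Monic ∧
      Q.eval₂ (pt φ ![0, 1] : R →+* Ω) (b * cf (φ r) (2 * k - 1) 1) = 0 := by
  refine isIntegral_of_valuationSubring hX (pt φ ![0, 1]) hφ.inj _ fun v hv h01 n01 => ?_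
  obtain ⟨k₀, hk₀, r₀, hr₀, hw⟩ := f1_exists_ne hφ
  have h10 : ∀ r, pt φ ![1, 0] r ∈ v := fun r => by rw [hφ.left]; exact hv _
  have n10 : ∃ k : ℕ, 0 < k ∧ ∃ r ∈ 𝒜 k, v.valuation (pt φ ![1, 0] r) = 1 := by
    refine ⟨k₀, hk₀, r₀, hr₀, ?_⟩
    rw [hφ.left]
    have h1 : v.valuation (algebraMap ℂ Ω (w r₀)) ≤ 1 := (v.valuation_le_one_iff _).2 (hv _)
    have h2 : v.valuation (algebraMap ℂ Ω (w r₀)⁻¹) ≤ 1 := (v.valuation_le_one_iff _).2 (hv _)
    have h3 : v.valuation (algebraMap ℂ Ω (w r₀)) * v.valuation (algebraMap ℂ Ω (w r₀)⁻¹) = 1 := by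
      rw [← map_mul, ← map_mul, mul_inv_cancel₀ hw, map_one, map_one]
    refine le_antisymm h1 ?_
    rw [← h3]
    exact mul_le_of_le_one_right' h2
  exact ((bound hX hφ.curve hb v hv h10 h01 n10 n01).2 k hk r hr).2

/-- **Block F.** -/
theorem isAdjointVariety_of_genConic (hX : IsContactFano 𝒜 P) [IsDomain R]
    {Ω : Type u} [Field Ω] [IsAlgClosed Ω] [Algebra ℂ Ω] {w : R →ₐ[ℂ] ℂ}
    {φ : R →ₐ[ℂ] MvPolynomial (Fin 2) Ω} (hφ : GenConicAt 𝒜 w φ) {b : Ω}
    (hb : omC P φ (pd φ 0) (pd φ 1) = C b) {Q : Polynomial R} (hQ : IsGood 𝒜 P 1 Q)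
    (hroot : Q.eval₂ (pt φ ![0, 1] : R →+* Ω) (b ^ 2) = 0)
    (hU : ∀ (M : Type u) [Field M] [Algebra R M] [Algebra (FractionRing R) M]
      [IsScalarTower R (FractionRing R) M]
      [(Q.map (algebraMap R (FractionRing R))).IsSplittingField (FractionRing R) M],
      IsUnram R M) : IsAdjointVariety 𝒜 P := by
  obtain ⟨k, hk, r, hr, hw⟩ := f1_exists_ne hφ
  have hb0 : b ≠ 0 := b_ne_zero hX hφ hb
  refine isAdjointVariety_of_flow hX (pt φ ![0, 1]) hφ.inj hQ (pow_ne_zero 2 hb0) hroot hU hk hr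
    (J := b * cf (φ r) (2 * k - 1) 1) (c₁ := ((2 * k - 1).factorial : ℂ) * 2 ^ (2 * k - 1))
    (c₂ := 4 * (k : ℂ) * w r) (f_isIntegral_J hX hφ hb hk hr) ?_ ?_ ?_
  · exact mul_ne_zero (Nat.cast_ne_zero.2 (Nat.factorial_ne_zero _)) (pow_ne_zero _ two_ne_zero)
  · exact mul_ne_zero (mul_ne_zero (by norm_num) (Nat.cast_ne_zero.2 hk.ne')) hw
  · intro D hD
    exact f1_hflow hφ hX.leibniz (fun D' s h => first_variation_ham hX hφ hb D' s h)
      (fun D' h => flow hX hφ hb D' h) hk hr D hD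

end Vale.Agent.P292
end

section

/-! # Assembly. -/

namespace Vale.Agent.P292

open MvPolynomial TensorProduct

universe u v w

variable {R : Type u} [CommRing R] [Algebra ℂ R] {𝒜 : ℕ → Submodule ℂ R} [GradedAlgebra 𝒜]
  {P : R →ₗ[ℂ] R →ₗ[ℂ] R}

/-- Generic conics through the closed points of a dense open set. -/
theorem asm_exists_genConicAt (hX : IsContactFano 𝒜 P) (hc : IsConicConnected 𝒜) :
    ∃ g : R, g ≠ 0 ∧ ∀ w : R →ₐ[ℂ] ℂ, w g ≠ 0 →
      ∃ (Ω : Type u) (_ : Field Ω) (_ : IsAlgClosed Ω) (_ : Algebra ℂ Ω)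
        (φ : R →ₐ[ℂ] MvPolynomial (Fin 2) Ω), GenConicAt 𝒜 w φ := by
  obtain ⟨F, hF, hcon⟩ := hc
  obtain ⟨g, hg, hg'⟩ := exists_evLeft_ne_zero F hF
  refine ⟨g, hg, fun w hw => exists_genConicAt hX w (evLeft F w) (hg' w hw) fun q hq => ?_⟩
  rw [apply_evLeft] at hq
  exact hcon w q hq

/-- The first case: closed lines meet all divisors. -/
theorem asm_one (hX : IsContactFano 𝒜 P) [IsDomain R] (hc : IsConicConnected 𝒜)
    (hm : MeetsAll 𝒜 1) : IsAdjointVariety 𝒜 P := by
  have := hX.normal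
  obtain ⟨g, hg, hgen⟩ := asm_exists_genConicAt hX hc
  obtain ⟨w, hw⟩ := exists_closed_ne hX g hg
  obtain ⟨Ω, _, _, _, φ, hφ⟩ := hgen w hw
  obtain ⟨b, hb⟩ := exists_b hX hφ.curve
  obtain ⟨Q, hQ, hroot⟩ := exists_isGood_one hX hφ hb
  refine isAdjointVariety_of_genConic hX hφ hb hQ hroot fun M _ _ _ _ _ => ?_
  exact isUnram_of_curves hX one_pos hQ fun 𝔭 _ hdvr hh =>
    hm Q.discr (discr_ne_zero_of_irreducible hQ.monic hQ.irr) 𝔭 hdvr hh

/-- The polynomial of `b ^ 2` splits in the splitting field of the polynomial of `b`. -/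
theorem asm_exists_embedding [IsDomain R] [IsIntegrallyClosed R] {Ω : Type u} [Field Ω]
    [Algebra ℂ Ω] (ι : R →ₐ[ℂ] Ω) (hι : Function.Injective ι) {Q q : Polynomial R}
    (hQm : Q.Monic) (hQi : Irreducible Q) (hqm : q.Monic) (hqi : Irreducible q) {b : Ω}
    (hQ : Q.eval₂ (ι : R →+* Ω) (b ^ 2) = 0) (hq : q.eval₂ (ι : R →+* Ω) b = 0)
    (M M₂ : Type u) [Field M] [Algebra R M] [Algebra (FractionRing R) M]
    [IsScalarTower R (FractionRing R) M]
    [(Q.map (algebraMap R (FractionRing R))).IsSplittingField (FractionRing R) M]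
    [Field M₂] [Algebra R M₂] [Algebra (FractionRing R) M₂]
    [IsScalarTower R (FractionRing R) M₂]
    [(q.map (algebraMap R (FractionRing R))).IsSplittingField (FractionRing R) M₂] :
    Nonempty (M →ₐ[R] M₂) := by
  have : CharZero R := charZero_of_injective_algebraMap (algebraMap ℂ R).injective
  have : CharZero (FractionRing R) := charZero_of_injective_algebraMap
    (IsFractionRing.injective R (FractionRing R))
  let K := FractionRing R
  have hQK : Irreducible (Q.map (algebraMap R K)) :=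
    (hQm.irreducible_iff_irreducible_map_fraction_map (K := K)).1 hQi
  have hqK : Irreducible (q.map (algebraMap R K)) :=
    (hqm.irreducible_iff_irreducible_map_fraction_map (K := K)).1 hqi
  let _ : Algebra R Ω := (ι : R →+* Ω).toAlgebra
  have hιa : ∀ r, algebraMap R Ω r = ι r := fun r => rfl
  let _ : Algebra K Ω := (IsFractionRing.lift (K := K) (g := (ι : R →+* Ω)) hι).toAlgebra
  have hst : IsScalarTower R K Ω := IsScalarTower.of_algebraMap_eq fun r =>
    (IsFractionRing.lift_algebraMap (K := K) (g := (ι : R →+* Ω)) hι r).symm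
  have hq1 : Polynomial.aeval b (q.map (algebraMap R K)) = 0 := by
    rw [Polynomial.aeval_map_algebraMap, Polynomial.aeval_def]
    exact hq
  have hQ1 : Polynomial.aeval b ((Q.map (algebraMap R K)).comp (Polynomial.X ^ 2)) = 0 := by
    rw [Polynomial.aeval_comp, map_pow, Polynomial.aeval_X, Polynomial.aeval_map_algebraMap,
      Polynomial.aeval_def]
    exact hQ
  have hmin : minpoly K b = q.map (algebraMap R K) :=
    (minpoly.eq_of_irreducible_of_monic hqK hq1 (hqm.map _)).symm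
  have hdvd : q.map (algebraMap R K) ∣ (Q.map (algebraMap R K)).comp (Polynomial.X ^ 2) := by
    rw [← hmin]
    exact minpoly.dvd K b hQ1
  -- a root of `q` in `M₂`
  have hsp : ((q.map (algebraMap R K)).map (algebraMap K M₂)).Splits :=
    Polynomial.IsSplittingField.splits M₂ (q.map (algebraMap R K))
  have hdeg : ((q.map (algebraMap R K)).map (algebraMap K M₂)).degree ≠ 0 := by
    rw [Polynomial.degree_map]
    exact hqK.degree_pos.ne'
  obtain ⟨β, hβ⟩ := hsp.exists_eval_eq_zero hdeg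
  have hβ1 : Polynomial.aeval β (q.map (algebraMap R K)) = 0 := by
    rw [Polynomial.aeval_def, ← Polynomial.eval_map]
    exact hβ
  have hβ2 : Polynomial.aeval (β ^ 2) (Q.map (algebraMap R K)) = 0 := by
    obtain ⟨c, hc⟩ := hdvd
    have h1 := congrArg (Polynomial.aeval β) hc
    rw [map_mul, hβ1, zero_mul, Polynomial.aeval_comp, map_pow, Polynomial.aeval_X] at h1
    exact h1
  have hmin2 : minpoly K (β ^ 2) = Q.map (algebraMap R K) :=
    (minpoly.eq_of_irreducible_of_monic hQK hβ2 (hQm.map _)).symm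
  have hnorm : Normal K M₂ := Normal.of_isSplittingField (q.map (algebraMap R K))
  have hs2 : ((Q.map (algebraMap R K)).map (algebraMap K M₂)).Splits := by
    rw [← hmin2]
    exact hnorm.splits (β ^ 2)
  exact ⟨(Polynomial.IsSplittingField.lift M (Q.map (algebraMap R K)) hs2).restrictScalars R⟩

/-- The second case: `b` is integral with integral brackets and closed conics meet all
divisors. -/
theorem asm_two (hX : IsContactFano 𝒜 P) [IsDomain R] {Ω : Type u} [Field Ω] [IsAlgClosed Ω]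
    [Algebra ℂ Ω] {w : R →ₐ[ℂ] ℂ} {φ : R →ₐ[ℂ] MvPolynomial (Fin 2) Ω} (hφ : GenConicAt 𝒜 w φ)
    {b : Ω} (hb : omC P φ (pd φ 0) (pd φ 1) = C b) {q : Polynomial R} (hq : IsGood 𝒜 P 2 q)
    (hqr : q.eval₂ (pt φ ![0, 1] : R →+* Ω) b = 0) (hm : MeetsAll 𝒜 2) :
    IsAdjointVariety 𝒜 P := by
  have := hX.normal
  obtain ⟨Q, hQ, hroot⟩ := exists_isGood_one hX hφ hb
  refine isAdjointVariety_of_genConic hX hφ hb hQ hroot fun M _ _ _ _ _ => ?_
  let M₂ := (q.map (algebraMap R (FractionRing R))).SplittingField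
  have h2 : IsUnram R M₂ := isUnram_of_curves hX two_pos hq fun 𝔭 _ hdvr hh =>
    hm q.discr (discr_ne_zero_of_irreducible hq.monic hq.irr) 𝔭 hdvr hh
  obtain ⟨f⟩ := asm_exists_embedding (pt φ ![0, 1]) hφ.inj hQ.monic hQ.irr hq.monic hq.irr
    hroot hqr M M₂
  exact h2.of_algHom f

/-- **Assembly.** -/
theorem asm_main (hX : IsContactFano 𝒜 P) [IsDomain R] (hdim : 4 ≤ cdim R)
    (hc : IsConicConnected 𝒜) (hmeet : MeetsAll 𝒜 1 ∨ NoLines 𝒜 ∧ MeetsAll 𝒜 2) :
    IsAdjointVariety 𝒜 P := by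
  rcases hmeet with h1 | ⟨⟨g', hg', hno⟩, h2⟩
  · exact asm_one hX hc h1
  · obtain ⟨g, hg, hgen⟩ := asm_exists_genConicAt hX hc
    obtain ⟨w, hw⟩ := exists_closed_ne hX (g * g') (mul_ne_zero hg hg')
    rw [map_mul] at hw
    obtain ⟨Ω, _, _, _, φ, hφ⟩ := hgen w (left_ne_zero_of_mul hw)
    obtain ⟨b, hb⟩ := exists_b hX hφ.curve
    obtain ⟨q, hq, hqr⟩ := exists_isGood_two hX hdim hφ hb (hno w (right_ne_zero_of_mul hw))
    exact asm_two hX hφ hb hq hqr h2

/-- If all closed curves meet all homogeneous divisors then the meeting property holds. -/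
theorem asm_meets (hX : IsContactFano 𝒜 P) [IsDomain R] (hc : IsConicConnected 𝒜)
    (hM : ∀ (d : ℕ), 0 < d → ∀ φ : R →ₐ[ℂ] MvPolynomial (Fin 2) ℂ, IsCurve 𝒜 d φ →
      ∀ (𝔭 : Ideal R) [𝔭.IsPrime], IsDiscreteValuationRing (Localization.AtPrime 𝔭) →
      𝔭.IsHomogeneous 𝒜 → ∃ a : Fin 2 → ℂ, a ≠ 0 ∧ ∀ r ∈ 𝔭, pt φ a r = 0) :
    MeetsAll 𝒜 1 ∨ NoLines 𝒜 ∧ MeetsAll 𝒜 2 := by
  by_cases hno : NoLines 𝒜
  · refine Or.inr ⟨hno, fun D hD 𝔭 _ hdvr hh => ?_⟩
    obtain ⟨F, hF, hcon⟩ := hc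
    obtain ⟨g, hg, hg'⟩ := exists_evLeft_ne_zero F hF
    obtain ⟨w, hw⟩ := exists_closed_ne hX (g * D) (mul_ne_zero hg hD)
    rw [map_mul] at hw
    obtain ⟨q, hq⟩ := exists_closed_ne hX (evLeft F w) (hg' w (left_ne_zero_of_mul hw))
    rw [apply_evLeft] at hq
    obtain ⟨φ, hφ, h10, -⟩ := hcon w q hq
    refine ⟨φ, hφ, fun h0 => ?_, hM 2 two_pos φ hφ 𝔭 hdvr hh⟩
    apply right_ne_zero_of_mul hw
    rw [← h10, pt_apply, h0, map_zero]
  · refine Or.inl fun D hD 𝔭 _ hdvr hh => ?_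
    unfold NoLines at hno
    push Not at hno
    obtain ⟨w, hw, ψ, hψ, h10⟩ := hno D hD
    refine ⟨ψ, hψ, fun h0 => hw ?_, hM 1 one_pos ψ hψ 𝔭 hdvr hh⟩
    rw [← h10, pt_apply, h0, map_zero]

end Vale.Agent.P292
end

section

/-! # Block I2 at points with good reduction. -/

namespace Vale.Agent.P292

open MvPolynomial

universe u

variable {R : Type u} [CommRing R] [Algebra ℂ R] {𝒜 : ℕ → Submodule ℂ R} [GradedAlgebra 𝒜]
  {P : R →ₗ[ℂ] R →ₗ[ℂ] R} {Ω : Type u} [Field Ω] [IsAlgClosed Ω] [Algebra ℂ Ω]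
  {w : R →ₐ[ℂ] ℂ} {φ : R →ₐ[ℂ] MvPolynomial (Fin 2) Ω}

/-- I2 with good reduction: `b` itself is a root of a good polynomial. -/
theorem exists_isGood_two_of_goodAt [IsDomain R] (hX : IsContactFano 𝒜 P)
    (hφ : GenConicAt 𝒜 w φ) {b : Ω} (hb : omC P φ (pd φ 0) (pd φ 1) = C b)
    (hw : GoodAt 𝒜 w) :
    ∃ Q : Polynomial R, IsGood 𝒜 P 2 Q ∧ Q.eval₂ (pt φ ![0, 1] : R →+* Ω) b = 0 :=
  exists_isGood_two_of_mem hX hφ hb fun v hv hR 𝔭 _ h𝔭 hdvr k hk r hr =>
    hw Ω φ hφ v hv hR 𝔭 h𝔭 hdvr k r hr 1 (by omega)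

/-- If no closed line passes through `w` then `w` has good reduction. -/
theorem goodAt_of_no_line [IsDomain R] (hX : IsContactFano 𝒜 P) (hdim : 4 ≤ cdim R)
    (hno : ¬ ∃ ψ : R →ₐ[ℂ] MvPolynomial (Fin 2) ℂ, IsCurve 𝒜 1 ψ ∧ pt ψ ![1, 0] = w) :
    GoodAt 𝒜 w := by
  intro Ω _ _ _ φ hφ v hv hR 𝔭 _ h𝔭 hdvr k r hr i hi
  by_contra hn
  obtain ⟨κ, _, _, _, Ψ, hΨ, h10⟩ := exists_line_of_not_mem hX hdim hφ v hv hR 𝔭 h𝔭 hdvr k r hr i
    hi hn
  exact hno (exists_closed_line hX Ψ hΨ h10)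

end Vale.Agent.P292
end

section

/-! # If the generic conics degenerate over divisors, then lines meet all divisors. -/

namespace Vale.Agent.P292

open MvPolynomial

universe u v w

variable {R : Type u} [CommRing R] [Algebra ℂ R] {𝒜 : ℕ → Submodule ℂ R} [GradedAlgebra 𝒜]
  {P : R →ₗ[ℂ] R →ₗ[ℂ] R}

/-- Vanishing on a homogeneous ideal can be checked on homogeneous elements. -/
theorem nf_ext {𝔭 : Ideal R} (hhom : 𝔭.IsHomogeneous 𝒜) {M : Type*} [AddCommGroup M] [Module ℂ M]
    (f : R →ₗ[ℂ] M) (h : ∀ k, ∀ r ∈ 𝒜 k, r ∈ 𝔭 → f r = 0) : ∀ r ∈ 𝔭, f r = 0 := by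
  classical
  intro r hr
  rw [← DirectSum.sum_support_decompose 𝒜 r, map_sum]
  exact Finset.sum_eq_zero fun k _ => h k _ (SetLike.coe_mem _) (hhom k hr)

/-- A height one homogeneous prime contains a nonzero homogeneous element of positive degree. -/
theorem nf_exists_homog (hX : IsContactFano 𝒜 P) [IsDomain R] (𝔭 : Ideal R) [𝔭.IsPrime]
    (hdvr : IsDiscreteValuationRing (Localization.AtPrime 𝔭)) (hhom : 𝔭.IsHomogeneous 𝒜) :
    ∃ k, 0 < k ∧ ∃ r ∈ 𝒜 k, r ≠ 0 ∧ r ∈ 𝔭 := by
  classical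
  have h1 : 𝔭 ≠ ⊥ := by
    intro h0
    apply IsDiscreteValuationRing.not_a_field (Localization.AtPrime 𝔭)
    rw [← IsLocalization.AtPrime.map_eq_maximalIdeal 𝔭 (Localization.AtPrime 𝔭)]
    refine (Ideal.map_eq_bot_iff_le_ker _).2 fun x hx => ?_
    rw [h0] at hx
    rw [(Submodule.mem_bot R).1 hx]
    exact Ideal.zero_mem _
  obtain ⟨r, hr, hr0⟩ := Submodule.exists_mem_ne_zero_of_ne_bot h1
  have h2 : ∃ k, (DirectSum.decompose 𝒜 r k : R) ≠ 0 := by
    by_contra hcon
    push Not at hcon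
    apply hr0
    rw [← DirectSum.sum_support_decompose 𝒜 r]
    exact Finset.sum_eq_zero fun k _ => hcon k
  obtain ⟨k, hk⟩ := h2
  refine ⟨k, Nat.pos_of_ne_zero ?_, _, SetLike.coe_mem _, hk, hhom k hr⟩
  rintro rfl
  obtain ⟨c, hc⟩ := hX.connected _ (SetLike.coe_mem (DirectSum.decompose 𝒜 r 0))
  have h3 := hhom 0 hr
  have hc0 : c ≠ 0 := by
    intro h0
    apply hk
    rw [hc, h0, map_zero]
  apply (inferInstance : 𝔭.IsPrime).ne_top
  rw [Ideal.eq_top_iff_one]
  have h4 : (1 : R) = algebraMap ℂ R c⁻¹ * algebraMap ℂ R c := by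
    rw [← map_mul, inv_mul_cancel₀ hc0, map_one]
  rw [h4]
  refine 𝔭.mul_mem_left _ ?_
  change (DirectSum.decompose 𝒜 r 0 : R) ∈ 𝔭 at h3
  rwa [hc] at h3

section

variable {w : R →ₐ[ℂ] ℂ} {Ω : Type v} [Field Ω] [IsAlgClosed Ω] [Algebra ℂ Ω]
  {φ : R →ₐ[ℂ] MvPolynomial (Fin 2) Ω}

/-- The generic conic meets a divisor, or there is a line which meets it. -/
theorem nf_meets (hX : IsContactFano 𝒜 P) [IsDomain R] (hφ : GenConicAt 𝒜 w φ) {D : R}
    (hwD : w D ≠ 0) (𝔭 : Ideal R) [𝔭.IsPrime]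
    (hdvr : IsDiscreteValuationRing (Localization.AtPrime 𝔭)) (hhom : 𝔭.IsHomogeneous 𝒜)
    {k₀ : ℕ} (hk₀ : 0 < k₀) {g₀ : R} (hg₀ : g₀ ∈ 𝒜 k₀) (hg₀𝔭 : g₀ ∈ 𝔭) (hwg : w g₀ ≠ 0)
    (hE : ∃ k, 0 < k ∧ ∃ r ∈ 𝒜 k, r ∉ 𝔭) :
    (∃ ψ : R →ₐ[ℂ] MvPolynomial (Fin 2) ℂ, IsCurve 𝒜 1 ψ ∧ ψ D ≠ 0 ∧ Meets ψ 𝔭) ∨ Meets φ 𝔭 := by
  have := hX.finiteType
  obtain ⟨O, hO⟩ := exists_valuationSubring_prime (pt φ ![0, 1]).toRingHom hφ.inj 𝔭
  have hO1 : ∀ a, O.valuation (pt φ ![0, 1] a) ≤ 1 := fun a =>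
    (O.valuation_le_one_iff _).2 (hO a).1
  have hO2 : ∀ a, a ∈ 𝔭 ↔ O.valuation (pt φ ![0, 1] a) < 1 := fun a => (hO a).2
  have hcst : ∀ c : ℂ, O.valuation (algebraMap ℂ Ω c) ≤ 1 := fun c => by
    rw [← (pt φ ![0, 1]).commutes]; exact hO1 _
  obtain ⟨κ, _, _, res, hp, hs⟩ := exists_isPlace O.valuation hcst
  have hκ : IsAlgClosed κ := isAlgClosed_of_isPlace hp hs
  have hdeg := hφ.curve.degree
  have e10 : ∀ r, eval ![1, 0] (φ r) = algebraMap ℂ Ω (w r) := fun r => by
    rw [← pt_apply]; exact hφ.left r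
  rcases good_or_chain hX hp hdeg (fun r => by rw [e10]; exact hcst _)
    (fun r => by rw [← pt_apply]; exact hO1 _) with ⟨Φ₀, hΦ₀, hred⟩ | ⟨ρ, Ψ₁, Ψ₂, hch⟩
  · -- good reduction
    right
    let f : R →+* Polynomial Ω := ((nwDehom Ω 1).comp φ : R →ₐ[ℂ] Polynomial Ω)
    have hf : ∀ r, f r = nwDehom Ω 1 (φ r) := fun r => rfl
    have hf0 : ∀ r, (f r).coeff 0 = pt φ ![0, 1] r := fun r => by
      rw [hf, ← nw_eval_zero_one, pt_apply]
    have hfh : ∀ k, ∀ r ∈ 𝒜 k, ∀ i, O.valuation ((f r).coeff i) ≤ 1 := by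
      intro k r hr i
      rcases Nat.lt_or_ge (2 * k) i with h | h
      · rw [hf, Polynomial.coeff_eq_zero_of_natDegree_lt (lt_of_le_of_lt
          (nwDehom_natDegree_le 1 0 (by decide) (hdeg k r hr)) h), map_zero]
        exact zero_le
      · have h1 := nwDehom_coeff 1 0 (by decide) (hdeg k r hr)
          (m := Finsupp.single 0 i + Finsupp.single 1 (2 * k - i)) (by simp; omega)
        have h2 : (Finsupp.single 0 i + Finsupp.single 1 (2 * k - i) : Fin 2 →₀ ℕ) 0 = i := by
          simp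
        rw [h2] at h1
        rw [hf, h1]
        exact hred.bound r _
    obtain ⟨a, -, ha⟩ := exists_root_prime O f (fun r i => by
      classical
      rw [← DirectSum.sum_support_decompose 𝒜 r, map_sum, Polynomial.finsetSum_coeff]
      exact O.valuation.map_sum_le fun k _ => hfh k _ (SetLike.coe_mem _) i) 𝔭
      (fun r => by rw [hf0]; exact hO2 r)
      (fun Q hQ hQ𝔭 hQ0 => (eq_bot_or_eq_of_dvr 𝔭 hdvr Q hQ𝔭).resolve_left hQ0)
      hg₀𝔭 (fun h => hwg (by rw [h, map_zero])) ⟨2 * k₀, by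
        rw [hf, ← nwDehom_coeff_symm (hdeg k₀ g₀ hg₀) (i := 0) (j := 2 * k₀) (by omega),
          ← nw_eval_one_zero, e10]
        refine le_antisymm (hcst _) ?_
        have h1 := hcst (w g₀)⁻¹
        rw [map_inv₀, map_inv₀] at h1
        have h2 : O.valuation (algebraMap ℂ Ω (w g₀)) ≠ 0 := by
          rw [Ne, Valuation.zero_iff, map_eq_zero_iff _ (algebraMap ℂ Ω).injective]
          exact hwg
        exact (inv_le_one₀ (zero_lt_iff.2 h2)).1 h1⟩
    refine ⟨![a, 1], fun h => ?_, fun r hr => ?_⟩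
    · have := congrFun h 1
      simp at this
    · rw [pt_apply, ← eval_nwDehom_one, ← hf]
      exact (ha r).2 hr
  · -- a chain
    left
    have e1 : ∀ r, eval ![1, 0] (Ψ₁ r) = algebraMap ℂ κ (w r) := fun r => by
      rw [hch.end₁, e10, hp.map_algebraMap]
    have e2 : ∀ r, eval ![1, 0] (Ψ₂ r) = 0 ↔ r ∈ 𝔭 := fun r => by
      rw [hch.end₂, ← pt_apply, hp.eq_zero_iff _ (hO1 r)]
      exact (hO2 r).symm
    have e3 := hch.node_eq hdeg
    have n1 : ∃ k, 0 < k ∧ ∃ r ∈ 𝒜 k, eval ![1, 0] (Ψ₁ r) ≠ 0 := by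
      refine ⟨k₀, hk₀, g₀, hg₀, ?_⟩
      rw [e1, Ne, map_eq_zero_iff _ (algebraMap ℂ κ).injective]
      exact hwg
    have n2 : ∃ k, 0 < k ∧ ∃ r ∈ 𝒜 k, eval ![1, 0] (Ψ₂ r) ≠ 0 := by
      obtain ⟨k, hk, r, hr, h⟩ := hE
      exact ⟨k, hk, r, hr, fun h0 => h ((e2 r).1 h0)⟩
    have n3 : ∃ k, 0 < k ∧ ∃ r ∈ 𝒜 k, eval ![0, 1] (Ψ₂ r) ≠ 0 := by
      obtain ⟨k, hk, r, hr, h⟩ := hch.node
      exact ⟨k, hk, r, hr, by rw [← e3]; exact h⟩
    -- if the second line meets the divisor with `Ψ₂ D ≠ 0` we are done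
    by_cases hgood : IsCurve 𝒜 1 Ψ₂ ∧ Ψ₂ D ≠ 0
    · exact exists_closed_meets hgood.1 hgood.2 ⟨![1, 0], mm_one_zero_ne, fun r hr => by
        rw [pt_apply]; exact (e2 r).2 hr⟩
    -- otherwise the node lies on the divisor
    have hnode : ∀ r ∈ 𝔭, eval ![0, 1] (Ψ₂ r) = 0 := by
      rcases isCurve_one_or hX Ψ₂ hch.homog₂ ![1, 0] ![0, 1] n2 n3 with hcur | ⟨c, hc0, hc⟩
      · have hD : Ψ₂ D = 0 := by
          by_contra hcon
          exact hgood ⟨hcur, hcon⟩
        have hker : (RingHom.ker Ψ₂).IsPrime := RingHom.ker_isPrime _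
        have hle : RingHom.ker Ψ₂ ≤ 𝔭 := fun r hr => (e2 r).1 (by
          rw [RingHom.mem_ker] at hr
          rw [hr, map_zero])
        rcases eq_bot_or_eq_of_dvr 𝔭 hdvr (RingHom.ker Ψ₂) hle with h0 | h0
        · exfalso
          have h1 : D ∈ RingHom.ker Ψ₂ := hD
          rw [h0, Ideal.mem_bot] at h1
          exact hwD (by rw [h1, map_zero])
        · intro r hr
          rw [← h0, RingHom.mem_ker] at hr
          rw [hr, map_zero]
      · refine nf_ext hhom ((pt Ψ₂ ![0, 1]).toLinearMap) (fun k r hr hr𝔭 => ?_)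
          |> fun h r hr => by
            have := h r hr
            change pt Ψ₂ ![0, 1] r = 0 at this
            rwa [pt_apply] at this
        change pt Ψ₂ ![0, 1] r = 0
        rw [pt_apply, hc k r hr, (e2 r).2 hr𝔭, mul_zero]
    have hnode' : ∀ r ∈ 𝔭, eval ![0, 1] (Ψ₁ r) = 0 := fun r hr => by rw [e3]; exact hnode r hr
    rcases isCurve_one_or hX Ψ₁ hch.homog₁ ![1, 0] ![0, 1] n1 hch.node with hcur | ⟨c, hc0, hc⟩
    · refine exists_closed_meets hcur (D := D) (fun h => ?_) ⟨![0, 1], mm_zero_one_ne,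
        fun r hr => by rw [pt_apply]; exact hnode' r hr⟩
      have h1 := e1 D
      rw [h, map_zero] at h1
      exact hwD ((map_eq_zero_iff _ (algebraMap ℂ κ).injective).1 h1.symm)
    · exfalso
      have h1 := hc k₀ g₀ hg₀
      rw [hnode' g₀ hg₀𝔭, e1] at h1
      refine mul_ne_zero (pow_ne_zero k₀ hc0) ?_ h1.symm
      rw [Ne, map_eq_zero_iff _ (algebraMap ℂ κ).injective]
      exact hwg

omit [IsAlgClosed Ω] in
/-- A chain over a divisor consists of two lines. -/
theorem nf_chain (hX : IsContactFano 𝒜 P) [IsDomain R] (hdim : 3 ≤ cdim R)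
    (hφ : GenConicAt 𝒜 w φ) (hwv : ¬ IsVertex 𝒜 w) (q : Ideal R) [q.IsPrime]
    (hdvr : IsDiscreteValuationRing (Localization.AtPrime q))
    {κ : Type w} [Field κ] [IsAlgClosed κ] [Algebra ℂ κ]
    {Γ : Type*} [LinearOrderedCommGroupWithZero Γ] {v : Valuation Ω Γ} {res : Ω → κ}
    (hp : IsPlace v res) (hv1 : ∀ r, v (pt φ ![0, 1] r) ≤ 1)
    (hq : ∀ r, r ∈ q ↔ v (pt φ ![0, 1] r) < 1) {ρ : Ω}
    {Ψ₁ Ψ₂ : R →ₐ[ℂ] MvPolynomial (Fin 2) κ} (hch : IsChain 𝒜 v res φ ρ Ψ₁ Ψ₂) :
    IsCurve 𝒜 1 Ψ₁ ∧ IsCurve 𝒜 1 Ψ₂ ∧ pt Ψ₁ ![0, 1] = pt Ψ₂ ![0, 1] ∧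
      (∀ r, pt Ψ₁ ![1, 0] r = algebraMap ℂ κ (w r)) ∧ ∀ r, r ∈ q ↔ pt Ψ₂ ![1, 0] r = 0 := by
  have hdeg := hφ.curve.degree
  have e1 : ∀ r, eval ![1, 0] (Ψ₁ r) = algebraMap ℂ κ (w r) := fun r => by
    rw [hch.end₁, ← pt_apply, hφ.left, hp.map_algebraMap]
  have e2 : ∀ r, eval ![1, 0] (Ψ₂ r) = 0 ↔ r ∈ q := fun r => by
    rw [hch.end₂, ← pt_apply, hp.eq_zero_iff _ (hv1 r)]
    exact (hq r).symm
  have e3 := hch.node_eq hdeg
  have hwne : ∀ r, w r ≠ 0 → algebraMap ℂ κ (w r) ≠ 0 := fun r h => by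
    rw [Ne, map_eq_zero_iff _ (algebraMap ℂ κ).injective]
    exact h
  have hq0 : ¬ ∀ k, ∀ r ∈ 𝒜 k, w r = 0 → r ∈ q := fun h => not_le_of_dvr hX hdim w hwv q hdvr h
  have n1 : ∃ k, 0 < k ∧ ∃ r ∈ 𝒜 k, eval ![1, 0] (Ψ₁ r) ≠ 0 := by
    unfold IsVertex at hwv
    push Not at hwv
    obtain ⟨k, hk, r, hr, h⟩ := hwv
    exact ⟨k, hk, r, hr, by rw [e1]; exact hwne r h⟩
  have n2 : ∃ k, 0 < k ∧ ∃ r ∈ 𝒜 k, eval ![1, 0] (Ψ₂ r) ≠ 0 := by
    by_contra hcon
    push Not at hcon
    refine hq0 fun k r hr h => ?_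
    rcases Nat.eq_zero_or_pos k with rfl | hk
    · obtain ⟨c, rfl⟩ := hX.connected r hr
      rw [AlgHom.commutes] at h
      have hc0 : c = 0 := h
      rw [hc0, map_zero]
      exact q.zero_mem
    · exact (e2 r).1 (hcon k hk r hr)
  have n3 : ∃ k, 0 < k ∧ ∃ r ∈ 𝒜 k, eval ![0, 1] (Ψ₂ r) ≠ 0 := by
    obtain ⟨k, hk, r, hr, h⟩ := hch.node
    exact ⟨k, hk, r, hr, by rw [← e3]; exact h⟩
  -- a line through `w` and the generic point of the divisor, up to scaling
  have hline : ∀ Ψ : R →ₐ[ℂ] MvPolynomial (Fin 2) κ, IsCurve 𝒜 1 Ψ →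
      ∀ a b : Fin 2 → κ, a 0 * b 1 - a 1 * b 0 ≠ 0 →
      (∀ k, ∀ r ∈ 𝒜 k, eval a (Ψ r) = algebraMap ℂ κ (w r)) →
      (∀ k, ∀ r ∈ 𝒜 k, eval b (Ψ r) = eval ![1, 0] (Ψ₂ r)) → False := by
    intro Ψ hΨ a b hab ha hb
    have h1 : pt Ψ a = (Algebra.ofId ℂ κ).comp w := by
      refine AlgHom.ext fun r => ?_
      have := LinearMap.congr_fun (mm_ext (𝒜 := 𝒜) (f := (pt Ψ a).toLinearMap)
        (g := ((Algebra.ofId ℂ κ).comp w).toLinearMap) (fun k r hr => by
          change pt Ψ a r = algebraMap ℂ κ (w r)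
          rw [pt_apply]; exact ha k r hr)) r
      exact this
    have h2 : pt Ψ b = pt Ψ₂ ![1, 0] := by
      refine AlgHom.ext fun r => ?_
      have := LinearMap.congr_fun (mm_ext (𝒜 := 𝒜) (f := (pt Ψ b).toLinearMap)
        (g := (pt Ψ₂ ![1, 0]).toLinearMap) (fun k r hr => by
          change pt Ψ b r = pt Ψ₂ ![1, 0] r
          rw [pt_apply, pt_apply]; exact hb k r hr)) r
      exact this
    refine no_line_to_dvr hX hdim (hΨ.reparam a b (ne_zero_of_det hab)) w (fun r => ?_) q hdvr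
      (fun r => ?_)
    · rw [pt_reparam]
      have : (![1, 0] : Fin 2 → κ) 0 • a + (![1, 0] : Fin 2 → κ) 1 • b = a := by simp
      rw [this, h1]
      rfl
    · rw [pt_reparam]
      have : (![0, 1] : Fin 2 → κ) 0 • a + (![0, 1] : Fin 2 → κ) 1 • b = b := by simp
      rw [this, h2, pt_apply, e2]
  have hc₁ : IsCurve 𝒜 1 Ψ₁ := by
    rcases isCurve_one_or hX Ψ₁ hch.homog₁ ![1, 0] ![0, 1] n1 hch.node with hcur | ⟨c, hc0, hc⟩
    · exact hcur
    · exfalso
      rcases isCurve_one_or hX Ψ₂ hch.homog₂ ![1, 0] ![0, 1] n2 n3 with hcur | ⟨c', hc0', hc'⟩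
      · refine hline Ψ₂ hcur (c⁻¹ • ![0, 1]) ![1, 0] (by simpa using hc0) (fun k r hr => ?_)
          (fun k r hr => rfl)
        rw [eval_smul_form (hch.homog₂ k r hr), one_mul, ← e3, hc k r hr, e1, ← mul_assoc,
          ← mul_pow, inv_mul_cancel₀ hc0, one_pow, one_mul]
      · refine hq0 fun k r hr h => (e2 r).1 ?_
        have h4 := hc' k r hr
        rw [← e3, hc k r hr, e1, h, map_zero, mul_zero] at h4
        exact (mul_eq_zero.1 h4.symm).resolve_left (pow_ne_zero k hc0')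
  have hc₂ : IsCurve 𝒜 1 Ψ₂ := by
    rcases isCurve_one_or hX Ψ₂ hch.homog₂ ![1, 0] ![0, 1] n2 n3 with hcur | ⟨c', hc0', hc'⟩
    · exact hcur
    · exfalso
      refine hline Ψ₁ hc₁ ![1, 0] (c'⁻¹ • ![0, 1]) (by simpa using hc0') (fun k r hr => e1 r)
        (fun k r hr => ?_)
      rw [eval_smul_form (hch.homog₁ k r hr), one_mul, e3, hc' k r hr, ← mul_assoc,
        ← mul_pow, inv_mul_cancel₀ hc0', one_pow, one_mul]
  refine ⟨hc₁, hc₂, AlgHom.ext fun r => ?_, fun r => ?_, fun r => ?_⟩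
  · rw [pt_apply, pt_apply]; exact e3 r
  · rw [pt_apply]; exact e1 r
  · rw [pt_apply]; exact (e2 r).symm

end

/-- The conclusion for one point. -/
theorem nf_point (hX : IsContactFano 𝒜 P) [IsDomain R] (hdim : 3 ≤ cdim R) {w : R →ₐ[ℂ] ℂ}
    (hbad : ¬ GoodAt 𝒜 w) {D : R} (hwD : w D ≠ 0) (𝔭 : Ideal R) [𝔭.IsPrime]
    (hdvr : IsDiscreteValuationRing (Localization.AtPrime 𝔭)) (hhom : 𝔭.IsHomogeneous 𝒜)
    {k₀ : ℕ} (hk₀ : 0 < k₀) {g₀ : R} (hg₀ : g₀ ∈ 𝒜 k₀) (hg₀𝔭 : g₀ ∈ 𝔭) (hwg : w g₀ ≠ 0)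
    (hno : ¬ ∃ ψ : R →ₐ[ℂ] MvPolynomial (Fin 2) ℂ, IsCurve 𝒜 1 ψ ∧ ψ D ≠ 0 ∧ Meets ψ 𝔭) :
    ∃ q : Ideal R, q.IsPrime ∧ (∃ _ : q.IsPrime,
        IsDiscreteValuationRing (Localization.AtPrime q)) ∧ D ∈ q ∧
      ∃ (κ : Type u) (_ : Field κ) (_ : IsAlgClosed κ) (_ : Algebra ℂ κ)
        (Ψ₁ Ψ₂ : R →ₐ[ℂ] MvPolynomial (Fin 2) κ), IsCurve 𝒜 1 Ψ₁ ∧ IsCurve 𝒜 1 Ψ₂ ∧
        pt Ψ₁ ![0, 1] = pt Ψ₂ ![0, 1] ∧ (∀ r, pt Ψ₁ ![1, 0] r = algebraMap ℂ κ (w r)) ∧
        ∀ r, r ∈ q ↔ pt Ψ₂ ![1, 0] r = 0 := by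
  have := hX.finiteType
  have hwv : ¬ IsVertex 𝒜 w := fun h => hwg (h k₀ hk₀ g₀ hg₀)
  have hE : ∀ (q : Ideal R) [q.IsPrime], IsDiscreteValuationRing (Localization.AtPrime q) →
      ∃ k, 0 < k ∧ ∃ r ∈ 𝒜 k, r ∉ q := by
    intro q _ hdvr
    by_contra hcon
    push Not at hcon
    refine not_le_of_dvr hX hdim w hwv q hdvr fun k r hr h => ?_
    rcases Nat.eq_zero_or_pos k with rfl | hk
    · obtain ⟨c, rfl⟩ := hX.connected r hr
      rw [AlgHom.commutes] at h
      have hc0 : c = 0 := h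
      rw [hc0, map_zero]
      exact q.zero_mem
    · exact hcon k hk r hr
  unfold GoodAt at hbad
  push Not at hbad
  obtain ⟨Ω, _, _, _, φ, hφ, v, hv, hv01, q, hq, hqv, hqdvr, k, r, hr, i, hi, hcf⟩ := hbad
  have hmeet := (nf_meets hX hφ hwD 𝔭 hdvr hhom hk₀ hg₀ hg₀𝔭 hwg (hE 𝔭 hdvr)).resolve_left hno
  have hcst : ∀ c : ℂ, v.valuation (algebraMap ℂ Ω c) ≤ 1 := fun c =>
    (v.valuation_le_one_iff _).2 (hv c)
  have hv1 : ∀ r, v.valuation (pt φ ![0, 1] r) ≤ 1 := fun r =>
    (v.valuation_le_one_iff _).2 (hv01 r)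
  obtain ⟨κ, _, _, res, hp, hs⟩ := exists_isPlace v.valuation hcst
  have hκ : IsAlgClosed κ := isAlgClosed_of_isPlace hp hs
  have hdeg := hφ.curve.degree
  rcases good_or_chain hX hp hdeg (fun r => by rw [← pt_apply, hφ.left]; exact hcst _)
    (fun r => by rw [← pt_apply]; exact hv1 _) with ⟨Φ₀, hΦ₀, hred⟩ | ⟨ρ, Ψ₁, Ψ₂, hch⟩
  · exact absurd ((v.valuation_le_one_iff _).1 (hred.bound r _)) hcf
  · obtain ⟨hc₁, hc₂, hn, hw, hqq⟩ := nf_chain hX hdim hφ hwv q hqdvr hp hv1 hqv hch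
    refine ⟨q, hq, ⟨hq, hqdvr⟩, ?_, κ, _, hκ, _, Ψ₁, Ψ₂, hc₁, hc₂, hn, hw, hqq⟩
    obtain ⟨a, ha0, ha⟩ := hmeet
    obtain ⟨u, hu0, hu⟩ := hch.root hp hdeg {r | r ∈ 𝔭 ∧ ∃ k, r ∈ 𝒜 k} (fun r hr => hr.2) ha0
      (fun r hr => by rw [← pt_apply]; exact ha r hr.1)
    have hext : ∀ Ψ : R →ₐ[ℂ] MvPolynomial (Fin 2) κ,
        (∀ r ∈ {r | r ∈ 𝔭 ∧ ∃ k, r ∈ 𝒜 k}, eval u (Ψ r) = 0) → Meets Ψ 𝔭 := by
      intro Ψ hΨ
      exact ⟨u, hu0, nf_ext hhom (pt Ψ u).toLinearMap (fun k r hr hr𝔭 => by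
        change pt Ψ u r = 0
        rw [pt_apply]
        exact hΨ r ⟨hr𝔭, k, hr⟩)⟩
    rcases hu with hu | hu
    · exfalso
      refine hno (exists_closed_meets hc₁ (D := D) (fun h => ?_) (hext Ψ₁ hu))
      have h1 := hw D
      rw [pt_apply, h, map_zero] at h1
      exact hwD ((map_eq_zero_iff _ (algebraMap ℂ κ).injective).1 h1.symm)
    · have hD : Ψ₂ D = 0 := by
        by_contra hcon
        exact hno (exists_closed_meets hc₂ hcon (hext Ψ₂ hu))
      rw [hqq, pt_apply, hD, map_zero]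

/-- **No good reduction ⇒ lines meet all divisors**, if there is no family of chains of two lines
through general points and a fixed divisor. -/
theorem meetsAll_one_of_family (hX : IsContactFano 𝒜 P) [IsDomain R] (hdim : 3 ≤ cdim R)
    (hfam : ∀ (q : Ideal R) [q.IsPrime] (S : Set (R →ₐ[ℂ] ℂ)),
      (∀ g : R, g ≠ 0 → ∃ w ∈ S, w g ≠ 0) →
      (∀ w ∈ S, ∃ (κ : Type u) (_ : Field κ) (_ : IsAlgClosed κ) (_ : Algebra ℂ κ)
        (Ψ₁ Ψ₂ : R →ₐ[ℂ] MvPolynomial (Fin 2) κ), IsCurve 𝒜 1 Ψ₁ ∧ IsCurve 𝒜 1 Ψ₂ ∧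
        pt Ψ₁ ![0, 1] = pt Ψ₂ ![0, 1] ∧ (∀ r, pt Ψ₁ ![1, 0] r = algebraMap ℂ κ (w r)) ∧
        ∀ r, r ∈ q ↔ pt Ψ₂ ![1, 0] r = 0) → False)
    (h : ¬ FreeAt 𝒜) : MeetsAll 𝒜 1 := by
  classical
  intro D hD 𝔭 _ hdvr hhom
  by_contra hno
  have := hX.finiteType
  have : IsNoetherianRing R := Algebra.FiniteType.isNoetherianRing ℂ R
  unfold FreeAt at h
  push Not at h
  obtain ⟨g, hg, hbad⟩ := h
  obtain ⟨k₀, hk₀, g₀, hg₀, hg₀0, hg₀𝔭⟩ := nf_exists_homog hX 𝔭 hdvr hhom
  -- the minimal primes over `D`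
  have hfin : (Ideal.span {D}).minimalPrimes.Finite :=
    Ideal.finite_minimalPrimes_of_isNoetherianRing R _
  let S : Ideal R → Set (R →ₐ[ℂ] ℂ) := fun q => {w |
    ∃ (κ : Type u) (_ : Field κ) (_ : IsAlgClosed κ) (_ : Algebra ℂ κ)
        (Ψ₁ Ψ₂ : R →ₐ[ℂ] MvPolynomial (Fin 2) κ), IsCurve 𝒜 1 Ψ₁ ∧ IsCurve 𝒜 1 Ψ₂ ∧
        pt Ψ₁ ![0, 1] = pt Ψ₂ ![0, 1] ∧ (∀ r, pt Ψ₁ ![1, 0] r = algebraMap ℂ κ (w r)) ∧
        ∀ r, r ∈ q ↔ pt Ψ₂ ![1, 0] r = 0}
  have hS : ∀ q : Ideal R, ∃ f : R, f ≠ 0 ∧ (q.IsPrime → ∀ w ∈ S q, w f = 0) := by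
    intro q
    by_cases hq : q.IsPrime
    · by_contra hcon
      push Not at hcon
      refine hfam q (S q) (fun f hf => ?_) (fun w hw => hw)
      obtain ⟨-, w, hw, hwf⟩ := hcon f hf
      exact ⟨w, hw, hwf⟩
    · exact ⟨1, one_ne_zero, fun h => absurd h hq⟩
  choose f hf0 hf using hS
  have hG : g * D * g₀ * ∏ q ∈ hfin.toFinset, f q ≠ 0 :=
    mul_ne_zero (mul_ne_zero (mul_ne_zero hg hD) hg₀0) (Finset.prod_ne_zero_iff.2 fun q _ => hf0 q)
  obtain ⟨w, hw⟩ := exists_closed_ne hX _ hG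
  rw [map_mul, map_mul, map_mul, map_prod] at hw
  have hw1 := right_ne_zero_of_mul hw
  have hw2 := left_ne_zero_of_mul hw
  have hwg₀ := right_ne_zero_of_mul hw2
  have hwD := right_ne_zero_of_mul (left_ne_zero_of_mul hw2)
  have hwg := left_ne_zero_of_mul (left_ne_zero_of_mul hw2)
  obtain ⟨q, hq, ⟨_, hqdvr⟩, hDq, hdata⟩ := nf_point hX hdim (hbad w hwg) hwD 𝔭 hdvr hhom hk₀ hg₀
    hg₀𝔭 hwg₀ hno
  have hqT : q ∈ (Ideal.span {D}).minimalPrimes := by
    refine ⟨⟨hq, (Ideal.span_singleton_le_iff_mem _).2 hDq⟩, ?_⟩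
    rintro q' ⟨hq', hDq'⟩ hle
    rcases eq_bot_or_eq_of_dvr q hqdvr q' hle with h0 | h0
    · exfalso
      have h1 := (Ideal.span_singleton_le_iff_mem _).1 hDq'
      rw [h0, Ideal.mem_bot] at h1
      exact hD h1
    · exact h0.ge
  exact (Finset.prod_ne_zero_iff.1 hw1) q (hfin.mem_toFinset.2 hqT) (hf q hq w hdata)

end Vale.Agent.P292
end

section

/-! # Every homogeneous divisor is met by conics. -/

namespace Vale.Agent.P292

open MvPolynomial TensorProduct

universe u v w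

variable {R : Type u} [CommRing R] [Algebra ℂ R] {𝒜 : ℕ → Submodule ℂ R} [GradedAlgebra 𝒜]
  {P : R →ₗ[ℂ] R →ₗ[ℂ] R}

/-- **Chains give lines.** If the conic `φ` breaks at a valuation with centre the divisor `V(𝔭)`,
then there is a line which meets `V(𝔭)`. -/
theorem exists_line_of_isChain (hX : IsContactFano 𝒜 P) [IsDomain R] {L : Type v} [Field L]
    [Algebra ℂ L] {κ : Type w} [Field κ] [Algebra ℂ κ] {Γ : Type*}
    [LinearOrderedCommGroupWithZero Γ] {v : Valuation L Γ} {res : L → κ} (hp : IsPlace v res)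
    {φ : R →ₐ[ℂ] MvPolynomial (Fin 2) L} (hφ : ∀ k, ∀ r ∈ 𝒜 k, (φ r).IsHomogeneous (2 * k))
    {ρ : L} {Ψ₁ Ψ₂ : R →ₐ[ℂ] MvPolynomial (Fin 2) κ} (hch : IsChain 𝒜 v res φ ρ Ψ₁ Ψ₂)
    (𝔭 : Ideal R) [𝔭.IsPrime] (hdvr : IsDiscreteValuationRing (Localization.AtPrime 𝔭))
    (hhom : 𝔭.IsHomogeneous 𝒜) (hnv : ∃ k, 0 < k ∧ ∃ r ∈ 𝒜 k, r ∉ 𝔭)
    (hE : ∀ r, r ∈ 𝔭 ↔ res (eval ![0, 1] (φ r)) = 0) {D : R}
    (hD : res (eval ![1, 0] (φ D)) ≠ 0)
    (hW : ∃ k, ∃ g ∈ 𝒜 k, g ∈ 𝔭 ∧ res (eval ![1, 0] (φ g)) ≠ 0) :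
    ∃ ψ : R →ₐ[ℂ] MvPolynomial (Fin 2) κ, IsCurve 𝒜 1 ψ ∧ ψ D ≠ 0 ∧ Meets ψ 𝔭 := by
  classical
  have e1 : ∀ r, eval ![1, 0] (Ψ₁ r) = res (eval ![1, 0] (φ r)) := hch.end₁
  have e2 : ∀ r, eval ![1, 0] (Ψ₂ r) = res (eval ![0, 1] (φ r)) := hch.end₂
  have e3 := hch.node_eq hφ
  have e10 : (![1, 0] : Fin 2 → κ) ≠ 0 := fun h => by simpa using congrFun h 0
  have e01 : (![0, 1] : Fin 2 → κ) ≠ 0 := fun h => by simpa using congrFun h 1
  have n1 : ∃ k, 0 < k ∧ ∃ r ∈ 𝒜 k, eval ![1, 0] (Ψ₁ r) ≠ 0 := by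
    by_contra hcon
    push Not at hcon
    obtain ⟨k, g, hg, hgp, h⟩ := hW
    rcases Nat.eq_zero_or_pos k with rfl | hk
    · obtain ⟨c, rfl⟩ := hX.connected g hg
      by_cases hc : c = 0
      · rw [hc, map_zero, map_zero, map_zero, hp.map_zero] at h
        exact h rfl
      · apply ‹𝔭.IsPrime›.ne_top
        rw [Ideal.eq_top_iff_one]
        have := 𝔭.mul_mem_left (algebraMap ℂ R c⁻¹) hgp
        rwa [← map_mul, inv_mul_cancel₀ hc, map_one] at this
    · exact h (by rw [← e1]; exact hcon k hk g hg)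
  have n2 : ∃ k, 0 < k ∧ ∃ r ∈ 𝒜 k, eval ![1, 0] (Ψ₂ r) ≠ 0 := by
    obtain ⟨k, hk, r, hr, h⟩ := hnv
    exact ⟨k, hk, r, hr, fun h0 => h ((hE r).2 (by rw [← e2, h0]))⟩
  have n3 : ∃ k, 0 < k ∧ ∃ r ∈ 𝒜 k, eval ![0, 1] (Ψ₂ r) ≠ 0 := by
    obtain ⟨k, hk, r, hr, h⟩ := hch.node
    exact ⟨k, hk, r, hr, by rw [← e3]; exact h⟩
  -- the first component
  have hΨ₁D : Ψ₁ D ≠ 0 := by
    intro h
    apply hD
    rw [← e1, h, map_zero]
  have hnode : (∀ k, ∀ r ∈ 𝒜 k, r ∈ 𝔭 → eval ![0, 1] (Ψ₁ r) = 0) →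
      ∃ ψ : R →ₐ[ℂ] MvPolynomial (Fin 2) κ, IsCurve 𝒜 1 ψ ∧ ψ D ≠ 0 ∧ Meets ψ 𝔭 := by
    intro h
    rcases isCurve_one_or hX Ψ₁ hch.homog₁ ![1, 0] ![0, 1] n1 hch.node with hcur | ⟨c, hc0, hc⟩
    · refine ⟨Ψ₁, hcur, hΨ₁D, ![0, 1], e01, fun r hr => ?_⟩
      rw [← DirectSum.sum_support_decompose 𝒜 r, map_sum]
      exact Finset.sum_eq_zero fun k _ => by
        rw [pt_apply]
        exact h k _ (SetLike.coe_mem _) (hhom k hr)
    · exfalso
      obtain ⟨k, g, hg, hgp, hgW⟩ := hW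
      have h1 := hc k g hg
      rw [h k g hg hgp, e1] at h1
      exact mul_ne_zero (pow_ne_zero k hc0) hgW h1.symm
  rcases isCurve_one_or hX Ψ₂ hch.homog₂ ![1, 0] ![0, 1] n2 n3 with hcur | ⟨c, hc0, hc⟩
  · by_cases hD2 : Ψ₂ D = 0
    · -- the kernel is `𝔭`
      have hle : RingHom.ker Ψ₂ ≤ 𝔭 := fun r hr => by
        rw [hE, ← e2, (RingHom.mem_ker).1 hr, map_zero]
      have hD0 : D ≠ 0 := by
        rintro rfl
        exact hΨ₁D (map_zero _)
      have hker : RingHom.ker Ψ₂ = 𝔭 := by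
        have : (RingHom.ker Ψ₂).IsPrime := RingHom.ker_isPrime _
        rcases eq_bot_or_eq_of_dvr 𝔭 hdvr (RingHom.ker Ψ₂) hle with h | h
        · exfalso
          apply hD0
          have h2 : D ∈ RingHom.ker Ψ₂ := hD2
          rw [h] at h2
          exact (Submodule.mem_bot R).1 h2
        · exact h
      refine hnode fun k r hr hrp => ?_
      have h2 : r ∈ RingHom.ker Ψ₂ := by rw [hker]; exact hrp
      rw [e3, (RingHom.mem_ker).1 h2, map_zero]
    · refine ⟨Ψ₂, hcur, hD2, ![1, 0], e10, fun r hr => ?_⟩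
      rw [pt_apply, e2]
      exact (hE r).1 hr
  · refine hnode fun k r hr hrp => ?_
    rw [e3, hc k r hr, e2, (hE r).1 hrp, mul_zero]

omit [GradedAlgebra 𝒜] in
/-- A closed line gives a closed curve of degree two with the same image. -/
theorem exists_double {D : R} {𝔭 : Ideal R} {ψ : R →ₐ[ℂ] MvPolynomial (Fin 2) ℂ}
    (hψ : IsCurve 𝒜 1 ψ) (hD : ψ D ≠ 0) (hm : Meets ψ 𝔭) :
    ∃ ψ' : R →ₐ[ℂ] MvPolynomial (Fin 2) ℂ, IsCurve 𝒜 2 ψ' ∧ ψ' D ≠ 0 ∧ Meets ψ' 𝔭 := by
  let T : MvPolynomial (Fin 2) ℂ →ₐ[ℂ] MvPolynomial (Fin 2) ℂ := aeval fun i => X i ^ 2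
  have hT : ∀ (x : Fin 2 → ℂ) (p : MvPolynomial (Fin 2) ℂ),
      eval x (T p) = eval (fun i => x i ^ 2) p := by
    intro x p
    induction p using MvPolynomial.induction_on with
    | C c => simp [T]
    | add p q hp hq => rw [map_add, map_add, map_add, hp, hq]
    | mul_X p i hp =>
      rw [map_mul, map_mul, map_mul, hp]
      congr 1
      simp [T]
  refine ⟨T.comp ψ, ⟨fun k r hr => ?_, fun x hx => ?_⟩, fun h => ?_, ?_⟩
  · have h1 : ∀ i : Fin 2, (X i ^ 2 : MvPolynomial (Fin 2) ℂ).IsHomogeneous 2 := fun i => by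
      have := (isHomogeneous_X ℂ i).pow 2
      rwa [one_mul] at this
    have := (hψ.degree k r hr).aeval _ h1
    rwa [one_mul] at this
  · have hx2 : (fun i => x i ^ 2) ≠ 0 := by
      intro h
      apply hx
      funext i
      exact pow_eq_zero_iff (two_ne_zero) |>.1 (congrFun h i)
    obtain ⟨k, hk, r, hr, h⟩ := hψ.bpf _ hx2
    refine ⟨k, hk, r, hr, ?_⟩
    rw [aeval_eq_eval] at h ⊢
    change eval x (T (ψ r)) ≠ 0
    rw [hT]
    exact h
  · apply hD
    apply MvPolynomial.funext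
    intro y
    choose z hz using fun i => IsAlgClosed.exists_pow_nat_eq (y i) (n := 2) (by norm_num)
    have h1 : eval z (T (ψ D)) = 0 := by
      have : T (ψ D) = 0 := h
      rw [this, map_zero]
    rw [hT] at h1
    rw [map_zero, ← h1]
    congr 1
    congr 1
    funext i
    exact (hz i).symm
  · obtain ⟨a, ha, h⟩ := hm
    choose z hz using fun i => IsAlgClosed.exists_pow_nat_eq (a i) (n := 2) (by norm_num)
    refine ⟨z, fun h0 => ha ?_, fun r hr => ?_⟩
    · funext i
      rw [← hz i, h0]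
      simp
    · rw [pt_apply]
      change eval z (T (ψ r)) = 0
      rw [hT, show (fun i => z i ^ 2) = a from funext hz, ← pt_apply]
      exact h r hr

omit [GradedAlgebra 𝒜] in
theorem eval_one_zero_eq_nw {κ : Type v} [Field κ] [Algebra ℂ κ] {p : MvPolynomial (Fin 2) κ}
    {N : ℕ} (hp : p.IsHomogeneous N) : eval ![1, 0] p = (nwDehom κ 1 p).coeff N := by
  rw [nw_eval_one_zero, nwDehom_coeff_symm hp (i := 0) (j := N) (by omega)]

/-- Nonzero homogeneous elements of a homogeneous prime of height one. -/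
theorem exists_homogeneous_mem_of_dvr [IsDomain R] (𝔭 : Ideal R) [𝔭.IsPrime]
    (hdvr : IsDiscreteValuationRing (Localization.AtPrime 𝔭)) (hhom : 𝔭.IsHomogeneous 𝒜) :
    ∃ k, ∃ r ∈ 𝒜 k, r ≠ 0 ∧ r ∈ 𝔭 := by
  classical
  have h1 : 𝔭 ≠ ⊥ := by
    intro h0
    apply IsDiscreteValuationRing.not_a_field (Localization.AtPrime 𝔭)
    rw [← IsLocalization.AtPrime.map_eq_maximalIdeal 𝔭 (Localization.AtPrime 𝔭)]
    refine (Ideal.map_eq_bot_iff_le_ker _).2 fun x hx => ?_
    rw [h0] at hx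
    rw [(Submodule.mem_bot R).1 hx]
    exact Ideal.zero_mem _
  obtain ⟨r, hr, hr0⟩ := Submodule.exists_mem_ne_zero_of_ne_bot h1
  have h2 : ∃ k, (DirectSum.decompose 𝒜 r k : R) ≠ 0 := by
    by_contra hcon
    push Not at hcon
    apply hr0
    rw [← DirectSum.sum_support_decompose 𝒜 r]
    exact Finset.sum_eq_zero fun k _ => hcon k
  obtain ⟨k, hk⟩ := h2
  exact ⟨k, _, SetLike.coe_mem _, hk, hhom k hr⟩

/-- A prime of height one is not the vertex. -/
theorem exists_notMem_of_dvr (hX : IsContactFano 𝒜 P) [IsDomain R] (hdim : 3 ≤ cdim R)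
    (𝔭 : Ideal R) [𝔭.IsPrime] (hdvr : IsDiscreteValuationRing (Localization.AtPrime 𝔭)) :
    ∃ k, 0 < k ∧ ∃ r ∈ 𝒜 k, r ∉ 𝔭 := by
  by_contra hcon
  push Not at hcon
  obtain ⟨w₀, hw₀⟩ := hX.nonempty
  refine not_le_of_dvr hX hdim w₀ hw₀ 𝔭 hdvr fun k r hr h => ?_
  rcases Nat.eq_zero_or_pos k with rfl | hk
  · obtain ⟨c, rfl⟩ := hX.connected r hr
    rw [AlgHom.commutes] at h
    have hc0 : c = 0 := h
    rw [hc0, map_zero]
    exact 𝔭.zero_mem
  · exact hcon k hk r hr

omit [GradedAlgebra 𝒜] in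
/-- **Good reduction gives roots.** If the conic `φ` does not break at a valuation with centre the
divisor `V(𝔭)`, then it meets `V(𝔭)`. -/
theorem meets_of_bounded [IsDomain R] {Ω : Type v} [Field Ω] [IsAlgClosed Ω]
    [Algebra ℂ Ω] {φ : R →ₐ[ℂ] MvPolynomial (Fin 2) Ω}
    (hφ : ∀ k, ∀ r ∈ 𝒜 k, (φ r).IsHomogeneous (2 * k)) (O : ValuationSubring Ω)
    (hb : ∀ r m, O.valuation (coeff m (φ r)) ≤ 1) (𝔭 : Ideal R) [𝔭.IsPrime]
    (hdvr : IsDiscreteValuationRing (Localization.AtPrime 𝔭))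
    (hE : ∀ r, r ∈ 𝔭 ↔ O.valuation (eval ![0, 1] (φ r)) < 1)
    (hW : ∃ k, ∃ g ∈ 𝒜 k, g ≠ 0 ∧ g ∈ 𝔭 ∧ O.valuation (eval ![1, 0] (φ g)) = 1) :
    Meets φ 𝔭 := by
  obtain ⟨k, g, hg, hg0, hgp, hgW⟩ := hW
  have hcoeff : ∀ r i, ((nwDehom Ω 1 (φ r)).coeff i) =
      ∑ m ∈ (φ r).support.filter (fun m => m 0 = i), coeff m (φ r) := by
    classical
    intro r i
    rw [nwDehom_apply 1 0 (by decide), Polynomial.finsetSum_coeff, Finset.sum_filter]
    refine Finset.sum_congr rfl fun m _ => ?_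
    rw [Polynomial.coeff_C_mul_X_pow]
    by_cases h : m 0 = i
    · rw [if_pos h.symm, if_pos h]
    · rw [if_neg (fun h' => h h'.symm), if_neg h]
  obtain ⟨a, -, ha⟩ := exists_root_prime O ((nwDehom Ω 1).comp φ).toRingHom
    (fun r i => by
      change O.valuation ((nwDehom Ω 1 (φ r)).coeff i) ≤ 1
      rw [hcoeff]
      exact O.valuation.map_sum_le fun m _ => hb r m) 𝔭
    (fun r => by
      change r ∈ 𝔭 ↔ O.valuation ((nwDehom Ω 1 (φ r)).coeff 0) < 1
      rw [← nw_eval_zero_one]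
      exact hE r)
    (fun q hq hqp hq0 => (eq_bot_or_eq_of_dvr 𝔭 hdvr q hqp).resolve_left hq0) hgp hg0
    ⟨2 * k, by
      change O.valuation ((nwDehom Ω 1 (φ g)).coeff (2 * k)) = 1
      rw [← eval_one_zero_eq_nw (hφ k g hg)]
      exact hgW⟩
  refine ⟨![a, 1], fun h => by simpa using congrFun h 1, fun r hr => ?_⟩
  rw [pt_apply, ← eval_nwDehom_one]
  exact (ha r).2 hr

/-- **Conics meet all divisors.** -/
theorem meetsAll_two (hX : IsContactFano 𝒜 P) [IsDomain R] (hdim : 3 ≤ cdim R)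
    (hc : IsConicConnected 𝒜) : MeetsAll 𝒜 2 := by
  classical
  intro D hD 𝔭 h𝔭 hdvr hhom
  have := hX.finiteType
  obtain ⟨F, hF0, hF⟩ := hc
  obtain ⟨g₁, hg₁, hg₁F⟩ := exists_evLeft_ne_zero F hF0
  obtain ⟨k₀, g₀, hg₀, hg₀0, hg₀p⟩ := exists_homogeneous_mem_of_dvr 𝔭 hdvr hhom
  obtain ⟨w, hw⟩ := exists_closed_ne hX (g₁ * D * g₀) (mul_ne_zero (mul_ne_zero hg₁ hD) hg₀0)
  rw [map_mul, map_mul] at hw
  have hwg₀ : w g₀ ≠ 0 := right_ne_zero_of_mul hw
  have hwD : w D ≠ 0 := right_ne_zero_of_mul (left_ne_zero_of_mul hw)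
  have hwg₁ : w g₁ ≠ 0 := left_ne_zero_of_mul (left_ne_zero_of_mul hw)
  obtain ⟨Ω, _, _, _, φ, hφ⟩ := exists_genConicAt hX w (evLeft F w) (hg₁F w hwg₁)
    (fun q hq => hF w q (by rw [← apply_evLeft]; exact hq))
  obtain ⟨O, hO⟩ := exists_valuationSubring_prime (pt φ ![0, 1]).toRingHom hφ.inj 𝔭
  have hO1 : ∀ r, O.valuation (pt φ ![0, 1] r) ≤ 1 := fun r =>
    (O.valuation_le_one_iff _).2 (hO r).1
  have hc1 : ∀ c : ℂ, O.valuation (algebraMap ℂ Ω c) ≤ 1 := fun c => by
    have := hO1 (algebraMap ℂ R c)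
    rwa [AlgHom.commutes] at this
  have hc2 : ∀ c : ℂ, c ≠ 0 → O.valuation (algebraMap ℂ Ω c) = 1 := fun c hc => by
    refine le_antisymm (hc1 c) ?_
    have h1 := hc1 c⁻¹
    rw [map_inv₀, map_inv₀] at h1
    have h2 : O.valuation (algebraMap ℂ Ω c) ≠ 0 := by
      rw [Valuation.ne_zero_iff]
      exact fun h => hc ((algebraMap ℂ Ω).injective (by rw [h, map_zero]))
    exact (inv_le_one₀ (zero_lt_iff.2 h2)).1 h1
  have hW : ∀ r, eval ![1, 0] (φ r) = algebraMap ℂ Ω (w r) := fun r => by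
    rw [← pt_apply]; exact hφ.left r
  obtain ⟨κ, _, _, res, hp, hs⟩ := exists_isPlace O.valuation hc1
  have hκ : IsAlgClosed κ := isAlgClosed_of_isPlace hp hs
  have hφD : φ D ≠ 0 := by
    intro h
    have := hW D
    rw [h, map_zero] at this
    exact hwD ((algebraMap ℂ Ω).injective (by rw [← this, map_zero]))
  rcases good_or_chain hX hp hφ.curve.degree (fun r => by rw [hW]; exact hc1 _)
    (fun r => by rw [← pt_apply]; exact hO1 r) with ⟨Φ₀, -, hred⟩ | ⟨ρ, Ψ₁, Ψ₂, hch⟩
  · refine exists_closed_meets hφ.curve hφD (meets_of_bounded hφ.curve.degree O hred.bound 𝔭 hdvr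
      (fun r => by rw [← pt_apply]; exact (hO r).2) ⟨k₀, g₀, hg₀, hg₀0, hg₀p, ?_⟩)
    rw [hW]
    exact hc2 _ hwg₀
  · have hres : ∀ c : ℂ, c ≠ 0 → res (algebraMap ℂ Ω c) ≠ 0 := fun c hc => by
      rw [hp.map_algebraMap]
      exact fun h => hc ((algebraMap ℂ κ).injective (by rw [h, map_zero]))
    obtain ⟨ψ, h1, h2, h3⟩ := exists_line_of_isChain hX hp hφ.curve.degree hch 𝔭 hdvr hhom
      (exists_notMem_of_dvr hX hdim 𝔭 hdvr) (fun r => by
        rw [hp.eq_zero_iff _ (by rw [← pt_apply]; exact hO1 r), ← pt_apply]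
        exact (hO r).2) (D := D) (by rw [hW]; exact hres _ hwD)
      ⟨k₀, g₀, hg₀, hg₀p, by rw [hW]; exact hres _ hwg₀⟩
    obtain ⟨ψ₀, h4, h5, h6⟩ := exists_closed_meets h1 h2 h3
    exact exists_double h4 h5 h6

end Vale.Agent.P292
end

section

/-! # Assembly without any condition on the Picard group. -/

namespace Vale.Agent.P292

open MvPolynomial TensorProduct

universe u

variable {R : Type u} [CommRing R] [Algebra ℂ R] {𝒜 : ℕ → Submodule ℂ R} [GradedAlgebra 𝒜]
  {P : R →ₗ[ℂ] R →ₗ[ℂ] R}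

/-- **Assembly, general Picard group.** A conic-connected contact Fano manifold of dimension at
least two is an adjoint variety. -/
theorem asm_conicConnected (hX : IsContactFano 𝒜 P) [IsDomain R] (hdim : 3 ≤ cdim R)
    (hc : IsConicConnected 𝒜) : IsAdjointVariety 𝒜 P := by
  by_cases hF : FreeAt 𝒜
  · obtain ⟨g, hg, hgen⟩ := asm_exists_genConicAt hX hc
    obtain ⟨w, hw, hgood⟩ := hF g hg
    obtain ⟨Ω, _, _, _, φ, hφ⟩ := hgen w hw
    obtain ⟨b, hb⟩ := exists_b hX hφ.curve
    obtain ⟨q, hq, hqr⟩ := exists_isGood_two_of_goodAt hX hφ hb hgood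
    exact asm_two hX hφ hb hq hqr (meetsAll_two hX hdim hc)
  · exact asm_one hX hc (meetsAll_one_of_family hX hdim
      (fun q _ S hS h => no_chain_family hX q S hS h) hF)

end Vale.Agent.P292
end

section

/-! # Contact Fano manifolds of Picard number one are adjoint varieties. -/

namespace Vale.Agent.P292

universe u

variable {R : Type u} [CommRing R] [Algebra ℂ R] {𝒜 : ℕ → Submodule ℂ R} [GradedAlgebra 𝒜]
  {P : R →ₗ[ℂ] R →ₗ[ℂ] R}

/-- Contact Fano manifolds of Picard number one are conic connected. -/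
theorem isConicConnected_of_picardOne (hX : IsContactFano 𝒜 P)
    (hdim : 3 ≤ Algebra.trdeg ℂ R) (hpic : IsPicardOne 𝒜) : IsConicConnected 𝒜 := by
  have := hX.domain
  obtain ⟨Ω, _, _, _, d, φ, hd, hφ⟩ := Mo.exists_isAnch_of_mori hX
    (le_trans (by norm_num) hdim) (fun k _ _ p _ hp2 hp0 S _ _ ℬ _ Q hPM e n y hN f hf => by
      have : Fact p.Prime := ⟨(CharP.char_is_prime_or_zero k p).resolve_right hp0⟩
      exact Mo.charp_main p hp2 hPM hN f hf)
  exact isConicConnected_of_anch_pic hX hpic (by omega) (by omega) hφ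

/-- Contact Fano manifolds of Picard number one are adjoint varieties. -/
theorem isAdjointVariety_of_picardOne (hX : IsContactFano 𝒜 P)
    (hdim : 3 ≤ Algebra.trdeg ℂ R) (hpic : IsPicardOne 𝒜) : IsAdjointVariety 𝒜 P := by
  have := hX.domain
  have := hX.finiteType
  exact asm_conicConnected hX (le_cdim_of_le_trdeg (n := 3) (by exact_mod_cast hdim))
    (isConicConnected_of_picardOne hX hdim hpic)

end Vale.Agent.P292
end
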